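import Vale.Agent.P218G.Lit
import Vale.Agent.P218F.DynStatic

/-! Weak flows: definitions and statements of the blocks (local regularity, case A). -/

open MeasureTheory Set Filter Topology Metric
open scoped ENNReal NNReal RealInnerProductSpace ContDiff

namespace Vale.Agent.P218G.Rg

open Vale.Agent.P218 Vale.Agent.P218.H313 Vale.Agent.P218G.Lit
open Vale.Agent.P218FT (E3 IsSurf IsEqn nu Hv TwoPt IsShr InC ssFlow LGB)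
open Vale.Agent.P218F.Dyn (hm Cv SheetEv PoinEv)

/-- the kernel `σ⁻¹ exp (-|z|² / (4σ))` -/
noncomputable def gk0 (σ : ℝ) (z : E3) : ℝ := σ⁻¹ * Real.exp (-‖z‖ ^ 2 / (4 * σ))

/-- the Gaussian integral of `m` with centre `y` and scale `σ` -/
noncomputable def GA (m : Measure E3) (y : E3) (σ : ℝ) : ℝ := ∫ x, gk0 σ (x - y) ∂m

/-- the Gaussian integral of the square of the affine function `c + ⟪v, · - y⟫` -/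
noncomputable def GQ (m : Measure E3) (y : E3) (σ c : ℝ) (v : E3) : ℝ :=
  ∫ x, (c + ⟪v, x - y⟫) ^ 2 * gk0 σ (x - y) ∂m

/-- entropy at most `D` -/
structure Ent (m : Measure E3) (D : ℝ) : Prop where
  lf : IsLocallyFiniteMeasure m
  int : ∀ (y : E3) (σ : ℝ), 0 < σ → Integrable (fun x => gk0 σ (x - y)) m
  le : ∀ (y : E3) (σ : ℝ), 0 < σ → GA m y σ ≤ D

/-- the points of density at least one -/
def Spt (μ : ℝ → Measure E3) (t : ℝ) : Set E3 :=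
  {x | ∀ᶠ s in 𝓝[<] t, om0 ≤ GA (μ s) x (t - s)}

/-- the regular points -/
def RegS (μ : ℝ → Measure E3) : Set (ℝ × E3) := {p | 0 < p.1 ∧ IsRegularPt μ p.2 p.1}

/-- **Gaussian systems**: what the flatness theory uses of a weak flow on `[a, ∞)`. The class is
invariant under parabolic rescaling and closed under weak limits. -/
structure GS (μ : ℝ → Measure E3) (a D : ℝ) : Prop where
  ent : ∀ s, a ≤ s → Ent (μ s) D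
  mono : ∀ (y : E3) (t c : ℝ) (v : E3) (s s' : ℝ), a ≤ s → s ≤ s' → s' < t →
    GQ (μ s') y (t - s') c v ≤ GQ (μ s) y (t - s) c v
  supp : ∀ s, a < s → ∀ᵐ x ∂(μ s), x ∈ Spt μ s

/-- the density ratios on the slice `t₀ - ρ²` are at most `1 + ε` near `x₀` -/
def Low (μ : ℝ → Measure E3) (x₀ : E3) (t₀ ρ ε : ℝ) : Prop :=
  ∀ (y : E3) (σ : ℝ), ‖y - x₀‖ ≤ 3 * ρ → ρ ^ 2 / 2 ≤ σ → σ ≤ ρ ^ 2 →
    GA (μ (t₀ - ρ ^ 2)) y σ ≤ (1 + ε) * om0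

/-- the height at scale `ρ` -/
noncomputable def HH (μ : ℝ → Measure E3) (x₀ : E3) (t₀ ρ c : ℝ) (v : E3) : ℝ :=
  GQ (μ (t₀ - ρ ^ 2)) x₀ (2 * ρ ^ 2) c v

/-- the parabolic Lipschitz condition in the direction `e`, in the cylinder of radius `r` -/
def PLip (M : ℝ → Set E3) (e : E3) (τ : ℝ) (x₀ : E3) (t₀ r : ℝ) : Prop :=
  ∀ s t : ℝ, t₀ - r ^ 2 ≤ s → s ≤ t → t ≤ t₀ → ∀ x ∈ M t, ∀ y ∈ M s, ‖x - x₀‖ ≤ r →
    ‖y - x₀‖ ≤ r → ∀ d : ℝ, 0 ≤ d → ‖y - x‖ ≤ d → t - s ≤ d ^ 2 → |⟪e, y - x⟫| ≤ τ * d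

/-- **GS**: an integral Brakke flow of finite mass is a Gaussian system -/
def GSStmt : Prop :=
  ∀ μ : ℝ → Measure E3, IsIntegralBrakkeFlow 2 μ → μ 0 univ < ⊤ → ∀ a : ℝ, 0 < a →
    GS μ a ((μ 0).real univ / a)

/-- **BDD**: the support stays in a ball -/
def BddStmt : Prop :=
  ∀ μ : ℝ → Measure E3, IsIntegralBrakkeFlow 2 μ → μ 0 univ < ⊤ → ∀ R : ℝ,
    μ 0 (closedBall 0 R)ᶜ = 0 → ∀ t : ℝ, 0 < t → Spt μ t ⊆ closedBall 0 R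

/-- **FLAT0**: density ratios close to one force flatness -/
def Flat0Stmt : Prop :=
  ∀ D δ : ℝ, 0 < δ → ∃ ε : ℝ, 0 < ε ∧ ∀ (μ : ℝ → Measure E3) (a : ℝ) (x₀ : E3) (t₀ ρ : ℝ),
    0 < ρ → GS μ a D → a ≤ t₀ - ρ ^ 2 → Low μ x₀ t₀ ρ ε → x₀ ∈ Spt μ t₀ →
    ∃ (c : ℝ) (v : E3), ‖v‖ = 1 ∧ HH μ x₀ t₀ ρ c v ≤ δ ^ 2 * ρ ^ 2

/-- **ITER**: decay of the height, and the Lipschitz bound -/
def IterStmt : Prop :=
  ∀ D : ℝ, ∃ ε θ K : ℝ, 0 < ε ∧ 0 < θ ∧ θ ≤ 1 / 2 ∧ 0 < K ∧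
    ∀ (μ : ℝ → Measure E3) (a : ℝ) (x₀ : E3) (t₀ ρ : ℝ), 0 < ρ → GS μ a D → a ≤ t₀ - ρ ^ 2 →
      Low μ x₀ t₀ ρ ε → ∀ (c : ℝ) (v : E3) (δ : ℝ), 0 ≤ δ → HH μ x₀ t₀ ρ c v ≤ δ ^ 2 * ρ ^ 2 →
      (∀ k : ℕ, ∃ (c' : ℝ) (v' : E3), ‖v' - v‖ ≤ K * δ ∧
        HH μ x₀ t₀ (θ ^ k * ρ) c' v' ≤ (δ / 2 ^ k) ^ 2 * (θ ^ k * ρ) ^ 2) ∧
      PLip (Spt μ) v (K * δ) x₀ t₀ (ρ / 10)

/-- **DENS1**: the gap theorem -/
def Dens1Stmt : Prop :=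
  ∀ D : ℝ, ∃ ε : ℝ, 0 < ε ∧ ∀ μ : ℝ → Measure E3, IsIntegralBrakkeFlow 2 μ →
    ∀ (a : ℝ) (x₀ : E3) (t₀ ρ : ℝ), 0 < ρ → 0 ≤ a → GS μ a D → a ≤ t₀ - ρ ^ 2 →
      Low μ x₀ t₀ ρ ε → x₀ ∈ Spt μ t₀ → HasDensity μ x₀ t₀ 1

/-- **GLUE**: on the regular set the flow is the smooth flow `Spt μ` -/
def GlueStmt : Prop :=
  ∀ μ : ℝ → Measure E3, (∀ a : ℝ, 0 < a → ∃ D, GS μ a D) →
    IsMCFOn (Spt μ) (RegS μ) ∧
    (∀ s, (μ s).restrict (tsl (RegS μ) s) =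
      (μH[2] : Measure E3).restrict (Spt μ s ∩ tsl (RegS μ) s)) ∧
    ∀ (t : ℝ) (x : E3), 0 < t → x ∉ Spt μ t → (t, x) ∈ RegS μ

/-- **LOCW**: curvature estimate for local smooth flows which are parabolic Lipschitz graphs -/
def LocWhiteStmt : Prop :=
  ∃ τ r C : ℝ, 0 < τ ∧ 0 < r ∧ r ≤ 1 ∧ 0 < C ∧ ∀ (M : ℝ → Set E3) (U : Set (ℝ × E3)),
    IsMCFOn M U → ∀ (x₀ : E3) (t₀ ρ : ℝ) (e : E3), 0 < ρ → ‖e‖ = 1 →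
      Icc (t₀ - ρ ^ 2) t₀ ×ˢ closedBall x₀ ρ ⊆ U → PLip M e τ x₀ t₀ ρ →
      ∀ t ∈ Icc (t₀ - (r * ρ) ^ 2) t₀, ∀ x ∈ M t, ‖x - x₀‖ ≤ r * ρ →
        TwoPt (M t) x (r * ρ) (C / ρ)

/-- **White's local regularity theorem for unit-regular integral Brakke flows** -/
def WeakWhiteStmt : Prop :=
  ∀ D : ℝ, ∃ ε r C : ℝ, 0 < ε ∧ 0 < r ∧ r ≤ 1 ∧ 0 < C ∧ ∀ μ : ℝ → Measure E3,
    IsIntegralBrakkeFlow 2 μ → μ 0 univ < ⊤ → IsUnitRegular μ →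
    ∀ (a : ℝ) (x₀ : E3) (t₀ ρ : ℝ), 0 < ρ → 0 ≤ a → GS μ a D → a ≤ t₀ - ρ ^ 2 →
      Low μ x₀ t₀ ρ ε → ∀ t ∈ Icc (t₀ - (r * ρ) ^ 2) t₀, ∀ x : E3, ‖x - x₀‖ ≤ r * ρ →
        (t, x) ∈ RegS μ ∧ (x ∈ Spt μ t → TwoPt (Spt μ t) x (r * ρ) (C / ρ))

/-- **UNIF**: weak convergence gives locally uniform convergence of the Gaussian integrals -/
def UnifStmt : Prop :=
  ∀ (ι : Type) (l : Filter ι) (m : ι → Measure E3) (κ : Measure E3) (D : ℝ),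
    (∀ᶠ i in l, Ent (m i) D) → Ent κ D →
    (∀ φ : E3 → ℝ, ContDiff ℝ 1 φ → HasCompactSupport φ →
      Tendsto (fun i => ∫ x, φ x ∂(m i)) l (𝓝 (∫ x, φ x ∂κ))) →
    ∀ R σ₁ σ₂ η : ℝ, 0 < σ₁ → 0 < η → ∀ᶠ i in l, ∀ (y : E3) (σ : ℝ), ‖y‖ ≤ R → σ₁ ≤ σ → σ ≤ σ₂ →
      |GA (m i) y σ - GA κ y σ| ≤ η

/-- **SLOW**: the density ratios of a smooth surface at small scales -/
def SLowStmt : Prop :=
  ∀ (S : Set E3) (D : ℝ), IsSurf S → Ent (hm S) D → ∀ R η : ℝ, 0 < η → ∃ σ₀ : ℝ, 0 < σ₀ ∧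
    ∀ (y : E3) (σ : ℝ), ‖y‖ ≤ R → 0 < σ → σ ≤ σ₀ → GA (hm S) y σ ≤ (1 + η) * om0

/-- the static Lojasiewicz inequality holds near `S` -/
def StaticFor (S : Set E3) : Prop :=
  ∀ (l : Filter ℝ) (N : ℝ → Measure E3) (T : ℝ → E3 → Submodule ℝ E3) (H : ℝ → E3 → E3),
    Cv l N T H (hm S) → SheetEv l N T → PoinEv l N T S →
    ∃ γ : ℝ, 1 / 2 < γ ∧ ∀ U : Ultrafilter ℝ, (U : Filter ℝ) ≤ l →
      Tendsto (fun s => dis (N s) (T s) (H s)) U (𝓝 0) →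
      ∃ C : ℝ, ∀ᶠ s in (U : Filter ℝ), FA (N s) - FA (hm S) ≤ C * dis (N s) (T s) (H s) ^ γ

/-- **AGEN**: uniqueness when some tangent flow is a smooth surface with the static inequality -/
def AGenStmt : Prop :=
  ∀ μ : ℝ → Measure E3, IsIntegralBrakkeFlow 2 μ → μ 0 univ < ⊤ → IsUnitRegular μ →
    ∀ (x₀ : E3) (t₀ : ℝ), 0 < t₀ → ∀ S : Set E3, IsSurf S → (S.Nonempty → StaticFor S) →
      hm S ∈ tangentSlices 2 μ x₀ t₀ → TangentFlowUnique 2 μ x₀ t₀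

/-- **CLASS**: a shrinker with bounded entropy and the local Gauss-Bonnet estimate generates a
flow of class `C(D, G)` -/
def ClassStmt : Prop :=
  ∀ (S : Set E3) (D G : ℝ), IsShr S → Ent (hm S) D → LGB G S →
    ∃ D' : ℝ, InC D' G (ssFlow S) (Iio 0)

end Vale.Agent.P218G.Rg
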