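import Vale.Agent.P218G.DynA
import Vale.Agent.P218G.RegSpec
import Vale.Agent.P218F.DynFin
import Vale.Agent.P218F.MeshB
import Vale.Agent.P218F.DynAF

/-! Convergence of the rescalings of a Brakke flow whose slices are smooth in large balls. -/

open MeasureTheory Set Filter Topology Metric
open scoped ENNReal NNReal RealInnerProductSpace ContDiff CompactlySupported

namespace Vale.Agent.P218G.Dyn

open Vale.Agent.P214 (proj divAlong)
open Vale.Agent.P218FT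
open Vale.Agent.P218 (WeakTendsto rescaled tangentSlices IsTangentFlow TangentFlowUnique
  IsIntegralBrakkeFlow)
open Vale.Agent.P218.H552 (MC BF NN JJ GG)
open Vale.Agent.P218.H313 (Slice GSlice RF LL rho dis FA TG wt grad nearF nearF_atTop nearF_sl)
open Vale.Agent.P218.H313.A1 (ti xx)
open Vale.Agent.P218F
open Vale.Agent.P218F.Dyn (hm tg Cv Sheet SheetEv PoinEv StaticStmt)
open Vale.Agent.P218F.DynBridge
open Vale.Agent.P218F.Mesh (HClose bump gw)

/-- in the ball of radius `R` the measure is the area of a smooth surface with two-point bounds -/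
def SmIn (μ : Measure E3) (R r C : ℝ) : Prop :=
  ∃ N, IsSurf N ∧ μ.restrict (ball 0 R) = (hm N).restrict (ball 0 R) ∧
    ∀ y ∈ N, ‖y‖ ≤ R → TwoPt N y r C

lemma smIn_zero (R r C : ℝ) : SmIn 0 R r C :=
  ⟨∅, ⟨isClosed_empty, by simp⟩, by simp [hm], by simp⟩

lemma ae_tg {μ : Measure E3} {T : E3 → Submodule ℝ E3} {H : E3 → E3} (h : MC 2 μ T H)
    {N U : Set E3} (hN : IsSurf N) (hU : IsOpen U) (he : μ.restrict U = (hm N).restrict U) :
    ∀ᵐ y ∂μ, y ∈ U → y ∈ N ∧ T y = tg N y := by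
  have h1 : ∀ᵐ y ∂μ, y ∈ U → y ∈ N := by
    rw [← ae_restrict_iff' hU.measurableSet, he]
    exact ae_restrict_of_ae (ae_mem hN.1)
  filter_upwards [h1, mc_eq_tg h hU (fun x _ hx => hN.2 x hx) h1] with y a b hy using ⟨a hy, b hy⟩

lemma SmIn.sheet {μ : Measure E3} {T : E3 → Submodule ℝ E3} {H : E3 → E3} (h : MC 2 μ T H)
    {R r C : ℝ} (hs : SmIn μ (R + 1) r C) : Sheet μ T R r C := by
  obtain ⟨N, hN, he, htp⟩ := hs
  obtain ⟨Z, hZ, hZm, hZ0⟩ := exists_measurable_superset_of_null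
    (ae_iff.1 (ae_tg h hN isOpen_ball he))
  have hT : ∀ y ∈ (N ∩ ball 0 (R + 1)) \ Z, T y = tg N y := fun y hy => by
    by_contra h0
    exact hy.2 (hZ fun h1 => h0 (h1 hy.1.2).2)
  refine ⟨(N ∩ ball 0 (R + 1)) \ Z, (hN.1.measurableSet.inter measurableSet_ball).diff hZm, ?_,
    fun Φ hΦ A hA hAm hi j hj hj' g hg => ?_, fun y hy hR x hx hxy => ?_⟩
  · filter_upwards [ae_tg h hN isOpen_ball he, measure_eq_zero_iff_ae_notMem.1 hZ0] with y a b c
    have d : y ∈ ball (0 : E3) (R + 1) := mem_ball_zero_iff.2 (by linarith)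
    exact ⟨⟨(a d).1, d⟩, b⟩
  · rw [restrict_eq_of_subset he fun y hy => (hA hy).1.2]
    exact Dyn.Af.af_proof N hN Φ hΦ A (fun y hy => (hA hy).1.1) hAm hi j hj
      (fun y hy => hT y (hA hy) ▸ hj' y hy) g hg
  · rw [hT y hy, proj_tg hN hy.1.1, pt_apply, sub_sub_cancel, norm_smul, hN.norm_nu hy.1.1, mul_one,
      Real.norm_eq_abs, real_inner_comm]
    exact htp y hy.1.1 (by linarith) x hx.1.1 hxy

/-- weak convergence in a ball and two-point bounds give closeness -/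
theorem close_loc {ι : Type} {l : Filter ι} {N : ι → Set E3} {S : Set E3} {R C r₀ : ℝ}
    (hr₀ : 0 < r₀) (hS : IsSurf S)
    (hN : ∀ᶠ i in l, IsSurf (N i) ∧ ∀ y ∈ N i, ‖y‖ ≤ R + 1 → TwoPt (N i) y r₀ C)
    (hw : ∀ φ : E3 → ℝ, Continuous φ → HasCompactSupport φ → (∀ y, y ∉ ball 0 (R + 2) → φ y = 0) →
      Tendsto (fun i => ∫ y, φ y ∂(area (N i))) l (𝓝 (∫ y, φ y ∂(area S))))
    {ε : ℝ} (hε : 0 < ε) (hε1 : ε ≤ 1) : ∀ᶠ i in l, HClose (N i) S R ε := by
  refine Eventually.and ?_ ?_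
  · have hC : 0 < |C| + 1 := by positivity
    obtain ⟨δ, hδ, d1, d3, d4⟩ : ∃ δ : ℝ, 0 < δ ∧ δ ≤ ε / 4 ∧ δ ≤ r₀ / 4 ∧
        δ ≤ 1 / 20 / (|C| + 1) :=
      ⟨min (ε / 4) (min (r₀ / 4) (1 / 20 / (|C| + 1))), by positivity, min_le_left _ _,
        (min_le_right _ _).trans (min_le_left _ _), (min_le_right _ _).trans (min_le_right _ _)⟩
    rw [le_div_iff₀ hC] at d4
    set K : Set E3 := closedBall 0 (R + 1) ∩ ⋂ x ∈ S, (ball x (ε / 2))ᶜ with hK
    have Kc : IsCompact K := (isCompact_closedBall _ _).inter_right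
      (isClosed_biInter fun x _ => isOpen_ball.isClosed_compl)
    obtain ⟨φ, φ1, φ0, φc, φb⟩ := exists_continuous_one_zero_of_isCompact Kc
      (hS.1.union (isOpen_ball (x := (0 : E3)) (ε := R + 2)).isClosed_compl)
      (disjoint_left.2 fun y hy hyS => hyS.elim
        (fun h => mem_iInter₂.1 hy.2 y h (mem_ball_self (half_pos hε)))
        fun h => h (closedBall_subset_ball (by linarith) hy.1))
    have h0 : ∫ y, φ y ∂(area S) = 0 := integral_eq_zero_of_ae (by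
      filter_upwards [ae_restrict_mem hS.1.measurableSet] with y hy using φ0 (Or.inl hy))
    have h1 := hw φ φ.continuous φc fun y hy => φ0 (Or.inr hy)
    rw [h0] at h1
    filter_upwards [hN, h1.eventually (gt_mem_nhds (show (0 : ℝ) < Real.pi * δ ^ 2 by
      positivity))] with i hi h2 y hy hyR
    by_contra hcon
    push Not at hcon
    obtain ⟨J, pr, h, D⟩ := Mesh.exists_disc (δ := δ) (C := C) (r₀ := r₀) hi.1 hy hδ
      (by nlinarith [le_abs_self C]) (by linarith) fun z hz h3 => hi.2 z hz (by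
        linarith [norm_sub_norm_le z y])
    have := Chart.locFin_proof _ hi.1
    have i1 := Mesh.integrable_area hi.1 φ.continuous φc
    have h3 := setIntegral_ge_of_const_le_real (μ := area (N i)) (c := 1) (f := φ)
      (s := closedBall y (2 * δ)) measurableSet_closedBall measure_closedBall_lt_top.ne
      (fun z hz => by
        have h4 := mem_closedBall_iff_norm.1 hz
        refine (φ1 ⟨mem_closedBall_zero_iff.2 (by linarith [norm_sub_norm_le z y]),
          mem_iInter₂.2 fun x hx hb => ?_⟩).ge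
        linarith [hcon x hx, mem_ball_iff_norm.1 hb, norm_sub_le_norm_sub_add_norm_sub y z x,
          norm_sub_rev y z]) i1.integrableOn
    have h4 := setIntegral_le_integral (s := closedBall y (2 * δ)) i1
      (Eventually.of_forall fun z => (φb z).1)
    have h5 := (ENNReal.ofReal_le_iff_le_toReal measure_closedBall_lt_top.ne).1 (D.area_ge hδ.le)
    rw [one_mul, Measure.real] at h3
    linarith
  · obtain ⟨P, hP⟩ := Mesh.net_proof S R (ε / 2) (half_pos hε)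
    have h1 : ∀ᶠ i in l, ∀ p ∈ P, ∃ y ∈ N i, ‖y - p‖ ≤ ε / 2 := by
      rw [eventually_all_finset]
      intro p hp
      have h2 := hw _ (Mesh.continuous_bump p (ε / 2))
        (Mesh.hasCompactSupport_bump p (half_pos hε)) fun y hy =>
          hP.bump_far (half_pos hε) (by linarith) hp (by
            rw [mem_ball_zero_iff, not_lt] at hy; linarith)
      filter_upwards [hN, h2.eventually (lt_mem_nhds
        (Mesh.integral_bump_pos hS (hP.mem p hp) (half_pos hε)))] with i hi h3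
      by_contra hcon
      push Not at hcon
      rw [integral_eq_zero_of_ae (by
        filter_upwards [ae_restrict_mem hi.1.1.measurableSet] with y hy
        exact Mesh.bump_eq_zero (half_pos hε) (by linarith [hcon y hy]))] at h3
      exact lt_irrefl _ h3
    filter_upwards [h1] with i hi x hx hxR
    obtain ⟨p, hp, h2⟩ := hP.cover x hx hxR
    obtain ⟨y, hy, h3⟩ := hi p hp
    exact ⟨y, hy, by linarith [norm_sub_le_norm_sub_add_norm_sub y p x, norm_sub_rev p x]⟩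

variable {N : ℝ → Measure E3} {T : ℝ → E3 → Submodule ℝ E3} {H : ℝ → E3 → E3} {S : Set E3}

lemma poinEv_of_smIn (hS : IsSurf S) {l : Filter ℝ} (hCv : Cv l N T H (hm S))
    (h2 : ∀ R : ℝ, ∃ r C : ℝ, 0 < r ∧ ∀ᶠ s in l, SmIn (N s) R r C) : PoinEv l N T S := by
  intro R ε hε
  obtain ⟨r, C, hr, h3⟩ := h2 (R + 2)
  obtain ⟨M, h3⟩ : ∃ M : ℝ → Set E3, ∀ᶠ s in l, IsSurf (M s) ∧
      (N s).restrict (ball 0 (R + 2)) = (hm (M s)).restrict (ball 0 (R + 2)) ∧
      ∀ y ∈ M s, ‖y‖ ≤ R + 2 → TwoPt (M s) y r C := by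
    classical
    exact ⟨fun s => if h : SmIn (N s) (R + 2) r C then h.choose else ∅,
      h3.mono fun s hs => by simp only [dif_pos hs]; exact hs.choose_spec⟩
  have hc : (0 : ℝ≥0) < cE⁻¹ := inv_pos.2 (pos_iff_ne_zero.2 cE_ne)
  obtain ⟨A, r₁, hA, hr₁, hr₁', h4⟩ := Mesh.poinc_proof R C r cE⁻¹ hr hc
  refine ⟨min r₁ √(ε / A), lt_min hr₁ (Real.sqrt_pos.2 (div_pos hε hA)),
    fun ρ hρ hρ1 P hP' => ⟨A * (ρ ^ 2)⁻¹, ?_⟩⟩
  have hρ2 := hρ1.trans (min_le_left _ _)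
  have h5 : A * ρ ^ 2 ≤ ε := by
    have h6 : ρ ^ 2 ≤ ε / A := by
      rw [← Real.sq_sqrt (div_pos hε hA).le]
      exact pow_le_pow_left₀ hρ.le (hρ1.trans (min_le_right _ _)) 2
    rwa [le_div_iff₀ hA, mul_comm] at h6
  have hcl := close_loc (R := R) (C := C) (N := M) (l := l) hr hS
    (h3.mono fun s hs => ⟨hs.1, fun y hy h => hs.2.2 y hy (by linarith)⟩) (fun φ hφ hφc h0 => by
      simp only [integral_area]
      refine (Tendsto.congr' (h3.mono fun s hs => integral_eq_of_restrict hs.2.1 h0) ?_).const_mul _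
      exact tendsto_iff_ultrafilter _ _ _ |>.2 fun U hU => (hCv U hU).lim φ hφ hφc)
    (ε := ρ / 16) (by positivity) (by linarith)
  have hsl : ∀ᶠ s in l, GSlice 2 (N s) (T s) (H s) :=
    (Filter.mem_iff_ultrafilter).2 fun U hU => (hCv U hU).sl
  filter_upwards [h3, hcl, hsl] with s ⟨e1, e0, e2⟩ e3 e4 f hf
  have hb : ∀ L, L < R + 2 →
      (N s).restrict (closedBall 0 L) = (hm (M s)).restrict (closedBall 0 L) := fun L hL =>
    restrict_eq_of_subset e0 (closedBall_subset_ball hL)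
  have hi : Integrable (fun y => wt 0 y * ‖proj (T s y) (grad f y)‖ ^ 2 * rho y) (N s) :=
    Dyn.int_TG e4 hf 0
  have he : (fun y => wt 0 y * ‖proj (T s y) (grad f y)‖ ^ 2 * rho y)
      =ᵐ[(N s).restrict (closedBall 0 (R + 1))]
        fun y => ‖pt (nu (M s) y) (gradient f y)‖ ^ 2 * gw y := by
    filter_upwards [ae_restrict_of_ae (ae_tg e4.mc e1 isOpen_ball e0),
      ae_restrict_mem measurableSet_closedBall] with y hy hy'
    obtain ⟨a, b⟩ := hy (closedBall_subset_ball (by linarith) hy')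
    rw [b, proj_tg e1 a, wt, pow_zero, one_mul]
    rfl
  have h7 := h4 ρ hρ hρ2 S (M s) P hP' e1 (fun y hy h => e2 y hy (by linarith)) e3 f _
    (Mesh.gradLe_of_contDiff (M s) (R + 1) hf.cd) (by
      rw [← hm_eq, IntegrableOn, ← hb _ (by linarith)]
      exact hi.restrict.congr he)
  rw [← hm_eq, ← hb _ (by linarith), ← hb _ (by linarith), ← integral_congr_ae he,
    ← Finset.sum_coe_sort P] at h7
  have h8 : ∫ y in closedBall (0 : E3) (R + 1), wt 0 y * ‖proj (T s y) (grad f y)‖ ^ 2 * rho y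
      ∂(N s) ≤ TG (N s) (T s) f 0 :=
    setIntegral_le_integral hi (Eventually.of_forall fun y => mul_nonneg (mul_nonneg
      (Vale.Agent.P218.H313.wt_pos 0 y).le (sq_nonneg _)) (Vale.Agent.P218.H313.rho_pos y).le)
  have h9 := Dyn.TG_nonneg' (N s) (T s) f
  refine h7.trans ?_
  rw [mul_add, ← mul_assoc, ← mul_assoc]
  refine add_le_add ((mul_le_mul_of_nonneg_left h8 (by positivity)).trans
    (mul_le_mul_of_nonneg_right h5 h9)) (le_of_eq ?_)
  congr 1
  refine Finset.sum_congr rfl fun p _ => ?_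
  rw [integral_eq_of_restrict e0 fun y hy => by
    simp only [hP'.bump_far hρ (by linarith) p.2
      (by rw [mem_ball_zero_iff, not_lt] at hy; linarith : R + 1 ≤ ‖y‖), mul_zero, zero_mul]]
  rfl

/-- times at which the slices are weakly close to `κ` -/
noncomputable def nearW (N : ℝ → Measure E3) (κ : Measure E3) : Filter ℝ :=
  atTop ⊓ ⨅ φ : C_c(E3, ℝ), comap (fun s => ∫ x, φ x ∂(N s)) (𝓝 (∫ x, φ x ∂κ))

lemma nearW_atTop {κ : Measure E3} : nearW N κ ≤ atTop := inf_le_left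

lemma nearW_lim {κ : Measure E3} {φ : E3 → ℝ} (hc : Continuous φ) (hs : HasCompactSupport φ) :
    Tendsto (fun s => ∫ x, φ x ∂(N s)) (nearW N κ) (𝓝 (∫ x, φ x ∂κ)) :=
  tendsto_iff_comap.2 (inf_le_right.trans (iInf_le _ (⟨⟨φ, hc⟩, hs⟩ : C_c(E3, ℝ))))

lemma rf_congr {s₀ : ℝ} (h : RF 2 N T H s₀) {T' : ℝ → E3 → Submodule ℝ E3}
    (he : ∀ᵐ s : ℝ, s₀ ≤ s → T s = T' s) : RF 2 N T' H s₀ where
  fin := h.fin
  gauss := h.gauss
  ratio := h.ratio
  slice := by filter_upwards [h.slice, he] with s h1 h2 h3 using h2 h3 ▸ h1 h3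
  ineq f h1 h2 h3 a b ha hab := by
    obtain ⟨h4, h5⟩ := h.ineq f h1 h2 h3 a b ha hab
    have e : ∀ᵐ s : ℝ, s ∈ uIoc a b → LL (N s) (T s) (H s) f = LL (N s) (T' s) (H s) f :=
      he.mono fun s hs hs' => by
        rw [uIoc_of_le hab] at hs'
        rw [hs (ha.trans hs'.1.le)]
    exact ⟨h4.congr_ae ((ae_restrict_iff' measurableSet_uIoc).2 e),
      intervalIntegral.integral_congr_ae e ▸ h5⟩

/-- **Convergence of the rescaled flow**: one limit is a surface with the static inequality, and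
the slices which are close to it are smooth in large balls, at almost all times. -/
theorem converge_rf {s₀ : ℝ} (h : RF 2 N T H s₀) (hS : IsSurf S)
    (hSt : S.Nonempty → Rg.StaticFor S) {τ : ℕ → ℝ} (hτ : Tendsto τ atTop atTop)
    (hκ : WeakTendsto (fun i => N (τ i)) (hm S)) {J : Set ℝ} (hJ : ∀ᵐ s : ℝ, s₀ ≤ s → s ∈ J)
    (hsm : ∀ R : ℝ, ∃ r C : ℝ, 0 < r ∧ ∀ᶠ s in nearW N (hm S), s ∈ J → SmIn (N s) R r C)
    {φ : E3 → ℝ} (hφ : Continuous φ) (hφc : HasCompactSupport φ) :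
    Tendsto (fun s => ∫ x, φ x ∂(N s)) atTop (𝓝 (∫ x, φ x ∂(hm S))) := by
  classical
  have hlf := locFin_hm hS
  rcases S.eq_empty_or_nonempty with he | hne
  · have h4 := (DynFlow.tendsto_FA h hτ hκ).1
    have h5 : hm S = 0 := by rw [he, hm, Measure.restrict_empty]
    rw [h5, FA, integral_zero_measure] at h4
    rw [h5, integral_zero_measure]
    exact DynCore.tendsto_zero h h4 hφ hφc
  have h' := rf_congr h (T' := fun s => if s ∈ J then T s else fun _ => ⊥)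
    (hJ.mono fun s hs h1 => (if_pos (hs h1)).symm)
  set T' : ℝ → E3 → Submodule ℝ E3 := fun s => if s ∈ J then T s else fun _ => ⊥ with hT'
  have hCv : Cv (nearF 2 N T' H (hm S)) N T' H (hm S) := fun U hU => h'.conv hU
  have h2 : ∀ R : ℝ, ∃ r C : ℝ, 0 < r ∧ ∀ᶠ s in nearF 2 N T' H (hm S), SmIn (N s) R r C := by
    intro R
    obtain ⟨r, C, hr, h1⟩ := hsm R
    refine ⟨r, C, hr, ?_⟩
    filter_upwards [h1.filter_mono (inf_le_inf_right _ inf_le_left : nearF 2 N T' H (hm S) ≤ _),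
      nearF_sl] with s h2 h3
    by_cases hs : s ∈ J
    · exact h2 hs
    · have h5 : T' s = fun _ => ⊥ := if_neg hs
      have h4 : N s = 0 := by
        have h6 := h3.mc.dim
        rw [h5] at h6
        exact ae_eq_bot.1 (eventually_false_iff_eq_bot.1 (h6.mono fun x hx => by simp at hx))
      rw [h4]
      exact smIn_zero R r C
  obtain ⟨γ, hγ, h4⟩ := hSt hne _ N T' H hCv (fun R => by
    obtain ⟨r, C, hr, h1⟩ := h2 (R + 1)
    exact ⟨r, C, hr, (h1.and nearF_sl).mono fun s hs => hs.1.sheet hs.2.mc⟩)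
    (poinEv_of_smIn hS hCv h2)
  exact DynFlow.converge_of_static h' hτ hκ hγ h4 hφ hφc

variable {μ : ℝ → Measure E3} {x₀ : E3} {t₀ : ℝ}

open Vale.Agent.P218.H313.A1 in
/-- the rescaled flow of a Brakke flow -/
theorem rf_of_bf (hB : BF 2 μ T H) (hS : ∀ᵐ t : ℝ, 0 ≤ t → t < t₀ → Slice 2 (μ t) (T t) (H t))
    (h0 : μ 0 univ < ⊤) (x₀ : E3) (ht : 0 < t₀) :
    RF 2 (fun s => NN 2 μ x₀ t₀ (s / 2)) (fun s y => T (ti t₀ s) (xx (Real.exp (s / 2)) x₀ y))
      (fun s y => (Real.exp (s / 2))⁻¹ • H (ti t₀ s) (xx (Real.exp (s / 2)) x₀ y))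
      (Real.log (2 / t₀)) := by
  have hti : ∀ s, Real.log (2 / t₀) ≤ s → t₀ / 2 ≤ ti t₀ s := fun s hs => by
    have h2 := Real.exp_le_exp.2 (neg_le_neg hs)
    rw [Real.exp_neg (Real.log (2 / t₀)), Real.exp_log (by positivity), inv_div] at h2
    rw [ti]; linarith
  have htau : ∀ s, Real.log (2 / t₀) ≤ s → Vale.Agent.P218.H552.tau0 t₀ ≤ s / 2 := fun s hs => by
    rw [Real.log_div (by norm_num) ht.ne'] at hs
    have := Real.log_nonneg (show (1 : ℝ) ≤ 2 by norm_num)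
    rw [Vale.Agent.P218.H552.tau0]; linarith
  refine ⟨fun s hs => Vale.Agent.P218.H552.NN_finite hB h0 x₀ ht (htau s hs),
    ⟨√2 ^ 2 * ((√t₀)⁻¹ ^ 2 * (μ 0).real univ), fun s hs => ?_⟩,
    ⟨_, fun s hs x r hr _ => ratio_bound hB h0 x₀ ht (hti s hs) x hr⟩, ?_,
    fun f hf hfc hf0 a b ha hab => ?_⟩
  · have h1 := Vale.Agent.P218.H552.gauss_bound hB h0 x₀ ht (k := 2) (by norm_num) (htau s hs)
    rwa [show (4 * 2 : ℝ) = 8 by norm_num] at h1
  · filter_upwards [ae_time t₀ hS] with s hs hs0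
    rw [NN_half]
    exact slice_dil (hs (by linarith [hti s hs0]) (ti_lt _ _)) (Real.exp_pos (s / 2)) x₀
  · obtain ⟨h1, h2⟩ := hB.weighted x₀ hf hfc hf0 (a := ti t₀ a) (b := ti t₀ b)
      (by linarith [hti a ha]) ((ti_strictMono t₀).monotone hab) (ti_lt _ _)
    have e2 : ∀ s, ∫ x, f x * rho x ∂(NN 2 μ x₀ t₀ (s / 2)) = JJ 2 μ x₀ t₀ f (ti t₀ s) := by
      intro s
      rw [← tim_half, Vale.Agent.P218.H552.JJ_tim _ _ _ _ (Real.exp_pos _)]
      rfl
    simp only [LL_dil, e2]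
    exact ⟨intervalIntegrable_time t₀ hab h1, integral_time t₀ hab ▸ h2⟩

lemma ext_hm (S : Set E3) {s : ℝ} : Vale.Agent.P218.H552.ext 2 (hm S) s =
    Vale.Agent.P218.H313.A1.dil 2 (√(-s)) 0 (hm S) := by
  simp only [Vale.Agent.P218.H552.ext, Vale.Agent.P218.H313.A1.dil, sub_zero]

/-- from the rescaled flow to the parabolic rescalings -/
lemma tendsto_rescaled
    (h : ∀ φ : E3 → ℝ, Continuous φ → HasCompactSupport φ →
      Tendsto (fun s => ∫ x, φ x ∂(NN 2 μ x₀ t₀ (s / 2))) atTop (𝓝 (∫ x, φ x ∂(hm S))))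
    {s : ℝ} (hs : s < 0) {φ : E3 → ℝ} (hφ : Continuous φ) (hφc : HasCompactSupport φ) :
    Tendsto (fun lam => ∫ x, φ x ∂(rescaled 2 μ x₀ t₀ lam s)) atTop
      (𝓝 (∫ x, φ x ∂(hm (ssFlow S s)))) := by
  have hk : 0 < √(-s) := Real.sqrt_pos.2 (by linarith)
  have h4 : Tendsto (fun lam : ℝ => 2 * Real.log (lam / √(-s))) atTop atTop :=
    (Real.tendsto_log_atTop.comp (tendsto_id.atTop_div_const hk)).const_mul_atTop two_pos
  have h5 := ((h (fun x => φ (√(-s) • x)) (by fun_prop)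
    (hφc.comp_homeomorph (Homeomorph.smulOfNeZero _ hk.ne'))).comp h4).const_mul (√(-s) ^ 2)
  rw [ssFlow, hm_scale hk, ← ext_hm, Vale.Agent.P218.H552.integral_ext 2 _ hs]
  refine h5.congr' ?_
  filter_upwards [eventually_gt_atTop 0] with lam hl
  rw [Vale.Agent.P218.H552.rescaled_eq 2 μ x₀ t₀ hl hs, ← Vale.Agent.P218.H552.ext,
    Vale.Agent.P218.H552.integral_ext 2 _ hs, Function.comp, NN,
    mul_div_cancel_left₀ _ two_ne_zero, Real.exp_log (div_pos hl hk)]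

/-- **Convergence of the parabolic rescalings.** -/
theorem converge_sm (hB : BF 2 μ T H)
    (hsl : ∀ᵐ t : ℝ, 0 ≤ t → t < t₀ → Slice 2 (μ t) (T t) (H t)) (h0 : μ 0 univ < ⊤) (ht : 0 < t₀)
    (hS : IsSurf S) (hSt : S.Nonempty → Rg.StaticFor S)
    (hκ : hm S ∈ tangentSlices 2 μ x₀ t₀) {J : Set ℝ} (hJ : ∀ᵐ t : ℝ, 0 < t → t < t₀ → t ∈ J)
    (hsm : ∀ R : ℝ, ∃ r C : ℝ, 0 < r ∧ ∀ᶠ s in nearW (fun s => NN 2 μ x₀ t₀ (s / 2)) (hm S),
      ti t₀ s ∈ J → SmIn (NN 2 μ x₀ t₀ (s / 2)) R r C)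
    {s : ℝ} (hs : s < 0) {φ : E3 → ℝ} (hφ : Continuous φ) (hφc : HasCompactSupport φ) :
    Tendsto (fun lam => ∫ x, φ x ∂(rescaled 2 μ x₀ t₀ lam s)) atTop
      (𝓝 (∫ x, φ x ∂(hm (ssFlow S s)))) := by
  rw [Vale.Agent.P218.H552.tangentSlices_eq hB h0 x₀ ht] at hκ
  obtain ⟨-, τ, hτ, hκ⟩ := hκ
  refine tendsto_rescaled (fun ψ h1 h2 => converge_rf (rf_of_bf hB hsl h0 x₀ ht) hS hSt
    (hτ.const_mul_atTop two_pos) (by simpa using hκ) (J := {s | ti t₀ s ∈ J}) ?_ hsm h1 h2) hs hφ hφc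
  filter_upwards [Vale.Agent.P218.H313.A1.ae_time t₀ hJ] with σ h1 h2
  refine h1 ?_ (Vale.Agent.P218.H313.A1.ti_lt _ _)
  have h3 := Real.exp_le_exp.2 (neg_le_neg h2)
  rw [Real.exp_neg (Real.log (2 / t₀)), Real.exp_log (by positivity), inv_div] at h3
  rw [ti]; linarith

/-- full convergence identifies all tangent flows -/
lemma eq_of_tendsto (hS : IsSurf S)
    (h : ∀ s < 0, ∀ φ : E3 → ℝ, Continuous φ → HasCompactSupport φ →
      Tendsto (fun lam => ∫ x, φ x ∂(rescaled 2 μ x₀ t₀ lam s)) atTop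
        (𝓝 (∫ x, φ x ∂(hm (ssFlow S s))))) {ν : ℝ → Measure E3} (hν : IsTangentFlow 2 μ x₀ t₀ ν)
    {s : ℝ} (hs : s < 0) : ν s = hm (ssFlow S s) := by
  obtain ⟨h1, lam, h2, h3⟩ := hν
  have := h1 s hs
  have : IsLocallyFiniteMeasure (hm (ssFlow S s)) :=
    locFin_hm (hS.scale (Real.sqrt_pos.2 (neg_pos.2 hs)).ne' 0)
  exact Vale.Agent.P218.weakTendsto_unique (h3 s hs) fun φ a b => (h s hs φ a b).comp h2

/-- a limit along an ultrafilter is the slice of a tangent flow -/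
lemma mem_tangentSlices (hB : BF 2 μ T H) (h0 : μ 0 univ < ⊤) (ht : 0 < t₀) {P : Measure E3 → Prop}
    (h : ∀ (U : Ultrafilter ℕ) (lam : ℕ → ℝ), Tendsto lam U atTop → ∃ κ : Measure E3, P κ ∧
      IsLocallyFiniteMeasure κ ∧ ∀ φ : E3 → ℝ, Continuous φ → HasCompactSupport φ →
        Tendsto (fun i => ∫ x, φ x ∂(rescaled 2 μ x₀ t₀ (lam i) (-1))) U (𝓝 (∫ x, φ x ∂κ))) :
    ∃ κ, P κ ∧ κ ∈ tangentSlices 2 μ x₀ t₀ := by
  have hUle : (Ultrafilter.of (atTop : Filter ℕ) : Filter ℕ) ≤ atTop := Ultrafilter.of_le _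
  obtain ⟨κ, h1, h2, h3⟩ := h (Ultrafilter.of atTop)
    (fun n => Real.exp (Vale.Agent.P218.H552.tau0 t₀ + n)) ((Real.tendsto_exp_atTop.comp
      (tendsto_atTop_add_const_left _ _ tendsto_natCast_atTop_atTop)).mono_left hUle)
  have h4 : Vale.Agent.P218.fnl κ ∈
      Vale.Agent.P218.fnl '' Vale.Agent.P218.limitSet (NN 2 μ x₀ t₀) := by
    rw [(Vale.Agent.P218.H552.slow_NN hB h0 x₀ ht).image_limitSet]
    exact (tendsto_pi_nhds.2 fun φ : C_c(E3, ℝ) => h3 φ φ.continuous φ.hasCompactSupport).mapClusterPt.mono hUle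
  obtain ⟨κ', h5, h6⟩ := h4
  have := h5.1
  rw [Vale.Agent.P218.H552.tangentSlices_eq hB h0 x₀ ht]
  exact ⟨κ, h1, Vale.Agent.P218.fnl_injective h6 ▸ h5⟩

end Vale.Agent.P218G.Dyn
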