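import Vale.Agent.P218G.AGen1
import Vale.Agent.P218G.DynB

/-! Uniqueness of the tangent flow when one tangent flow is smooth with multiplicity one. -/

open MeasureTheory Set Filter Topology Metric
open scoped ENNReal NNReal RealInnerProductSpace ContDiff

namespace Vale.Agent.P218G.Rg

open Vale.Agent.P218G.Lit Vale.Agent.P218G.Dyn Vale.Agent.P218FT
open Vale.Agent.P218 (rescaled tangentSlices TangentFlowUnique IsIntegralBrakkeFlow)
open Vale.Agent.P218.H552 (NN BF)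
open Vale.Agent.P218.H313.A1 (ti dil NN_half)
open Vale.Agent.P218F.Dyn (hm)
open Vale.Agent.P218F.DynBridge

lemma surfOn_slice {M : ℝ → Set E3} {U : Set (ℝ × E3)} (h : IsMCFOn M U) (t : ℝ) :
    SurfOn (M t) (tsl U t) := by
  have hc : ∀ x : E3, Tendsto (fun y : E3 => (t, y)) (𝓝 x) (𝓝 (t, x)) := fun x =>
    (continuous_const.prodMk continuous_id).tendsto x
  refine ⟨fun x hx h1 => (hc x).eventually (h.closed _ hx h1), fun x hx h1 => ?_⟩
  obtain ⟨w, a1, a2, a3, -⟩ := h.loc _ hx h1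
  exact ⟨fun y => w (t, y), a1.comp (contDiff_const.prodMk contDiff_id), a2, (hc x).eventually a3⟩

/-- a measure which is the area of a smooth piece of surface, after rescaling -/
lemma smIn_dil {m : Measure E3} {M U : Set E3} (hM : SurfOn M U)
    (he : m.restrict U = (μH[2] : Measure E3).restrict (M ∩ U)) {lam R r C : ℝ} {x₀ : E3}
    (hl : 0 < lam) (hr : r ≤ 1) (hU : ∀ y : E3, ‖y‖ < 14 * (|R| + 1) → x₀ + lam⁻¹ • y ∈ U)
    (htp : ∀ y : E3, ‖y‖ ≤ R → x₀ + lam⁻¹ • y ∈ M → TwoPt M (x₀ + lam⁻¹ • y) (r / lam) (C * lam)) :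
    SmIn (dil 2 lam x₀ m) R r C := by
  have hR := le_abs_self R
  have hR0 := abs_nonneg R
  have h1 : SurfOn (scaleSet lam x₀ M) (ball 0 (14 * (|R| + 1))) :=
    ⟨fun y hy h => (by fun_prop : Continuous fun z : E3 => x₀ + lam⁻¹ • z).continuousAt.eventually
      (hM.1 _ (hU y (mem_ball_zero_iff.1 hy)) h), fun y hy h =>
      (hM.2 _ (hU y (mem_ball_zero_iff.1 hy)) h).elim fun _ hw => ⟨_, hw.scale hl.ne'⟩⟩
  obtain ⟨N, hN, h2⟩ := h1.globalise (by positivity)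
  simp only [sub_zero] at h2
  refine ⟨N, hN, ?_, fun y hy hyR z hz hzy => ?_⟩
  · have h3 : ∀ m' : Measure E3, (dil 2 lam x₀ m').restrict (ball 0 R) =
        dil 2 lam x₀ (m'.restrict ((fun x => lam • (x - x₀)) ⁻¹' ball 0 R)) := fun m' => by
      rw [dil, dil, Measure.restrict_smul, (Sc.embDn hl.ne' x₀).restrict_map]
    have h4 : (fun x => lam • (x - x₀)) ⁻¹' ball (0 : E3) R ⊆ U := fun x hx =>
      Sc.up_dn hl.ne' x₀ x ▸ hU _ ((mem_ball_zero_iff.1 hx).trans_le (by linarith))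
    have h5 := (Sc.embDn hl.ne' x₀).measurable (measurableSet_ball (x := 0) (ε := R))
    rw [h3, ← Measure.restrict_restrict_of_subset h4, he, Measure.restrict_restrict h5,
      ← inter_assoc, inter_eq_left.2 (inter_subset_left.trans h4), ← Measure.restrict_restrict h5,
      ← hm, ← h3, ← hm_scale hl, hm, hm, Measure.restrict_restrict measurableSet_ball,
      Measure.restrict_restrict measurableSet_ball]
    congr 1
    ext y
    exact and_congr_right fun hy => (h2 y (by linarith [mem_ball_zero_iff.1 hy])).symm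
  · have h3 := (h2 y (by linarith)).1 hy
    obtain ⟨w, hw⟩ := h1.2 y (mem_ball_zero_iff.2 (by linarith)) h3
    have h4 : IsEqn N y w := isEqn_congr hw ((continuous_norm.continuousAt.eventually_lt
      continuousAt_const (show ‖y‖ < |R| + 1 by linarith)).mono fun z hz => h2 z hz.le)
    rw [h4.abs_inner_eq hy, ← hw.abs_inner_eq h3]
    exact (twoPt_scale hl h3 r C).2 (htp y hyR h3) z
      ((h2 z (by linarith [norm_sub_norm_le z y])).1 hz) hzy

variable {μ : ℝ → Measure E3} {x₀ : E3} {t₀ : ℝ} {S : Set E3}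

/-- the parabolic rescalings about `(x₀, t₀)` converge to the self-similar flow of `S` -/
def ConvTo (μ : ℝ → Measure E3) (x₀ : E3) (t₀ : ℝ) (S : Set E3) : Prop :=
  ∀ s < 0, ∀ φ : E3 → ℝ, Continuous φ → HasCompactSupport φ →
    Tendsto (fun lam => ∫ x, φ x ∂(rescaled 2 μ x₀ t₀ lam s)) atTop
      (𝓝 (∫ x, φ x ∂(hm (ssFlow S s))))

lemma ConvTo.unique (h : ConvTo μ x₀ t₀ S) (hS : IsSurf S) : TangentFlowUnique 2 μ x₀ t₀ :=
  fun _ _ h1 h2 _ hs => (eq_of_tendsto hS h h1 hs).trans (eq_of_tendsto hS h h2 hs).symm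

lemma ev_ti {a : ℝ} (ha : a < t₀) : ∀ᶠ s in atTop, a ≤ ti t₀ s :=
  (Real.tendsto_exp_neg_atTop_nhds_zero.eventually (ge_mem_nhds (sub_pos.2 ha))).mono
    fun s hs => by rw [ti]; linarith

lemma ent_NN {a D : ℝ} (h : GS μ a D) (ha : a < t₀) :
    ∀ᶠ s in atTop, Ent (NN 2 μ x₀ t₀ (s / 2)) D :=
  (ev_ti ha).mono fun s hs => NN_half 2 μ x₀ t₀ s ▸ (h.ent _ hs).dil (Real.exp_pos _) x₀

variable {T : ℝ → E3 → Submodule ℝ E3} {H : ℝ → E3 → E3}

/-- the entropy of a tangent flow -/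
lemma ent_slice (hB : BF 2 μ T H) (h0 : μ 0 univ < ⊤) (ht : 0 < t₀) {a D : ℝ} (h : GS μ a D)
    (ha : a < t₀) {κ : Measure E3} (hκ : κ ∈ tangentSlices 2 μ x₀ t₀) : Ent κ D := by
  rw [Vale.Agent.P218.H552.tangentSlices_eq hB h0 x₀ ht] at hκ
  obtain ⟨h1, τ, hτ, hκ⟩ := hκ
  refine ent_lim (l := atTop) ?_ h1 fun φ a b => hκ φ a.continuous b
  simpa using (hτ.const_mul_atTop two_pos).eventually (ent_NN (x₀ := x₀) h ha)

/-- a bounded shift of the time does not change the limit -/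
lemma nearW_shift (hB : BF 2 μ T H) (h0 : μ 0 univ < ⊤) (ht : 0 < t₀) {κ : Measure E3} {c : ℝ}
    (hc : 0 < c) {φ : E3 → ℝ} (h1 : ContDiff ℝ 1 φ) (h2 : HasCompactSupport φ) :
    Tendsto (fun s => ∫ x, φ x ∂(NN 2 μ x₀ t₀ ((s - c) / 2)))
      (nearW (fun s => NN 2 μ x₀ t₀ (s / 2)) κ) (𝓝 (∫ x, φ x ∂κ)) := by
  refine (nearW_lim h1.continuous h2).congr_dist (Metric.tendsto_nhds.2 fun ε hε => ?_)
  obtain ⟨A, -, hA⟩ := (Vale.Agent.P218.H552.slow_NN hB h0 x₀ ht).slow φ h1 h2 c hc _ (half_pos hε)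
  filter_upwards [(eventually_ge_atTop (2 * A + c)).filter_mono nearW_atTop] with s hs
  rw [dist_zero_right, Real.norm_of_nonneg dist_nonneg, Real.dist_eq]
  linarith [hA ((s - c) / 2) (s / 2) (by linarith) (by linarith) (by linarith)]

/-- the density ratios are close to one on the slices which are close to a surface -/
lemma low_ev (hB : BF 2 μ T H) (h0 : μ 0 univ < ⊤) (ht : 0 < t₀) {a D : ℝ} (h : GS μ a D)
    (ha : a < t₀) (hS : IsSurf S) (hE : Ent (hm S) D) (R : ℝ) {ε : ℝ} (hε : 0 < ε) :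
    ∃ ρ : ℝ, 0 < ρ ∧ ρ ≤ 1 ∧ ∀ᶠ s in nearW (fun s => NN 2 μ x₀ t₀ (s / 2)) (hm S),
      a ≤ ti t₀ s - (ρ / Real.exp (s / 2)) ^ 2 ∧ ∀ y : E3, ‖y‖ ≤ R →
        Low μ (x₀ + (Real.exp (s / 2))⁻¹ • y) (ti t₀ s) (ρ / Real.exp (s / 2)) ε := by
  have h1 := om0_pos
  obtain ⟨σ₀, h2, h3⟩ := slow_proof S D hS hE (R + 3) (ε / 2) (half_pos hε)
  obtain ⟨ρ, r0, r1, r2⟩ : ∃ ρ : ℝ, 0 < ρ ∧ ρ ≤ 1 ∧ ρ ≤ σ₀ :=
    ⟨min 1 σ₀, by positivity, min_le_left _ _, min_le_right _ _⟩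
  have r3 : 1 < 1 + ρ ^ 2 := by nlinarith
  set c := Real.log (1 + ρ ^ 2) with hc
  have h4 : Tendsto (fun s : ℝ => s - c) (nearW (fun s => NN 2 μ x₀ t₀ (s / 2)) (hm S)) atTop :=
    (tendsto_atTop_add_const_right _ _ tendsto_id).mono_left nearW_atTop
  refine ⟨ρ, r0, r1, ?_⟩
  filter_upwards [h4.eventually (ev_ti ha), unif_proof _ _ _ _ D (h4.eventually (ent_NN h ha)) hE
    (fun φ => nearW_shift hB h0 ht (Real.log_pos r3)) (R + 3) (ρ ^ 2 / 4) σ₀ (ε / 2 * om0)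
    (by positivity) (by positivity)] with s a1 a2
  have e0 := Real.exp_pos (s / 2)
  have e0' := Real.exp_pos ((s - c) / 2)
  have e1 : Real.exp (s / 2) ^ 2 = Real.exp ((s - c) / 2) ^ 2 * (1 + ρ ^ 2) := by
    rw [← Real.exp_log (by positivity : 0 < 1 + ρ ^ 2), ← hc, ← Real.exp_nat_mul,
      ← Real.exp_nat_mul, ← Real.exp_add]
    congr 1; push_cast; ring
  have e2 : ∀ u, ti t₀ u = t₀ - (Real.exp (u / 2) ^ 2)⁻¹ := fun u => by
    rw [ti, ← Real.exp_nat_mul, ← Real.exp_neg]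
    congr 2; push_cast; ring
  have e3 : ti t₀ s - (ρ / Real.exp (s / 2)) ^ 2 = ti t₀ (s - c) := by
    rw [e2, e2, div_pow, e1]; field_simp; ring
  have e4 : Real.exp ((s - c) / 2) ≤ Real.exp (s / 2) :=
    Real.exp_le_exp.2 (by linarith [Real.log_pos r3])
  refine ⟨e3 ▸ a1, fun y hy z σ b1 b2 b3 => ?_⟩
  simp only [NN_half] at a2
  generalize Real.exp (s / 2) = k at *
  generalize Real.exp ((s - c) / 2) = k' at *
  have c1 : ‖k' • (z - x₀)‖ ≤ R + 3 := by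
    have d1 : k • (z - x₀) = y + k • (z - (x₀ + k⁻¹ • y)) := by
      rw [← sub_sub, smul_sub k (z - x₀), smul_inv_smul₀ e0.ne']; abel
    have d2 := norm_add_le y (k • (z - (x₀ + k⁻¹ • y)))
    rw [← d1, norm_smul, norm_smul, Real.norm_of_nonneg e0.le] at d2
    rw [← mul_div_assoc, le_div_iff₀' e0] at b1
    rw [norm_smul, Real.norm_of_nonneg e0'.le]
    linarith [mul_le_mul_of_nonneg_right e4 (norm_nonneg (z - x₀))]
  rw [div_pow, div_right_comm, div_le_iff₀ (by positivity), e1] at b2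
  rw [div_pow, le_div_iff₀ (by positivity), e1] at b3
  have c0 : 0 < σ * k' ^ 2 := by
    by_contra hh
    nlinarith [mul_nonneg (neg_nonneg.2 (not_lt.1 hh)) (zero_le_one.trans r3.le), sq_pos_of_pos r0]
  have c2 : σ * k' ^ 2 ≤ σ₀ := by nlinarith [mul_pos c0 (sq_pos_of_pos r0)]
  have c3 := (abs_le.1 (a2 _ (σ * k' ^ 2) c1 (by nlinarith [pow_le_one₀ (n := 2) r0.le r1]) c2)).2
  rw [GA_dil e0', Sc.up_dn e0'.ne', mul_div_cancel_right₀ _ (by positivity)] at c3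
  rw [e3]
  linarith [h3 _ _ c1 c0 c2]

section

variable (hG : GSStmt) (hGl : GlueStmt) (hW : WeakWhiteStmt) (hμ : IsIntegralBrakkeFlow 2 μ)
  (h0 : μ 0 univ < ⊤) (hU : IsUnitRegular μ) (ht : 0 < t₀)
include hG hGl hW hμ h0 hU ht

/-- **Convergence to a smooth tangent flow of multiplicity one.** -/
theorem agen_conv (hS : IsSurf S) (hSt : S.Nonempty → StaticFor S)
    (hκ : hm S ∈ tangentSlices 2 μ x₀ t₀) : ConvTo μ x₀ t₀ S := by
  obtain ⟨T, H, hB, hsl⟩ := Vale.Agent.P218.H313.A1.exists_BF_slice hμ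
  have h1 := hG μ hμ h0 _ (half_pos ht)
  obtain ⟨g1, g2, -⟩ := hGl μ fun a ha => ⟨_, hG μ hμ h0 a ha⟩
  obtain ⟨ε, r, C, hε, hr, hr1, -, h2⟩ := hW ((μ 0).real univ / (t₀ / 2))
  refine fun s hs φ => converge_sm hB (hsl.mono fun t a b _ => a b) h0 ht hS hSt hκ (J := univ)
    (by simp) (fun R => ?_) hs
  obtain ⟨ρ, r0, r1, h3⟩ := low_ev (x₀ := x₀) hB h0 ht h1 (half_lt_self ht) hS
    (ent_slice hB h0 ht h1 (half_lt_self ht) hκ) (14 * (|R| + 1)) hε
  refine ⟨r * ρ, C / ρ, by positivity, h3.mono fun σ ⟨a1, a2⟩ _ => ?_⟩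
  have e0 := Real.exp_pos (σ / 2)
  have a3 := fun (y : E3) (hy : ‖y‖ ≤ 14 * (|R| + 1)) => h2 μ hμ h0 hU _ _ _ _ (div_pos r0 e0)
    (half_pos ht).le h1 a1 (a2 y hy) _ ⟨sub_le_self _ (sq_nonneg _), le_rfl⟩
    (x₀ + (Real.exp (σ / 2))⁻¹ • y) (by rw [sub_self, norm_zero]; positivity)
  rw [NN_half]
  refine smIn_dil (surfOn_slice g1 _) (g2 _) e0 (mul_le_one₀ hr1 r0.le r1)
    (fun y hy => (a3 y hy.le).1) fun y hy h => ?_
  rw [mul_div_assoc, div_mul]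
  exact (a3 y (by linarith [le_abs_self R, abs_nonneg R])).2 h

/-- **Case A**: a tangent flow is a smooth shrinker of multiplicity one with the local
Gauss-Bonnet estimate. -/
theorem caseA (hSt : P218F.Dyn.StaticStmt) (hS : IsShr S) {G : ℝ} (hL : LGB G S)
    (hκ : hm S ∈ tangentSlices 2 μ x₀ t₀) : TangentFlowUnique 2 μ x₀ t₀ ∧ ConvTo μ x₀ t₀ S := by
  obtain ⟨T, H, hB, -⟩ := Vale.Agent.P218.H313.A1.exists_BF_slice hμ
  obtain ⟨D, hD⟩ := class_proof S _ G hS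
    (ent_slice hB h0 ht (hG μ hμ h0 _ (half_pos ht)) (half_lt_self ht) hκ) hL
  have h := agen_conv hG hGl hW hμ h0 hU ht hS.1 (hSt D G S hS hD) hκ
  exact ⟨h.unique hS.1, h⟩

end

theorem agen_of (hG : GSStmt) (hGl : GlueStmt) (hW : WeakWhiteStmt) : AGenStmt :=
  fun _ hμ h0 hU _ _ ht _ hS hSt hκ => (agen_conv hG hGl hW hμ h0 hU ht hS hSt hκ).unique hS

end Vale.Agent.P218G.Rg
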