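import Vale.Agent.P218G.RegA
import Vale.Agent.P218F.DynBridge

/-! Gaussian integrals under weak convergence, density ratios of a smooth surface at small scales,
the self-similar flow of a shrinker. -/

open MeasureTheory Set Filter Topology Metric
open scoped ENNReal NNReal RealInnerProductSpace ContDiff

namespace Vale.Agent.P218G.Rg

open Vale.Agent.P218G.Lit Vale.Agent.P218FT
open Vale.Agent.P218F.Dyn (hm)
open Vale.Agent.P218F.DynBridge

lemma contDiff_gk0 (σ : ℝ) (y : E3) {n : ℕ∞} : ContDiff ℝ n fun x : E3 => gk0 σ (x - y) :=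
  contDiff_const.mul (Real.contDiff_exp.comp
    (((contDiff_id.sub contDiff_const).norm_sq ℝ).neg.div_const _))

lemma continuousAt_gk0 {σ : ℝ} (hσ : σ ≠ 0) (z : E3) :
    ContinuousAt (fun p : ℝ × E3 => gk0 p.1 p.2) (σ, z) := by
  unfold gk0
  refine ContinuousAt.mul (ContinuousAt.inv₀ (by fun_prop) hσ) ?_
  exact Real.continuous_exp.continuousAt.comp
    (ContinuousAt.div (by fun_prop) (by fun_prop) (by simpa using hσ))

lemma exists_tail (K : ℝ) {c ε : ℝ} (hc : 0 < c) (hε : 0 < ε) :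
    ∃ r : ℝ, 0 < r ∧ K * Real.exp (-r ^ 2 / c) ≤ ε := by
  have h1 : Tendsto (fun r : ℝ => K * Real.exp (-r ^ 2 / c)) atTop (𝓝 (K * 0)) :=
    (Real.tendsto_exp_atBot.comp ((tendsto_neg_atTop_atBot.comp
      (tendsto_pow_atTop two_ne_zero)).atBot_div_const hc)).const_mul K
  rw [mul_zero] at h1
  exact ((eventually_gt_atTop 0).and (h1.eventually (ge_mem_nhds hε))).exists

/-- a test function which is close to all the kernels with parameters near `(y, σ)` -/
lemma exists_test (y : E3) {σ ε : ℝ} (hσ : 0 < σ) (hε : 0 < ε) : ∃ φ : E3 → ℝ, ContDiff ℝ 1 φ ∧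
    HasCompactSupport φ ∧ ∀ᶠ p : E3 × ℝ in 𝓝 (y, σ), ∀ x,
      |gk0 p.2 (x - p.1) - φ x| ≤ ε * gk0 (2 * (3 * σ)) (x - y) := by
  obtain ⟨r, hr, h1⟩ := exists_tail (6 * Real.exp (1 / (4 * σ)) * 2)
    (by positivity : 0 < 8 * (3 * σ)) hε
  let χ : ContDiffBump y := ⟨r, r + 1, hr, lt_add_one r⟩
  have hnb : ∀ᶠ p : E3 × ℝ in 𝓝 (y, σ), ‖p.1 - y‖ < 1 ∧ σ / 2 < p.2 ∧ p.2 < 2 * σ :=
    ((by fun_prop : Continuous fun p : E3 × ℝ => ‖p.1 - y‖).continuousAt.eventually_lt
      continuousAt_const (by simp)).and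
      ((continuousAt_const.eventually_lt continuousAt_snd (by simpa using hσ)).and
        (continuousAt_snd.eventually_lt continuousAt_const (by simp; linarith)))
  have far : ∀ᶠ p : E3 × ℝ in 𝓝 (y, σ), 0 < p.2 ∧ ∀ x, r ≤ ‖x - y‖ →
      gk0 p.2 (x - p.1) ≤ ε * gk0 (2 * (3 * σ)) (x - y) := by
    filter_upwards [hnb] with p ⟨a1, a2, a3⟩
    have hp : 0 < p.2 := by linarith
    refine ⟨hp, fun x hx => ?_⟩
    rw [show x - p.1 = (x - y) - (p.1 - y) by abel]
    refine (gk0_shift hp (by linarith : p.2 < 3 * σ) _ _).trans ?_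
    rw [gk0_double (by positivity : 0 < 3 * σ), ← mul_assoc]
    refine mul_le_mul_of_nonneg_right (le_trans ?_ h1) (gk0_pos (by positivity) _).le
    have h5 : 3 * σ / p.2 ≤ 6 := by rw [div_le_iff₀ hp]; linarith
    have h6 : ‖p.1 - y‖ ^ 2 / (4 * (3 * σ - p.2)) ≤ 1 / (4 * σ) :=
      div_le_div₀ zero_le_one (pow_le_one₀ (norm_nonneg _) a1.le) (by positivity) (by linarith)
    rw [← mul_assoc]
    gcongr
  have near : ∀ᶠ p : E3 × ℝ in 𝓝 (y, σ), ∀ x ∈ closedBall y r,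
      |gk0 p.2 (x - p.1) - gk0 σ (x - y)| < ε * gk0 (2 * (3 * σ)) (x - y) := by
    refine (isCompact_closedBall y r).eventually_forall_of_forall_eventually fun x _ => ?_
    refine ContinuousAt.eventually_lt (ContinuousAt.abs (ContinuousAt.sub
      ((continuousAt_gk0 hσ.ne' (x - y)).comp_of_eq
        (f := fun z : (E3 × ℝ) × E3 => (z.1.2, z.2 - z.1.1)) (by fun_prop) rfl)
      ((continuous_gk0' σ y).comp continuous_snd).continuousAt))
      (continuous_const.mul ((continuous_gk0' _ y).comp continuous_snd)).continuousAt ?_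
    simpa using mul_pos hε (gk0_pos (by positivity) (x - y))
  refine ⟨fun x => χ x * gk0 σ (x - y), χ.contDiff.mul (contDiff_gk0 σ y),
    χ.hasCompactSupport.mul_right, ?_⟩
  filter_upwards [far, near] with p ⟨hp, a1⟩ a2 x
  rcases le_total ‖x - y‖ r with h | h
  · rw [χ.one_of_mem_closedBall (mem_closedBall_iff_norm.2 h), one_mul]
    exact (a2 x (mem_closedBall_iff_norm.2 h)).le
  · have b1 := far.self_of_nhds.2 x h
    have b2 := gk0_pos hσ (x - y)
    have b3 : χ x * gk0 σ (x - y) ≤ gk0 σ (x - y) := mul_le_of_le_one_left b2.le χ.le_one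
    have b4 : 0 ≤ χ x * gk0 σ (x - y) := mul_nonneg χ.nonneg b2.le
    rw [abs_le]
    constructor <;> linarith [a1 x h, gk0_pos hp (x - p.1)]

lemma Ent.abs_GA_sub {m : Measure E3} {D : ℝ} (h : Ent m D) {φ : E3 → ℝ} (hφ : Continuous φ)
    (hc : HasCompactSupport φ) {y z : E3} {σ τ ε : ℝ} (hσ : 0 < σ) (hτ : 0 < τ) (hε : 0 ≤ ε)
    (hb : ∀ x, |gk0 σ (x - y) - φ x| ≤ ε * gk0 τ (x - z)) : |GA m y σ - ∫ x, φ x ∂m| ≤ ε * D := by
  have := h.lf
  rw [GA, ← integral_sub (h.int y σ hσ) (hφ.integrable_of_hasCompactSupport hc)]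
  exact h.norm_integral_le (g := fun x => gk0 σ (x - y) - φ x) hε hτ (Eventually.of_forall hb)

theorem unif_proof : UnifStmt := by
  intro ι l m κ D hm hκ hw R σ₁ σ₂ η h1 hη
  have hD := hκ.nonneg
  have key := ((isCompact_closedBall (0 : E3) R).prod (isCompact_Icc (a := σ₁) (b := σ₂)))
    |>.mem_prod_nhdsSet_of_forall (l := l)
      (s := {q : ι × E3 × ℝ | |GA (m q.1) q.2.1 q.2.2 - GA κ q.2.1 q.2.2| ≤ η}) fun p hp => by
    have hσ : 0 < p.2 := h1.trans_le hp.2.1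
    obtain ⟨φ, a1, a2, a3⟩ := exists_test p.1 hσ (ε := η / 3 / (D + 1)) (by positivity)
    have a4 : η / 3 / (D + 1) * D ≤ η / 3 := by
      rw [div_mul_eq_mul_div, div_le_iff₀ (by positivity)]; nlinarith
    filter_upwards [(hm.and ((hw φ a1 a2).eventually (closedBall_mem_nhds _
      (by positivity : 0 < η / 3)))).prod_mk (a3.and (continuousAt_const.eventually_lt
        continuousAt_snd hσ))] with q ⟨⟨b1, b2⟩, b3, b4⟩
    have c1 := b1.abs_GA_sub a1.continuous a2 b4 (by positivity) (by positivity) b3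
    have c2 := hκ.abs_GA_sub a1.continuous a2 b4 (by positivity) (by positivity) b3
    rw [Real.dist_eq] at b2
    rw [abs_le] at b2 c1 c2
    exact abs_le.2 ⟨by linarith [b2.1, c1.1, c2.2], by linarith [b2.2, c1.2, c2.1]⟩
  obtain ⟨A, hA, B, hB, h2⟩ := mem_prod_iff.1 key
  filter_upwards [hA] with i hi y σ a b c
  exact h2 (mk_mem_prod hi (subset_of_mem_nhdsSet hB
    (show (y, σ) ∈ _ ×ˢ _ from ⟨mem_closedBall_zero_iff.2 a, b, c⟩)))

/-- the entropy bound passes to weak limits -/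
theorem ent_lim {ι : Type*} {l : Filter ι} [l.NeBot] {m : ι → Measure E3} {κ : Measure E3} {D : ℝ}
    (hm : ∀ᶠ i in l, Ent (m i) D) (hκ : IsLocallyFiniteMeasure κ)
    (hw : ∀ φ : E3 → ℝ, ContDiff ℝ 1 φ → HasCompactSupport φ →
      Tendsto (fun i => ∫ x, φ x ∂(m i)) l (𝓝 (∫ x, φ x ∂κ))) : Ent κ D := by
  have key : ∀ (y : E3) (σ : ℝ), 0 < σ → ∀ᶠ r : ℝ in atTop,
      ∫ x in closedBall y r, gk0 σ (x - y) ∂κ ≤ D := by
    intro y σ hσ
    filter_upwards [eventually_gt_atTop 0] with r hr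
    let χ : ContDiffBump y := ⟨r, r + 1, hr, lt_add_one r⟩
    have a1 : ContDiff ℝ 1 fun x => χ x * gk0 σ (x - y) := χ.contDiff.mul (contDiff_gk0 σ y)
    have a2 : HasCompactSupport fun x => χ x * gk0 σ (x - y) := χ.hasCompactSupport.mul_right
    refine le_trans ?_ (le_of_tendsto (hw _ a1 a2) (hm.mono fun i hi => ?_))
    · rw [setIntegral_congr_fun measurableSet_closedBall (g := fun x => χ x * gk0 σ (x - y))
        fun x hx => by simp only [χ.one_of_mem_closedBall hx, one_mul]]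
      exact setIntegral_le_integral (a1.continuous.integrable_of_hasCompactSupport a2)
        (Eventually.of_forall fun x => mul_nonneg χ.nonneg (gk0_pos hσ _).le)
    · have := hi.lf
      exact (integral_mono (a1.continuous.integrable_of_hasCompactSupport a2) (hi.int y σ hσ)
        fun x => mul_le_of_le_one_left (gk0_pos hσ _).le χ.le_one).trans (hi.le y σ hσ)
  have hi : ∀ (y : E3) (σ : ℝ), 0 < σ → Integrable (fun x => gk0 σ (x - y)) κ := fun y σ hσ =>
    (aecover_closedBall (x := y) tendsto_id).integrable_of_integral_bounded_of_nonneg_ae D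
      (fun r => (continuous_gk0' σ y).continuousOn.integrableOn_compact (isCompact_closedBall _ _))
      (Eventually.of_forall fun x => (gk0_pos hσ _).le) (key y σ hσ)
  exact ⟨hκ, hi, fun y σ hσ => le_of_tendsto
    ((aecover_closedBall (x := y) tendsto_id).integral_tendsto_of_countably_generated (hi y σ hσ))
    (key y σ hσ)⟩

/-- near each point a surface is a graph with small Lipschitz constant -/
lemma exists_lip {S : Set E3} (hS : IsSurf S) (p : E3) {L : ℝ} (hL : 0 < L) :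
    ∃ (δ : ℝ) (e : E3), 0 < δ ∧ ‖e‖ = 1 ∧
      ∀ y ∈ S ∩ ball p δ, ∀ y' ∈ S ∩ ball p δ, |⟪e, y - y'⟫| ≤ L * ‖y - y'‖ := by
  by_cases hp : p ∈ S
  · obtain ⟨w, h1, h2, h3⟩ := hS.2 p hp
    have h4 : 0 < ‖gradient w p‖ := norm_pos_iff.2 h2
    have h5 := (h1.contDiffAt.hasStrictFDerivAt (x := p) (by simp)).isLittleO.def (mul_pos h4 hL)
    rw [nhds_prod_eq] at h5
    obtain ⟨A, hA, h6⟩ := mem_prod_self_iff.1 h5
    obtain ⟨δ, hδ, h7⟩ := Metric.eventually_nhds_iff_ball.1 (h3.and hA)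
    refine ⟨δ, nuw w p, hδ, norm_nuw h2, fun y hy y' hy' => ?_⟩
    have h8 : ‖w y - w y' - fderiv ℝ w p (y - y')‖ ≤ ‖gradient w p‖ * L * ‖y - y'‖ :=
      h6 (mk_mem_prod (h7 y hy.2).2 (h7 y' hy'.2).2)
    rw [(h7 y hy.2).1.1 hy.1, (h7 y' hy'.2).1.1 hy'.1, sub_self, zero_sub, norm_neg, ← inner_grad,
      mul_assoc] at h8
    rwa [nuw, real_inner_smul_left, abs_mul, abs_inv, abs_norm, inv_mul_le_iff₀ h4]
  · obtain ⟨δ, hδ, h1⟩ := Metric.isOpen_iff.1 hS.1.isOpen_compl p hp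
    exact ⟨δ, EuclideanSpace.single 0 1, hδ, by simp, fun y hy => absurd hy.1 (h1 hy.2)⟩

theorem slow_proof : SLowStmt := by
  intro S D hS hE R η hη
  have h0 := om0_pos
  set L : ℝ := min (1 / 2) (η / 4) with hL
  have L0 : 0 < L := by positivity
  have L1 : L ≤ 1 / 2 := min_le_left _ _
  have L2 : L ≤ η / 4 := min_le_right _ _
  have L3 : om0 / (1 - L ^ 2) ≤ (1 + η / 2) * om0 := by
    rw [div_le_iff₀ (by nlinarith), mul_right_comm]
    refine le_mul_of_one_le_left h0.le ?_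
    nlinarith [mul_le_mul L1 L2 L0.le (by norm_num), mul_le_mul L1 L1 L0.le (by norm_num)]
  have key := (isCompact_closedBall (0 : E3) R).mem_prod_nhdsSet_of_forall (l := 𝓝[>] (0 : ℝ))
      (s := {q : ℝ × E3 | GA (hm S) q.2 q.1 ≤ (1 + η) * om0}) fun p _ => by
    obtain ⟨δ, e, hδ, he, h1⟩ := exists_lip hS p L0
    have h2 : Tendsto (fun σ : ℝ => 2 * Real.exp (-(δ / 2) ^ 2 / (8 * σ)) * D) (𝓝[>] 0)
        (𝓝 (2 * 0 * D)) := by
      refine ((Real.tendsto_exp_atBot.comp ?_).const_mul 2).mul_const D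
      refine (tendsto_inv_nhdsGT_zero.const_mul_atTop_of_neg (r := -(δ / 2) ^ 2 / 8)
        (by rw [neg_div, neg_lt_zero]; positivity)).congr fun σ => by ring
    filter_upwards [((h2.eventually (ge_mem_nhds (show 2 * 0 * D < η / 2 * om0 by
      rw [mul_zero, zero_mul]; positivity))).and self_mem_nhdsWithin).prod_mk
      (ball_mem_nhds p (half_pos hδ))] with q ⟨⟨a1, a2⟩, a3⟩
    have a4 := lip_bound (A := ball q.2 (δ / 2) ∩ S) he L0.le (by linarith) (fun y hy y' hy' =>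
      h1 y ⟨hy.2, ball_subset (by linarith [mem_ball.1 a3]) hy.1⟩
        y' ⟨hy'.2, ball_subset (by linarith [mem_ball.1 a3]) hy'.1⟩) q.2 a2
    have a5 : ∫ x in ball q.2 (δ / 2), gk0 q.1 (x - q.2) ∂(hm S) ≤ om0 / (1 - L ^ 2) := by
      rw [integral_eq_lintegral_of_nonneg_ae (Eventually.of_forall fun x => (gk0_pos a2 _).le)
        (continuous_gk0' _ _).aestronglyMeasurable, hm, Measure.restrict_restrict measurableSet_ball]
      exact ENNReal.toReal_le_of_le_ofReal (div_nonneg h0.le (by nlinarith)) a4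
    have a6 := hE.GA_le_ball q.2 (half_pos hδ).le a2
    change GA (hm S) q.2 q.1 ≤ _
    linarith
  obtain ⟨A, hA, B, hB, h2⟩ := mem_prod_iff.1 key
  obtain ⟨σ₀, h3, h4⟩ := mem_nhdsGT_iff_exists_Ioc_subset.1 hA
  exact ⟨σ₀, h3, fun y σ a b c => h2 (mk_mem_prod (h4 ⟨b, c⟩)
    (subset_of_mem_nhdsSet hB (mem_closedBall_zero_iff.2 a)))⟩

/-- the self-similar flow of a shrinker is a mean curvature flow -/
theorem isMCF_ssFlow {S : Set E3} (hS : IsShr S) : IsMCF (ssFlow S) (Iio 0) := by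
  have hm : ∀ (s : ℝ) (x : E3), x ∈ ssFlow S s ↔ (√(-s))⁻¹ • x ∈ S := fun s x => by
    simp [ssFlow, mem_scaleSet]
  have hc : ∀ t : ℝ, t < 0 → ∀ x : E3, ContinuousAt (fun p : ℝ × E3 => (√(-p.1))⁻¹ • p.2) (t, x) :=
    fun t ht x => (ContinuousAt.inv₀ (f := fun p : ℝ × E3 => √(-p.1)) (by fun_prop)
      (Real.sqrt_pos.2 (neg_pos.2 ht)).ne').smul continuousAt_snd
  refine ⟨isOpen_Iio, fun t ht x hx => ?_, fun t ht x hx => ?_⟩
  · simp only [hm] at hx ⊢
    exact (hc t ht x).eventually (hS.1.1.isOpen_compl.mem_nhds hx)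
  have ht' : 0 < -t := neg_pos.2 ht
  have hk : 0 < √(-t) := Real.sqrt_pos.2 ht'
  let χ : ContDiffBump t := ⟨-t / 4, -t / 2, by positivity, by linarith⟩
  have h1 : ∀ s, 0 < -(t + χ s * (s - t)) := fun s => by
    rcases le_or_gt (-t / 2) (dist s t) with h | h
    · rwa [χ.zero_of_le_dist h, zero_mul, add_zero]
    · have := (abs_lt.1 (Real.dist_eq s t ▸ h)).2
      nlinarith [χ.nonneg (x := s), χ.le_one (x := s)]
  have h2 : ContDiff ℝ ∞ fun s => (√(-(t + χ s * (s - t))))⁻¹ :=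
    ((contDiff_const.add (χ.contDiff.mul (contDiff_id.sub contDiff_const))).neg.sqrt
      fun s => (h1 s).ne').inv fun s => (Real.sqrt_pos.2 (h1 s)).ne'
  have h3 : ∀ᶠ s in 𝓝 t, (√(-(t + χ s * (s - t))))⁻¹ = (√(-s))⁻¹ :=
    χ.eventuallyEq_one.mono fun s hs => by simp [hs]
  have hp := (hm t x).1 hx
  obtain ⟨w, hw⟩ := hS.1.2 _ hp
  have h4 : gradient (fun y => w ((√(-(t + χ t * (t - t))))⁻¹ • y)) x =
      (√(-t))⁻¹ • gradient w ((√(-t))⁻¹ • x) := by
    simpa using gradient_comp_up (x₀ := 0) hk.ne' w x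
  refine ⟨fun p => w ((√(-(t + χ p.1 * (p.1 - t))))⁻¹ • p.2),
    hw.1.comp ((h2.comp contDiff_fst).smul contDiff_snd), ?_, ?_, ?_⟩
  · rw [h4]; exact smul_ne_zero (inv_ne_zero hk.ne') hw.2.1
  · filter_upwards [(hc t ht x).eventually hw.2.2, continuousAt_fst.eventually
      (show ∀ᶠ s in 𝓝 ((t, x) : ℝ × E3).1, _ from h3)] with p a b
    rw [b, hm, a]
  · have h5 : HasDerivAt (fun s => (√(-s))⁻¹) (-(-1 / (2 * √(-t))) / √(-t) ^ 2) t :=
      ((hasDerivAt_neg t).sqrt ht'.ne').inv hk.ne'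
    have h6 := (hw.1.differentiable (by simp) _).hasFDerivAt.comp_hasDerivAt t (h5.smul_const x)
    have h7 : Hv S ((√(-t))⁻¹ • x) = -(((2 * 1)⁻¹ * ⟪(√(-t))⁻¹ • x - 0, nu S ((√(-t))⁻¹ • x)⟫) •
        nu S ((√(-t))⁻¹ • x)) := eq_neg_of_add_eq_zero_left (hS.2 _ hp)
    obtain ⟨ε, hε, h8, -⟩ := hw.nu_sh hp
    have h9 := sign_mul_self hε
    rw [h4, (h6.congr_of_eventuallyEq (h3.mono fun s hs => by simp only [hs]; rfl)).deriv,
      ssFlow, Hv_scale hk hx, zero_add, h7, h8, ← inner_grad]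
    have h10 := grad_eq_smul_nuw hw.2.1
    have h11 := norm_nuw hw.2.1
    generalize nuw w ((√(-t))⁻¹ • x) = n at *
    rw [h10]
    simp only [inner_smul_left, inner_smul_right, inner_neg_right, sub_zero, conj_trivial,
      real_inner_self_eq_norm_sq, h11, real_inner_comm n x]
    field_simp
    rw [sq ε, h9]
    ring

theorem class_proof : ClassStmt := by
  intro S D G hS hE hG
  have h1 : AreaRatio (cE * (Real.exp (1 / 4) * D)) S := fun p r hr => by
    have := locFin_hm hS.1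
    rw [area_eq, Measure.smul_apply, ENNReal.smul_def, smul_eq_mul, mul_assoc,
      ENNReal.ofReal_mul cE_pos.le, ENNReal.ofReal_coe_nnreal]
    refine mul_le_mul_right ((measure_mono ball_subset_closedBall).trans ?_) _
    rw [← ofReal_measureReal measure_closedBall_lt_top.ne, mul_right_comm]
    exact ENNReal.ofReal_le_ofReal (hE.ball_le p hr)
  exact ⟨_, isMCF_ssFlow hS, fun t ht => h1.scale (Real.sqrt_pos.2 (neg_pos.2 ht)) 0,
    fun t ht => hG.scale (Real.sqrt_pos.2 (neg_pos.2 ht)) hS.1.1.measurableSet 0⟩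

end Vale.Agent.P218G.Rg
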