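import Vale.Agent.P218G.Drop
import Vale.Agent.P218FT.AI
import Vale.Agent.P218FT.NC
import Vale.Agent.P218FT.Trans

/-! Approximate invariance of weak flows from a bounded potential of the curvature and a small
dissipation. -/

open MeasureTheory Set Filter Topology Metric
open scoped ENNReal NNReal RealInnerProductSpace ContDiff

namespace Vale.Agent.P218G

open P218FT

/-- a time with small curvature integral -/
theorem aiw_good_time {M : ℝ → Set E3} {L Γ R κ : ℝ} {P : ℝ → Prop}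
    (hP : ∀ᵐ s ∂(volume.restrict (Icc (-Γ ^ 2) (-Γ))), P s) (hΓ : 1 < Γ) (hRΓ : R ^ 2 ≤ Γ)
    (hR1 : R ≤ Γ) (hκ : 0 < κ) (hL : L < κ / 32 * Real.log Γ)
    (h : potA M 0 0 Γ (-Γ ^ 2) (-1) ≤ ENNReal.ofReal L) :
    ∃ s ∈ Icc (-Γ ^ 2) (-Γ), P s ∧
      ∫⁻ x in ball 0 R, ENNReal.ofReal (a2 (M s) x) ∂(area (M s)) ≤ ENNReal.ofReal κ := by
  by_contra hc
  push Not at hc
  have hΓ0 : 0 < Γ := by linarith
  have hle : -Γ ^ 2 ≤ -Γ := by nlinarith
  have hlog : 0 < Real.log Γ := Real.log_pos hΓ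
  have hint : ∫ s in (-Γ ^ 2)..(-Γ), κ / 32 * (-s⁻¹) = κ / 32 * Real.log Γ := by
    rw [intervalIntegral.integral_const_mul, intervalIntegral.integral_neg,
      integral_inv_of_neg (by nlinarith) (by linarith)]
    have : -Γ / -Γ ^ 2 = Γ⁻¹ := by field_simp
    rw [this, Real.log_inv, neg_neg]
  have hcont : ContinuousOn (fun s : ℝ => κ / 32 * (-s⁻¹)) (Icc (-Γ ^ 2) (-Γ)) := by
    refine continuousOn_const.mul (ContinuousOn.neg (continuousOn_inv₀.mono ?_))
    intro s hs
    have := hs.2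
    simp only [mem_compl_iff, mem_singleton_iff]
    linarith
  have hnn : ∀ s ∈ Icc (-Γ ^ 2) (-Γ), 0 ≤ κ / 32 * (-s⁻¹) := by
    intro s hs
    have h1 : s < 0 := by linarith [hs.2]
    have h2 : s⁻¹ < 0 := inv_lt_zero.mpr h1
    have : 0 ≤ -s⁻¹ := by linarith
    positivity
  have e1 : ENNReal.ofReal (κ / 32 * Real.log Γ) =
      ∫⁻ s in Icc (-Γ ^ 2) (-Γ), ENNReal.ofReal (κ / 32 * (-s⁻¹)) := by
    rw [← hint, intervalIntegral.integral_of_le hle, ← integral_Icc_eq_integral_Ioc,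
      ofReal_integral_eq_lintegral_ofReal (hcont.integrableOn_compact isCompact_Icc)]
    filter_upwards [ae_restrict_mem measurableSet_Icc] with s hs using hnn s hs
  have e2 : ∫⁻ s in Icc (-Γ ^ 2) (-Γ), ENNReal.ofReal (κ / 32 * (-s⁻¹)) ≤
      potA M 0 0 Γ (-Γ ^ 2) (-1) := by
    unfold potA
    refine le_trans ?_ (lintegral_mono_set (Icc_subset_Icc le_rfl (by linarith : -Γ ≤ -1)))
    refine lintegral_mono_ae ?_
    filter_upwards [hP, ae_restrict_mem measurableSet_Icc] with s hPs hs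
    have hs0 : 0 < 0 - s := by linarith [hs.2]
    refine le_trans ?_ (lintegral_mono_set (ball_subset_ball hR1))
    calc ENNReal.ofReal (κ / 32 * (-s⁻¹))
        = ENNReal.ofReal (32 * (0 - s))⁻¹ * ENNReal.ofReal κ := by
          rw [← ENNReal.ofReal_mul (by positivity)]
          congr 1
          have : s ≠ 0 := by linarith
          rw [zero_sub]; field_simp
      _ ≤ ENNReal.ofReal (32 * (0 - s))⁻¹ *
          ∫⁻ x in ball 0 R, ENNReal.ofReal (a2 (M s) x) ∂(area (M s)) := by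
          gcongr
          exact (hc s hs hPs).le
      _ = ∫⁻ x in ball 0 R, ENNReal.ofReal (32 * (0 - s))⁻¹ * ENNReal.ofReal (a2 (M s) x)
            ∂(area (M s)) := by
          rw [lintegral_const_mul' _ _ ENNReal.ofReal_ne_top]
      _ ≤ _ := by
          refine setLIntegral_mono' measurableSet_ball fun y hy => ?_
          rw [ENNReal.ofReal_mul' (gk_nonneg hs0.le _), mul_comm]
          gcongr
          apply ai_gk_lower hs0
          have h1 : ‖y‖ < R := by simpa using hy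
          have h2 : ‖y‖ ^ 2 ≤ R ^ 2 := by gcongr
          linarith [hs.2]
  have e3 := (e1.le.trans e2).trans h
  rw [ENNReal.ofReal_le_ofReal_iff'] at e3
  rcases e3 with e3 | e3
  · linarith
  · have : 0 < κ / 32 * Real.log Γ := by positivity
    linarith

theorem aiW_of (hNC : NCStmt) (hT : TransStmt) : AIW := by
  intro D₀ L R η hR hη
  set D : ℝ := max D₀ 1 with hDdef
  have hD : 0 < D := lt_of_lt_of_le one_pos (le_max_right _ _)
  set γ : ℝ := η / (9 * R * (D * (2 * R) ^ 2)) with hγ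
  set c' : ℝ := η / (9 * R) with hc'
  have hγ0 : 0 < γ := by positivity
  have hc0 : 0 < c' := by positivity
  obtain ⟨η', R', hη', hRR', hnc⟩ := hNC D γ (3 * R) c' hγ0 (by positivity) hc0
  have hR' : 0 < R' := by linarith
  set δ : ℝ := min η' (c' / 2) with hδ
  have hδ0 : 0 < δ := lt_min hη' (by positivity)
  set θ : ℝ := δ / (2 * (D * R' ^ 2)) with hθ
  have hθ0 : 0 < θ := by positivity
  set κ : ℝ := θ * δ / 2 with hκ
  have hκ0 : 0 < κ := by positivity
  set Γ : ℝ := Real.exp (32 * |L| / κ) + 5 + R' + R' ^ 2 with hΓ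
  have hex := Real.exp_pos (32 * |L| / κ)
  have hΓ5 : 5 ≤ Γ := by have := sq_nonneg R'; linarith
  have hΓR : R' ≤ Γ := by have := sq_nonneg R'; linarith
  have hΓR2 : R' ^ 2 ≤ Γ := by linarith
  have hΓ0 : 0 < Γ := by linarith
  have hlog : L < κ / 32 * Real.log Γ := by
    have h1 : 32 * |L| / κ < Real.log Γ := by
      rw [Real.lt_log_iff_exp_lt hΓ0]
      have := sq_nonneg R'
      linarith
    have h2 : κ / 32 * (32 * |L| / κ) = |L| := by field_simp
    have h3 : κ / 32 * (32 * |L| / κ) < κ / 32 * Real.log Γ := by gcongr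
    linarith [le_abs_self L]
  set α : ℝ := η / (6 * (D * R ^ 2) * Γ ^ 2) with hα
  have hα0 : 0 < α := by positivity
  set d : ℝ := η / (6 * (2 + α⁻¹)) with hd
  have hd0 : 0 < d := by positivity
  refine ⟨Γ, d / Γ ^ 2, by linarith, by positivity, ?_⟩
  intro μ M J I hM₀ hI hpot hdiss
  have hM : WF D μ M J I := hM₀.mono_D (le_max_left _ _)
  have hdd : d / Γ ^ 2 * Γ ^ 2 = d := by field_simp
  rw [hdd] at hdiss
  have hP : ∀ᵐ s ∂(volume.restrict (Icc (-Γ ^ 2) (-Γ))), s ∈ J ∧ s ≠ -Γ ^ 2 :=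
    (hM.ae_Icc ((Icc_subset_Icc_right (by linarith)).trans hI)).and
      (ae_restrict_of_ae (Measure.ae_ne volume _))
  obtain ⟨s, hs, ⟨hsI, hs1⟩, hs2⟩ := aiw_good_time hP (by linarith) hΓR2 hΓR hκ0 hlog hpot
  have hs1' : -Γ ^ 2 < s := lt_of_le_of_ne hs.1 hs1.symm
  have hsurf := hM.isSurf hsI
  have hsq := ai_lint_sqrt hD.le (hM.areaRatio hsI) hR' hθ0 hκ0.le hs2
  have hδe : θ * (D * R' ^ 2) + θ⁻¹ * κ = δ := by
    rw [hκ, hθ]; field_simp; ring
  rw [hδe] at hsq
  obtain ⟨e, he, hbad⟩ := hnc (M s) hsurf (hM.areaRatio hsI)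
    (hsq.trans (ENNReal.ofReal_le_ofReal (min_le_left _ _)))
  refine ⟨e, he, ?_⟩
  intro ζ p K hp hζ t ht t' ht' b hb hbR
  have hK := hζ.nonneg
  have hst : s ≤ t := by linarith [hs.2, ht.1]
  have hstat : ∀ (ξ : E3 → ℝ) (q : E3) (u : ℝ), Test ξ q R K → ‖q‖ ≤ 2 * R → s ≤ u → u < 0 →
      |∫ x, ξ x ∂(μ u) - ∫ x, ξ x ∂(area (M s))| ≤ K * (η / 3) := by
    intro ξ q u hξ hq hsu hu
    have hball : ball q (R + 1) ⊆ ball (0 : E3) Γ :=
      ball_subset_ball' (by have := sq_nonneg R'; simp only [dist_zero_right]; linarith)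
    have h1 := hM.static hD.le hR (lt_add_one R) hξ hs1' hsu hu (Ioo_subset_Icc_self.trans hI) hα0
      hd0.le hd0.le
      (((diss_mono le_rfl ((ball_subset_ball (by linarith)).trans hball) hs.1 hu.le).trans
        diss_le_dis2).trans hdiss)
      (((drop_mono (prod_mono Subset.rfl hball)).trans drop_le_dis2).trans hdiss)
    rw [hM.eq s hsI] at h1
    refine h1.trans ?_
    gcongr
    have h2 : α * (D * R ^ 2) * (u - s) ≤ α * (D * R ^ 2) * Γ ^ 2 := by
      gcongr
      linarith [hs.1]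
    have h3 : α * (D * R ^ 2) * Γ ^ 2 = η / 6 := by rw [hα]; field_simp
    have h4 : (1 + α⁻¹) * d + d = η / 6 := by rw [hd]; field_simp; ring
    linarith
  have hsub : ball p (2 * R) ⊆ ball (0 : E3) (3 * R) :=
    ball_subset_ball' (by simp only [dist_zero_right]; linarith)
  have hH : ∫⁻ x in ball p (2 * R), ENNReal.ofReal ‖Hv (M s) x‖ ∂(area (M s))
      ≤ ENNReal.ofReal c' := by
    calc ∫⁻ x in ball p (2 * R), ENNReal.ofReal ‖Hv (M s) x‖ ∂(area (M s))
        ≤ ∫⁻ x in ball 0 R', ENNReal.ofReal ‖Hv (M s) x‖ ∂(area (M s)) :=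
          lintegral_mono_set (hsub.trans (ball_subset_ball hRR'))
      _ ≤ ∫⁻ x in ball 0 R', ENNReal.ofReal 2 * ENNReal.ofReal √(a2 (M s) x) ∂(area (M s)) := by
          refine lintegral_mono_ae ?_
          have hae : ∀ᵐ x ∂(area (M s)), x ∈ M s := ae_restrict_mem hsurf.1.measurableSet
          filter_upwards [ae_restrict_of_ae hae] with x hx
          rw [← ENNReal.ofReal_mul (by norm_num)]
          exact ENNReal.ofReal_le_ofReal (hsurf.norm_Hv_le hx)
      _ ≤ ENNReal.ofReal 2 * ENNReal.ofReal δ := by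
          rw [lintegral_const_mul' _ _ ENNReal.ofReal_ne_top]
          gcongr
      _ ≤ ENNReal.ofReal c' := by
          rw [← ENNReal.ofReal_mul (by norm_num)]
          apply ENNReal.ofReal_le_ofReal
          have := min_le_right η' (c' / 2)
          linarith
  have hB : area (M s) {x | x ∈ ball p (2 * R) ∧ γ ^ 2 < 1 - ⟪nu (M s) x, e⟫ ^ 2}
      ≤ ENNReal.ofReal c' := by
    refine le_trans (measure_mono ?_) hbad
    intro x hx
    exact ⟨hsub hx.1, hx.2⟩
  have h2 := hT D hD.le (M s) hsurf (hM.areaRatio hsI) ζ p e b R K γ c' c' hR hζ he hb hbR hγ0.le hc0.le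
    hc0.le hH hB
  have h2' : K * ‖b‖ * (c' + γ * (D * (2 * R) ^ 2) + c') ≤ K * (η / 3) := by
    have e1 : γ * (D * (2 * R) ^ 2) = c' := by rw [hγ, hc']; field_simp
    have e2 : R * (c' + c' + c') = η / 3 := by rw [hc']; field_simp; ring
    rw [e1, mul_assoc, ← e2]
    gcongr
  have h1 := hstat (fun x => ζ (x - b)) (p + b) t (hζ.translate b)
    ((norm_add_le _ _).trans (by linarith)) hst ht.2
  have h3 := hstat ζ p t' hζ (by linarith) (by linarith [hs.2, ht'.1]) ht'.2
  have h4 := h2.trans h2'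
  rw [abs_le] at h1 h3 h4 ⊢
  have e9 : η * K = K * (η / 3) + K * (η / 3) + K * (η / 3) := by ring
  constructor <;> linarith [h1.1, h1.2, h3.1, h3.2, h4.1, h4.2]

theorem aiW_proof : AIW :=
  aiW_of (nc_proof fv_proof Chart.lower_proof) (trans_proof fv_proof)

end Vale.Agent.P218G
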