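import Vale.Agent.P218G.BGFlow
import Vale.Agent.P218F.EndsFin

/-! Shrinkers with bounded geometry: every direction is regular or cylindrical. -/

open MeasureTheory Set Filter Topology Metric
open scoped ENNReal NNReal RealInnerProductSpace ContDiff

namespace Vale.Agent.P218G.BG

open P218FT P218FT.Conv P218F P218F.Ends

/-- convergence of the rescalings of a flow with a two-point bound of type I -/
theorem conv_core {D a b : ℝ} {M : ℝ → Set E3} (hab : a < b) (hM : IsMCF M (Ioo a b))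
    (hA₀ : ∀ t ∈ Ioo a b, AreaRatio D (M t)) (x₀ : E3)
    (hT : ∀ R : ℝ, ∃ r C t₁ : ℝ, 0 < r ∧ 0 < C ∧ t₁ < b ∧ ∀ t ∈ Ioo t₁ b, ∀ x ∈ M t,
      ‖x - x₀‖ ≤ R * √(b - t) → TwoPt (M t) x (r * √(b - t)) (C / √(b - t)))
    {ι : Type} (U : Ultrafilter ι) {lam : ι → ℝ} (hl : Tendsto lam U atTop) :
    ∃ S : Set E3, IsShr S ∧ SLim U (fun i => scaleFlow (lam i) x₀ b M) (ssFlow S) (Iio 0) ∧
      Tendsto (fun r => dens M x₀ b r) (𝓝[>] 0) (𝓝 (gA S 0 1)) := by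
  have hH := Hu.huisken_proof fv_proof cont_proof ev_proof
  have hin : ∀ s < 0, ∀ᶠ i in (U : Filter ι), 0 < lam i ∧ s ∈ scaleInt (lam i) b (Ioo a b) :=
    fun s hs => (ev_time hl hab s).mono fun i hi => ⟨hi.1, hi.2 s le_rfl, tup_lt hi.1 hs⟩
  obtain ⟨L, hL, hS⟩ := Conv.comp_proof ι U (fun i => scaleFlow (lam i) x₀ b M)
    (fun i => scaleInt (lam i) b (Ioo a b)) (Iio 0) isOpen_Iio
    ((hl.eventually_gt_atTop 0).mono fun i hi => hM.scale hi x₀ b)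
    (fun t ht => by
      have ht' : t < 0 := ht
      refine ⟨Ioo (2 * t) 0, Ioo_mem_nhds (by linarith) ht', ?_⟩
      filter_upwards [ev_time hl hab (2 * t)] with i hi u hu
      exact ⟨hi.2 u hu.1.le, tup_lt hi.1 hu.2⟩)
    (fun t ht x => by
      have ht' : t < 0 := ht
      have q0 : 0 < √(-(t / 2)) := Real.sqrt_pos.2 (by linarith)
      obtain ⟨r, C, t₁, r0, C0, h1, h2⟩ := hT ((‖x‖ + 1) / √(-(t / 2)))
      refine ⟨Ioo (2 * t) (t / 2) ×ˢ ball x 1, prod_mem_nhds (Ioo_mem_nhds (by linarith)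
        (by linarith)) (ball_mem_nhds x one_pos), r * √(-(t / 2)), C / √(-(t / 2)),
        by positivity, ?_⟩
      filter_upwards [ev_time hl h1 (2 * t)] with i hi p hp hm
      have l0 := hi.1
      have hq : √(-(t / 2)) ≤ √(-p.1) := Real.sqrt_le_sqrt (by linarith [hp.1.2])
      have hy : ‖p.2‖ ≤ ‖x‖ + 1 := by
        have h3 := mem_ball_iff_norm.1 hp.2
        linarith [norm_le_norm_add_norm_sub' p.2 x, norm_sub_rev p.2 x]
      have h3 := h2 (b + p.1 / lam i ^ 2) ⟨hi.2 _ hp.1.1.le, tup_lt l0 (by linarith [hp.1.2])⟩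
        _ hm (by
          rw [add_sub_cancel_left, norm_smul, norm_inv, Real.norm_eq_abs, abs_of_pos l0,
            sqrt_tup l0, ← mul_div_assoc, inv_mul_eq_div]
          refine div_le_div_of_nonneg_right (hy.trans ?_) l0.le
          rw [div_mul_eq_mul_div, le_div_iff₀ q0]
          exact mul_le_mul_of_nonneg_left hq (by positivity))
      rw [sqrt_tup l0] at h3
      refine (twoPt_scale l0 hm _ _).2 (twoPt_mono h3 ?_ ?_)
      · rw [mul_div_assoc]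
        gcongr
      · rw [div_div_eq_mul_div, div_mul_eq_mul_div]
        gcongr)
  have hsl := fun s (hs : s < 0) => Conv.b_proof.2 ι U _ _
    ((hin s hs).mono fun i hi => (hM.scale hi.1 x₀ b).isSurf hi.2) (hL.isSurf hs)
    (Conv.b_proof.1 ι U _ L _ hS s hs)
  have hA := fun s (hs : s < 0) => (hsl s hs).1 D
    ((hin s hs).mono fun i hi => ratio_scaleFlow hi.1 hA₀ x₀ b s hi.2)
  have q0 : 0 < √(b - a) := Real.sqrt_pos.2 (sub_pos.2 hab)
  have hmono : MonotoneOn (fun r => dens M x₀ b r) (Ioo 0 √(b - a)) := fun r hr r' hr' h =>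
    Hu.dens_mono hH hM hA₀ x₀ b hr.1 h fun u hu => by
      have h1 := (Real.lt_sqrt hr'.1.le).1 hr'.2
      have h2 := pow_pos hr.1 2
      exact ⟨by linarith [hu.1], by linarith [hu.2]⟩
  have hΘ := hmono.tendsto_nhdsWithin_Ioo_right (nonempty_Ioo.2 q0)
    ⟨0, by rintro _ ⟨r, -, rfl⟩; exact Hu.gA_nonneg _ _ _⟩
  set Θ := sInf ((fun r => dens M x₀ b r) '' Ioo 0 √(b - a))
  have hc : ∀ s < 0, gA (L s) 0 √(0 - s) = Θ := fun s hs => by
    have s0 : 0 < √(0 - s) := Real.sqrt_pos.2 (by linarith)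
    refine tendsto_nhds_unique ((hA s hs).2 0 _ s0) ?_
    have h1 : Tendsto (fun i => √(0 - s) / lam i) U (𝓝[>] 0) :=
      tendsto_nhdsWithin_iff.2 ⟨tendsto_const_nhds.div_atTop hl,
        (hl.eventually_gt_atTop 0).mono fun i hi => div_pos s0 hi⟩
    refine (hΘ.comp h1).congr' ?_
    filter_upwards [hl.eventually_gt_atTop 0] with i hi
    rw [scaleFlow_apply, gA_scale hi, Function.comp_apply, dens, div_pow,
      Real.sq_sqrt (by linarith), smul_zero, add_zero, zero_sub, neg_div, sub_neg_eq_add]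
  have hV := fun s hs x hx => relV_eq_zero hL (fun t ht => (hA t ht).1) hc (s := s) hs (x := x) hx
  have hss := fun s (hs : s ∈ Iio (0 : ℝ)) => self_similar hL hV (s := s) hs
  have m1 : (-1 : ℝ) < 0 := by norm_num
  refine ⟨L (-1), ⟨hL.isSurf m1, fun x hx => by simpa using hV (-1) m1 x hx⟩,
    hS.congr isOpen_Iio hss, ?_⟩
  have := hc (-1) m1
  rw [zero_sub, neg_neg, Real.sqrt_one] at this
  rwa [this]

/-- a shrinker with bounded area ratios and bounded geometry along rays -/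
structure HypR (D : ℝ) (S : Set E3) : Prop where
  shr : IsShr S
  ratio : AreaRatio D S
  ray : ∀ y : E3, ‖y‖ = 1 → ∀ R : ℝ, ∃ r C t₁ : ℝ, 0 < r ∧ 0 < C ∧ t₁ < 0 ∧ ∀ t ∈ Ioo t₁ 0,
    ∀ x ∈ ssFlow S t, ‖x - y‖ ≤ R * √(0 - t) → TwoPt (ssFlow S t) x (r * √(0 - t)) (C / √(0 - t))

namespace HypR

variable {D : ℝ} {S : Set E3} (h : HypR D S)
include h

theorem mcf : IsMCF (ssFlow S) (Iio 0) := mcf_ss h.shr

theorem ratios : ∀ t ∈ Iio (0 : ℝ), AreaRatio D (ssFlow S t) := ratio_ss h.ratio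

theorem one_le {x : E3} (hx : x ∈ S) {κ : ℝ} (hκ : 1 < κ) :
    1 ≤ gA S (κ⁻¹ • x) (√(κ ^ 2 - 1) / κ) := by
  have h1 : 0 < κ ^ 2 - 1 := by nlinarith
  have := PI.one_le_dens huisken Hu.dens_proof h.mcf h.ratios (t := -1) (x := x) (Real.sqrt_pos.2 h1)
    (fun s hs => lt_of_le_of_lt hs.2 (by norm_num)) (by rwa [ss_neg_one])
  rw [dens_ss _ (by rw [Real.sq_sqrt h1.le]; nlinarith), Real.sq_sqrt h1.le,
    show κ ^ 2 - 1 - -1 = κ ^ 2 by ring, Real.sqrt_sq (by linarith)] at this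
  exact this

theorem dens_mono (y : E3) {t r r₁ : ℝ} (ht : t ≤ 0) (hr : 0 < r) (hr₁ : r ≤ r₁) :
    dens (ssFlow S) y t r ≤ dens (ssFlow S) y t r₁ := by
  have hρ2 : r ^ 2 ≤ r₁ ^ 2 := by gcongr
  have hρ0 : 0 < r ^ 2 := by positivity
  have H := huisken D _ _ h.mcf h.ratios y t (t - r₁ ^ 2) (t - r ^ 2) (by linarith)
    (by linarith) (fun s hs => lt_of_le_of_lt hs.2 (by linarith))
  rw [show t - (t - r ^ 2) = r ^ 2 by ring, show t - (t - r₁ ^ 2) = r₁ ^ 2 by ring,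
    Real.sqrt_sq hr.le, Real.sqrt_sq (hr.le.trans hr₁)] at H
  exact (ENNReal.ofReal_le_ofReal_iff (PI.gA_nonneg _ _ _)).mp (le_self_add.trans H)

theorem reg {y : E3} {θ : ℝ} (hθ : θ ≤ 1)
    (hl : Tendsto (fun r => dens (ssFlow S) y 0 r) (𝓝[>] 0) (𝓝 θ)) : Ends.Reg S y := by
  obtain ⟨ε, r, C, hε, hr, hC, hW⟩ := white D
  obtain ⟨r₁, h1, hr₁⟩ := ((hl.eventually (gt_mem_nhds (show θ < 1 + ε by linarith))).and
    self_mem_nhdsWithin).exists
  have hr₁ : 0 < r₁ := hr₁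
  have hsq : 0 < r₁ ^ 2 := by positivity
  have c1 : ContinuousAt (fun p : E3 × ℝ =>
      gA S ((√(r₁ ^ 2 - p.2))⁻¹ • p.1) (r₁ / √(r₁ ^ 2 - p.2))) (y, 0) := by
    have hs : √(r₁ ^ 2 - 0) ≠ 0 := (Real.sqrt_pos.2 (by linarith)).ne'
    have c0 : ContinuousAt (fun p : E3 × ℝ => √(r₁ ^ 2 - p.2)) (y, 0) := by fun_prop
    refine (continuousAt_gA h.ratio _ (div_pos hr₁ (Real.sqrt_pos.2 (by linarith)))).comp_of_eq
      (f := fun p : E3 × ℝ => ((√(r₁ ^ 2 - p.2))⁻¹ • p.1, r₁ / √(r₁ ^ 2 - p.2)))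
      (((c0.inv₀ hs).smul continuousAt_fst).prodMk (continuousAt_const.div c0 hs)) rfl
  rw [dens_ss _ hsq] at h1
  obtain ⟨η, hη, H⟩ := Metric.eventually_nhds_iff.1 (c1.eventually_lt continuousAt_const h1)
  obtain ⟨ρ, hρ, hρ1, hρ2, hρ3⟩ : ∃ ρ : ℝ, 0 < ρ ∧ ρ ≤ r₁ ∧ 3 * ρ ≤ η ∧ 4 * ρ ^ 2 < η := by
    refine ⟨min r₁ (min (η / 8) 1), by positivity, min_le_left _ _, ?_, ?_⟩
    · have := (min_le_right r₁ _).trans (min_le_left (η / 8) 1); linarith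
    · have a1 := (min_le_right r₁ _).trans (min_le_left (η / 8) 1)
      have a2 := (min_le_right r₁ _).trans (min_le_right (η / 8) 1)
      have a3 : 0 < min r₁ (min (η / 8) 1) := by positivity
      nlinarith
  refine ⟨ρ, r * ρ, C / ρ, hρ, by positivity, by positivity, fun t ht x hx hxy => ?_⟩
  have hρ0 : 0 < ρ ^ 2 := by positivity
  refine hW.zoom hρ h.mcf h.ratios y t (fun s hs => lt_of_le_of_lt hs.2 ht.2)
    (fun y' hy' s hs => ?_) t ⟨by linarith, le_rfl⟩ x hx (by rwa [mem_ball, dist_eq_norm])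
  have hs0 : s < 0 := lt_of_le_of_lt hs.2 ht.2
  refine (h.dens_mono y' hs0.le hρ hρ1).trans ?_
  rw [dens_ss _ (by linarith)]
  refine (H (y := (y', s)) ?_).le
  rw [Prod.dist_eq, max_lt_iff]
  refine ⟨lt_of_lt_of_le hy' hρ2, ?_⟩
  rw [Real.dist_eq, sub_zero, abs_of_neg hs0]
  linarith [hs.1, ht.1]

theorem dichotomy {y : E3} (hy : ‖y‖ = 1) : Ends.Reg S y ∨ CylDir S y := by
  rw [or_iff_not_imp_left]
  intro hn ι U lam hlam
  have hS := Conv.slice_proof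
  obtain ⟨S', h1, h2, h3⟩ := conv_core (a := -2) (b := 0) (by norm_num)
    (h.mcf.mono isOpen_Ioo Ioo_subset_Iio_self) (fun t ht => h.ratios t ht.2) y
    (h.ray y hy) U hlam
  rcases classify_proof S' y h1.1 h1.2 hy (fun x hx => nu_orth h1.1
    (fun x hx a => transl_inv hS hlam h2 hx a) hx) with h4 | ⟨n, hn1, -, h4⟩ | h4
  · refine absurd (h.reg (θ := gA S' 0 1) ?_ h3) hn
    simp [h4, gA, area]
  · exact absurd (h.reg (by rw [h4, gA_plane hn1]) h3) hn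
  · have h5 := hS _ _ _ _ _ h2 (-1) (by simp)
    rw [ss_neg_one, h4] at h5
    refine SLimS_congr h5 ?_
    filter_upwards [hlam.eventually (eventually_gt_atTop 0)] with i hi
    exact scaleFlow_ss_neg_one hi y

/-- near a cylindrical direction the surface lies in a tube -/
theorem tube {y : E3} (hc : CylDir S y) (hy : ‖y‖ = 1) :
    ∃ L δ : ℝ, 0 < L ∧ 0 < δ ∧ ∀ x ∈ S, ‖pt y x‖ ≤ δ * ⟪y, x⟫ → ‖pt y x‖ ≤ L := by
  obtain ⟨ρ₀, h0, H⟩ := exists_near D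
  obtain ⟨μ₁, hμ⟩ := eventually_atTop.1 ((hc.close hy (2 * ρ₀ + 3) (ε := 1 / 2)
    (by norm_num)).and (eventually_gt_atTop 0))
  have hμ1 : 0 < μ₁ := (hμ μ₁ le_rfl).2
  refine ⟨ρ₀ + 3, (ρ₀ + 3) / μ₁, by positivity, by positivity, fun x hx hd => ?_⟩
  by_contra hn
  push Not at hn
  set κ := ‖pt y x‖ / (ρ₀ + 3) with hκ
  have hκ1 : 1 < κ := (one_lt_div (by positivity)).2 hn
  have hκ0 : 0 < κ := by linarith
  obtain ⟨p, hp, hd'⟩ := H S h.ratio _ _ (div_pos (Real.sqrt_pos.2 (by nlinarith)) hκ0)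
    ((div_le_one hκ0).2 (Real.sqrt_le_iff.2 ⟨hκ0.le, by linarith⟩)) (h.one_le hx hκ1)
  have e1 : ‖κ⁻¹ • pt y x‖ = ρ₀ + 3 := by
    rw [norm_smul, Real.norm_eq_abs, abs_of_pos (inv_pos.2 hκ0), hκ]
    have : ‖pt y x‖ ≠ 0 := by linarith
    field_simp
  have e2 : μ₁ ≤ κ⁻¹ * ⟪y, x⟫ := by
    rw [le_inv_mul_iff₀ hκ0, hκ, div_mul_eq_mul_div, div_le_iff₀ (by positivity)]
    rw [div_mul_eq_mul_div, le_div_iff₀ hμ1] at hd
    linarith
  have e3 : p - (κ⁻¹ * ⟪y, x⟫) • y = (p - κ⁻¹ • x) + κ⁻¹ • pt y x := by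
    rw [pt_apply, smul_sub, smul_smul]; abel
  have e4 := (hμ _ e2).1 (p - (κ⁻¹ * ⟪y, x⟫) • y) (by
    rw [e3]
    exact (norm_add_le _ _).trans (by linarith)) (by rwa [add_sub_cancel])
  rw [e3, map_add, map_smul, pt_pt hy] at e4
  have e5 : ‖κ⁻¹ • pt y x‖ ≤ ‖pt y (p - κ⁻¹ • x) + κ⁻¹ • pt y x‖ + ‖pt y (p - κ⁻¹ • x)‖ := by
    simpa using norm_sub_le (pt y (p - κ⁻¹ • x) + κ⁻¹ • pt y x) (pt y (p - κ⁻¹ • x))
  have e6 := norm_pt_le hy (p - κ⁻¹ • x)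
  have e7 : √2 < 2 := (Real.sqrt_lt' (by norm_num)).2 (by norm_num)
  linarith [(abs_lt.1 e4).2]

theorem far_cyl {y : E3} (hc : CylDir S y) (hy : ‖y‖ = 1) :
    ∃ O ∈ 𝓝 y, Far S O := by
  obtain ⟨L, δ, -, hδ, H⟩ := h.tube hc hy
  obtain ⟨r, C, t₁, hr, hC, ht₁, H'⟩ := h.ray y hy L
  have hyy : ⟪y, y⟫ = 1 := by rw [real_inner_self_eq_norm_sq, hy, one_pow]
  have e1 : ∀ᶠ y' in 𝓝 y, ‖pt y y'‖ < δ * ⟪y, y'⟫ :=
    ContinuousAt.eventually_lt (by fun_prop) (by fun_prop) (by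
      rw [pt_apply, hyy, one_smul, sub_self, norm_zero, mul_one]; exact hδ)
  have e2 : ∀ᶠ y' in 𝓝 y, 1 / 2 < ⟪y, y'⟫ :=
    ContinuousAt.eventually_lt continuousAt_const (by fun_prop) (by rw [hyy]; norm_num)
  refine ⟨_, e1.and e2, 2 * (1 + (-t₁)⁻¹), r, C, hr, hC, fun l hl y' ⟨h1, h2⟩ hS => ?_⟩
  have ht : 0 < (-t₁)⁻¹ := inv_pos.2 (by linarith)
  have h0 : 0 < l := by linarith
  obtain ⟨z, hz⟩ : ∃ z, z = ⟪y, l • y'⟫ := ⟨_, rfl⟩
  have hz1 : 1 + (-t₁)⁻¹ ≤ z := by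
    rw [hz, real_inner_smul_right]; nlinarith
  have hz0 : 0 < z := by linarith
  have h3 : ‖pt y (l • y')‖ ≤ L := H _ hS (by
    rw [map_smul, norm_smul, Real.norm_eq_abs, abs_of_pos h0, real_inner_smul_right]
    nlinarith)
  have h4 : z • z⁻¹ • l • y' = l • y' := smul_inv_smul₀ hz0.ne' _
  have h5 : √(0 - -(z ^ 2)⁻¹) = z⁻¹ := by rw [zero_sub, sqrt_inv_sq hz0]
  have h6 : (z ^ 2)⁻¹ < -t₁ := inv_lt_of_inv_lt₀ (by linarith) (by nlinarith)
  have h7 : 0 < (z ^ 2)⁻¹ := by positivity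
  have h8 := twoPt_of_ss hz0 (h4.symm ▸ hS) (H' (-(z ^ 2)⁻¹) ⟨by linarith, by linarith⟩
    (z⁻¹ • l • y') ((mem_ss_inv_sq hz0).2 (h4.symm ▸ hS)) (by
      have : z⁻¹ • l • y' - y = z⁻¹ • pt y (l • y') := by
        rw [pt_apply, ← hz, smul_sub, inv_smul_smul₀ hz0.ne']
      rw [this, h5, norm_smul, Real.norm_eq_abs, abs_of_pos (inv_pos.2 hz0), mul_comm]
      exact mul_le_mul_of_nonneg_right h3 (inv_pos.2 hz0).le))
  rw [h4, h5] at h8
  exact TwoPt.mono' h8 (le_of_eq (by field_simp)) (le_of_eq (by field_simp))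

theorem bdd : ∃ r C : ℝ, 0 < r ∧ 0 < C ∧ ∀ x ∈ S, TwoPt S x r C := by
  obtain ⟨R, r, C, hr, hC, H⟩ : Far S (sphere 0 1) := by
    refine (isCompact_sphere (0 : E3) 1).induction_on (p := Far S) ⟨0, 1, 1, one_pos, one_pos, by simp⟩
      (fun s t hst ⟨R, r, C, hr, hC, H⟩ => ⟨R, r, C, hr, hC, fun l hl y hy => H l hl y (hst hy)⟩)
      (fun s t ⟨R, r, C, hr, hC, H⟩ ⟨R', r', C', hr', hC', H'⟩ =>
        ⟨max R R', min r r', max C C', by positivity, by positivity, fun l hl y hy hS => ?_⟩)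
      fun y hy => ?_
    · rcases hy with hy | hy
      · exact TwoPt.mono' (H l ((le_max_left _ _).trans hl) y hy hS) (min_le_left _ _)
          (le_max_left _ _)
      · exact TwoPt.mono' (H' l ((le_max_right _ _).trans hl) y hy hS) (min_le_right _ _)
          (le_max_right _ _)
    · have h1 : ‖y‖ = 1 := by simpa using hy
      obtain ⟨O, hO, H⟩ := (h.dichotomy h1).elim Ends.Reg.far fun hc => h.far_cyl hc h1
      exact ⟨O, nhdsWithin_le_nhds hO, H⟩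
  obtain ⟨r', C', hr', hC', H'⟩ := h.mcf.exists_twoPt_compact (a := -1) (b := -1)
    (fun s hs => lt_of_le_of_lt hs.2 (by norm_num)) 0 (max R 0)
  refine ⟨min r r', max C C', by positivity, by positivity, fun x hx => ?_⟩
  by_cases hR : ‖x‖ ≤ max R 0
  · have := H' (-1) ⟨le_rfl, le_rfl⟩ x (by rwa [ss_neg_one]) (by rwa [sub_zero])
    rw [ss_neg_one] at this
    exact TwoPt.mono' this (min_le_right _ _) (le_max_right _ _)
  · rw [not_le, max_lt_iff] at hR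
    have h1 : ‖x‖ • ‖x‖⁻¹ • x = x := smul_inv_smul₀ hR.2.ne' x
    have := H ‖x‖ hR.1.le (‖x‖⁻¹ • x) (by
      rw [mem_sphere_zero_iff_norm, norm_smul, norm_inv, norm_norm, inv_mul_cancel₀ hR.2.ne'])
      (h1.symm ▸ hx)
    rw [h1] at this
    exact TwoPt.mono' this (min_le_left _ _) (le_max_left _ _)

end HypR

theorem twoPt_ss {S : Set E3} {r C t : ℝ} (ht : t < 0) {x : E3} (hx : x ∈ ssFlow S t)
    (h : TwoPt S ((√(-t))⁻¹ • x) r C) : TwoPt (ssFlow S t) x (r * √(-t)) (C / √(-t)) := by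
  have h0 : 0 < √(-t) := Real.sqrt_pos.2 (neg_pos.2 ht)
  refine (twoPt_scale h0 hx _ _).2 ?_
  rwa [mul_div_cancel_right₀ _ h0.ne', div_mul_cancel₀ _ h0.ne', zero_add]

/-- a shrinker with bounded area ratios and bounded geometry -/
structure HypB (D r C : ℝ) (S : Set E3) : Prop where
  shr : IsShr S
  ratio : AreaRatio D S
  rpos : 0 < r
  cpos : 0 < C
  two : ∀ p ∈ S, TwoPt S p r C

namespace HypB

variable {D r C : ℝ} {S : Set E3} (h : HypB D r C S)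
include h

theorem mcf : IsMCF (ssFlow S) (Iio 0) := mcf_ss h.shr

theorem twoPt {t : ℝ} (ht : t < 0) {x : E3} (hx : x ∈ ssFlow S t) :
    TwoPt (ssFlow S t) x (r * √(-t)) (C / √(-t)) := twoPt_ss ht hx (h.two _ (mem_ss.1 hx))

theorem hypR : HypR D S :=
  ⟨h.shr, h.ratio, fun _ _ _ => ⟨r, C, -1, h.rpos, h.cpos, by norm_num, fun t ht x hx _ => by
    rw [zero_sub]; exact h.twoPt ht.2 hx⟩⟩

end HypB

/-- bounded geometry along rays, from a bound along ultrafilters -/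
theorem hypR_of_ultra {D : ℝ} {S : Set E3} (hS : IsShr S) (hA : AreaRatio D S)
    (h : ∀ y : E3, ‖y‖ = 1 → ∀ U : Ultrafilter ℝ, (U : Filter ℝ) ≤ atTop → ∀ z : E3,
      ∃ ρ r C : ℝ, 0 < ρ ∧ 0 < r ∧ ∀ᶠ l in (U : Filter ℝ), ∀ x ∈ S, ‖x - (l • y + z)‖ < ρ →
        TwoPt S x r C) : HypR D S := by
  refine ⟨hS, hA, fun y hy R => ?_⟩
  obtain ⟨n, hn⟩ : ∃ n : ℕ, ∀ l : ℝ, (n : ℝ) + 1 ≤ l → ∀ x ∈ S, ‖x - l • y‖ ≤ R →
      TwoPt S x ((n : ℝ) + 1)⁻¹ (n + 1) := by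
    by_contra hc
    push Not at hc
    choose l h1 x h2 h3 h4 using hc
    have t0 : Tendsto (fun n : ℕ => (n : ℝ) + 1) (hyperfilter ℕ) atTop :=
      (tendsto_atTop_add_const_right _ 1 tendsto_natCast_atTop_atTop).mono_left
        (hyperfilter_le_cofinite.trans Nat.cofinite_eq_atTop.le)
    obtain ⟨z, -, hz⟩ := (isCompact_closedBall (0 : E3) R).ultrafilter_le_nhds
      ((hyperfilter ℕ).map fun n => x n - l n • y)
      (le_principal_iff.2 (mem_map.2 (univ_mem' fun n => mem_closedBall_zero_iff.2 (h3 n))))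
    obtain ⟨ρ, r, C, hρ, hr, H⟩ := h y hy ((hyperfilter ℕ).map l) (tendsto_atTop_mono h1 t0) z
    have H' : ∀ᶠ n in (hyperfilter ℕ : Filter ℕ), ∀ x ∈ S, ‖x - (l n • y + z)‖ < ρ →
      TwoPt S x r C := H
    have hz' : ∀ᶠ n in (hyperfilter ℕ : Filter ℕ), x n - l n • y ∈ ball z ρ :=
      hz (ball_mem_nhds z hρ)
    obtain ⟨n, a1, a2, a3, a4⟩ := (H'.and (hz'.and ((t0.eventually_ge_atTop r⁻¹).and
      (t0.eventually_ge_atTop C)))).exists
    refine h4 n (TwoPt.mono' (a1 _ (h2 n) ?_) (inv_le_of_inv_le₀ hr a3) a4)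
    rwa [← sub_sub, ← mem_ball_iff_norm]
  have h0 : (0 : ℝ) < n + 1 := by positivity
  refine ⟨_, _, -(((n : ℝ) + 1) ^ 2)⁻¹, inv_pos.2 h0, h0, neg_lt_zero.2 (by positivity),
    fun t ht x hx hd => ?_⟩
  have h1 : 0 < √(-t) := Real.sqrt_pos.2 (neg_pos.2 ht.2)
  rw [zero_sub] at hd ⊢
  refine twoPt_ss ht.2 hx (hn (√(-t))⁻¹ (le_inv_of_le_inv₀ h1 ?_) _ (mem_ss.1 hx) ?_)
  · rw [← sqrt_inv_sq h0]
    exact Real.sqrt_le_sqrt (by linarith [ht.1])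
  · rwa [← smul_sub, norm_smul, norm_inv, Real.norm_of_nonneg h1.le, inv_mul_le_iff₀ h1, mul_comm]

end Vale.Agent.P218G.BG
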