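import Vale.Agent.P218FT.ConvSpec
import Vale.Agent.P218FT.Scale
import Vale.Agent.P218FT.Local2
import Mathlib.Analysis.Calculus.BumpFunction.InnerProduct
import Mathlib.Analysis.SpecialFunctions.Sqrt

/-! The self-similar flow of a shrinker is a mean curvature flow. -/

open MeasureTheory Set Filter Topology Metric
open scoped ENNReal NNReal RealInnerProductSpace ContDiff

namespace Vale.Agent.P218G

open P218FT

variable {S : Set E3}

theorem exists_kappa {t : ℝ} (ht : t < 0) :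
    ∃ κ : ℝ → ℝ, ContDiff ℝ ∞ κ ∧ ∀ᶠ s in 𝓝 t, κ s = (√(-s))⁻¹ := by
  let θ : ContDiffBump t := ⟨-t / 4, -t / 2, by linarith, by linarith⟩
  refine ⟨fun s => θ s * (√(-s))⁻¹, ?_, θ.eventuallyEq_one.mono fun s hs => by
    simp only [hs, Pi.one_apply, one_mul]⟩
  rw [contDiff_iff_contDiffAt]
  intro s
  by_cases hs : s < 0
  · exact θ.contDiff.contDiffAt.mul ((contDiffAt_id.neg.sqrt (neg_pos.2 hs).ne').inv
      (Real.sqrt_pos.2 (neg_pos.2 hs)).ne')
  · refine (contDiffAt_const (c := (0 : ℝ))).congr_of_eventuallyEq ?_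
    filter_upwards [lt_mem_nhds (show t / 2 < s by linarith [not_lt.1 hs])] with u hu
    rw [θ.zero_of_le_dist, zero_mul]
    rw [Real.dist_eq]
    exact le_trans (by change -t / 2 ≤ u - t; linarith) (le_abs_self _)

/-- the self-similar flow of a shrinker is a mean curvature flow -/
theorem mcf_ss (hS : IsShr S) : IsMCF (ssFlow S) (Iio 0) := by
  have hc : ∀ t < 0, ∀ x : E3,
      ContinuousAt (fun p : ℝ × E3 => (0 : E3) + (√(-p.1))⁻¹ • p.2) (t, x) := fun t ht x =>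
    continuousAt_const.add ((ContinuousAt.inv₀ (f := fun p : ℝ × E3 => √(-p.1)) (by fun_prop)
      (Real.sqrt_pos.2 (neg_pos.2 ht)).ne').smul continuousAt_snd)
  refine ⟨isOpen_Iio, fun t ht x hx => (hc t ht x).eventually (hS.1.1.isOpen_compl.mem_nhds hx),
    fun t ht x hx => ?_⟩
  have ht' : t < 0 := ht
  have hl : 0 < √(-t) := Real.sqrt_pos.2 (neg_pos.2 ht')
  obtain ⟨κ, hκ, he⟩ := exists_kappa ht'
  have hp : (0 : E3) + (√(-t))⁻¹ • x ∈ S := hx
  set p : E3 := (0 : E3) + (√(-t))⁻¹ • x with hpdef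
  have hw := hS.1.isEqn hp
  set w := eqn S p with hwdef
  have e0 : (fun y : E3 => w (0 + κ t • y)) = fun y => w (0 + (√(-t))⁻¹ • y) := by
    rw [he.self_of_nhds]
  refine ⟨fun q => w (0 + κ q.1 • q.2),
    hw.1.comp (contDiff_const.add ((hκ.comp contDiff_fst).smul contDiff_snd)), ?_, ?_, ?_⟩
  · rw [e0, gradient_comp_up hl.ne']
    exact smul_ne_zero (inv_ne_zero hl.ne') hw.2.1
  · filter_upwards [(hc t ht' x).eventually hw.2.2,
      (continuous_fst.tendsto ((t, x) : ℝ × E3)).eventually he] with q h1 h2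
    rw [h2]
    exact h1
  · have h1 : HasDerivAt (fun s : ℝ => (√(-s))⁻¹) ((√(-t))⁻¹ ^ 3 / 2) t := by
      refine (((hasDerivAt_neg' t).sqrt (neg_pos.2 ht').ne').fun_inv hl.ne').congr_deriv ?_
      field_simp
    have h2 : HasDerivAt (fun s : ℝ => (0 : E3) + (√(-s))⁻¹ • x) (((√(-t))⁻¹ ^ 3 / 2) • x) t :=
      (h1.smul_const x).const_add 0
    have h3 := (hw.1.differentiable (by simp) p).hasFDerivAt.comp_hasDerivAt t h2
    have h4 : (fun s => w (0 + κ s • x)) =ᶠ[𝓝 t] w ∘ fun s : ℝ => (0 : E3) + (√(-s))⁻¹ • x :=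
      he.mono fun s hs => by simp only [hs, Function.comp]
    have h5 : Hv S p = -((2 * 1)⁻¹ * ⟪p - 0, nu S p⟫) • nu S p := by
      rw [neg_smul]
      exact eq_neg_of_add_eq_zero_left (hS.2 p hp)
    have h6 : ⟪gradient w p, p⟫ = ‖gradient w p‖ * ⟪p, nu S p⟫ := by
      conv_lhs => rw [grad_eq_smul_nuw hw.2.1]
      rw [real_inner_smul_left, real_inner_comm]
      rfl
    have h7 : ⟪gradient w p, nu S p⟫ = ‖gradient w p‖ := inner_grad_nuw hw.2.1
    have h8 : x = √(-t) • p := by rw [hpdef, zero_add, smul_inv_smul₀ hl.ne']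
    rw [h4.deriv_eq, h3.deriv, e0, gradient_comp_up hl.ne', ssFlow, Hv_scale hl hx, ← hpdef, h5,
      ← inner_grad]
    conv_lhs => rw [h8]
    simp only [real_inner_smul_left, real_inner_smul_right, h6, h7, sub_zero]
    field_simp

theorem ratio_ss {D : ℝ} (hA : AreaRatio D S) : ∀ t ∈ Iio (0 : ℝ), AreaRatio D (ssFlow S t) :=
  fun _ ht => hA.scale (Real.sqrt_pos.2 (neg_pos.2 ht)) 0

theorem lgb_ss {G : ℝ} (hS : IsSurf S) (hG : LGB G S) : ∀ t ∈ Iio (0 : ℝ), LGB G (ssFlow S t) :=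
  fun _ ht => hG.scale (Real.sqrt_pos.2 (neg_pos.2 ht)) hS.1.measurableSet 0

theorem inC_ss {D G : ℝ} (hS : IsShr S) (hA : AreaRatio D S) (hG : LGB G S) :
    InC D G (ssFlow S) (Iio 0) := ⟨mcf_ss hS, ratio_ss hA, lgb_ss hS.1 hG⟩

end Vale.Agent.P218G
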