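import Vale.Agent.P218G.RegSpec
import Vale.Agent.P218G.BGFlow

/-! The static inequality near a shrinker of bounded geometry. -/

open MeasureTheory Set

namespace Vale.Agent.P218G.BG

open Vale.Agent.P218FT (E3 IsShr AreaRatio LGB)

/-- bounded geometry gives the local Gauss-Bonnet estimate -/
def LgbBStmt : Prop :=
  ∀ (S : Set E3) (D : ℝ), IsShr S → AreaRatio D S → Lit.BddGeom S → ∃ G : ℝ, LGB G S

theorem static_lgb (hSt : P218F.Dyn.StaticStmt) {S : Set E3} {D G : ℝ} (hS : IsShr S)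
    (hA : AreaRatio D S) (hG : LGB G S) (hne : S.Nonempty) : Rg.StaticFor S :=
  hSt D G S hS (inC_ss hS hA hG) hne

theorem staticBG (hL : LgbBStmt) (hSt : P218F.Dyn.StaticStmt) {S : Set E3} {D : ℝ}
    (hS : IsShr S) (hA : AreaRatio D S) (hB : Lit.BddGeom S) (hne : S.Nonempty) :
    Rg.StaticFor S := by
  obtain ⟨G, hG⟩ := hL S D hS hA hB
  exact static_lgb hSt hS hA hG hne

end Vale.Agent.P218G.BG
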