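import Vale.Agent.P218G.BGDir
import Vale.Agent.P218G.BGFin
import Vale.Agent.P218FT.NC1

/-! Shrinkers with bounded geometry satisfy the local Gauss-Bonnet estimate. -/

open MeasureTheory Set Filter Topology Metric
open scoped ENNReal NNReal RealInnerProductSpace ContDiff

namespace Vale.Agent.P218G

namespace BG

open P218FT P218F P218F.Ends

variable {N S : Set E3} {D r C K K' : ℝ}

/-- the mean curvature of level sets as a function of the gradient and the Hessian -/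
noncomputable def mF (q : E3 × (E3 →L[ℝ] E3)) : ℝ :=
  tr ((-‖q.1‖⁻¹) • ((pt (‖q.1‖⁻¹ • q.1)).comp (q.2.comp (pt (‖q.1‖⁻¹ • q.1)))))

theorem contDiff_tr : ContDiff ℝ 1 tr := by
  obtain ⟨a, b, h⟩ := exists_triple (n := EuclideanSpace.single (0 : Fin 3) (1 : ℝ)) (by simp)
  rw [show tr = _ from funext fun L => h.tr_eq L]
  have : ∀ u : E3, ContDiff ℝ 1 fun L : E3 →L[ℝ] E3 => ⟪L u, u⟫ := fun u =>
    (contDiff_id.clm_apply contDiff_const).inner ℝ contDiff_const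
  exact ((this _).add (this _)).add (this _)

theorem contDiff_pt : ContDiff ℝ 1 pt := by
  have : pt = fun n : E3 => ContinuousLinearMap.id ℝ E3 -
      ContinuousLinearMap.smulRightL ℝ E3 E3 (innerSL ℝ n) n := rfl
  rw [this]
  exact contDiff_const.sub (((ContinuousLinearMap.smulRightL ℝ E3 E3).contDiff.comp
    (innerSL ℝ (E := E3)).contDiff).clm_apply contDiff_id)

theorem contDiffAt_mF {q : E3 × (E3 →L[ℝ] E3)} (h : q.1 ≠ 0) : ContDiffAt ℝ 1 mF q := by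
  have h1 : ContDiffAt ℝ 1 (fun q : E3 × (E3 →L[ℝ] E3) => ‖q.1‖⁻¹) q :=
    (contDiffAt_fst.norm ℝ h).inv (norm_ne_zero_iff.2 h)
  have h2 : ContDiffAt ℝ 1 (fun q : E3 × (E3 →L[ℝ] E3) => pt (‖q.1‖⁻¹ • q.1)) q :=
    contDiff_pt.contDiffAt.comp q (h1.smul contDiffAt_fst)
  exact contDiff_tr.contDiffAt.comp q (h1.neg.smul (h2.clm_comp (contDiffAt_snd.clm_comp h2)))

theorem hasFDerivAt_mean {w : E3 → ℝ} (hw : ContDiff ℝ ∞ w) {x : E3} (hg : gradient w x ≠ 0) :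
    HasFDerivAt (fun y => tr (shw w y)) ((fderiv ℝ mF (gradient w x, fderiv ℝ (gradient w) x)).comp
      ((fderiv ℝ (gradient w) x).prod (fderiv ℝ (fderiv ℝ (gradient w)) x))) x := by
  have h1 := contDiff_grad hw
  have h2 : ContDiff ℝ 1 (fderiv ℝ (gradient w)) := h1.fderiv_right two_le_inf
  exact ((contDiffAt_mF (q := (gradient w x, fderiv ℝ (gradient w) x)) hg).differentiableAt
    one_ne_zero).hasFDerivAt.comp x ((h1.differentiable (by simp) x).hasFDerivAt.prodMk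
      (h2.differentiable one_ne_zero x).hasFDerivAt)

/-- bounds for the mean curvature and for its derivative -/
def DH (N : Set E3) (x : E3) (K K' : ℝ) : Prop :=
  ∃ w, IsEqn N x w ∧ |tr (shw w x)| ≤ K ∧ ‖fderiv ℝ (fun y => tr (shw w y)) x‖ ≤ K'

theorem DH.scale {lam : ℝ} {x₀ y : E3} (hl : 0 < lam) (h : DH N (x₀ + lam⁻¹ • y) K K') :
    DH (scaleSet lam x₀ N) y (lam⁻¹ * K) (lam⁻¹ ^ 2 * K') := by
  obtain ⟨w, h1, h2, h3⟩ := h
  have h0 := inv_pos.2 hl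
  refine ⟨_, h1.scale hl.ne', ?_, ?_⟩
  · rw [shw_comp_up hl, tr_smul, abs_mul, abs_of_pos h0]
    gcongr
  · have : (fun z => tr (shw (fun z => w (x₀ + lam⁻¹ • z)) z)) =
        lam⁻¹ • fun z => (fun y => tr (shw w y)) (x₀ + lam⁻¹ • z) := by
      funext z
      rw [shw_comp_up hl, tr_smul]
      rfl
    rw [this, fderiv_const_smul_field, Pi.smul_apply,
      fderiv_comp_up hl.ne' fun y => tr (shw w y), smul_smul, norm_smul, Real.norm_of_nonneg (by positivity), ← sq]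
    gcongr

theorem DH.unscale {lam : ℝ} {x₀ y : E3} (hl : 0 < lam) (h : DH (scaleSet lam x₀ N) y K K') :
    DH N (x₀ + lam⁻¹ • y) (lam * K) (lam ^ 2 * K') := by
  have e : y = -(lam • x₀) + lam⁻¹⁻¹ • (x₀ + lam⁻¹ • y) := by
    rw [inv_inv, smul_add, smul_inv_smul₀ hl.ne']; abel
  rw [e] at h
  have := h.scale (inv_pos.2 hl)
  rwa [scaleSet_inv hl.ne', inv_inv] at this

theorem exists_DH0 (hr : 0 < r) (C : ℝ) : ∃ K : ℝ, ∀ (M : ℝ → Set E3) (J : Set ℝ) (t : ℝ),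
    IsMCF M J → Icc (t - r ^ 2) t ⊆ J →
    (∀ s ∈ Icc (t - r ^ 2) t, ∀ y ∈ M s, ‖y - 0‖ ≤ r → TwoPt (M s) y r C) → 0 ∈ M t →
    DH (M t) 0 K K := by
  by_contra hcon
  push Not at hcon
  choose M J t h1 h2 h3 h4 hbad using fun n : ℕ => hcon n
  obtain ⟨W, w, v, hW, h0, hw, hv, hc, hg, -, he⟩ := Conv.locComp_proof ℕ (hyperfilter ℕ) M J t 0
    r C hr (Eventually.of_forall fun n => ⟨h1 n, h2 n, h3 n⟩)
    (fun ε hε => Eventually.of_forall fun n => ⟨0, h4 n, by simpa⟩)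
  obtain ⟨ρ, hρ, hρW⟩ := Metric.isOpen_iff.1 hW 0 h0
  have c1 : CInf (hyperfilter ℕ : Filter ℕ) (ball 0 ρ) (fun i => gradient (w i)) (gradient v) :=
    ((hc.mono hρW).fderiv isOpen_ball).comp_smooth rz.contDiff isOpen_ball (convex_ball _ _)
      isBounded_ball
  have c2 := c1.fderiv isOpen_ball
  have t1 := c1.tendsto (mem_ball_self hρ)
  have t2 := c2.tendsto (mem_ball_self hρ)
  have t3 := (c2.fderiv isOpen_ball).tendsto (mem_ball_self hρ)
  have hF := contDiffAt_mF (q := (gradient v 0, fderiv ℝ (gradient v) 0)) hg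
  have t5 := (hF.continuousAt.tendsto.comp (t1.prodMk_nhds t2)).abs
  have t6 := ((hF.continuousAt_fderiv one_ne_zero).tendsto.comp (t1.prodMk_nhds t2)).norm.mul
    (t2.prodMk_nhds t3).norm
  have t4 : Tendsto (fun n : ℕ => (n : ℝ)) (hyperfilter ℕ) atTop :=
    tendsto_natCast_atTop_atTop.mono_left (hyperfilter_le_cofinite.trans Nat.cofinite_eq_atTop.le)
  obtain ⟨i, ⟨⟨⟨⟨a1, a2⟩, a3⟩, a4⟩, a5⟩, a6⟩ := (((((he.and (t1.eventually_ne hg)).and
    (t5.eventually_le_const (lt_add_one _))).and (t6.eventually_le_const (lt_add_one _))).and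
    (t4.eventually_ge_atTop _)).and (t4.eventually_ge_atTop _)).exists
  refine hbad i ⟨w i, ⟨hw i, a2, eventually_of_mem (hW.mem_nhds h0) a1⟩, a3.trans a5, ?_⟩
  rw [(hasFDerivAt_mean (hw i) a2).fderiv]
  refine ((ContinuousLinearMap.opNorm_comp_le _ _).trans ?_).trans (a4.trans a6)
  rw [ContinuousLinearMap.opNorm_prod]
  rfl

/-- interior estimate for the derivative of the mean curvature -/
theorem exists_DH (hr : 0 < r) (C : ℝ) : ∃ K : ℝ, ∀ (M : ℝ → Set E3) (J : Set ℝ) (t : ℝ) (x : E3),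
    IsMCF M J → Icc (t - r ^ 2) t ⊆ J →
    (∀ s ∈ Icc (t - r ^ 2) t, ∀ y ∈ M s, ‖y - x‖ ≤ r → TwoPt (M s) y r C) → x ∈ M t →
    DH (M t) x K K := by
  obtain ⟨K, hK⟩ := exists_DH0 hr C
  refine ⟨K, fun M J t x h1 h2 h3 h4 => ?_⟩
  have e : ∀ s, scaleFlow 1 x 0 M s = scaleSet 1 x (M s) := fun s => by simp [scaleFlow_apply]
  have := hK _ _ t (h1.scale one_pos x 0) (fun s hs => by simpa [mem_scaleInt] using h2 hs)
    (fun s hs y hy hd => by
      rw [e] at hy ⊢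
      refine (twoPt_scale one_pos hy _ _).2 ?_
      rw [div_one, mul_one]
      exact h3 s hs _ hy (by simpa using hd)) (by rw [e, mem_transl, add_zero]; exact h4)
  rw [e] at this
  simpa using this.unscale one_pos

/-- differentiating the shrinker equation -/
theorem DH.shr {p : E3} (h : DH S p K K') (hS : IsShr S) (hp : p ∈ S) :
    |⟪nu S p, p⟫| ≤ 2 * K ∧ ‖sh S p p‖ ≤ 2 * K' := by
  obtain ⟨w, hw, h1, h2⟩ := h
  have key : ∀ y ∈ S, IsEqn S y w → tr (shw w y) = -(1 / 2) * ⟪y, nuw w y⟫ := fun y hy hw' => by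
    have h3 := hS.2 y hy
    obtain ⟨ε, hε, h4, -⟩ := hw'.nu_sh hy
    rw [relV, hw'.Hv_eq hy, h4, sub_zero, real_inner_smul_right, smul_smul, ← add_smul,
      smul_eq_zero] at h3
    have h5 := h3.resolve_right fun h => by simpa [h] using norm_nuw hw'.2.1
    linear_combination h5 - (1 / 2 * ⟪y, nuw w y⟫) * P218FT.sign_mul_self hε
  obtain ⟨ε, hε, e1, e2⟩ := hw.nu_sh hp
  have hε' : |ε| = 1 := by rcases hε with h | h <;> simp [h]
  refine ⟨?_, ?_⟩
  · rw [key p hp hw, abs_mul, abs_neg, abs_of_pos (by norm_num)] at h1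
    rw [real_inner_comm, hw.abs_inner_eq hp]
    linarith
  · rw [e2, smul_apply, norm_smul, Real.norm_eq_abs, hε', one_mul]
    set a := shw w p p with ha
    have o1 : ⟪nuw w p, a⟫ = 0 := inner_nuw_shw hw.2.1 p
    obtain ⟨n1, n2⟩ := fderiv_nuw hw.1 hw.2.1
    have d1 := ((hasFDerivAt_id p).inner ℝ (n1.differentiableAt (by simp)).hasFDerivAt).const_mul
      (-(1 / 2))
    have d2 := NC.fderiv_tangent hS.1 hp (hasFDerivAt_mean hw.1 hw.2.1).differentiableAt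
      d1.differentiableAt (hw.eventually.mono fun y h hy => key y hy h) (a := a)
      (by rw [e1, real_inner_smul_left, o1, mul_zero])
    rw [d1.fderiv] at d2
    simp only [smul_apply, ContinuousLinearMap.comp_apply,
      ContinuousLinearMap.prod_apply, fderivInnerCLM_apply, ContinuousLinearMap.id_apply, id,
      n2 a o1, inner_neg_right, real_inner_comm (nuw w p) a, o1, ← shw_symm hw.two, ← ha,
      real_inner_self_eq_norm_sq, smul_eq_mul] at d2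
    have d3 := (fderiv ℝ (fun y => tr (shw w y)) p).le_of_opNorm_le h2 a
    rw [d2] at d3
    have d4 := (le_abs_self _).trans d3
    rcases (norm_nonneg a).eq_or_lt with h0 | h0
    · linarith [(norm_nonneg _).trans h2]
    · nlinarith

theorem a2_le_of (hN : IsSurf N) {x : E3} (hx : x ∈ N) (v : E3) :
    (a2 N x - 2 * ‖Hv N x‖ ^ 2) * (‖v‖ ^ 2 - ⟪nu N x, v⟫ ^ 2) ≤ 3 * ‖sh N x v‖ ^ 2 := by
  obtain ⟨a, b, ht⟩ := exists_triple (hN.norm_nu hx)
  rw [hN.norm_Hv hx, sq_abs, hN.tr_sh hx ht, hN.a2_eq hx ht, ht.norm_sq (sh N x v), ht.norm_sq v,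
    hN.inner_nu_sh hx, ← hN.sh_symm hx a, ← hN.sh_symm hx b, ht.inner_eq (sh N x a) v,
    ht.inner_eq (sh N x b) v, hN.inner_nu_sh hx, hN.inner_nu_sh hx, ← hN.sh_symm hx a b,
    real_inner_comm (sh N x a) a, real_inner_comm (sh N x a) b, real_inner_comm (sh N x b) b]
  generalize ⟪sh N x a, a⟫ = p
  generalize ⟪sh N x a, b⟫ = q
  generalize ⟪sh N x b, b⟫ = r
  generalize ⟪a, v⟫ = s
  generalize ⟪b, v⟫ = t
  generalize ⟪nu N x, v⟫ = u
  nlinarith [sq_nonneg ((p + r) * s + p * s + q * t), sq_nonneg ((p + r) * t + q * s + r * t)]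

/-- the excess of `|A|²` over `2 H²` -/
noncomputable def exc (S : Set E3) (x : E3) : ℝ := a2 S x - 2 * ‖Hv S x‖ ^ 2

theorem DH.exc_le {p : E3} (h : DH S p K K') (hS : IsShr S) (hp : p ∈ S) (h1 : 4 * K ≤ ‖p‖)
    {k : ℝ} (hk : 0 < k) (h2 : k ≤ ‖p‖) : exc S p ≤ 16 * K' ^ 2 / k ^ 2 := by
  obtain ⟨a1, a2⟩ := h.shr hS hp
  have a3 := a2_le_of hS.1 hp p
  have a4 : ⟪nu S p, p⟫ ^ 2 ≤ (‖p‖ / 2) ^ 2 := by
    rw [← sq_abs]
    exact pow_le_pow_left₀ (abs_nonneg _) (by linarith) 2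
  have a5 := pow_le_pow_left₀ (norm_nonneg _) a2 2
  have a6 := pow_le_pow_left₀ hk.le h2 2
  rw [le_div_iff₀ (by positivity)]
  rcases le_total (exc S p) 0 with h0 | h0
  · nlinarith [mul_nonpos_of_nonpos_of_nonneg h0 (sq_nonneg k), sq_nonneg K']
  · have a7 := mul_le_mul_of_nonneg_left (show 3 / 4 * k ^ 2 ≤ ‖p‖ ^ 2 - ⟪nu S p, p⟫ ^ 2 by
      nlinarith) h0
    unfold exc at a7 ⊢
    nlinarith

theorem lint_lt_top (hS : IsClosed S) (hA : AreaRatio D S) (f : E3 → ℝ) (A : ℕ → Set E3)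
    (hm : ∀ k, MeasurableSet (A k)) {c : ℝ} (hc : 0 ≤ c)
    (h : ∀ k : ℕ, ∃ (p : E3) (ρ b : ℝ), 0 < ρ ∧ 0 ≤ b ∧ A k ⊆ ball p ρ ∧
      (∀ x ∈ S, x ∈ A k → f x ≤ b) ∧ b * (D * ρ ^ 2) ≤ c / ((k : ℝ) + 1) ^ 2) :
    ∫⁻ x in ⋃ k, A k, ENNReal.ofReal (f x) ∂(area S) < ⊤ := by
  have hs : Summable fun k : ℕ => c / ((k : ℝ) + 1) ^ 2 := by
    have := ((summable_nat_add_iff 1).2 (Real.summable_one_div_nat_pow.2 one_lt_two)).mul_left c
    simpa [div_eq_mul_inv] using this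
  refine ((lintegral_iUnion_le _ _).trans (ENNReal.tsum_le_tsum fun k => ?_)).trans_lt
    ((ENNReal.ofReal_tsum_of_nonneg (fun k => by positivity) hs).symm.trans_lt
      ENNReal.ofReal_lt_top)
  obtain ⟨p, ρ, b, h0, hb, h1, h2, h3⟩ := h k
  calc ∫⁻ x in A k, ENNReal.ofReal (f x) ∂(area S) ≤ ∫⁻ _x in A k, ENNReal.ofReal b ∂(area S) := by
        refine lintegral_mono_ae ?_
        filter_upwards [ae_restrict_mem (hm k),
          ae_restrict_of_ae (ae_restrict_mem hS.measurableSet)] with x h4 h5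
        exact ENNReal.ofReal_le_ofReal (h2 x h5 h4)
    _ ≤ ENNReal.ofReal b * ENNReal.ofReal (D * ρ ^ 2) := by
        rw [setLIntegral_const]
        gcongr
        exact (measure_mono h1).trans (hA p ρ h0)
    _ ≤ _ := by
        rw [← ENNReal.ofReal_mul hb]
        exact ENNReal.ofReal_le_ofReal h3

theorem exists_nat {z : ℝ} (hz : 1 ≤ z) : ∃ k : ℕ, (k : ℝ) + 1 ≤ z ∧ z < k + 2 :=
  ⟨⌊z - 1⌋₊, by linarith [Nat.floor_le (sub_nonneg.2 hz)], by linarith [Nat.lt_floor_add_one (z - 1)]⟩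

/-- the excess is integrable far out over a set of directions -/
def Fin (S O : Set E3) : Prop :=
  ∃ (R : ℝ) (B : Set E3), ∫⁻ x in B, ENNReal.ofReal (exc S x) ∂(area S) < ⊤ ∧
    ∀ x ∈ S, R ≤ ‖x‖ → ‖x‖⁻¹ • x ∈ O → x ∈ B

namespace HypB

variable (h : HypB D r C S)
include h

theorem dh : ∃ K, ∀ p ∈ S, DH S p K K := by
  have hr : 0 < min r 1 := lt_min h.rpos one_pos
  obtain ⟨K, hK⟩ := exists_DH hr C
  refine ⟨K, fun p hp => ?_⟩
  have := hK _ _ (-1) p h.mcf (fun s hs => lt_of_le_of_lt hs.2 (by norm_num))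
    (fun s hs y hy _ => ?_) (by rwa [ss_neg_one])
  · rwa [ss_neg_one] at this
  · have h1 : 1 ≤ √(-s) := Real.one_le_sqrt.2 (by linarith [hs.2])
    exact TwoPt.mono' (h.twoPt (by linarith [hs.2]) hy)
      ((min_le_left _ _).trans (le_mul_of_one_le_right h.rpos.le h1)) (div_le_self h.cpos.le h1)

theorem fin_reg (hD : 0 ≤ D) {y : E3} (hy : Ends.Reg S y) : ∃ O ∈ 𝓝 y, Fin S O := by
  obtain ⟨ρ, r', C', hρ, hr, -, H⟩ := hy
  have hr' : 0 < min r' (ρ / 2) := lt_min hr (half_pos hρ)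
  have hr2 : min r' (ρ / 2) ^ 2 ≤ (ρ / 2) ^ 2 := pow_le_pow_left₀ hr'.le (min_le_right _ _) 2
  obtain ⟨K, hK⟩ := exists_DH hr' C'
  obtain ⟨R, r1, r2, r3⟩ : ∃ R : ℝ, 1 ≤ R ∧ 2 / ρ ≤ R ∧ 4 * |K| ≤ R :=
    ⟨max 1 (max (2 / ρ) (4 * |K|)), le_max_left _ _, (le_max_left _ _).trans (le_max_right _ _),
      (le_max_right _ _).trans (le_max_right _ _)⟩
  refine ⟨ball y (ρ / 2), ball_mem_nhds y (half_pos hρ), R, ⋃ k : ℕ, {x | (k : ℝ) + 1 ≤ ‖x‖} ∩
    ({x | ‖x‖ < k + 2} ∩ ({x | R ≤ ‖x‖} ∩ (fun x => ‖x‖⁻¹ • x) ⁻¹' ball y (ρ / 2))),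
    lint_lt_top h.shr.1.1 h.ratio _ _ (fun k => ?_) (c := 64 * K ^ 2 * D) (by positivity)
      fun k => ⟨0, k + 2, 16 * (K / (k + 1)) ^ 2 / (k + 1) ^ 2, by positivity, by positivity,
        fun x hx => mem_ball_zero_iff.2 hx.2.1, fun x hx ⟨a1, _, a3, a4⟩ => ?_, ?_⟩,
    fun x _ h1 h2 => ?_⟩
  · exact (measurableSet_le measurable_const measurable_norm).inter
      ((measurableSet_lt measurable_norm measurable_const).inter
      ((measurableSet_le measurable_const measurable_norm).inter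
      (measurableSet_ball.preimage (by fun_prop))))
  · have a1 : (k : ℝ) + 1 ≤ ‖x‖ := a1
    have a3 : R ≤ ‖x‖ := a3
    have a4 : ‖‖x‖⁻¹ • x - y‖ < ρ / 2 := mem_ball_iff_norm.1 a4
    obtain ⟨l, hl⟩ : ∃ l, l = ‖x‖ := ⟨_, rfl⟩
    rw [← hl] at a1 a3 a4
    have h0 : 0 < l := by linarith
    have hk : (0 : ℝ) < k + 1 := by positivity
    have b1 : 0 < (l ^ 2)⁻¹ := by positivity
    have b2 : (l ^ 2)⁻¹ ≤ (ρ / 2) ^ 2 := by
      rw [← inv_pow]
      refine pow_le_pow_left₀ (by positivity) (inv_le_of_inv_le₀ (half_pos hρ) ?_) 2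
      rw [inv_div]
      linarith
    have b3 := hK _ _ (-(l ^ 2)⁻¹) (l⁻¹ • x) h.mcf (fun s hs => lt_of_le_of_lt hs.2 (by linarith))
      (fun s hs z hz hd => TwoPt.mono' (H s ⟨by nlinarith [hs.1], by linarith [hs.2]⟩ z hz
        (by linarith [norm_sub_le_norm_sub_add_norm_sub z (l⁻¹ • x) y, min_le_right r' (ρ / 2)]))
        (min_le_left _ _) le_rfl) ((mem_ss_inv_sq h0).2 (by rwa [smul_inv_smul₀ h0.ne']))
    rw [ss_inv_sq h0] at b3
    have b4 := b3.unscale (inv_pos.2 h0)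
    rw [inv_inv, smul_inv_smul₀ h0.ne', zero_add] at b4
    have b5 : l⁻¹ ≤ 1 := inv_le_one_of_one_le₀ (by linarith)
    have b6 : l⁻¹ ≤ ((k : ℝ) + 1)⁻¹ := inv_anti₀ hk a1
    have b7 := inv_pos.2 h0
    refine (b4.exc_le h.shr hx ?_ hk (hl ▸ a1)).trans ?_
    · nlinarith [le_abs_self K, abs_nonneg K]
    · rw [mul_pow, div_eq_inv_mul K, mul_pow]
      gcongr
      nlinarith
  · have hk : (0 : ℝ) < k + 1 := by positivity
    calc _ ≤ 16 * (K / (k + 1)) ^ 2 / (k + 1) ^ 2 * (D * (2 * (k + 1)) ^ 2) := by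
          gcongr
          linarith
      _ = _ := by field_simp; ring
  · obtain ⟨k, k1, k2⟩ := exists_nat (r1.trans h1)
    exact mem_iUnion.2 ⟨k, k1, k2, h1, h2⟩

theorem fin_cyl (hD : 0 ≤ D) {y : E3} (hc : CylDir S y) (hy : ‖y‖ = 1) :
    ∃ O ∈ 𝓝 y, Fin S O := by
  obtain ⟨L, δ, hL, hδ, H⟩ := h.hypR.tube hc hy
  obtain ⟨K, hK⟩ := h.dh
  have hyy : ⟪y, y⟫ = 1 := by rw [real_inner_self_eq_norm_sq, hy, one_pow]
  have e1 : ∀ᶠ y' in 𝓝 y, ‖pt y y'‖ < δ * ⟪y, y'⟫ :=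
    ContinuousAt.eventually_lt (by fun_prop) (by fun_prop) (by
      rw [pt_apply, hyy, one_smul, sub_self, norm_zero, mul_one]; exact hδ)
  have e2 : ∀ᶠ y' in 𝓝 y, 1 / 2 < ⟪y, y'⟫ :=
    ContinuousAt.eventually_lt continuousAt_const (by fun_prop) (by rw [hyy]; norm_num)
  refine ⟨_, e1.and e2, max 2 (4 * K), ⋃ k : ℕ, ball (((k : ℝ) + 1) • y) (L + 1) ∩
    ({x | (k : ℝ) + 1 ≤ ‖x‖} ∩ {x | 4 * K ≤ ‖x‖}),
    lint_lt_top h.shr.1.1 h.ratio _ _ (fun k => ?_) (c := 16 * K ^ 2 * (D * (L + 1) ^ 2))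
      (by positivity) fun k => ⟨_, L + 1, 16 * K ^ 2 / (k + 1) ^ 2, by positivity, by positivity,
        inter_subset_left, fun x hx ⟨_, a2, a3⟩ => (hK x hx).exc_le h.shr hx a3 (by positivity) a2,
        le_of_eq (by ring)⟩, fun x hx h1 ⟨h2, h3⟩ => ?_⟩
  · exact measurableSet_ball.inter ((measurableSet_le measurable_const measurable_norm).inter
      (measurableSet_le measurable_const measurable_norm))
  · have a1 : 2 ≤ ‖x‖ := (le_max_left _ _).trans h1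
    have a2 : 0 < ‖x‖ := by linarith
    rw [map_smul, norm_smul, norm_inv, norm_norm, real_inner_smul_right, mul_left_comm,
      mul_lt_mul_iff_right₀ (inv_pos.2 a2)] at h2
    rw [real_inner_smul_right, lt_inv_mul_iff₀ a2] at h3
    obtain ⟨k, k1, k2⟩ := exists_nat (show 1 ≤ ⟪y, x⟫ by linarith)
    refine mem_iUnion.2 ⟨k, ?_, k1.trans ?_, (le_max_right _ _).trans h1⟩
    · have a3 : x - ((k : ℝ) + 1) • y = pt y x + (⟪y, x⟫ - (k + 1)) • y := by
        rw [pt_apply, sub_smul]; abel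
      rw [mem_ball_iff_norm, a3]
      refine (norm_add_le _ _).trans_lt ?_
      rw [norm_smul, hy, mul_one, Real.norm_of_nonneg (by linarith)]
      linarith [H x hx h2.le]
    · simpa [hy] using real_inner_le_norm y x

theorem exc_lt_top (hD : 0 ≤ D) : ∫⁻ x, ENNReal.ofReal (exc S x) ∂(area S) < ⊤ := by
  obtain ⟨R, B, h1, h2⟩ : Fin S (sphere 0 1) := by
    refine (isCompact_sphere (0 : E3) 1).induction_on (p := Fin S) ⟨0, ∅, by simp, by simp⟩
      (fun s t hst ⟨R, B, h1, h2⟩ => ⟨R, B, h1, fun x hx a b => h2 x hx a (hst b)⟩)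
      (fun s t ⟨R, B, h1, h2⟩ ⟨R', B', h1', h2'⟩ => ⟨max R R', B ∪ B',
        (lintegral_union_le _ _ _).trans_lt (ENNReal.add_lt_top.2 ⟨h1, h1'⟩), fun x hx a b =>
          b.imp (h2 x hx ((le_max_left _ _).trans a)) (h2' x hx ((le_max_right _ _).trans a))⟩)
      fun y hy => ?_
    have h1 : ‖y‖ = 1 := by simpa using hy
    obtain ⟨O, hO, H⟩ := (h.hypR.dichotomy h1).elim (h.fin_reg hD) fun hc => h.fin_cyl hD hc h1
    exact ⟨O, nhdsWithin_le_nhds hO, H⟩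
  have hR : 0 < max R 1 := lt_max_of_lt_right one_pos
  obtain ⟨A, -, hA⟩ := h.mcf.exists_a2_bound (a := -1) (b := -1)
    (fun s hs => lt_of_le_of_lt hs.2 (by norm_num)) 0 (max R 1)
  have hm := ae_restrict_mem (μ := (μHE[2] : Measure E3)) h.shr.1.1.measurableSet
  have h3 : ∫⁻ x in ball 0 (max R 1), ENNReal.ofReal (exc S x) ∂(area S) ≤
      ∫⁻ _x in ball (0 : E3) (max R 1), ENNReal.ofReal A ∂(area S) := by
    refine lintegral_mono_ae ?_
    filter_upwards [ae_restrict_mem measurableSet_ball, ae_restrict_of_ae hm] with x h4 h5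
    have := hA (-1) ⟨le_rfl, le_rfl⟩ x (by rwa [ss_neg_one]) (mem_ball_iff_norm.1 h4).le
    rw [ss_neg_one] at this
    exact ENNReal.ofReal_le_ofReal (by unfold exc; linarith [sq_nonneg ‖Hv S x‖])
  rw [setLIntegral_const] at h3
  rw [← setLIntegral_univ]
  refine ((lintegral_mono_set' (t := ball 0 (max R 1) ∪ B) ?_).trans
    (lintegral_union_le _ _ _)).trans_lt (ENNReal.add_lt_top.2 ⟨h3.trans_lt (ENNReal.mul_lt_top
      ENNReal.ofReal_lt_top ((h.ratio 0 _ hR).trans_lt ENNReal.ofReal_lt_top)), h1⟩)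
  filter_upwards [hm] with x hx _
  rcases lt_or_ge ‖x‖ (max R 1) with h4 | h4
  · exact Or.inl (mem_ball_zero_iff.2 h4)
  · refine Or.inr (h2 x hx ((le_max_left _ _).trans h4) ?_)
    rw [mem_sphere_zero_iff_norm, norm_smul, norm_inv, norm_norm, inv_mul_cancel₀ (by linarith)]

theorem lgb (hD : 0 ≤ D) : ∃ G, LGB G S := by
  set X := ∫⁻ x, ENNReal.ofReal (exc S x) ∂(area S) with hX
  have h1 : X + 2 ≠ ⊤ := ENNReal.add_ne_top.2 ⟨(h.exc_lt_top hD).ne, by simp⟩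
  refine ⟨(X + 2).toReal, fun p ρ hρ => ?_⟩
  have hm : AEMeasurable (fun x => 2 * ENNReal.ofReal (‖Hv S x‖ ^ 2)) (area S) :=
    (((NC.contOn_Hv h.shr.1).norm.pow 2).aemeasurable
      h.shr.1.1.measurableSet).ennreal_ofReal.const_mul _
  rw [ENNReal.ofReal_toReal h1]
  calc ∫⁻ x in ball p ρ, ENNReal.ofReal (a2 S x) ∂(area S)
      ≤ ∫⁻ x in ball p ρ, ENNReal.ofReal (exc S x) + 2 * ENNReal.ofReal (‖Hv S x‖ ^ 2)
          ∂(area S) := by
        refine lintegral_mono fun x => ?_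
        rw [show a2 S x = exc S x + 2 * ‖Hv S x‖ ^ 2 by rw [exc]; ring]
        refine ENNReal.ofReal_add_le.trans_eq ?_
        rw [ENNReal.ofReal_mul zero_le_two, ENNReal.ofReal_ofNat]
    _ ≤ X + 2 * ∫⁻ x in ball p (2 * ρ), ENNReal.ofReal (‖Hv S x‖ ^ 2) ∂(area S) := by
        rw [lintegral_add_right' _ hm.restrict, lintegral_const_mul' _ _ (by simp)]
        gcongr
        · exact setLIntegral_le_lintegral _ _
        · linarith
    _ ≤ _ := by
        rw [mul_add, mul_one]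
        gcongr
        · exact le_self_add
        · exact le_add_self

end HypB

/-- **Bounded geometry** from two-point bounds along the translates in every direction -/
theorem bdd_of_ultra (hS : IsShr S) (hA : AreaRatio D S)
    (h : ∀ y : E3, ‖y‖ = 1 → ∀ U : Ultrafilter ℝ, (U : Filter ℝ) ≤ atTop → ∀ z : E3,
      ∃ ρ r C : ℝ, 0 < ρ ∧ 0 < r ∧ ∀ᶠ l in (U : Filter ℝ), ∀ x ∈ S, ‖x - (l • y + z)‖ < ρ →
        TwoPt S x r C) : Lit.BddGeom S := by
  obtain ⟨r, C, hr, -, H⟩ := (hypR_of_ultra hS hA h).bdd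
  exact ⟨r, C, hr, H⟩

end BG

/-- **Bounded geometry implies the local Gauss-Bonnet estimate** for shrinkers -/
theorem lgb_B {S : Set P218FT.E3} {D : ℝ} (hS : P218FT.IsShr S) (hA : P218FT.AreaRatio D S)
    (hB : Lit.BddGeom S) : ∃ G, P218FT.LGB G S := by
  obtain ⟨r, C, hr, h⟩ := hB
  exact BG.HypB.lgb (D := max D 0) (C := max C 1) ⟨hS, hA.mono (le_max_left _ _), hr,
    lt_max_of_lt_right one_pos, fun p hp => P218F.Ends.TwoPt.mono' (h p hp) le_rfl
      (le_max_left _ _)⟩ (le_max_right _ _)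

theorem BG.lgbB_proof : BG.LgbBStmt := fun _ _ => lgb_B

/-- a shrinker with bounded geometry generates a flow of class `C(D, G)` -/
theorem inC_B {S : Set P218FT.E3} {D : ℝ} (hS : P218FT.IsShr S) (hA : P218FT.AreaRatio D S)
    (hB : Lit.BddGeom S) : ∃ G, P218FT.InC D G (P218FT.ssFlow S) (Iio 0) :=
  (lgb_B hS hA hB).imp fun _ h => inC_ss hS hA h

theorem ends_B {S : Set P218FT.E3} {D : ℝ} (hS : P218FT.IsShr S) (hA : P218FT.AreaRatio D S)
    (hB : Lit.BddGeom S) : Nonempty (P218F.Ends.EndData S) :=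
  (inC_B hS hA hB).elim fun G h => P218F.Ends.ends_proof D G S hS h

end Vale.Agent.P218G
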