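import Vale.Agent.P218G.ScaleW
import Vale.Agent.P218FT.BadCore
import Vale.Agent.P218FT.Chart

/-! The bad point lemma for weak flows. -/

open MeasureTheory Set Filter Topology Metric
open scoped ENNReal NNReal RealInnerProductSpace ContDiff

namespace Vale.Agent.P218G.BW

open P218FT P218FT.BC

variable {D : ℝ} {μ : ℝ → Measure E3} {M : ℝ → Set E3} {J I : Set ℝ}

theorem norm_nu_of_reg {t : ℝ} {x : E3} (h : Reg M (t, x)) (hx : x ∈ M t) :
    ‖nu (M t) x‖ = 1 := by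
  obtain ⟨w, h1, h2, h3, -⟩ := h.self_of_nhds hx
  have h4 : IsEqnT M (t, x) w := ⟨h1, h2, h3⟩
  exact norm_nuw h4.isEqn.isEqn_eqn.2.1

theorem test_integrable {ν : Measure E3} (hν : MRatio D ν) {ζ : E3 → ℝ} {p : E3} {R K : ℝ}
    (h : Test ζ p R K) : Integrable ζ ν := by
  have := hν.locFin
  exact h.continuous.integrable_of_hasCompactSupport h.hasCompactSupport

/-- the tails of Gaussian masses are uniformly small -/
theorem exists_tailM (D : ℝ) {τ : ℝ} (hτ : 0 < τ) :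
    ∃ ρ : ℝ, 0 < ρ ∧ ∀ ν : Measure E3, MRatio D ν → ∀ (y : E3) (r : ℝ), 0 < r →
      ∫ x in (ball y (ρ * r))ᶜ, gk (r ^ 2) (x - y) ∂ν ≤ τ := by
  obtain ⟨C₀, -, h⟩ := gaussM
  obtain ⟨ρ, hρ, h⟩ := (h (max D 0) (le_max_right _ _)).2 τ hτ
  exact ⟨ρ, hρ, fun N hN => h N (hN.mono (le_max_left _ _))⟩

/-- the Gaussian mass is the integral of the cut-off Gaussian up to the tail -/
theorem gM_le_cutoff {ν : Measure E3} (hν : MRatio D ν) {r ρ R K τ : ℝ} (hr : 0 < r)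
    {ζ : E3 → ℝ} (hζ : Test ζ 0 R K) (h0 : ∀ x, 0 ≤ ζ x)
    (h1 : ∀ x ∈ ball (0 : E3) ρ, ζ x = gk (r ^ 2) x) (y : E3)
    (ht : ∫ x in (ball y ρ)ᶜ, gk (r ^ 2) (x - y) ∂ν ≤ τ) :
    gM ν y r ≤ ∫ x, ζ (x - y) ∂ν + τ := by
  have hi := hν.integrable_gk y (show 0 < r ^ 2 by positivity)
  have hz := test_integrable hν (hζ.translate y)
  unfold gM
  rw [← integral_add_compl (measurableSet_ball (x := y) (ε := ρ)) hi]
  have h2 : ∫ x in ball y ρ, gk (r ^ 2) (x - y) ∂ν = ∫ x in ball y ρ, ζ (x - y) ∂ν := by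
    refine setIntegral_congr_fun measurableSet_ball fun x hx => ?_
    exact (h1 _ (by simpa [mem_ball, dist_eq_norm] using hx)).symm
  have h3 : ∫ x in ball y ρ, ζ (x - y) ∂ν ≤ ∫ x, ζ (x - y) ∂ν :=
    setIntegral_le_integral hz (Eventually.of_forall fun x => h0 _)
  linarith

theorem cutoff_le_gM {ν : Measure E3} (hν : MRatio D ν) {r R K : ℝ} (hr : 0 < r)
    {ζ : E3 → ℝ} (hζ : Test ζ 0 R K) (h1 : ∀ x, ζ x ≤ gk (r ^ 2) x) (y : E3) :
    ∫ x, ζ (x - y) ∂ν ≤ gM ν y r :=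
  integral_mono (test_integrable hν (hζ.translate y)) (hν.integrable_gk y (by positivity))
    fun x => h1 _

theorem aim_mono {e : E3} {R η η' : ℝ} (h : AIM μ e R η) (hη : η ≤ η') : AIM μ e R η' :=
  fun ζ p K hp hζ s hs t ht b hb hbR =>
    (h ζ p K hp hζ s hs t ht b hb hbR).trans (mul_le_mul_of_nonneg_right hη hζ.nonneg)

/-- approximate invariance for translates of a test function centred at the origin -/
theorem aim_apply {e : E3} {R η : ℝ} (h : AIM μ e R η) {ζ : E3 → ℝ} {ρ K : ℝ}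
    (hζ : Test ζ 0 ρ K) (hρ : ρ ≤ R) {z : E3} (hz : ‖z‖ ≤ R) {s t : ℝ} (hs : s ∈ Ico (-5 : ℝ) 0)
    (ht : t ∈ Ico (-5 : ℝ) 0) {b : E3} (hb : ⟪b, e⟫ = 0) (hbR : ‖b‖ ≤ R) :
    |∫ x, ζ (x - (z + b)) ∂(μ s) - ∫ x, ζ (x - z) ∂(μ t)| ≤ η * K := by
  have h1 : Test (fun x => ζ (x - z)) z R K :=
    (hζ.translate z).mono (by simpa using hρ) le_rfl
  have h2 := h _ z K hz h1 s hs t ht b hb hbR
  have h3 : ∀ x : E3, x - b - z = x - (z + b) := fun x => by abel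
  simpa only [h3] using h2

/-- translates of points of `N` in directions orthogonal to `e` are close to `N'` -/
def Near2 (N N' : Set E3) (e : E3) (R δ : ℝ) : Prop :=
  ∀ z ∈ N, ‖z‖ ≤ R → ∀ b : E3, ⟪b, e⟫ = 0 → ‖b‖ ≤ R → ∃ y ∈ N', ‖y - (z + b)‖ ≤ δ

/-- a closed ball which meets the flow at times just before `t` meets it at time `t` -/
theorem exists_mem_of_left (h : WF D μ M J I) {t a : ℝ} (ht : t ∈ I) (ha : a < t) {c : E3} {δ : ℝ}
    (hl : ∀ s ∈ Ico a t, ∃ y ∈ M s, ‖y - c‖ ≤ δ) : ∃ y ∈ M t, ‖y - c‖ ≤ δ := by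
  by_contra hcon
  push Not at hcon
  have h1 : ∀ᶠ s in 𝓝 t, ∀ y ∈ closedBall c δ, y ∉ M s :=
    (isCompact_closedBall c δ).eventually_forall_of_forall_eventually
      (P := fun s y => y ∉ M s) fun y hy => h.closed t ht y fun hM => by
        rw [mem_closedBall, dist_eq_norm] at hy
        linarith [hcon y hM]
  obtain ⟨s, hs, hs'⟩ := ((h1.filter_mono (nhdsWithin_le_nhds (s := Iio t))).and
    (Ico_mem_nhdsLT ha)).exists
  obtain ⟨y, hy, hyc⟩ := hl s hs'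
  exact hs y (by rwa [mem_closedBall, dist_eq_norm]) hy

theorem near_of_aim (hO : OneLeW) (D : ℝ) {δ : ℝ} (hδ : 0 < δ) :
    ∃ η : ℝ, 0 < η ∧ ∀ (μ : ℝ → Measure E3) (M : ℝ → Set E3) (J I : Set ℝ), WF D μ M J I →
      Icc (-5 : ℝ) 0 ⊆ I → ∀ (e : E3) (R : ℝ), δ ≤ R → AIM μ e R η →
      ∀ s ∈ Icc (-4 : ℝ) 0, ∀ t ∈ Icc (-4 : ℝ) 0, Near2 (M s) (M t) e R δ := by
  obtain ⟨ρ, hρ, htail⟩ := exists_tailM D (τ := 1 / 4) (by norm_num)
  set r : ℝ := min 1 (δ / (2 * ρ)) with hr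
  have hr0 : 0 < r := lt_min one_pos (by positivity)
  have hr1 : r ≤ 1 := min_le_left _ _
  have hrδ : 2 * (ρ * r) ≤ δ := by
    have : r ≤ δ / (2 * ρ) := min_le_right _ _
    rw [le_div_iff₀ (by positivity)] at this
    linarith
  obtain ⟨ζ, K, hK, hζ, h0, -, h1⟩ :=
    PI.exists_cutoff (σ := r ^ 2) (ρ := ρ * r) (by positivity) (by positivity)
  refine ⟨1 / (4 * K), by positivity, fun μ M J I h hI e R hR hAI s hs t ht z hz hzR b hb hbR => ?_⟩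
  have hηK : 1 / (4 * K) * K = 1 / 4 := by field_simp
  have hr2 : r ^ 2 ≤ 1 := by nlinarith
  have hr3 : 0 < r ^ 2 := by positivity
  have hmem : (s - r ^ 2) ∈ Ico (-5 : ℝ) 0 := ⟨by linarith [hs.1], by linarith [hs.2]⟩
  have hd := hO D μ M J I h s r hr0
    (fun u hu => hI ⟨by linarith [hu.1, hs.1], hu.2.trans hs.2⟩) z hz
  have hA := h.ratio _ (hI (Ico_subset_Icc_self hmem))
  have hg := gM_le_cutoff hA hr0 hζ h0 h1 z (htail _ hA z r hr0)
  have key : ∀ u ∈ Ico (-5 : ℝ) 0, ∃ y ∈ M u, ‖y - (z + b)‖ ≤ δ := by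
    intro u hu
    have a1 := aim_apply hAI hζ (hrδ.trans hR) hzR hu hmem hb hbR
    rw [hηK] at a1
    by_contra hcon
    push Not at hcon
    have hzero : ∫ x, ζ (x - (z + b)) ∂(μ u) = 0 := by
      refine integral_eq_zero_of_ae ?_
      filter_upwards [h.ae_mem (hI (Ico_subset_Icc_self hu))] with x hx
      refine hζ.supp _ ?_
      rw [sub_zero]
      exact hrδ.trans (hcon x hx).le
    unfold densM at hd
    linarith [(abs_le.mp a1).1]
  rcases ht.2.lt_or_eq with h2 | h2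
  · exact key t ⟨by linarith [ht.1], h2⟩
  · subst h2
    exact exists_mem_of_left h (hI ⟨by norm_num, le_rfl⟩) (by norm_num) key

/-- the heights of the points of `N'` are small or almost at least `s` -/
theorem height2 {N N' : Set E3} (hν : ‖nu N 0‖ = 1) (h0 : (0 : E3) ∈ N) {e : E3} (he : ‖e‖ = 1)
    {R δ s : ℝ} (hδ : 0 < δ) (hδ1 : δ ≤ 1 / 100) (hR : 1 ≤ R) (hs : 1 ≤ s)
    (hn : Near2 N N e R δ) (hn' : Near2 N' N e R δ) (hsep : SepGE N 0 s) {z : E3} (hz : z ∈ N')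
    (hzR : ‖z‖ ≤ R) : |⟪z, e⟫| ≤ 5 * δ ∨ s - δ ≤ |⟪z, e⟫| := by
  have ht : ‖pt e (nu N 0)‖ ≤ 53 / 100 := by
    refine tilt_le he (β := 1 / 2) (by norm_num) (by norm_num) fun b hb hb2 => ?_
    obtain ⟨y, hy, hyb⟩ := hn 0 h0 (by simp; linarith) b hb (by linarith)
    rw [zero_add] at hyb
    have hy1 : ‖y‖ ≤ 1 / 2 + δ := by linarith [norm_le_add b y]
    have h1 := not_cone hsep hy (by linarith)
    have h2 : ⟪b, nu N 0⟫ = ⟪y, nu N 0⟫ - ⟪y - b, nu N 0⟫ := by rw [inner_sub_left]; ring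
    have h3 := abs_real_inner_le_norm (y - b) (nu N 0)
    rw [hν, mul_one] at h3
    rw [h2]
    refine (abs_sub _ _).trans ?_
    linarith
  have hc : 84 / 100 ≤ |⟪nu N 0, e⟫| := abs_inner_ge he hν ht (by norm_num)
  obtain ⟨y, hy, hyb⟩ := hn' z hz hzR (-pt e z) (by rw [inner_neg_left, PI.inner_pt he, neg_zero])
    (by rw [norm_neg]; exact (PI.norm_pt_le he z).trans hzR)
  have hz2 : z + -pt e z = ⟪z, e⟫ • e := by
    have := PI.pt_add_smul e z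
    rw [← sub_eq_add_neg, sub_eq_iff_eq_add, add_comm]
    exact this.symm
  rw [hz2] at hyb
  set a := ⟪z, e⟫ with ha
  have hna : ‖a • e‖ = |a| := by rw [norm_smul, he, mul_one, Real.norm_eq_abs]
  have hy1 : ‖y‖ ≤ |a| + δ := by linarith [norm_le_add (a • e) y]
  rcases lt_or_ge ‖y‖ s with hys | hys
  · left
    have h1 := not_cone hsep hy hys
    have h2 : a * ⟪nu N 0, e⟫ = ⟪y, nu N 0⟫ - ⟪y - a • e, nu N 0⟫ := by
      rw [inner_sub_left, real_inner_smul_left, real_inner_comm]; ring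
    have h3 := abs_real_inner_le_norm (y - a • e) (nu N 0)
    rw [hν, mul_one] at h3
    have h4 : |a| * |⟪nu N 0, e⟫| ≤ ‖y‖ / 2 + δ := by
      rw [← abs_mul, h2]
      refine (abs_sub _ _).trans ?_
      linarith
    nlinarith [abs_nonneg a]
  · right
    linarith

/-- the tilt at a point with a two-point curvature bound -/
theorem tilt_of_twoPt' {N : Set E3} {e : E3} (he : ‖e‖ = 1) {R δ β γ r C : ℝ}
    (hn : Near2 N N e R δ) (hβ : 0 < β) (hγ : 0 ≤ γ) (hC : 0 < C) (hβR : β ≤ R) (hβr : 2 * β ≤ r)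
    (hδβ : δ ≤ β) (hδ : δ ≤ β * γ / 2) (hβC : C * β ≤ γ / 8) {x : E3} (hx : x ∈ N) (hxR : ‖x‖ ≤ R)
    (hν : ‖nu N x‖ = 1) (htp : TwoPt N x r C) : ‖pt e (nu N x)‖ ≤ γ := by
  refine tilt_le he hβ hγ fun b hb hbβ => ?_
  obtain ⟨y, hy, hyb⟩ := hn x hx hxR b hb (by linarith)
  have hy1 : ‖y - x‖ ≤ 2 * β := by
    have := norm_le_add b (y - x)
    rw [show y - x - b = y - (x + b) by abel] at this
    linarith
  have h1 := htp y hy (by linarith)
  have h2 : ⟪b, nu N x⟫ = ⟪y - x, nu N x⟫ - ⟪y - (x + b), nu N x⟫ := by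
    rw [← inner_sub_left]; congr 1; abel
  have h3 := abs_real_inner_le_norm (y - (x + b)) (nu N x)
  rw [hν, mul_one] at h3
  have h4 : C * ‖y - x‖ ^ 2 ≤ C * (2 * β) ^ 2 := by
    have := norm_nonneg (y - x)
    gcongr
  have h5 : C * (2 * β) ^ 2 ≤ β * γ / 2 := by nlinarith
  rw [h2]
  refine (abs_sub _ _).trans ?_
  linarith

/-- comparison of Gaussian masses at two times and two centres -/
theorem gM_le_int {e : E3} {R η : ℝ} (hAI : AIM μ e R η) {ζ : E3 → ℝ}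
    {r ρ ρ' K τ : ℝ} (hr : 0 < r) (hζ : Test ζ 0 ρ' K) (hρ : ρ' ≤ R) (h0 : ∀ x, 0 ≤ ζ x)
    (h1 : ∀ x ∈ ball (0 : E3) ρ, ζ x = gk (r ^ 2) x) {z : E3} (hz : ‖z‖ ≤ R) {s t : ℝ}
    (hs : s ∈ Ico (-5 : ℝ) 0) (ht : t ∈ Ico (-5 : ℝ) 0) (hA : MRatio D (μ s)) {b : E3}
    (hb : ⟪b, e⟫ = 0) (hbR : ‖b‖ ≤ R)
    (htail : ∫ x in (ball (z + b) ρ)ᶜ, gk (r ^ 2) (x - (z + b)) ∂(μ s) ≤ τ) :
    gM (μ s) (z + b) r ≤ ∫ x, ζ (x - z) ∂(μ t) + η * K + τ := by
  have a1 := gM_le_cutoff hA hr hζ h0 h1 (z + b) htail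
  have a2 := (abs_le.mp (aim_apply hAI hζ hρ hz hs ht hb hbR)).2
  linarith

theorem badCore (hO : OneLeW) : BadCoreW := by
  intro D ε r C hε hε1 hr hC
  obtain ⟨ρ, hρ, htail⟩ := exists_tailM D (τ := ε / 16) (by positivity)
  obtain ⟨ζ₁, K₁, hK₁, hζ₁, h01, hle1, heq1⟩ :=
    PI.exists_cutoff (σ := 1 ^ 2) (ρ := ρ * 1) (by positivity) (by positivity)
  obtain ⟨ζ₂, K₂, hK₂, hζ₂, h02, hle2, heq2⟩ :=
    PI.exists_cutoff (σ := 2 ^ 2) (ρ := ρ * 2) (by positivity) (by positivity)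
  obtain ⟨β, δ, hβ, hδ, hβr, hβC, hβ1, hδβ, hδγ, hδε, hδC⟩ := exists_consts hε hε1 hr hC
  obtain ⟨η₀, hη₀, hnear⟩ := near_of_aim hO D hδ
  obtain ⟨η, hη, hηη, hη1, hη2⟩ := exists_eta hη₀ hK₁ hK₂ (τ := ε / 16) (by positivity)
  refine ⟨4 * ρ + 6, 4 * ρ + 6, η, by linarith, by linarith, hη, ?_⟩
  intro μ M J I h hW hI h0 hreg e s he hAI hsep hσ hd1 hcase
  obtain ⟨u, hu, huJ⟩ := h.exists_Ioo (a := -1) (b := 0) (by norm_num)
    fun t ht => hI ⟨by linarith [ht.1], ht.2.le⟩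
  have hu5 : u ∈ Ico (-5 : ℝ) 0 := ⟨by linarith [hu.1], hu.2⟩
  have hu1 : u ∈ Icc (-1 : ℝ) 0 := Ioo_subset_Icc_self hu
  have h00 : (0 : ℝ) ∈ Icc (-1 : ℝ) 0 := ⟨by norm_num, le_rfl⟩
  have hS := h.isSurf huJ
  have hAu := h.areaRatio huJ
  have hμu := h.eq u huJ
  have hA : ∀ t ∈ Ico (-5 : ℝ) 0, MRatio D (μ t) := fun t ht =>
    h.ratio t (hI (Ico_subset_Icc_self ht))
  have hν0 := norm_nu_of_reg hreg h0
  have hz : ‖(0 : E3)‖ ≤ 4 * ρ := by rw [norm_zero]; linarith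
  have hn : ∀ s ∈ Icc (-1 : ℝ) 0, ∀ t ∈ Icc (-1 : ℝ) 0, Near2 (M s) (M t) e (4 * ρ + 6) δ :=
    fun s hs t ht => hnear μ M J I h hI e _ (by linarith) (aim_mono hAI hηη) s
      ⟨by linarith [hs.1], hs.2⟩ t ⟨by linarith [ht.1], ht.2⟩
  have hht : ∀ t ∈ Icc (-1 : ℝ) 0, ∀ z ∈ M t, ‖z‖ ≤ 4 * ρ + 6 →
      |⟪z, e⟫| ≤ 5 * δ ∨ s - δ ≤ |⟪z, e⟫| := fun t ht z hz hzR =>
    height2 hν0 h0 he hδ (by linarith) (by linarith) (by linarith) (hn 0 h00 0 h00)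
      (hn t ht 0 h00) hsep hz hzR
  have hlow : ∀ t ∈ Icc (-1 : ℝ) 0, ∀ z ∈ M t, ‖z‖ ≤ 4 * ρ + 5 → |⟪z, e⟫| ≤ 5 * δ := by
    intro t ht z hz hzR
    rcases hht t ht z hz (by linarith) with h | h
    · exact h
    · have := abs_inner_le he z
      linarith
  have hg0 : gA (M u) 0 1 ≤ 1 + 5 * ε / 8 := by
    have hm : (0 - 1 ^ 2 : ℝ) ∈ Ico (-5 : ℝ) 0 := ⟨by norm_num, by norm_num⟩
    have h1 := gM_le_int hAI one_pos hζ₁ (by linarith) h01 heq1 (z := 0) (by linarith) hu5 hm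
      (hA u hu5) (b := 0) (inner_zero_left e) (by linarith) (htail _ (hA u hu5) _ 1 one_pos)
    have h2 := cutoff_le_gM (hA _ hm) one_pos hζ₁ hle1 0
    rw [add_zero, hμu, gM_area] at h1
    refine h1.trans ?_
    have h3 := h2.trans hd1
    linarith
  have hdens : ∀ y : E3, ‖y‖ ≤ 4 * ρ + 3 → |⟪y, e⟫| ≤ 4 → ∀ t ∈ Icc (-3 : ℝ) 0,
      densM μ y t 1 ≤ 1 + ε := by
    intro y hy hye t ht
    have hm : (t - 1 ^ 2 : ℝ) ∈ Ico (-5 : ℝ) 0 := ⟨by linarith [ht.1], by linarith [ht.2]⟩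
    have hna : ‖⟪y, e⟫ • e‖ ≤ 4 := by rwa [norm_smul, he, mul_one, Real.norm_eq_abs]
    have h1 : densM μ (⟪y, e⟫ • e + pt e y) t 1 ≤ _ :=
      gM_le_int hAI one_pos hζ₁ (by linarith) h01 heq1 (z := ⟪y, e⟫ • e) (by linarith) hm hu5
        (hA _ hm) (PI.inner_pt he y) (by linarith [PI.norm_pt_le he y])
        (htail _ (hA _ hm) _ 1 one_pos)
    rw [add_comm, PI.pt_add_smul, hμu] at h1
    have h3 := int_shift_le hS hAu he hζ₁ hle1 (h := 5 * δ) (by linarith) hye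
      fun z hz hzR => hlow u hu1 z hz (by linarith)
    have h4 : (1 + (5 * δ) ^ 2 / 2) * gA (M u) 0 1 ≤ 1 + 7 * ε / 8 := by
      calc _ ≤ (1 + (ε / 4) / 2) * (1 + 5 * ε / 8) := by
            have := PI.gA_nonneg (M u) 0 1
            gcongr
        _ ≤ _ := by nlinarith only [hε, hε1]
    linarith
  have htp : ∀ t ∈ Icc (-1 : ℝ) 0, ∀ x ∈ M t, ‖x‖ ≤ 4 * ρ →
      Reg M (t, x) ∧ TwoPt (M t) x r C := by
    intro t ht x hx hxR
    have := hW x 0 1 one_pos (fun s hs => hI ⟨by linarith [hs.1], hs.2⟩) (fun y hy t' ht' => ?_) t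
      ⟨by linarith [ht.1], ht.2⟩ x hx (mem_ball_self one_pos)
    · rwa [mul_one, div_one] at this
    rw [mem_ball, dist_eq_norm] at hy
    refine hdens y (by linarith [norm_le_add x y]) ?_ t' ⟨by linarith [ht'.1], ht'.2⟩
    have h2 := hlow t ht x hx (by linarith)
    have h3 := abs_inner_le he (y - x)
    have h1 : ⟪y, e⟫ = ⟪x, e⟫ + ⟪y - x, e⟫ := by rw [inner_sub_left]; ring
    rw [h1]
    refine (abs_add_le _ _).trans ?_
    linarith
  have htilt : ∀ t ∈ Icc (-1 : ℝ) 0, ∀ x ∈ M t, ‖x‖ ≤ 4 * ρ → ‖pt e (nu (M t) x)‖ ≤ ε / 10 :=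
    fun t ht x hx hxR =>
      tilt_of_twoPt' he (hn t ht t ht) hβ (by positivity) hC (by linarith) hβr (by linarith) hδγ
        hβC hx (by linarith) (norm_nu_of_reg (htp t ht x hx hxR).1 hx) (htp t ht x hx hxR).2
  have hcos : ∀ x ∈ M u, ‖x‖ ≤ 4 * ρ → 1 - ε / 10 ≤ |⟪nu (M u) x, e⟫| := fun x hx hxR =>
    abs_inner_ge he (hS.norm_nu hx) (htilt u hu1 x hx hxR) (by nlinarith only [hε, hε1])
  rcases hcase with ⟨hbad, hs⟩ | hd2
  · obtain ⟨y, hy, -, hys, hyc⟩ := hbad.2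
    rw [sub_zero] at hys hyc
    refine not_boundary he hν0 (by linarith [htilt 0 h00 0 h0 hz]) (by linarith) hys hyc ?_
    exact (hht 0 h00 y hy (by linarith)).imp (fun h => by linarith) fun h => by linarith
  · have hm : (0 - 2 ^ 2 : ℝ) ∈ Ico (-5 : ℝ) 0 := ⟨by norm_num, by norm_num⟩
    have h1 : densM μ (0 + 0) 0 2 ≤ _ :=
      gM_le_int hAI two_pos hζ₂ (by linarith) h02 heq2 (z := 0) (by linarith) hm hu5
        (hA _ hm) (b := 0) (inner_zero_left e) (by linarith) (htail _ (hA _ hm) _ 2 two_pos)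
    rw [add_zero, hμu] at h1
    have hSn : ∀ x ∈ M u ∩ ball 0 (2 * (ρ * 2)), ‖x‖ ≤ 4 * ρ := fun x hx => by
      linarith [mem_ball_zero_iff.mp hx.2]
    have hinj : InjOn (pt e) (M u ∩ ball 0 (2 * (ρ * 2))) :=
      injOn_pt inter_subset_left he hC (h := 5 * δ) (r := r) (by linarith) hδC
        (fun x hx => hlow u hu1 x hx.1 (by linarith [hSn x hx]))
        (fun x hx => (htp u hu1 x hx.1 (hSn x hx)).2)
        fun x hx => by linarith [hcos x hx.1 (hSn x hx)]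
    have h4 := int_sheet_le Chart.proj_proof hS he (c := 1 - ε / 10) (by norm_num) (by linarith)
      hζ₂ h02 hle2 (fun x hx => hcos x hx.1 (hSn x hx)) hinj
    have h5 : (1 - ε / 10)⁻¹ ≤ 1 + ε / 4 := by
      rw [inv_le_comm₀ (by linarith) (by linarith), inv_le_iff_one_le_mul₀ (by linarith)]
      nlinarith only [hε, hε1]
    linarith

theorem bad (hC : BadCoreW) (hA : AIW) (hD : DensW) : BadW := by
  intro D ε r C L hε hε1 hr hCpos
  obtain ⟨σ, R, η, hσ, hR, hη, hcore⟩ := hC D ε r C hε hε1 hr hCpos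
  obtain ⟨Γ, c, hΓ, hc, hAI⟩ := hA D L R η hR hη
  refine ⟨σ, Γ, c, hσ, by linarith, hc, ?_⟩
  intro μ M J I h hW t x s hs hx hreg hsep hcase hI
  have hσ0 : 0 < σ := by linarith
  have htI : t ∈ I := hI ⟨by nlinarith [sq_nonneg (Γ * s)], le_rfl⟩
  set ρ : ℕ → ℝ := fun k => s / σ * (1 / 2) ^ k with hρdef
  have hρpos : ∀ k, 0 < ρ k := fun k => by simp only [hρdef]; positivity
  have hρlim : Tendsto ρ atTop (𝓝[>] 0) := by
    refine tendsto_nhdsWithin_iff.2 ⟨?_, Eventually.of_forall hρpos⟩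
    have h := (tendsto_pow_atTop_nhds_zero_of_lt_one (r := (1 / 2 : ℝ)) (by norm_num)
      (by norm_num)).const_mul (s / σ)
    simpa [hρdef] using h
  have hex : ∃ k, densM μ x t (ρ k) ≤ 1 + ε / 2 := by
    have h := ((hD D μ M J I h t htI x hx hreg).comp hρlim).eventually
      (ge_mem_nhds (show (1 : ℝ) < 1 + ε / 2 by linarith))
    exact h.exists
  classical
  set k := Nat.find hex with hk
  have hk1 : densM μ x t (ρ k) ≤ 1 + ε / 2 := Nat.find_spec hex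
  have hpow : (1 / 2 : ℝ) ^ k ≤ 1 := pow_le_one₀ (by norm_num) (by norm_num)
  have hρσ : ρ k * σ ≤ s := by
    have : ρ k * σ = s * (1 / 2) ^ k := by simp only [hρdef]; field_simp
    rw [this]
    nlinarith
  have hρs : ρ k ≤ s := by nlinarith [hρpos k]
  have hk2 : ρ k = s / σ ∨ 1 + ε / 2 < densM μ x t (2 * ρ k) := by
    rcases Nat.eq_zero_or_pos k with h0 | h0
    · left
      simp only [hρdef, h0, pow_zero, mul_one]
    · right
      have hlt : k - 1 < Nat.find hex := by omega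
      have hmin := Nat.find_min hex hlt
      have heq : 2 * ρ k = ρ (k - 1) := by
        obtain ⟨j, hj⟩ : ∃ j, k = j + 1 := ⟨k - 1, by omega⟩
        simp only [hρdef, hj, Nat.add_sub_cancel, pow_succ]
        ring
      rw [heq]
      exact not_le.1 hmin
  refine ⟨ρ k, hρpos k, hρs, hk2, ?_⟩
  have hρ := hρpos k
  generalize ρ k = p at hk1 hρσ hρs hk2 hρ
  by_contra hcon
  rw [not_or, not_le, not_le] at hcon
  obtain ⟨hpot, hdis⟩ := hcon
  have hl := inv_pos.2 hρ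
  have hΓ0 : 0 < Γ := by linarith
  have hsq : (Γ * p) ^ 2 ≤ (Γ * s) ^ 2 := by gcongr
  have hI' : Icc (t - (Γ * p) ^ 2) t ⊆ I := fun u hu => hI ⟨by linarith [hu.1], hu.2⟩
  have e1 : t + -Γ ^ 2 * p ^ 2 = t - (Γ * p) ^ 2 := by ring
  have e2 : t + -1 * p ^ 2 = t - p ^ 2 := by ring
  have e3 : t + 0 * p ^ 2 = t := by ring
  have e4 : x + p • (0 : E3) = x := by rw [smul_zero, add_zero]
  have hsub : Icc (-Γ ^ 2) 0 ⊆ scaleInt p⁻¹ t I := by
    rw [Icc_subset_zoomInt hρ, e1, e3]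
    exact hI'
  have hp : potA (scaleFlow p⁻¹ x t M) 0 0 Γ (-Γ ^ 2) (-1) ≤ ENNReal.ofReal L := by
    rw [h.potA_zoom hρ (by
      rw [e1, e2]
      exact (Icc_subset_Icc_right (by nlinarith [sq_nonneg p])).trans hI'), e1, e2, e3, e4]
    exact hpot.le
  have hd : dis2 (scaleFlow p⁻¹ x t M) 0 0 Γ (-Γ ^ 2) 0 ≤ ENNReal.ofReal (c * Γ ^ 2) := by
    rw [h.dis2_zoom hρ (by rw [e1, e3]; exact hI'), e1, e3, e4, zero_div]
    refine (mul_le_mul_right hdis.le _).trans (le_of_eq ?_)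
    rw [← ENNReal.ofReal_mul (by positivity)]
    congr 1
    field_simp
  obtain ⟨e, he, hAIe⟩ := hAI _ _ _ _ (h.scale hl x t) hsub hp hd
  have hx0 : x + p • (0 : E3) ∈ M t := by rwa [e4]
  have e0 : scaleFlow p⁻¹ x t M 0 = scaleSet p⁻¹ x (M t) := by rw [zoomFlow_apply, e3]
  have e5 : s / p * p = s := div_mul_cancel₀ _ hρ.ne'
  refine hcore _ _ _ _ (h.scale hl x t) (hW.scale hl x t)
    (fun u hu => hsub ⟨by nlinarith [hu.1], hu.2⟩) (by rw [e0]; exact mem_zoom.2 hx0)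
    ((reg_zoom hρ).2 (by rwa [e3, e4])) e (s / p) he hAIe
    (by rwa [e0, sepGE_zoom hρ hx0, e4, e5]) (by rw [le_div_iff₀ hρ]; linarith)
    (by rwa [densM_zoom hρ, e3, e4, one_mul]) ?_
  rw [densM_zoom hρ, e3, e4, e0, bad_zoom hρ hx0, e4, e5]
  rcases hk2 with h1 | h1
  · left
    refine ⟨hcase.resolve_right (by rw [← h1]; exact not_lt.2 hk1), ?_⟩
    rw [h1]
    field_simp
  · exact Or.inr h1

end Vale.Agent.P218G.BW

namespace Vale.Agent.P218G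

theorem badCoreW_proof (hO : OneLeW) : BadCoreW := BW.badCore hO

theorem badW_proof (hO : OneLeW) (hA : AIW) (hD : DensW) : BadW := BW.bad (BW.badCore hO) hA hD

end Vale.Agent.P218G
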