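import Vale.Agent.P218FT.WGraph
import Vale.Agent.P218FT.WGeo
import Vale.Agent.P218FT.Local2
import Vale.Agent.P218FT.Scale

/-! Flows which are smooth in an open region of space-time: local geometry and graphs. -/

open MeasureTheory Set Filter Topology Metric Asymptotics
open scoped ENNReal NNReal RealInnerProductSpace ContDiff

namespace Vale.Agent.P218G.WL

open Vale.Agent.P218FT

/-- `M` is a smooth properly embedded mean curvature flow in the open set `U` of space-time -/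
structure MCFOn (M : ℝ → Set E3) (U : Set (ℝ × E3)) : Prop where
  isOpen : IsOpen U
  closed : ∀ p ∈ U, p.2 ∉ M p.1 → ∀ᶠ q : ℝ × E3 in 𝓝 p, q.2 ∉ M q.1
  loc : ∀ p ∈ U, p.2 ∈ M p.1 → ∃ w : ℝ × E3 → ℝ, ContDiff ℝ ∞ w ∧
    gradient (fun y => w (p.1, y)) p.2 ≠ 0 ∧ (∀ᶠ q : ℝ × E3 in 𝓝 p, q.2 ∈ M q.1 ↔ w q = 0) ∧
    deriv (fun s => w (s, p.2)) p.1 = -⟪gradient (fun y => w (p.1, y)) p.2, Hv (M p.1) p.2⟫

/-- the part of the track in `U` -/
def trk (M : ℝ → Set E3) (U : Set (ℝ × E3)) : Set (ℝ × E3) := {p | p ∈ U ∧ p.2 ∈ M p.1}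

theorem on_of_mcf {M : ℝ → Set E3} {I : Set ℝ} (h : IsMCF M I) : MCFOn M (I ×ˢ univ) :=
  ⟨h.isOpen.prod isOpen_univ, fun p hp => h.closed p.1 hp.1 p.2, fun p hp => h.loc p.1 hp.1 p.2⟩

theorem mcf_of_on {M : ℝ → Set E3} {U : Set (ℝ × E3)} (h : MCFOn M U) {I : Set ℝ} (hI : IsOpen I)
    (hU : ∀ t ∈ I, ∀ x, (t, x) ∈ U) : IsMCF M I :=
  ⟨hI, fun t ht x => h.closed (t, x) (hU t ht x), fun t ht x => h.loc (t, x) (hU t ht x)⟩

namespace MCFOn

variable {M : ℝ → Set E3} {U : Set (ℝ × E3)} (h : MCFOn M U)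
include h

theorem mono {V : Set (ℝ × E3)} (hV : IsOpen V) (hVU : V ⊆ U) : MCFOn M V :=
  ⟨hV, fun p hp => h.closed p (hVU hp), fun p hp => h.loc p (hVU hp)⟩

theorem exists_eqnT {p : ℝ × E3} (hp : p ∈ U) (hx : p.2 ∈ M p.1) : ∃ w, IsEqnT M p w ∧
    deriv (fun s => w (s, p.2)) p.1 = -⟪gradient (sl w p.1) p.2, Hv (M p.1) p.2⟫ := by
  obtain ⟨w, h1, h2, h3, h4⟩ := h.loc p hp hx
  exact ⟨w, ⟨h1, h2, h3⟩, h4⟩

theorem isEqn {t : ℝ} {x : E3} (hp : (t, x) ∈ U) (hx : x ∈ M t) : IsEqn (M t) x (eqn (M t) x) := by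
  obtain ⟨w, hw, -⟩ := h.exists_eqnT hp hx
  exact hw.isEqn.isEqn_eqn

theorem norm_nu {t : ℝ} {x : E3} (hp : (t, x) ∈ U) (hx : x ∈ M t) : ‖nu (M t) x‖ = 1 :=
  norm_nuw (h.isEqn hp hx).2.1

/-- the track is closed in `U` -/
theorem isClosed_inter {K : Set (ℝ × E3)} (hK : IsClosed K) (hKU : K ⊆ U) :
    IsClosed {p : ℝ × E3 | p ∈ K ∧ p.2 ∈ M p.1} := by
  refine isOpen_compl_iff.1 (isOpen_iff_mem_nhds.2 fun p hp => ?_)
  by_cases h1 : p ∈ K
  · have h2 : p.2 ∉ M p.1 := fun h2 => hp ⟨h1, h2⟩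
    filter_upwards [h.closed p (hKU h1) h2] with q hq hq' using hq hq'.2
  · filter_upwards [hK.isOpen_compl.mem_nhds h1] with q hq hq' using hq hq'.1

theorem isCompact_inter {K : Set (ℝ × E3)} (hK : IsCompact K) (hKU : K ⊆ U) :
    IsCompact {p : ℝ × E3 | p ∈ K ∧ p.2 ∈ M p.1} :=
  hK.of_isClosed_subset (h.isClosed_inter hK.isClosed hKU) fun _ hp => hp.1

/-- continuity on the track of every quantity which does not depend on the sign of the normal -/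
theorem continuousOn_even {Y : Type*} [TopologicalSpace Y] {Φ : E3 × (E3 →L[ℝ] E3) → Y}
    (hΦ : Continuous Φ) (he : ∀ n A, Φ (-n, -A) = Φ (n, A)) :
    ContinuousOn (fun p : ℝ × E3 => Φ (nu (M p.1) p.2, sh (M p.1) p.2)) (trk M U) := by
  intro p hp
  obtain ⟨w, hw, -⟩ := h.exists_eqnT hp.1 hp.2
  have h1 : ContinuousAt (fun q : ℝ × E3 => Φ (nuw (sl w q.1) q.2, shw (sl w q.1) q.2)) p :=
    hΦ.continuousAt.comp (hw.continuousAt_nuw.prodMk hw.continuousAt_shw)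
  have key : ∀ q, IsEqnT M q w → q.2 ∈ M q.1 → Φ (nu (M q.1) q.2, sh (M q.1) q.2)
      = Φ (nuw (sl w q.1) q.2, shw (sl w q.1) q.2) := by
    intro q hq hq'
    obtain ⟨ε, hε, e1, e2⟩ := hq.isEqn.nu_sh hq'
    rcases hε with h0 | h0
    · rw [e1, e2, h0, one_smul, one_smul]
    · have e3 : ((-1 : ℝ) • shw (sl w q.1) q.2) = -shw (sl w q.1) q.2 := by ext1 v; simp
      rw [e1, e2, h0, e3, neg_one_smul, he]
  refine h1.continuousWithinAt.congr_of_eventuallyEq ?_ (key p hw hp.2)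
  filter_upwards [nhdsWithin_le_nhds hw.eventually, self_mem_nhdsWithin] with q hq hq'
    using key q hq hq'.2

theorem continuousOn_a2 : ContinuousOn (fun p : ℝ × E3 => a2 (M p.1) p.2) (trk M U) :=
  h.continuousOn_even (Φ := fun q => tr (q.2.comp q.2))
    (continuous_tr.comp (continuous_snd.clm_comp continuous_snd)) (by simp)

theorem continuousOn_Hv : ContinuousOn (fun p : ℝ × E3 => Hv (M p.1) p.2) (trk M U) :=
  h.continuousOn_even (Φ := fun q => tr q.2 • q.1)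
    ((continuous_tr.comp continuous_snd).smul continuous_fst)
    (fun n A => by rw [← neg_one_smul ℝ A, tr_smul]; simp)

theorem continuousOn_pt : ContinuousOn (fun p : ℝ × E3 => pt (nu (M p.1) p.2)) (trk M U) :=
  h.continuousOn_even (Φ := fun q => pt q.1) (continuous_pt.comp continuous_fst)
    (fun n _ => pt_neg n)

theorem continuousOn_norm_sh : ContinuousOn (fun p : ℝ × E3 => ‖sh (M p.1) p.2‖) (trk M U) :=
  h.continuousOn_even (Φ := fun q => ‖q.2‖) continuous_snd.norm (by simp)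

theorem continuousOn_nu_sq (e : E3) :
    ContinuousOn (fun p : ℝ × E3 => ⟪nu (M p.1) p.2, e⟫ ^ 2) (trk M U) :=
  h.continuousOn_even (Φ := fun q => ⟪q.1, e⟫ ^ 2) (by fun_prop) (by simp)

/-- joint continuity of `|⟨v, ν⟩|` -/
theorem continuousOn_abs_inner :
    ContinuousOn (fun q : (ℝ × E3) × E3 => |⟪q.2, nu (M q.1.1) q.1.2⟫|) (trk M U ×ˢ univ) := by
  have h1 : ContinuousOn (fun q : (ℝ × E3) × E3 => ‖q.2 - pt (nu (M q.1.1) q.1.2) q.2‖)
      (trk M U ×ˢ univ) :=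
    (continuousOn_snd.sub ((h.continuousOn_pt.comp continuousOn_fst fun q hq => hq.1).clm_apply
      continuousOn_snd)).norm
  refine h1.congr fun q hq => ?_
  simp only [pt_apply, sub_sub_cancel, norm_smul, h.norm_nu hq.1.1 hq.1.2, mul_one,
    real_inner_comm]
  rfl

/-- **Time jets**: points of the flow moving with the mean curvature vector to first order. -/
theorem time_jet {t : ℝ} {x : E3} (ht : (t, x) ∈ U) (hx : x ∈ M t) : ∃ p : ℝ → E3,
    (∀ᶠ σ in 𝓝 0, p σ ∈ M (t + σ)) ∧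
      (fun σ => p σ - (x + σ • Hv (M t) x)) =o[𝓝 0] fun σ : ℝ => σ := by
  obtain ⟨w, hw, he⟩ := h.exists_eqnT ht hx
  simp only at he
  set q : ℝ → ℝ × E3 := fun σ => (t + σ, x + σ • Hv (M t) x) with hq
  have hqd : HasDerivAt q (1, Hv (M t) x) 0 := by
    have h2 : HasDerivAt (fun σ : ℝ => x + σ • Hv (M t) x) (Hv (M t) x) 0 := by
      simpa using ((hasDerivAt_id (0 : ℝ)).smul_const (Hv (M t) x)).const_add x
    exact ((hasDerivAt_id (0 : ℝ)).const_add t).prodMk h2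
  have hq0 : q 0 = (t, x) := by simp [hq]
  have hwd : HasFDerivAt w (fderiv ℝ w (t, x)) (q 0) := by
    rw [hq0]; exact (hw.1.differentiable (by simp) _).hasFDerivAt
  have h1 := hwd.comp_hasDerivAt 0 hqd
  rw [fderiv_apply_prod hw.1, he, one_mul, neg_add_cancel] at h1
  have h0 : w (t, x) = 0 := hw.2.2.self_of_nhds.1 hx
  have h2 : (fun σ => w (q σ)) =o[𝓝 0] fun σ : ℝ => σ := by
    simpa [hq0, h0] using hasDerivAt_iff_isLittleO.1 h1
  have hv : 0 < fderiv ℝ w (t, x) (0, nuw (sl w t) x) := by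
    rw [fderiv_apply_prod hw.1, zero_mul, zero_add, inner_grad_nuw hw.2.1]
    exact norm_pos_iff.2 hw.2.1
  have hqt : Tendsto q (𝓝 0) (𝓝 (t, x)) := hq0 ▸ hqd.continuousAt
  obtain ⟨c, hc0, hc⟩ := exists_zero_littleO (hw.1.of_le one_le_inf) hv hqt tendsto_id h2
  have hct : Tendsto (fun σ => q σ + c σ • ((0 : ℝ), nuw (sl w t) x)) (𝓝 0) (𝓝 (t, x)) := by
    simpa using hqt.add ((hc.trans_tendsto tendsto_id).smul_const ((0 : ℝ), nuw (sl w t) x))
  refine ⟨fun σ => x + σ • Hv (M t) x + c σ • nuw (sl w t) x, ?_, ?_⟩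
  · filter_upwards [hc0, hct.eventually hw.2.2] with σ h3 h4
    simpa [hq] using h4.2 h3
  · refine IsBigO.trans_isLittleO (g := c) (IsBigO.of_bound 1 (Eventually.of_forall fun σ => ?_)) hc
    simp [norm_smul, norm_nuw hw.2.1]

/-- every local space-time equation satisfies the level set equation on the track -/
theorem eqn_of_isEqnT {t : ℝ} {x : E3} (ht : (t, x) ∈ U) (hx : x ∈ M t) {w : ℝ × E3 → ℝ}
    (hw : IsEqnT M (t, x) w) :
    deriv (fun s => w (s, x)) t = -⟪gradient (sl w t) x, Hv (M t) x⟫ := by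
  obtain ⟨p, hp, hj⟩ := h.time_jet ht hx
  have hp1 : Tendsto p (𝓝 0) (𝓝 x) := by
    have h2 : Tendsto (fun σ : ℝ => x + σ • Hv (M t) x) (𝓝 0) (𝓝 x) := by
      have : Continuous fun σ : ℝ => x + σ • Hv (M t) x := by fun_prop
      simpa using this.tendsto 0
    simpa using (hj.trans_tendsto tendsto_id).add h2
  have hp0 : p 0 = x := by
    have := hj.isBigO.eq_zero_imp (E'' := E3) (F'' := ℝ)
    have h3 := (hj.def one_pos).self_of_nhds
    simpa [sub_eq_zero] using h3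
  have hpd : HasDerivAt p (Hv (M t) x) 0 := by
    rw [hasDerivAt_iff_isLittleO, hp0]
    simpa [sub_sub] using hj
  have hqd : HasDerivAt (fun σ : ℝ => (t + σ, p σ)) (1, Hv (M t) x) 0 :=
    ((hasDerivAt_id (0 : ℝ)).const_add t).prodMk hpd
  have hwd : HasFDerivAt w (fderiv ℝ w (t, x)) ((fun σ : ℝ => (t + σ, p σ)) 0) := by
    simp only [add_zero, hp0]; exact (hw.1.differentiable (by simp) _).hasFDerivAt
  have h1 := hwd.comp_hasDerivAt 0 hqd
  have hqt : Tendsto (fun σ : ℝ => (t + σ, p σ)) (𝓝 0) (𝓝 (t, x)) := by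
    simpa [hp0] using hqd.continuousAt.tendsto
  have h2 : HasDerivAt (w ∘ fun σ : ℝ => (t + σ, p σ)) 0 0 := by
    refine (hasDerivAt_const (0 : ℝ) (0 : ℝ)).congr_of_eventuallyEq ?_
    filter_upwards [hp, hqt.eventually hw.2.2] with σ h3 h4 using h4.1 h3
  have h3 := h1.unique h2
  rw [fderiv_apply_prod hw.1, one_mul] at h3
  linarith

/-- **Tangency of chords**, locally uniformly in space-time. -/
theorem exists_twoPt {t : ℝ} {x : E3} (ht : (t, x) ∈ U) (hx : x ∈ M t) : ∃ r C : ℝ, 0 < r ∧ 0 < C ∧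
    ∀ᶠ q : ℝ × E3 in 𝓝 (t, x), q.2 ∈ M q.1 → TwoPt (M q.1) q.2 r C := by
  obtain ⟨w, hw, -⟩ := h.exists_eqnT ht hx
  set g := ‖gradient (sl w t) x‖ with hg
  set K := ‖fderiv ℝ (gradient (sl w t)) x‖ + 1 with hK
  have hg0 : 0 < g := norm_pos_iff.2 hw.2.1
  have hK0 : 0 < K := by positivity
  have e1 : ∀ᶠ q : ℝ × E3 in 𝓝 (t, x), g / 2 < ‖gradient (sl w q.1) q.2‖ :=
    (contDiff_sgrad hw.1).continuous.norm.continuousAt.eventually (lt_mem_nhds (by simp only; linarith))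
  have e2 : ∀ᶠ q : ℝ × E3 in 𝓝 (t, x), ‖fderiv ℝ (gradient (sl w q.1)) q.2‖ < K :=
    (continuous_shess hw.1).norm.continuousAt.eventually (gt_mem_nhds (by simp only; linarith))
  obtain ⟨δ, hδ, hδ'⟩ := Metric.eventually_nhds_iff.1 ((e1.and e2).and hw.eventually)
  refine ⟨δ / 2, 2 * K / g, by positivity, by positivity, ?_⟩
  filter_upwards [ball_mem_nhds (t, x) (half_pos hδ)] with q hq hqM y hy hyq
  have hq' : dist q (t, x) < δ / 2 := hq
  have hin : ∀ z ∈ closedBall q.2 ‖y - q.2‖, dist (q.1, z) (t, x) < δ := by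
    intro z hz
    have h1 : dist (q.1, z) q ≤ δ / 2 := by
      rw [Prod.dist_eq, dist_self]
      exact max_le (by positivity) ((mem_closedBall.1 hz).trans hyq)
    linarith [dist_triangle (q.1, z) q (t, x)]
  have hq2 : q.2 ∈ closedBall q.2 ‖y - q.2‖ := mem_closedBall_self (norm_nonneg _)
  have hy2 : y ∈ closedBall q.2 ‖y - q.2‖ := by rw [mem_closedBall, dist_eq_norm]
  have hs := contDiff_sl hw.1 q.1
  have lip : ∀ z ∈ closedBall q.2 ‖y - q.2‖,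
      ‖gradient (sl w q.1) z - gradient (sl w q.1) q.2‖ ≤ K * ‖y - q.2‖ := by
    intro z hz
    have := (convex_closedBall q.2 ‖y - q.2‖).norm_image_sub_le_of_norm_fderiv_le (𝕜 := ℝ)
      (f := gradient (sl w q.1)) (C := K)
      (fun u _ => (contDiff_grad hs).differentiable (by simp) u)
      (fun u hu => (hδ' (hin u hu)).1.2.le) hq2 hz
    refine this.trans ?_
    have : ‖z - q.2‖ ≤ ‖y - q.2‖ := by rw [← dist_eq_norm]; exact mem_closedBall.1 hz
    gcongr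
  have mv := (convex_closedBall q.2 ‖y - q.2‖).norm_image_sub_le_of_norm_fderiv_le' (𝕜 := ℝ)
    (f := sl w q.1) (C := K * ‖y - q.2‖) (φ := fderiv ℝ (sl w q.1) q.2)
    (fun u _ => hs.differentiable (by simp) u)
    (fun u hu => by
      have e : fderiv ℝ (sl w q.1) u - fderiv ℝ (sl w q.1) q.2
          = innerSL ℝ (gradient (sl w q.1) u - gradient (sl w q.1) q.2) := by
        ext1 v; simp
      rw [e, innerSL_apply_norm]; exact lip u hu) hq2 hy2
  have hE := (hδ' (hin q.2 hq2)).2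
  have hEy := (hδ' (hin y hy2)).2
  have z1 : sl w q.1 q.2 = 0 := hE.isEqn.zero hqM
  have z2 : sl w q.1 y = 0 := hEy.isEqn.zero hy
  rw [z1, z2, sub_zero, zero_sub, norm_neg, ← inner_grad, Real.norm_eq_abs] at mv
  have hgq := (hδ' (hin q.2 hq2)).1.1
  have := hE.isEqn.abs_inner_eq hqM (y - q.2)
  simp only at this hgq
  rw [this, nuw, real_inner_smul_right, abs_mul, abs_inv, abs_norm, real_inner_comm,
    inv_mul_le_iff₀ (by linarith)]
  refine mv.trans ?_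
  have : K * ‖y - q.2‖ * ‖y - q.2‖ = g / 2 * (2 * K / g * ‖y - q.2‖ ^ 2) := by field_simp
  rw [this]
  gcongr

/-- tangency of chords, uniformly on compact subsets of `U` -/
theorem exists_twoPt_compact {K : Set (ℝ × E3)} (hK : IsCompact K) (hKU : K ⊆ U) :
    ∃ r C : ℝ, 0 < r ∧ 0 < C ∧ ∀ p ∈ K, p.2 ∈ M p.1 → TwoPt (M p.1) p.2 r C := by
  have key := (h.isCompact_inter hK hKU).induction_on
    (p := fun S => ∃ r C : ℝ, 0 < r ∧ 0 < C ∧ ∀ q ∈ S, q.2 ∈ M q.1 → TwoPt (M q.1) q.2 r C)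
    ⟨1, 1, one_pos, one_pos, by simp⟩
    (fun S T hST ⟨r, C, hr, hC, H⟩ => ⟨r, C, hr, hC, fun q hq => H q (hST hq)⟩)
    (fun S T ⟨r, C, hr, hC, H⟩ ⟨r', C', hr', hC', H'⟩ =>
      ⟨min r r', max C C', by positivity, by positivity, fun q hq hM y hy hyq => by
        rcases hq with hq | hq
        · exact (H q hq hM y hy (hyq.trans (min_le_left _ _))).trans (by gcongr; exact le_max_left _ _)
        · exact (H' q hq hM y hy (hyq.trans (min_le_right _ _))).trans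
            (by gcongr; exact le_max_right _ _)⟩)
    (fun q hq => by
      obtain ⟨r, C, hr, hC, H⟩ := h.exists_twoPt (t := q.1) (x := q.2) (hKU hq.1) hq.2
      exact ⟨_, nhdsWithin_le_nhds H, r, C, hr, hC, fun q' hq' => hq'⟩)
  obtain ⟨r, C, hr, hC, H⟩ := key
  exact ⟨r, C, hr, hC, fun p hp hx => H p ⟨hp, hx⟩ hx⟩

/-- the two-point bound for all points, on compact subsets of `U` -/
theorem tp_compact {K : Set (ℝ × E3)} (hK : IsCompact K) (hKU : K ⊆ U) :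
    ∃ C : ℝ, 0 ≤ C ∧ ∀ p ∈ K, p.2 ∈ M p.1 → W.TP (M p.1) p.2 C := by
  obtain ⟨r, C, hr, hC, H⟩ := h.exists_twoPt_compact hK hKU
  refine ⟨max C (1 / r), by positivity, fun p hp hx y hy => ?_⟩
  by_cases hd : ‖y - p.2‖ ≤ r
  · exact (H p hp hx y hy hd).trans (by gcongr; exact le_max_left _ _)
  · push Not at hd
    have h1 := abs_real_inner_le_norm (y - p.2) (nu (M p.1) p.2)
    rw [h.norm_nu (hKU hp) hx, mul_one] at h1
    have h2 : 1 / r ≤ max C (1 / r) := le_max_right _ _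
    have h3 : 1 ≤ 1 / r * ‖y - p.2‖ := by rw [one_div, ← div_eq_inv_mul, le_div_iff₀ hr]; linarith
    have h4 : 0 ≤ ‖y - p.2‖ := norm_nonneg _
    nlinarith

theorem exists_a2_bound {K : Set (ℝ × E3)} (hK : IsCompact K) (hKU : K ⊆ U) :
    ∃ C : ℝ, 0 < C ∧ ∀ p ∈ K, p.2 ∈ M p.1 → a2 (M p.1) p.2 ≤ C := by
  obtain ⟨C, hC⟩ := ((h.isCompact_inter hK hKU).image_of_continuousOn
    (h.continuousOn_a2.mono fun p hp => ⟨hKU hp.1, hp.2⟩)).bddAbove
  refine ⟨max C 1, by positivity, fun p hp hx => le_trans ?_ (le_max_left _ _)⟩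
  exact hC ⟨p, ⟨hp, hx⟩, rfl⟩

end MCFOn

/-- the rescaling of a space-time region -/
def scaleReg (lam : ℝ) (x₀ : E3) (t₀ : ℝ) (U : Set (ℝ × E3)) : Set (ℝ × E3) :=
  {p | (t₀ + p.1 / lam ^ 2, x₀ + lam⁻¹ • p.2) ∈ U}

theorem MCFOn.scale {M : ℝ → Set E3} {U : Set (ℝ × E3)} {lam : ℝ} (hl : 0 < lam) (h : MCFOn M U)
    (x₀ : E3) (t₀ : ℝ) : MCFOn (scaleFlow lam x₀ t₀ M) (scaleReg lam x₀ t₀ U) := by
  have hc : Continuous fun p : ℝ × E3 => (t₀ + p.1 / lam ^ 2, x₀ + lam⁻¹ • p.2) := by fun_prop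
  refine ⟨h.isOpen.preimage hc, ?_, ?_⟩
  · rintro ⟨s, y⟩ hs hy
    exact (hc.tendsto (s, y)).eventually (h.closed _ hs hy)
  · rintro ⟨s, y⟩ hs hy
    obtain ⟨w, hw, hg, he, hd⟩ := h.loc _ hs hy
    simp only at hg hd hy ⊢
    refine ⟨fun p => w (t₀ + p.1 / lam ^ 2, x₀ + lam⁻¹ • p.2), hw.comp (by fun_prop), ?_,
      (hc.tendsto (s, y)).eventually he, ?_⟩
    · rw [gradient_comp_up hl.ne' (fun z => w (t₀ + s / lam ^ 2, z))]
      exact smul_ne_zero (inv_ne_zero hl.ne') hg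
    · rw [gradient_comp_up hl.ne' (fun z => w (t₀ + s / lam ^ 2, z)), scaleFlow_apply,
        Hv_scale hl hy, inner_smul_left, inner_smul_right]
      have h1 : DifferentiableAt ℝ (fun t => w (t, x₀ + lam⁻¹ • y)) (t₀ + s / lam ^ 2) :=
        ((hw.comp (f := fun t : ℝ => (t, x₀ + lam⁻¹ • y)) (by fun_prop)).differentiable
          (by simp)).differentiableAt
      have h2 : HasDerivAt (fun s : ℝ => t₀ + s / lam ^ 2) (1 / lam ^ 2) s :=
        ((hasDerivAt_id s).div_const _).const_add t₀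
      have h3 := (h1.hasDerivAt.comp s h2).deriv
      rw [hd] at h3
      refine h3.trans ?_
      simp only [conj_trivial]
      field_simp

/-! ### Graphs -/

/-- over `p = (ξ, t)` the vertical segment lies in `U` and contains exactly one point of `M t`, its
height is less than `ρ`, and `e` is transversal to `M t` there -/
def GoodOn (M : ℝ → Set E3) (U : Set (ℝ × E3)) (x₀ : E3) (J : P2 →ₗᵢ[ℝ] E3) (e : E3) (ρ : ℝ)
    (p : P2 × ℝ) : Prop :=
  (∀ z : ℝ, |z| ≤ ρ → (p.2, x₀ + J p.1 + z • e) ∈ U) ∧ ∃ z : ℝ, |z| < ρ ∧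
    x₀ + J p.1 + z • e ∈ M p.2 ∧ ⟪nu (M p.2) (x₀ + J p.1 + z • e), e⟫ ≠ 0 ∧
    ∀ z' : ℝ, |z'| ≤ ρ → x₀ + J p.1 + z' • e ∈ M p.2 → z' = z

open WGraph

/-- the local graph given by the implicit function theorem -/
theorem local_graph {M : ℝ → Set E3} {U : Set (ℝ × E3)} (hM : MCFOn M U) {x₀ : E3} {J : P2 →ₗᵢ[ℝ] E3}
    {e : E3} {ρ : ℝ} {p₀ : P2 × ℝ} (hp : GoodOn M U x₀ J e ρ p₀) :
    ∃ φ : P2 × ℝ → ℝ, ContDiffAt ℝ ∞ φ p₀ ∧ ∀ᶠ p in 𝓝 p₀,
      (∀ z : ℝ, |z| ≤ ρ → (p.2, x₀ + J p.1 + z • e) ∈ U) ∧ |φ p| < ρ ∧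
      x₀ + J p.1 + φ p • e ∈ M p.2 ∧ ⟪nu (M p.2) (x₀ + J p.1 + φ p • e), e⟫ ≠ 0 ∧
      ∀ z' : ℝ, |z'| ≤ ρ → x₀ + J p.1 + z' • e ∈ M p.2 → z' = φ p := by
  obtain ⟨hI, z, hz, hmem, htr, huniq⟩ := hp
  obtain ⟨w, hw, hg, hev, -⟩ := hM.loc _ (hI z hz.le) hmem
  simp only at hg
  set Ψ : (P2 × ℝ) × ℝ → ℝ × E3 := fun v => (v.1.2, x₀ + J v.1.1 + v.2 • e) with hΨ
  have hΨs : ContDiff ℝ ∞ Ψ := by
    have hJ : ContDiff ℝ ∞ fun a : P2 => J a := J.toContinuousLinearMap.contDiff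
    simp only [hΨ]
    fun_prop
  have hW : ContDiffAt ℝ ∞ (w ∘ Ψ) (p₀, z) := (hw.comp hΨs).contDiffAt
  have heq := slice_eqn hw hg hev
  have hc : fderiv ℝ w (p₀.2, x₀ + J p₀.1 + z • e) (0, e) ≠ 0 := by
    rw [← inner_slice hw]
    intro h0
    obtain ⟨ε, -, h1, -⟩ := heq.nu_sh hmem
    apply htr
    rw [h1, nuw, real_inner_smul_left, real_inner_smul_left, h0, mul_zero, mul_zero]
  have hinv : (fderiv ℝ (w ∘ Ψ) (p₀, z) ∘L ContinuousLinearMap.inr ℝ (P2 × ℝ) ℝ).IsInvertible := by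
    have h1 : HasDerivAt (fun s : ℝ => Ψ (p₀, s)) ((0 : ℝ), e) z := by
      have h0 : HasDerivAt (fun s : ℝ => x₀ + J p₀.1 + s • e) e z := by
        simpa using ((hasDerivAt_id z).smul_const e).const_add (x₀ + J p₀.1)
      exact (hasDerivAt_const z p₀.2).prodMk h0
    have h2 := (hw.differentiable (by simp) (Ψ (p₀, z))).hasFDerivAt.comp_hasDerivAt z h1
    have h3 := (hW.differentiableAt (by simp)).hasFDerivAt.comp z
      (hasFDerivAt_prodMk_right (𝕜 := ℝ) p₀ z)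
    have h4 := h3.unique h2.hasFDerivAt
    refine ⟨ContinuousLinearEquiv.unitsEquivAut ℝ (Units.mk0 _ hc), ?_⟩
    rw [h4]
    ext
    simp [hΨ]
  set φ := hW.implicitFunction (by simp) hinv with hφ
  have hφs : ContDiffAt ℝ ∞ φ p₀ := hW.contDiffAt_implicitFunction (by simp) hinv
  have hφ0 : φ p₀ = z := hW.implicitFunction_apply_self (by simp) hinv
  have hw0 : (w ∘ Ψ) (p₀, z) = 0 := hev.self_of_nhds.1 hmem
  have hiff := hW.eventually_apply_eq_iff_implicitFunction (by simp) hinv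
  have happ := hW.eventually_apply_implicitFunction (by simp) hinv
  rw [hw0] at hiff happ
  have hT : Tendsto (fun p => Ψ (p, φ p)) (𝓝 p₀) (𝓝 (p₀.2, x₀ + J p₀.1 + z • e)) := by
    have h1 : ContinuousAt (fun p => Ψ (p, φ p)) p₀ :=
      hΨs.continuous.continuousAt.comp (continuousAt_id.prodMk hφs.continuousAt)
    have h2 := h1.tendsto
    rwa [hφ0] at h2
  have hcont : Continuous fun v : ℝ × E3 => fderiv ℝ w v (0, e) :=
    (hw.continuous_fderiv (by simp)).clm_apply continuous_const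
  have e1 : ∀ᶠ p : P2 × ℝ in 𝓝 p₀, ∀ z' ∈ Icc (-ρ) ρ, (p.2, x₀ + J p.1 + z' • e) ∈ U :=
    isCompact_Icc.eventually_forall_of_forall_eventually fun z' hz' =>
      (hΨs.continuous.tendsto (p₀, z')).eventually (hM.isOpen.mem_nhds (hI z' (abs_le.2 hz')))
  have e2 : ∀ᶠ p in 𝓝 p₀, |φ p| < ρ :=
    hφs.continuousAt.abs.eventually_lt_const (by simpa only [hφ0] using hz)
  have e3 := hT.eventually hev.eventually_nhds
  have e4 := hT.eventually (hcont.continuousAt.eventually_ne hc)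
  have e5 : ∀ᶠ p in 𝓝 p₀, ∀ z' ∈ Icc (-ρ) ρ, x₀ + J p.1 + z' • e ∈ M p.2 → z' = φ p := by
    refine isCompact_Icc.eventually_forall_of_forall_eventually fun z' hz' => ?_
    by_cases hzz : z' = z
    · subst hzz
      filter_upwards [hiff, hΨs.continuous.continuousAt.eventually hev] with v h1 h2 h3
      exact (h1.1 (h2.1 h3)).symm
    · have hn : x₀ + J p₀.1 + z' • e ∉ M p₀.2 := fun h => hzz (huniq z' (abs_le.2 hz') h)
      have h1 := (hΨs.continuous.tendsto (p₀, z')).eventually (hM.closed _ (hI z' (abs_le.2 hz')) hn)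
      filter_upwards [h1] with v h2 h3 using absurd h3 h2
  refine ⟨φ, hφs, ?_⟩
  filter_upwards [e1, e2, e3, e4, e5, happ] with p h1 h2 h3 h4 h5 h6
  have hm : x₀ + J p.1 + φ p • e ∈ M p.2 := h3.self_of_nhds.2 h6
  refine ⟨fun z' hz' => h1 z' (abs_le.1 hz'), h2, hm, ?_, fun z' hz' => h5 z' (abs_le.1 hz')⟩
  have h7 : ⟪gradient (fun y => w (p.2, y)) (x₀ + J p.1 + φ p • e), e⟫ ≠ 0 := by
    rw [inner_slice hw]; exact h4
  have h8 : gradient (fun y => w (p.2, y)) (x₀ + J p.1 + φ p • e) ≠ 0 := fun h =>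
    h7 (by rw [h, inner_zero_left])
  obtain ⟨ε, hε, h9, -⟩ := (slice_eqn hw h8 h3).nu_sh hm
  rw [h9, nuw, real_inner_smul_left, real_inner_smul_left]
  refine mul_ne_zero ?_ (mul_ne_zero (inv_ne_zero (norm_ne_zero_iff.2 h8)) h7)
  rcases hε with h | h <;> simp [h]

/-- the identities satisfied by a smooth graph contained in the flow -/
theorem graph_identities {M : ℝ → Set E3} {U : Set (ℝ × E3)} (hM : MCFOn M U) {x₀ : E3} {J : P2 →ₗᵢ[ℝ] E3}
    {e : E3} (he : ‖e‖ = 1) (hJ : ∀ a, ⟪J a, e⟫ = 0) {h : P2 × ℝ → ℝ} {p : P2 × ℝ}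
    (hI : (p.2, x₀ + J p.1 + h p • e) ∈ U)
    (hh : ContDiffAt ℝ 2 h p) (hev : ∀ᶠ q in 𝓝 p, x₀ + J q.1 + h q • e ∈ M q.2) :
    (∀ a, ⟪J a + ⟪gx h p, a⟫ • e, nu (M p.2) (x₀ + J p.1 + h p • e)⟫ = 0) ∧
    (∀ a b, ⟪sh (M p.2) (x₀ + J p.1 + h p • e) (J a + ⟪gx h p, a⟫ • e), J b + ⟪gx h p, b⟫ • e⟫ =
      ⟪hx h p a, b⟫ * ⟪e, nu (M p.2) (x₀ + J p.1 + h p • e)⟫) ∧ GEq h p := by
  obtain ⟨ξ, t⟩ := p
  have hmem : x₀ + J ξ + h (ξ, t) • e ∈ M t := hev.self_of_nhds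
  obtain ⟨w, hw, hg, hwe, hwt⟩ := hM.loc _ hI hmem
  simp only at hg hwt
  have heq := slice_eqn hw hg hwe
  have hu : ContDiffAt ℝ 2 (fun η => h (η, t)) ξ :=
    hh.comp ξ (contDiffAt_id.prodMk contDiffAt_const)
  have hX : Tendsto (fun η => x₀ + J η + h (η, t) • e) (𝓝 ξ) (𝓝 (x₀ + J ξ + h (ξ, t) • e)) :=
    (hasFDerivAt_graph (x₀ := x₀) (J := J) (e := e)
      (hu.differentiableAt (by norm_num))).continuousAt
  have hsl : ∀ᶠ η in 𝓝 ξ, x₀ + J η + h (η, t) • e ∈ M t :=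
    ((continuous_id.prodMk continuous_const).tendsto' ξ (ξ, t) rfl).eventually hev
  have zero : ∀ f, IsEqn (M t) (x₀ + J ξ + h (ξ, t) • e) f →
      ∀ᶠ η in 𝓝 ξ, f (x₀ + J η + h (η, t) • e) = 0 := by
    intro f hf
    filter_upwards [hsl, hX.eventually hf.2.2] with η h1 h2 using h2.1 h1
  have hf := heq.isEqn_eqn
  have hn : ‖nu (M t) (x₀ + J ξ + h (ξ, t) • e)‖ = 1 := norm_nuw hf.2.1
  have k1 : ∀ a, ⟪J a + ⟪gx h (ξ, t), a⟫ • e, nu (M t) (x₀ + J ξ + h (ξ, t) • e)⟫ = 0 := by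
    intro a
    have := first_order hf.two (hu.differentiableAt (by norm_num)) (zero _ hf) a
    rw [nu, nuw, real_inner_smul_right, real_inner_comm]
    exact mul_eq_zero_of_right _ this
  have k2 : ∀ a b, ⟪sh (M t) (x₀ + J ξ + h (ξ, t) • e) (J a + ⟪gx h (ξ, t), a⟫ • e),
      J b + ⟪gx h (ξ, t), b⟫ • e⟫ =
      ⟪hx h (ξ, t) a, b⟫ * ⟪e, nu (M t) (x₀ + J ξ + h (ξ, t) • e)⟫ := by
    intro a b
    have h2 := second_order hf.two hu (zero _ hf) a b
    have ha := k1 a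
    have hb := k1 b
    rw [real_inner_comm, nu] at ha hb
    rw [sh, inner_shw, pt_of_orth ha, pt_of_orth hb, nu, nuw, real_inner_smul_right,
      real_inner_comm _ e]
    have h3 := eq_neg_of_add_eq_zero_left h2
    change -_ * ⟪fderiv ℝ _ _ (J a + ⟪gradient (fun η => h (η, t)) ξ, a⟫ • e),
      J b + ⟪gradient (fun η => h (η, t)) ξ, b⟫ • e⟫ =
      ⟪fderiv ℝ (gradient fun η => h (η, t)) ξ a, b⟫ * _
    rw [h3]
    ring
  refine ⟨k1, k2, ?_⟩
  have htr := trace_graph he hJ hn k1 (S := sh (M t) (x₀ + J ξ + h (ξ, t) • e))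
    (fun u v => by
      rw [sh, nu, inner_shw, inner_shw, pt_pt (norm_nuw hf.2.1), pt_pt (norm_nuw hf.2.1)]) k2
  have hne := orth_expand he hJ k1
  have hge := orth_expand (q := gx h (ξ, t)) he hJ (fun a => by
    rw [real_inner_comm]
    exact first_order heq.two (hu.differentiableAt (by norm_num)) (zero _ heq) a)
  set g := gradient (fun y => w (t, y)) (x₀ + J ξ + h (ξ, t) • e) with hgdef
  set n := nu (M t) (x₀ + J ξ + h (ξ, t) • e) with hndef
  have hge0 : ⟪e, g⟫ ≠ 0 := fun h0 => hg (by rw [hge, h0, zero_smul])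
  have hk : ⟪e, n⟫ ^ 2 * (1 + ‖gx h (ξ, t)‖ ^ 2) = 1 := by
    have h1 : ⟪n, n⟫ = 1 := by rw [real_inner_self_eq_norm_sq, hn]; norm_num
    conv_lhs at h1 => rw [hne]
    rw [real_inner_smul_left, real_inner_smul_right, norm_sq_nrm he hJ] at h1
    linarith
  have hgn : ⟪g, n⟫ = ⟪e, g⟫ * ⟪e, n⟫ * (1 + ‖gx h (ξ, t)‖ ^ 2) := by
    conv_lhs => rw [hge, hne]
    rw [real_inner_smul_left, real_inner_smul_right, norm_sq_nrm he hJ]
    ring
  have hs : DifferentiableAt ℝ (fun s => h (ξ, s)) t :=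
    (hh.differentiableAt (by norm_num)).comp t
      ((differentiableAt_const ξ).prodMk differentiableAt_id)
  have hwd := (hw.differentiable (by simp) (t, x₀ + J ξ + h (ξ, t) • e)).hasFDerivAt
  have d1 : HasDerivAt (fun s => (s, x₀ + J ξ + h (ξ, s) • e))
      ((1 : ℝ), deriv (fun s => h (ξ, s)) t • e) t :=
    (hasDerivAt_id t).prodMk ((hs.hasDerivAt.smul_const e).const_add _)
  have d2 := hwd.comp_hasDerivAt t d1
  have d3 : HasDerivAt (w ∘ fun s => (s, x₀ + J ξ + h (ξ, s) • e)) 0 t := by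
    refine (hasDerivAt_const t (0 : ℝ)).congr_of_eventuallyEq ?_
    filter_upwards [((continuous_const.prodMk continuous_id).tendsto' t (ξ, t) rfl).eventually hev,
      d1.continuousAt.eventually hwe] with s h1 h2 using h2.1 h1
  have d4 := d2.unique d3
  have d5 : HasDerivAt (fun s => w (s, x₀ + J ξ + h (ξ, t) • e))
      (fderiv ℝ w (t, x₀ + J ξ + h (ξ, t) • e) (1, 0)) t :=
    hwd.comp_hasDerivAt t ((hasDerivAt_id t).prodMk (hasDerivAt_const t _))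
  have d6 : ((1 : ℝ), deriv (fun s => h (ξ, s)) t • e) =
      ((1 : ℝ), (0 : E3)) + deriv (fun s => h (ξ, s)) t • ((0 : ℝ), e) := by simp
  rw [d6, map_add, map_smul, ← d5.deriv, hwt, ← inner_slice hw, Hv, real_inner_smul_right,
    ← hndef, ← hgdef, hgn, htr, real_inner_comm e g, smul_eq_mul] at d4
  refine mul_left_cancel₀ hge0 ?_
  change ⟪e, g⟫ * deriv (fun s => h (ξ, s)) t = _
  linear_combination d4 + (⟪e, g⟫ * (LinearMap.trace ℝ P2 (hx h (ξ, t)).toLinearMap -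
    ⟪hx h (ξ, t) (gx h (ξ, t)), gx h (ξ, t)⟫ / (1 + ‖gx h (ξ, t)‖ ^ 2))) * hk

/-- graph representation of a flow over a fixed plane -/
theorem graph_on {M : ℝ → Set E3} {U : Set (ℝ × E3)} (hM : MCFOn M U)
    (x₀ : E3) (J : P2 →ₗᵢ[ℝ] E3) (e : E3) (ρ : ℝ) (he : ‖e‖ = 1) (hJ : ∀ a, ⟪J a, e⟫ = 0) :
      IsOpen {p | GoodOn M U x₀ J e ρ p} ∧ ∃ h : P2 × ℝ → ℝ,
        ContDiffOn ℝ ∞ h {p | GoodOn M U x₀ J e ρ p} ∧ ∀ p, GoodOn M U x₀ J e ρ p →
          |h p| < ρ ∧ x₀ + J p.1 + h p • e ∈ M p.2 ∧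
          (∀ a, ⟪J a + ⟪gx h p, a⟫ • e, nu (M p.2) (x₀ + J p.1 + h p • e)⟫ = 0) ∧
          (∀ a b, ⟪sh (M p.2) (x₀ + J p.1 + h p • e) (J a + ⟪gx h p, a⟫ • e),
              J b + ⟪gx h p, b⟫ • e⟫ =
            ⟪hx h p a, b⟫ * ⟪e, nu (M p.2) (x₀ + J p.1 + h p • e)⟫) ∧
          GEq h p := by
  refine ⟨isOpen_iff_mem_nhds.2 fun p hp => ?_, ?_⟩
  · obtain ⟨φ, -, hev⟩ := local_graph hM hp
    filter_upwards [hev] with q hq using ⟨hq.1, φ q, hq.2⟩
  classical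
  set h : P2 × ℝ → ℝ := fun p => if hp : GoodOn M U x₀ J e ρ p then hp.2.choose else 0 with hh
  have key : ∀ p, GoodOn M U x₀ J e ρ p → ContDiffAt ℝ ∞ h p ∧
      ∀ᶠ q in 𝓝 p, |h q| < ρ ∧ x₀ + J q.1 + h q • e ∈ M q.2 := by
    intro p hp
    obtain ⟨φ, hφ, hev⟩ := local_graph hM hp
    have heq : h =ᶠ[𝓝 p] φ := by
      filter_upwards [hev] with q hq
      have hg : GoodOn M U x₀ J e ρ q := ⟨hq.1, φ q, hq.2⟩
      have hs := hg.2.choose_spec
      simp only [hh, dif_pos hg]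
      exact hq.2.2.2.2 _ hs.1.le hs.2.1
    refine ⟨hφ.congr_of_eventuallyEq heq, ?_⟩
    filter_upwards [hev, heq] with q hq hq'
    rw [hq']
    exact ⟨hq.2.1, hq.2.2.1⟩
  refine ⟨h, fun p hp => (key p hp).1.contDiffWithinAt, fun p hp => ?_⟩
  obtain ⟨h1, h2⟩ := key p hp
  exact ⟨h2.self_of_nhds.1, h2.self_of_nhds.2,
    graph_identities hM he hJ (hp.1 _ h2.self_of_nhds.1.le) (h1.of_le two_le_inf) (h2.mono fun q hq => hq.2)⟩

/-- continuation of a graph over a connected set -/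
theorem good_of_conn {M : ℝ → Set E3} {U : Set (ℝ × E3)} (hM : MCFOn M U) (x₀ : E3)
    {J : P2 →ₗᵢ[ℝ] E3} {e : E3} {ρ : ℝ} (he : ‖e‖ = 1) (hJ : ∀ a, ⟪J a, e⟫ = 0)
    {Q : Set (P2 × ℝ)} (hQ : IsPreconnected Q) 
    (hQI : ∀ p ∈ Q, ∀ z : ℝ, |z| ≤ ρ → (p.2, x₀ + J p.1 + z • e) ∈ U)
    (h : ∀ p ∈ Q, ∀ z : ℝ, |z| ≤ ρ → x₀ + J p.1 + z • e ∈ M p.2 → GoodOn M U x₀ J e ρ p)
    (h0 : ∃ p ∈ Q, GoodOn M U x₀ J e ρ p) : ∀ p ∈ Q, GoodOn M U x₀ J e ρ p := by
  refine hQ.subset_of_closure_inter_subset (graph_on hM x₀ J e ρ he hJ).1 h0 ?_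
  rintro p ⟨hp, hpQ⟩
  by_contra hn
  have hno : ∀ z ∈ Icc (-ρ) ρ, x₀ + J p.1 + z • e ∉ M p.2 := fun z hz hm =>
    hn (h p hpQ z (abs_le.2 hz) hm)
  have hev : ∀ᶠ q : P2 × ℝ in 𝓝 p, ∀ z ∈ Icc (-ρ) ρ, x₀ + J q.1 + z • e ∉ M q.2 := by
    refine isCompact_Icc.eventually_forall_of_forall_eventually fun z hz => ?_
    have hc : Continuous fun q : (P2 × ℝ) × ℝ => ((q.1.2, x₀ + J q.1.1 + q.2 • e) : ℝ × E3) := by
      fun_prop
    exact (hc.tendsto (p, z)).eventually (hM.closed _ (hQI p hpQ z (abs_le.2 hz)) (hno z hz))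
  obtain ⟨q, hq, -, z, hz, hm, -⟩ := (mem_closure_iff_frequently.1 hp).and_eventually hev |>.exists
    |>.imp fun q hq => And.symm hq
  exact hq z (abs_le.1 hz.le) hm

open W in
/-- the graph lemma: there is a point of the surface over every short tangent vector -/
theorem exists_over {M : ℝ → Set E3} {U : Set (ℝ × E3)} (hM : MCFOn M U) {t : ℝ}
    {x : E3} (ht : ∀ y, ‖y - x‖ ≤ 1 → (t, y) ∈ U) (hx : x ∈ M t)
    (hTP : ∀ y ∈ M t, ‖y - x‖ ≤ 1 → TP (M t) y 2) {v : E3}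
    (hv : ⟪nu (M t) x, v⟫ = 0) (hv' : ‖v‖ ≤ 1 / 100) :
    ∃ z : ℝ, |z| ≤ 3 * ‖v‖ ^ 2 ∧ x + v + z • nu (M t) x ∈ M t := by
  set e := nu (M t) x with hedef
  have he : ‖e‖ = 1 := hM.norm_nu (ht x (by simp)) hx
  obtain ⟨J, hJ, hJ'⟩ := exists_plane he
  have hgt : ∀ (a : P2) (z : ℝ), |z| ≤ 1 / 8 → x + J a + z • e ∈ M t → |z| ≤ 3 * ‖a‖ ^ 2 := by
    intro a z hz hm
    have := hTP x hx (by simp) _ hm
    rw [add_assoc, add_sub_cancel_left, ← hedef, inner_add_e he hJ, norm_sq_add he hJ] at this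
    exact height_le hz this
  have hnear : ∀ (a : P2) (z : ℝ), ‖a‖ ≤ 1 / 100 → |z| ≤ 1 / 8 → ‖x + J a + z • e - x‖ ≤ 1 := by
    intro a z ha hz
    rw [add_assoc, add_sub_cancel_left]
    refine (norm_add_le _ _).trans ?_
    rw [J.norm_map, norm_smul, he, Real.norm_eq_abs]
    linarith
  -- graph over a disc on which the tilt is bounded
  have disc : ∀ a : P2, ‖a‖ ≤ 1 / 100 →
      (∀ (b : P2) (z : ℝ), ‖b‖ ≤ ‖a‖ → |z| ≤ 1 / 8 → x + J b + z • e ∈ M t →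
        1 / 4 ≤ ⟪nu (M t) (x + J b + z • e), e⟫ ^ 2) →
      ∃ z : ℝ, |z| ≤ 3 * ‖a‖ ^ 2 ∧ x + J a + z • e ∈ M t := by
    intro a ha htilt
    have key : ∀ p ∈ closedBall (0 : P2) ‖a‖ ×ˢ ({t} : Set ℝ), ∀ z : ℝ, |z| ≤ 1 / 8 →
        x + J p.1 + z • e ∈ M p.2 → GoodOn M U x J e (1 / 8) p := by
      rintro ⟨b, s⟩ ⟨hb, hs⟩ z hz hm
      obtain rfl : s = t := hs
      have hb' : ‖b‖ ≤ ‖a‖ := by simpa using hb
      have hb2 : ‖b‖ ^ 2 ≤ (1 / 100) ^ 2 := pow_le_pow_left₀ (norm_nonneg _) (hb'.trans ha) 2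
      have h1 := hgt b z hz hm
      have h2 := htilt b z hb' hz hm
      refine ⟨fun z' hz' => ht _ (hnear b z' (hb'.trans ha) hz'), z, by linarith, hm, fun h => by simp only at h; rw [h] at h2; norm_num at h2,
        fun z' hz' hm' => ?_⟩
      have h3 := hgt b z' hz' hm'
      have := vertical_eq (z := z' - z) he (hTP _ hm (hnear b z (hb'.trans ha) hz))
        (by rw [sub_smul, add_add_sub_cancel]; exact hm') h2
        (by linarith [abs_sub z' z])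
      linarith
    have := good_of_conn hM x he hJ (ρ := 1 / 8)
      ((convex_closedBall (0 : P2) ‖a‖).isPreconnected.prod isPreconnected_singleton)
      (by
        rintro p ⟨hb, hp⟩ z hz
        rw [mem_singleton_iff.1 hp]
        exact ht _ (hnear _ z ((mem_closedBall_zero_iff.1 hb).trans ha) hz)) key
      ⟨(0, t), ⟨by simp, rfl⟩, key (0, t) ⟨by simp, rfl⟩ 0 (by norm_num) (by simpa using hx)⟩
      (a, t) ⟨by simp, rfl⟩
    obtain ⟨-, z, hz, hm, -⟩ := this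
    exact ⟨z, hgt a z hz.le hm, hm⟩
  -- the set of points with large tilt is empty
  have main : ∀ (b : P2) (z : ℝ), ‖b‖ ≤ 1 / 100 → |z| ≤ 1 / 8 → x + J b + z • e ∈ M t →
      1 / 4 ≤ ⟪nu (M t) (x + J b + z • e), e⟫ ^ 2 := by
    by_contra hcon
    push Not at hcon
    set φ : P2 × ℝ → E3 := fun q => x + J q.1 + q.2 • e with hφ
    have hφc : Continuous φ := by fun_prop
    set B : Set (P2 × ℝ) := (closedBall (0 : P2) (1 / 100) ×ˢ Icc (-(1 / 8) : ℝ) (1 / 8)) ∩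
      φ ⁻¹' (M t ∩ (fun y => ⟪nu (M t) y, e⟫ ^ 2) ⁻¹' Iic (1 / 4)) with hB
    have hBc : IsCompact B := by
      set K : Set (ℝ × E3) := {t} ×ˢ closedBall x 1 with hK
      have hKU : K ⊆ U := by
        rintro ⟨s, y⟩ ⟨hs, hy⟩
        obtain rfl : s = t := hs
        exact ht y (by simpa [dist_eq_norm] using hy)
      have c1 := hM.isClosed_inter (isClosed_singleton.prod isClosed_closedBall) hKU
      have c2 := ((hM.continuousOn_nu_sq e).mono
        (t := {p : ℝ × E3 | p ∈ K ∧ p.2 ∈ M p.1}) fun p hp => ⟨hKU hp.1, hp.2⟩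
        ).preimage_isClosed_of_isClosed c1 (isClosed_Iic (a := (1 / 4 : ℝ)))
      have c3 := c2.preimage (f := fun q : P2 × ℝ => (t, φ q)) (continuous_const.prodMk hφc)
      have c4 := ((isCompact_closedBall (0 : P2) (1 / 100)).prod
        (isCompact_Icc (a := (-(1 / 8) : ℝ)) (b := 1 / 8))).inter_right c3
      convert c4 using 1
      ext q
      refine and_congr_right fun hq => ⟨fun h => ⟨⟨⟨rfl, ?_⟩, h.1⟩, h.2⟩, fun h => ⟨h.1.2, h.2⟩⟩
      rw [mem_closedBall, dist_eq_norm]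
      exact hnear q.1 q.2 (mem_closedBall_zero_iff.1 hq.1) (abs_le.2 hq.2)
    obtain ⟨b₀, z₀, hb₀, hz₀, hm₀, ht₀⟩ := hcon
    obtain ⟨⟨b, z⟩, ⟨⟨hb, hz⟩, hm, htl⟩, hmin⟩ := hBc.exists_isMinOn (f := fun q => ‖q.1‖)
      ⟨(b₀, z₀), ⟨by simpa using hb₀, abs_le.1 hz₀⟩, hm₀, ht₀.le⟩ (by fun_prop)
    have hb' : ‖b‖ ≤ 1 / 100 := by simpa using hb
    have hz' : |z| ≤ 1 / 8 := abs_le.2 hz
    have hm' : x + J b + z • e ∈ M t := hm
    have htl' : ⟪nu (M t) (x + J b + z • e), e⟫ ^ 2 ≤ 1 / 4 := htl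
    have hzb := hgt b z hz' hm'
    set y := x + J b + z • e with hy
    set n := nu (M t) y with hn
    have hn1 : ‖n‖ = 1 := hM.norm_nu (ht _ (hnear b z hb' hz')) hm'
    have hb0 : 0 < ‖b‖ := by
      rcases (norm_nonneg b).eq_or_lt with h | h
      · exfalso
        have hb0 : b = 0 := norm_eq_zero.1 h.symm
        have hz0 : z = 0 := by
          rw [← h] at hzb
          exact abs_nonpos_iff.1 (by simpa using hzb)
        have : y = x := by simp [hy, hb0, hz0]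
        rw [hn, this, ← hedef, real_inner_self_eq_norm_sq, he] at htl'
        norm_num at htl'
      · exact h
    obtain ⟨a₁, ha₁⟩ := hJ' n
    have hna : ‖a₁‖ ^ 2 = 1 - ⟪n, e⟫ ^ 2 := by
      rw [← J.norm_map, ha₁, norm_pt_sq he, hn1, real_inner_comm]; ring
    have hna1 : ‖a₁‖ ≤ 1 := by rw [← J.norm_map, ha₁, ← hn1]; exact norm_pt_le he n
    set a : P2 := (‖b‖ / 2) • a₁ with ha
    have hal : ‖a‖ ≤ ‖b‖ / 2 := by
      rw [ha, norm_smul, Real.norm_eq_abs, abs_of_pos (by positivity)]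
      nlinarith
    obtain ⟨z₁, hz₁, hm₁⟩ := disc a (by linarith) fun b' z' hb'' hz'' hm'' => by
      by_contra hlt
      push Not at hlt
      have := hmin (a := (b', z')) ⟨⟨by simpa using hb''.trans (by linarith), abs_le.1 hz''⟩,
        hm'', hlt.le⟩
      simp only [mem_ofPred_eq] at this
      linarith
    have hT := hTP y hm' (hnear b z hb' hz')
    have h1 := hT x hx
    have h2 := hT _ hm₁
    have e1 : x - y = J (-b) + (-z) • e := by simp [hy]; abel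
    have e2 : x + J a + z₁ • e - y = J (a - b) + (z₁ - z) • e := by
      simp only [hy, map_sub, sub_smul]; abel
    have e3 : x + J a + z₁ • e - y = (x - y) + (J a + z₁ • e) := by abel
    have e4 : ⟪J a, n⟫ = ‖b‖ / 2 * (1 - ⟪n, e⟫ ^ 2) := by
      rw [ha, map_smul, real_inner_smul_left, ha₁, pt_apply, inner_sub_left, real_inner_smul_left,
        real_inner_self_eq_norm_sq, hn1, real_inner_comm n e]
      ring
    rw [← hn] at h1 h2
    have h3 : |⟪J a + z₁ • e, n⟫| ≤ 2 * ‖x - y‖ ^ 2 + 2 * ‖x + J a + z₁ • e - y‖ ^ 2 := by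
      have : ⟪J a + z₁ • e, n⟫ = ⟪x + J a + z₁ • e - y, n⟫ - ⟪x - y, n⟫ := by
        rw [e3, inner_add_left (x - y)]; ring
      rw [this]
      linarith [abs_sub ⟪x + J a + z₁ • e - y, n⟫ ⟪x - y, n⟫]
    rw [e2, e1, norm_sq_add he hJ, norm_sq_add he hJ, inner_add_left, e4, real_inner_smul_left,
      norm_neg] at h3
    rw [real_inner_comm n e] at h3
    exact tilt_arith hb0 hb' hzb hz₁ (norm_nonneg a) hal htl' (norm_nonneg (a - b))
      (by linarith [norm_sub_le a b]) h3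
  obtain ⟨a, ha⟩ := hJ' v
  rw [pt_of_orth hv] at ha
  have hav : ‖a‖ = ‖v‖ := by rw [← ha, J.norm_map]
  obtain ⟨z, hz, hm⟩ := disc a (by linarith) fun b z hb => main b z (by linarith)
  exact ⟨z, by rwa [← hav], by rwa [← ha]⟩

end Vale.Agent.P218G.WL
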