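import Vale.Agent.P218G.Spec
import Vale.Agent.P218G.WLoc
import Vale.Agent.P218FT.EVMain
import Vale.Agent.P218FT.Huisken1
import Vale.Agent.P218FT.Step
import Mathlib.Analysis.SpecialFunctions.SmoothTransition

/-! The profile of the two-point function and elementary lemmas for the barrier lemma. -/

open MeasureTheory Set Filter Topology Metric
open scoped ENNReal NNReal RealInnerProductSpace ContDiff

namespace Vale.Agent.P218G.BW

open P218FT

/-- the smooth transition -/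
noncomputable abbrev sT : ℝ → ℝ := Real.smoothTransition

lemma hasDerivAt_sT (u : ℝ) : HasDerivAt sT (deriv sT u) u :=
  ((Real.smoothTransition.contDiff (n := 1)).differentiable (by simp) u).hasDerivAt

lemma continuous_dsT : Continuous (deriv sT) :=
  (Real.smoothTransition.contDiff (n := 1)).continuous_deriv le_rfl

lemma dsT_of_nonpos {u : ℝ} (h : u ≤ 0) : deriv sT u = 0 := by
  refine IsLocalMin.deriv_eq_zero (Eventually.of_forall fun v => ?_)
  rw [show sT u = 0 from Real.smoothTransition.zero_of_nonpos h]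
  exact Real.smoothTransition.nonneg v

lemma dsT_of_one_le {u : ℝ} (h : 1 ≤ u) : deriv sT u = 0 := by
  refine IsLocalMax.deriv_eq_zero (Eventually.of_forall fun v => ?_)
  rw [show sT u = 1 from Real.smoothTransition.one_of_one_le h]
  exact Real.smoothTransition.le_one v

lemma exists_dsT : ∃ A : ℝ, 0 < A ∧ ∀ u, |deriv sT u| ≤ A := by
  obtain ⟨A, hA⟩ := (isCompact_Icc (a := (0 : ℝ)) (b := 1)).exists_bound_of_continuousOn
    continuous_dsT.continuousOn
  refine ⟨max A 1, by positivity, fun u => ?_⟩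
  rcases le_total u 0 with h | h
  · rw [dsT_of_nonpos h, abs_zero]; positivity
  rcases le_total 1 u with h' | h'
  · rw [dsT_of_one_le h', abs_zero]; positivity
  · exact (hA u ⟨h, h'⟩).trans (le_max_left _ _)

/-- a primitive of the smooth transition -/
noncomputable def XX (u : ℝ) : ℝ := ∫ v in (0 : ℝ)..u, sT v

lemma hasDerivAt_XX (u : ℝ) : HasDerivAt XX (sT u) u :=
  (Real.smoothTransition.continuous.integral_hasStrictDerivAt 0 u).hasDerivAt

lemma XX_zero : XX 0 = 0 := by simp [XX]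

lemma monotone_XX : Monotone XX :=
  monotone_of_deriv_nonneg (fun u => (hasDerivAt_XX u).differentiableAt) fun u => by
    rw [(hasDerivAt_XX u).deriv]; exact Real.smoothTransition.nonneg u

lemma XX_of_nonpos {u : ℝ} (h : u ≤ 0) : XX u = 0 := by
  unfold XX
  rw [intervalIntegral.integral_congr (g := fun _ => 0), intervalIntegral.integral_zero]
  intro v hv
  rw [uIcc_of_ge h] at hv
  exact Real.smoothTransition.zero_of_nonpos hv.2

lemma XX_nonneg (u : ℝ) : 0 ≤ XX u := by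
  rcases le_total u 0 with h | h
  · rw [XX_of_nonpos h]
  · exact XX_zero ▸ monotone_XX h

lemma XX_le {u : ℝ} (h : 0 ≤ u) : XX u ≤ u := by
  have h1 : Monotone fun u => u - XX u :=
    monotone_of_deriv_nonneg (fun u => ((hasDerivAt_id u).sub (hasDerivAt_XX u)).differentiableAt)
      fun u => by
        rw [show deriv (fun u => u - XX u) u = 1 - sT u from
          ((hasDerivAt_id u).sub (hasDerivAt_XX u)).deriv]
        linarith [Real.smoothTransition.le_one u]
  have := h1 h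
  simp only [XX_zero] at this
  linarith

lemma le_XX (u : ℝ) : u - 1 ≤ XX u := by
  rcases le_total u 1 with h | h
  · linarith [XX_nonneg u]
  have h1 : MonotoneOn (fun u => XX u - u) (Ici 1) := by
    refine monotoneOn_of_deriv_nonneg (convex_Ici 1)
      (fun u _ => ((hasDerivAt_XX u).sub (hasDerivAt_id u)).continuousAt.continuousWithinAt)
      (fun u _ => ((hasDerivAt_XX u).sub (hasDerivAt_id u)).differentiableAt.differentiableWithinAt)
      fun u hu => ?_
    rw [show deriv (fun u => XX u - u) u = sT u - 1 from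
      ((hasDerivAt_XX u).sub (hasDerivAt_id u)).deriv]
    rw [show sT u = 1 from Real.smoothTransition.one_of_one_le (interior_subset hu)]
    simp
  have := h1 (mem_Ici.2 le_rfl) (mem_Ici.2 h) h
  simp only at this
  linarith [XX_nonneg 1]

/-- the error term of the two-point principle -/
noncomputable def err (G' G'' : ℝ → ℝ) (d c : ℝ) : ℝ :=
  G'' d * (1 - c ^ 2) + G' d * (1 - c) ^ 2 / d

/-- the properties of the profile -/
structure Prof (A m τ₁ τ₀ : ℝ) (G G' G'' : ℝ → ℝ) : Prop where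
  mono : Monotone G
  zero : ∀ d ≤ τ₀, G d = 0
  le_sqrt : ∀ d, 0 ≤ d → G d ≤ √(d / m)
  top : 1 - √(τ₁ / m) - √(2 * τ₀ / m) ≤ G m
  d1 : ∀ u, HasDerivAt G (G' u) u
  d2 : ∀ u, HasDerivAt G' (G'' u) u
  c2 : Continuous G''
  alt : ∀ d, 0 < G' d ∨ G' d = 0 ∧ G'' d = 0
  small : ∀ d c, d ≤ τ₀ → err G' G'' d c = 0
  large : ∀ d c, 2 * τ₁ ≤ d → 1 / 2 ≤ c → c ≤ 1 → err G' G'' d c ≤ 0
  mid : ∀ d c, 2 * τ₀ ≤ d → 0 ≤ c → c ≤ 1 →
    err G' G'' d c ≤ (2 * √(m * τ₁))⁻¹ * ((1 - c ^ 2) ^ 2 / d)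
  gen : ∀ d c, 0 < d → 0 ≤ c → c ≤ 1 →
    err G' G'' d c ≤ (2 * √(m * τ₁))⁻¹ * (A / τ₀ * (1 - c ^ 2) + (1 - c ^ 2) ^ 2 / d)

lemma sqrt_add_le {a b : ℝ} (ha : 0 ≤ a) (hb : 0 ≤ b) : √(a + b) ≤ √a + √b := by
  rw [Real.sqrt_le_left (by positivity)]
  nlinarith [Real.sq_sqrt ha, Real.sq_sqrt hb, Real.sqrt_nonneg a, Real.sqrt_nonneg b]

lemma exists_prof {A m τ₁ τ₀ : ℝ} (hA : ∀ u, |deriv sT u| ≤ A) (hm : 0 < m) (h0 : 0 < τ₀)
    (h01 : τ₀ ≤ τ₁) : ∃ G G' G'' : ℝ → ℝ, Prof A m τ₁ τ₀ G G' G'' := by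
  have h1 : 0 < τ₁ := h0.trans_le h01
  set v : ℝ → ℝ := fun d => (d - τ₀) / τ₀ with hv
  set χ : ℝ → ℝ := fun d => τ₀ * XX (v d) with hχ
  have hvd : ∀ d, HasDerivAt v (1 / τ₀) d := fun d => ((hasDerivAt_id d).sub_const τ₀).div_const τ₀
  have hχd : ∀ d, HasDerivAt χ (sT (v d)) d := fun d =>
    (((hasDerivAt_XX (v d)).comp d (hvd d)).const_mul τ₀).congr_deriv (by field_simp)
  have hsd : ∀ d, HasDerivAt (fun d => sT (v d)) (deriv sT (v d) / τ₀) d := fun d =>
    ((hasDerivAt_sT (v d)).comp d (hvd d)).congr_deriv (by ring)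
  have hχ0 : ∀ d, 0 ≤ χ d := fun d => mul_nonneg h0.le (XX_nonneg _)
  set q : ℝ → ℝ := fun d => √((χ d + τ₁) / m) with hq
  have hq0 : ∀ d, 0 < q d := fun d => Real.sqrt_pos.2 (div_pos (by linarith [hχ0 d]) hm)
  have hq2 : ∀ d, q d ^ 2 = (χ d + τ₁) / m := fun d =>
    Real.sq_sqrt (div_pos (by linarith [hχ0 d]) hm).le
  have hqd : ∀ d, HasDerivAt q (sT (v d) / (2 * m * q d)) d := fun d =>
    ((((hχd d).add_const τ₁).div_const m).sqrt
      (div_pos (by linarith [hχ0 d]) hm).ne').congr_deriv (by simp only [hq]; field_simp)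
  have hvneg : ∀ d ≤ τ₀, v d ≤ 0 := fun d hd => div_nonpos_of_nonpos_of_nonneg (by linarith) h0.le
  have hvone : ∀ d, 2 * τ₀ ≤ d → 1 ≤ v d := fun d hd => by
    simp only [hv]; rw [le_div_iff₀ h0]; linarith
  have hχle : ∀ d, 0 ≤ d → χ d ≤ d := by
    intro d hd
    rcases le_total d τ₀ with h | h
    · simp only [hχ, XX_of_nonpos (hvneg d h), mul_zero, hd]
    · have := XX_le (u := v d) (div_nonneg (by linarith) h0.le)
      calc χ d ≤ τ₀ * v d := mul_le_mul_of_nonneg_left this h0.le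
        _ = d - τ₀ := by simp only [hv]; field_simp
        _ ≤ d := by linarith
  have hχge : ∀ d, d - 2 * τ₀ ≤ χ d := by
    intro d
    calc d - 2 * τ₀ = τ₀ * (v d - 1) := by simp only [hv]; field_simp; ring
      _ ≤ χ d := mul_le_mul_of_nonneg_left (le_XX _) h0.le
  have hκ : ∀ d, (2 * m * q d)⁻¹ ≤ (2 * √(m * τ₁))⁻¹ := by
    intro d
    apply inv_anti₀ (by positivity)
    have : √(m * τ₁) ≤ m * q d := by
      rw [Real.sqrt_le_left (mul_pos hm (hq0 d)).le, mul_pow, hq2]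
      have : m ^ 2 * ((χ d + τ₁) / m) = m * (χ d + τ₁) := by field_simp
      rw [this]
      nlinarith [hχ0 d]
    linarith
  have hs0 : ∀ d, 0 ≤ sT (v d) := fun d => Real.smoothTransition.nonneg _
  have hs1 : ∀ d, sT (v d) ≤ 1 := fun d => Real.smoothTransition.le_one _
  have key : ∀ d c, err (fun d => sT (v d) / (2 * m * q d))
      (fun d => deriv sT (v d) / τ₀ / (2 * m * q d) - sT (v d) ^ 2 / (4 * m ^ 2 * q d ^ 3)) d c =
      (2 * m * q d)⁻¹ * (deriv sT (v d) / τ₀ * (1 - c ^ 2) -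
        sT (v d) ^ 2 / (2 * (χ d + τ₁)) * (1 - c ^ 2) + sT (v d) * ((1 - c) ^ 2 / d)) := by
    intro d c
    have e : χ d + τ₁ = m * q d ^ 2 := by rw [hq2]; field_simp
    have := hq0 d
    simp only [err, e]
    field_simp
    ring
  have hc2 : ∀ c : ℝ, 0 ≤ c → c ≤ 1 → (1 - c) ^ 2 ≤ (1 - c ^ 2) ^ 2 := fun c h1 h2 => by
    have : 1 - c ≤ 1 - c ^ 2 := by nlinarith
    exact pow_le_pow_left₀ (by linarith) this 2
  have gen : ∀ d c B, 0 < d → 0 ≤ c → c ≤ 1 → 0 ≤ B → deriv sT (v d) ≤ B →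
      (2 * m * q d)⁻¹ * (deriv sT (v d) / τ₀ * (1 - c ^ 2) -
        sT (v d) ^ 2 / (2 * (χ d + τ₁)) * (1 - c ^ 2) + sT (v d) * ((1 - c) ^ 2 / d)) ≤
      (2 * √(m * τ₁))⁻¹ * (B / τ₀ * (1 - c ^ 2) + (1 - c ^ 2) ^ 2 / d) := by
    intro d c B hd c0 c1 hB hdB
    have φ0 : 0 ≤ 1 - c ^ 2 := by nlinarith
    have a1 : deriv sT (v d) / τ₀ * (1 - c ^ 2) ≤ B / τ₀ * (1 - c ^ 2) := by gcongr
    have a2 : 0 ≤ sT (v d) ^ 2 / (2 * (χ d + τ₁)) * (1 - c ^ 2) := by
      have := hχ0 d
      positivity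
    have a3 : sT (v d) * ((1 - c) ^ 2 / d) ≤ 1 * ((1 - c ^ 2) ^ 2 / d) := by
      exact mul_le_mul (hs1 d) (div_le_div_of_nonneg_right (hc2 c c0 c1) hd.le) (by positivity)
        zero_le_one
    have := hq0 d
    calc _ ≤ (2 * m * q d)⁻¹ * (B / τ₀ * (1 - c ^ 2) + (1 - c ^ 2) ^ 2 / d) :=
          mul_le_mul_of_nonneg_left (by linarith) (by positivity)
      _ ≤ _ := mul_le_mul_of_nonneg_right (hκ d) (by positivity)
  refine ⟨fun d => q d - √(τ₁ / m), fun d => sT (v d) / (2 * m * q d),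
    fun d => deriv sT (v d) / τ₀ / (2 * m * q d) - sT (v d) ^ 2 / (4 * m ^ 2 * q d ^ 3),
    ?_, fun d hd => ?_, fun d hd => ?_, ?_, fun u => (hqd u).sub_const _, fun u => ?_, ?_,
    fun d => ?_, fun d c hd => ?_, fun d c hd c0 c1 => ?_, fun d c hd c0 c1 => ?_,
    fun d c hd c0 c1 => ?_⟩
  · refine monotone_of_deriv_nonneg (fun u => ((hqd u).sub_const _).differentiableAt) fun u => ?_
    rw [((hqd u).sub_const _).deriv]
    have := hq0 u
    have := hs0 u
    positivity
  · simp only [hq, hχ, XX_of_nonpos (hvneg d hd), mul_zero, zero_add, sub_self]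
  · have : q d ≤ √(d / m + τ₁ / m) := Real.sqrt_le_sqrt (by
      rw [← add_div]; gcongr; exact hχle d hd)
    linarith [sqrt_add_le (div_nonneg hd hm.le) (div_nonneg h1.le hm.le)]
  · have a1 : √1 ≤ √((χ m + τ₁) / m + 2 * τ₀ / m) := Real.sqrt_le_sqrt (by
      rw [← add_div, le_div_iff₀ hm]; linarith [hχge m])
    have a2 := sqrt_add_le (div_pos (by linarith [hχ0 m] : 0 < χ m + τ₁) hm).le
      (div_nonneg (by linarith : 0 ≤ 2 * τ₀) hm.le)
    rw [Real.sqrt_one] at a1
    simp only [hq]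
    linarith
  · have := hq0 u
    refine ((hsd u).div ((hqd u).const_mul (2 * m)) (by positivity)).congr_deriv ?_
    field_simp
    ring
  · have hvc : Continuous v := continuous_iff_continuousAt.2 fun d => (hvd d).continuousAt
    have hqc : Continuous q := continuous_iff_continuousAt.2 fun d => (hqd d).continuousAt
    refine (((continuous_dsT.comp hvc).div_const τ₀).div (continuous_const.mul hqc)
      fun d => ?_).sub (((Real.smoothTransition.continuous.comp hvc).pow 2).div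
      (continuous_const.mul (hqc.pow 3)) fun d => ?_)
    · have := hq0 d
      show 2 * m * q d ≠ 0
      positivity
    · have := hq0 d
      show 4 * m ^ 2 * q d ^ 3 ≠ 0
      positivity
  · rcases le_or_gt (v d) 0 with h | h
    · right
      simp [dsT_of_nonpos h, Real.smoothTransition.zero_of_nonpos h]
    · left
      have := hq0 d
      have := Real.smoothTransition.pos_of_pos h
      positivity
  · simp [err, dsT_of_nonpos (hvneg d hd), Real.smoothTransition.zero_of_nonpos (hvneg d hd)]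
  · have hd0 : 0 < d := by linarith
    have hv1 := hvone d (by linarith)
    rw [key, dsT_of_one_le hv1, show sT (v d) = 1 from Real.smoothTransition.one_of_one_le hv1]
    have := hq0 d
    refine mul_nonpos_of_nonneg_of_nonpos (by positivity) ?_
    have a1 := hχle d hd0.le
    have a2 := hχ0 d
    have a3 : (1 - c) ^ 2 / d ≤ (1 - c ^ 2) / (2 * (χ d + τ₁)) := by
      rw [div_le_div_iff₀ hd0 (by positivity)]
      have b1 : 0 ≤ 1 - c := by linarith
      have b2 : (1 - c) * (2 * (χ d + τ₁)) ≤ (1 + c) * d := by nlinarith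
      nlinarith [mul_le_mul_of_nonneg_left b2 b1]
    have e : 1 ^ 2 / (2 * (χ d + τ₁)) * (1 - c ^ 2) = (1 - c ^ 2) / (2 * (χ d + τ₁)) := by ring
    rw [e]
    simp only [zero_div, zero_mul, one_mul]
    linarith
  · rw [key]
    have := gen d c 0 (by linarith) c0 c1 le_rfl (dsT_of_one_le (hvone d hd)).le
    simpa using this
  · rw [key]
    exact gen d c A hd c0 c1 ((abs_nonneg _).trans (hA 0)) ((le_abs_self _).trans (hA _))

end Vale.Agent.P218G.BW
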