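import Vale.Agent.P218G.BarA

/-! Geometry of the regular part and the source of the barrier lemma. -/

open MeasureTheory Set Filter Topology Metric
open scoped ENNReal NNReal RealInnerProductSpace ContDiff

namespace Vale.Agent.P218G.BW

open P218FT

variable {D : ℝ} {μ : ℝ → Measure E3} {M : ℝ → Set E3} {J I : Set ℝ}

lemma isOpen_reg (M : ℝ → Set E3) : IsOpen {p | Reg M p} :=
  isOpen_iff_mem_nhds.2 fun _ hp => eventually_eventually_nhds.2 hp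

/-- the regular region -/
def regSet (M : ℝ → Set E3) (I : Set ℝ) : Set (ℝ × E3) := {p | p.1 ∈ I ∧ Reg M p}

lemma mcfOn (h : WF D μ M J I) : WL.MCFOn M (regSet M I) :=
  ⟨(h.isOpen.preimage continuous_fst).inter (isOpen_reg M), fun p hp => h.closed p.1 hp.1 p.2,
    fun _ hp hx => hp.2.self_of_nhds hx⟩

lemma reg_of_J (h : WF D μ M J I) {t : ℝ} (ht : t ∈ J) (x : E3) : Reg M (t, x) := by
  filter_upwards [(continuous_fst.tendsto (t, x)).eventually (h.mcf.isOpen.mem_nhds ht)] with q hq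
    using h.mcf.loc q.1 hq q.2

lemma isClosed_track (h : WF D μ M J I) {S : Set ℝ} (hS : IsClosed S) (hI : S ⊆ I) :
    IsClosed (track M S) := by
  refine isOpen_compl_iff.1 (isOpen_iff_mem_nhds.2 fun p hp => ?_)
  by_cases h1 : p.1 ∈ S
  · filter_upwards [h.closed p.1 (hI h1) p.2 fun h2 => hp ⟨h1, h2⟩] with q hq hq' using hq hq'.2
  · filter_upwards [(continuous_fst.tendsto p).eventually (hS.isOpen_compl.mem_nhds h1)]
      with q hq hq' using hq hq'.1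

/-- a window of the track -/
def win (M : ℝ → Set E3) (S : Set ℝ) (c : E3) (R : ℝ) : Set (ℝ × E3) :=
  {p | p ∈ track M S ∧ ‖p.2 - c‖ ≤ R}

lemma isCompact_win (h : WF D μ M J I) {S : Set ℝ} (hS : IsCompact S) (hI : S ⊆ I) (c : E3)
    (R : ℝ) : IsCompact (win M S c R) := by
  refine (hS.prod (isCompact_closedBall c R)).of_isClosed_subset
    ((isClosed_track h hS.isClosed hI).inter
      (isClosed_le (f := fun p : ℝ × E3 => ‖p.2 - c‖) (by fun_prop) continuous_const))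
    fun p hp => ⟨hp.1.1, mem_closedBall_iff_norm.2 hp.2⟩

lemma exists_sep (h : WF D μ M J I) {K : Set (ℝ × E3)} (hK : IsCompact K) (hU : K ⊆ regSet M I) :
    ∃ s : ℝ, 0 < s ∧ ∀ p ∈ K, p.2 ∈ M p.1 → SepGE (M p.1) p.2 s := by
  obtain ⟨r, C, hr, hC, H⟩ := (mcfOn h).exists_twoPt_compact hK hU
  exact ⟨min r (1 / (2 * C)), by positivity, fun p hp hx y hy =>
    (H p hp hx).le_of_cone hC hy.1 hy.2.1 hy.2.2⟩

lemma contOn_inner (h : WF D μ M J I) :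
    ContinuousOn (fun q : ℝ × E3 × E3 => |⟪q.2.2 - q.2.1, nu (M q.1) q.2.1⟫|)
      {q | (q.1, q.2.1) ∈ WL.trk M (regSet M I)} :=
  (mcfOn h).continuousOn_abs_inner.comp
    (f := fun q : ℝ × E3 × E3 => ((q.1, q.2.1), q.2.2 - q.2.1)) (by fun_prop)
    fun _ hq => ⟨hq, mem_univ _⟩

/-- pairs of points in the cone -/
def pairs (M : ℝ → Set E3) (K : Set (ℝ × E3)) (m : ℝ) : Set (ℝ × E3 × E3) :=
  {q | (q.1, q.2.1) ∈ K ∧ InCone (M q.1) q.2.1 q.2.2 ∧ ‖q.2.2 - q.2.1‖ ≤ m}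

lemma isCompact_pairs (h : WF D μ M J I) {K : Set (ℝ × E3)} (hK : IsCompact K)
    (hU : K ⊆ WL.trk M (regSet M I)) (m : ℝ) : IsCompact (pairs M K m) := by
  obtain ⟨s, hs, H⟩ := exists_sep h hK fun p hp => (hU hp).1
  have hS : IsCompact (Prod.fst '' K) := hK.image continuous_fst
  have hc := isClosed_track h hS.isClosed (by rintro _ ⟨p, hp, rfl⟩; exact (hU hp).1.1)
  have c1 : IsClosed {q : ℝ × E3 × E3 | (q.1, q.2.1) ∈ K} :=
    hK.isClosed.preimage (f := fun q : ℝ × E3 × E3 => (q.1, q.2.1)) (by fun_prop)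
  have c2 : IsClosed {q : ℝ × E3 × E3 | (q.1, q.2.2) ∈ track M (Prod.fst '' K)} :=
    hc.preimage (f := fun q : ℝ × E3 × E3 => (q.1, q.2.2)) (by fun_prop)
  have c3 := ((((contOn_inner h).mono (t := {q : ℝ × E3 × E3 | (q.1, q.2.1) ∈ K})
    fun q hq => hU hq).sub (g := fun q : ℝ × E3 × E3 => ‖q.2.2 - q.2.1‖ / 2)
    (by fun_prop))).preimage_isClosed_of_isClosed c1 (isClosed_Ici (a := (0 : ℝ)))
  have c5 : IsClosed {q : ℝ × E3 × E3 | ‖q.2.2 - q.2.1‖ ≤ m} :=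
    isClosed_le (by fun_prop) continuous_const
  have c6 : IsClosed {q : ℝ × E3 × E3 | s ≤ ‖q.2.2 - q.2.1‖} :=
    isClosed_le continuous_const (by fun_prop)
  have hK' : IsCompact ((fun z : (ℝ × E3) × E3 => (z.1.1, z.1.2, z.1.2 + z.2)) ''
      (K ×ˢ closedBall (0 : E3) m)) :=
    (hK.prod (isCompact_closedBall _ _)).image (by fun_prop)
  refine hK'.of_isClosed_subset ?_ fun q hq =>
    ⟨((q.1, q.2.1), q.2.2 - q.2.1), ⟨hq.1, mem_closedBall_zero_iff.2 hq.2.2⟩, by simp⟩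
  convert ((c3.inter c2).inter c5).inter c6 using 1
  ext q
  constructor
  · rintro ⟨h1, h4, h5⟩
    exact ⟨⟨⟨⟨h1, sub_nonneg.2 h4.2.2⟩, ⟨_, h1, rfl⟩, h4.1⟩, h5⟩, H _ h1 (hU h1).2 _ h4⟩
  · rintro ⟨⟨⟨⟨h1, h3⟩, -, h4⟩, h6⟩, h7⟩
    refine ⟨h1, ⟨h4, fun h0 => ?_, sub_nonneg.1 h3⟩, h6⟩
    have h8 : s ≤ ‖q.2.2 - q.2.1‖ := h7
    rw [h0, sub_self, norm_zero] at h8
    linarith

/-- the shortest chord in the cone exists -/
lemma exists_min (h : WF D μ M J I) {t : ℝ} {x y : E3} (hp : (t, x) ∈ WL.trk M (regSet M I))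
    (hy : InCone (M t) x y) :
    ∃ z, InCone (M t) x z ∧ SepGE (M t) x ‖z - x‖ ∧ ‖z - x‖ ≤ ‖y - x‖ := by
  have hK := isCompact_pairs h (isCompact_singleton (x := (t, x))) (by simpa using hp) ‖y - x‖
  have hm : (t, x, y) ∈ pairs M {(t, x)} ‖y - x‖ := ⟨rfl, hy, le_rfl⟩
  obtain ⟨⟨t', x', z⟩, ⟨h1, h2, h3⟩, h4⟩ := hK.exists_isMinOn ⟨_, hm⟩
    (f := fun q : ℝ × E3 × E3 => ‖q.2.2 - q.2.1‖) (by fun_prop)
  obtain ⟨rfl, rfl⟩ := Prod.mk.inj (mem_singleton_iff.1 h1)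
  refine ⟨z, h2, fun u hu => ?_, h3⟩
  rcases le_total ‖u - x'‖ ‖y - x'‖ with h5 | h5
  · exact h4 (a := (t', x', u)) ⟨rfl, hu, h5⟩
  · exact h3.trans h5

/-- a shortest chord at a point which is not bad lies in the open cone -/
lemma open_cone {N : Set E3} {x y : E3} (hy : InCone N x y) (hs : SepGE N x ‖y - x‖)
    (hb : ¬ Bad N x ‖y - x‖) : ‖y - x‖ / 2 < |⟪y - x, nu N x⟫| :=
  lt_of_le_of_ne hy.2.2 fun h0 => hb ⟨hs, y, hy.1, hy.2.1, rfl, h0.symm⟩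

/-- chords near a chord in the open cone are in the cone -/
lemma ev_cone (h : WF D μ M J I) {t : ℝ} {x y : E3} (hp : (t, x) ∈ WL.trk M (regSet M I))
    (ho : ‖y - x‖ / 2 < |⟪y - x, nu (M t) x⟫|) : ∀ᶠ q : ℝ × E3 × E3 in 𝓝 (t, x, y),
      q.2.1 ∈ M q.1 → q.2.2 ∈ M q.1 → InCone (M q.1) q.2.1 q.2.2 := by
  have e4 := eventually_nhdsWithin_iff.1 ((((contOn_inner h).sub
    (g := fun q : ℝ × E3 × E3 => ‖q.2.2 - q.2.1‖ / 2) (by fun_prop)) (t, x, y) hp).eventually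
    (lt_mem_nhds (sub_pos.2 ho)))
  have e5 : ∀ᶠ q : ℝ × E3 × E3 in 𝓝 (t, x, y), (q.1, q.2.1) ∈ regSet M I :=
    (Continuous.tendsto (f := fun q : ℝ × E3 × E3 => (q.1, q.2.1)) (by fun_prop) _).eventually
      ((mcfOn h).isOpen.mem_nhds hp.1)
  filter_upwards [e4, e5] with q q4 q5 q6 q7
  have q9 := sub_pos.1 (q4 ⟨q5, q6⟩)
  refine ⟨q7, fun h0 => ?_, q9.le⟩
  simp [h0] at q9

lemma cos_le (N : Set E3) (x z : E3) : |⟪z, nu N x⟫| / ‖z‖ ≤ 1 := by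
  refine div_le_one_of_le₀ ((abs_real_inner_le_norm _ _).trans ?_) (norm_nonneg _)
  exact mul_le_of_le_one_right (norm_nonneg _) (Hu.norm_nu_le N x)

lemma half_le_cos {N : Set E3} {x y : E3} (hy : InCone N x y) :
    1 / 2 ≤ |⟪y - x, nu N x⟫| / ‖y - x‖ := by
  rw [le_div_iff₀ (norm_pos_iff.2 (sub_ne_zero.2 hy.2.1))]
  linarith [hy.2.2]

/-- limits of shortest chords are shortest chords at regular times, away from bad points -/
lemma sep_lim (h : WF D μ M J I) {t : ℝ} {x z : E3} (hp : (t, x) ∈ WL.trk M (regSet M I))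
    (hJ : t ∈ J) (hz : InCone (M t) x z) (hb : ∀ s ≤ ‖z - x‖, ¬ Bad (M t) x s)
    {q : ℕ → ℝ × E3} {d : ℕ → ℝ} (hq : Tendsto q atTop (𝓝 (t, x)))
    (hd : Tendsto d atTop (𝓝 ‖z - x‖)) (hm : ∀ i, (q i).2 ∈ M (q i).1)
    (hs : ∀ i, SepGE (M (q i).1) (q i).2 (d i)) : SepGE (M t) x ‖z - x‖ := by
  obtain ⟨u, hu1, hu2, hu3⟩ := exists_min h hp hz
  rcases hu3.eq_or_lt with h1 | h1
  · exact h1 ▸ hu2
  exfalso
  have ho := open_cone hu1 hu2 (hb _ hu3)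
  obtain ⟨r, hr1, hr2⟩ := h.mcf.time_jet hJ hu1.1
  have hr : Tendsto r (𝓝 0) (𝓝 u) := by
    have a1 : Tendsto (fun σ : ℝ => u + σ • Hv (M t) u) (𝓝 0) (𝓝 u) :=
      Continuous.tendsto' (by fun_prop) _ _ (by simp)
    simpa using (hr2.trans_tendsto tendsto_id).add a1
  have ht : Tendsto (fun i => (q i).1) atTop (𝓝 t) := (continuous_fst.tendsto _).comp hq
  have hx : Tendsto (fun i => (q i).2) atTop (𝓝 x) := (continuous_snd.tendsto _).comp hq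
  have ht0 : Tendsto (fun i => (q i).1 - t) atTop (𝓝 0) := by
    simpa using ht.sub_const t
  have a2 := (ht.prodMk_nhds (hx.prodMk_nhds (hr.comp ht0))).eventually (ev_cone h hp ho)
  have a3 := ((hr.comp ht0).sub hx).norm.eventually_lt hd h1
  obtain ⟨i, b1, b2, b3⟩ := (a2.and (a3.and (ht0.eventually hr1))).exists
  rw [add_sub_cancel] at b3
  exact absurd (hs i _ (b1 (hm i) b3)) (not_le.2 b2)

/-- the values of the error term at the shortest chords -/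
def vals (M : ℝ → Set E3) (Q : ℝ × E3 → ℝ) (G' G'' : ℝ → ℝ) (p : ℝ × E3) : Set ℝ :=
  {v | v = 0 ∨ Q p ≤ 1 ∧ ∃ y, InCone (M p.1) p.2 y ∧ SepGE (M p.1) p.2 ‖y - p.2‖ ∧
    v = err G' G'' ‖y - p.2‖ (|⟪y - p.2, nu (M p.1) p.2⟫| / ‖y - p.2‖)}

/-- the source -/
noncomputable def src (M : ℝ → Set E3) (Q : ℝ × E3 → ℝ) (G' G'' : ℝ → ℝ) (p : ℝ × E3) : ℝ :=
  sSup (vals M Q G' G'' p)

section Src

variable {A m τ₁ τ₀ : ℝ} {G G' G'' : ℝ → ℝ} {Q : ℝ × E3 → ℝ}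

lemma Prof.bound (P : Prof A m τ₁ τ₀ G G' G'') (hA : 0 < A) (h0 : 0 < τ₀) {d c : ℝ}
    (c0 : 0 ≤ c) (c1 : c ≤ 1) : err G' G'' d c ≤ (2 * √(m * τ₁))⁻¹ * ((A + 1) / τ₀) := by
  rcases le_total d τ₀ with h | h
  · rw [P.small d c h]; positivity
  refine (P.gen d c (by linarith) c0 c1).trans (mul_le_mul_of_nonneg_left ?_ (by positivity))
  have φ0 : 0 ≤ 1 - c ^ 2 := by nlinarith
  have φ1 : 1 - c ^ 2 ≤ 1 := by nlinarith
  have a1 : A / τ₀ * (1 - c ^ 2) ≤ A / τ₀ := mul_le_of_le_one_right (by positivity) φ1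
  have a2 : (1 - c ^ 2) ^ 2 / d ≤ 1 / τ₀ :=
    div_le_div₀ zero_le_one (pow_le_one₀ φ0 φ1) h0 h
  rw [add_div]
  linarith

lemma vals_le (P : Prof A m τ₁ τ₀ G G' G'') (hA : 0 < A) (h0 : 0 < τ₀) (p : ℝ × E3) :
    ∀ v ∈ vals M Q G' G'' p, v ≤ (2 * √(m * τ₁))⁻¹ * ((A + 1) / τ₀) := by
  rintro v (rfl | ⟨-, y, -, -, rfl⟩)
  · positivity
  · exact P.bound hA h0 (by positivity) (cos_le _ _ _)

lemma bdd_vals (P : Prof A m τ₁ τ₀ G G' G'') (hA : 0 < A) (h0 : 0 < τ₀) (p : ℝ × E3) :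
    BddAbove (vals M Q G' G'' p) := ⟨_, vals_le P hA h0 p⟩

lemma src_nonneg (P : Prof A m τ₁ τ₀ G G' G'') (hA : 0 < A) (h0 : 0 < τ₀) (p : ℝ × E3) :
    0 ≤ src M Q G' G'' p := le_csSup (bdd_vals P hA h0 p) (Or.inl rfl)

lemma src_le (P : Prof A m τ₁ τ₀ G G' G'') (hA : 0 < A) (h0 : 0 < τ₀) (p : ℝ × E3) :
    src M Q G' G'' p ≤ (2 * √(m * τ₁))⁻¹ * ((A + 1) / τ₀) :=
  csSup_le ⟨0, Or.inl rfl⟩ (vals_le P hA h0 p)

/-- a chord which realises a value above a nonnegative level -/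
lemma exists_chord (P : Prof A m τ₁ τ₀ G G' G'') {p : ℝ × E3} {v : ℝ} (hv0 : 0 ≤ v)
    (hv : v < src M Q G' G'' p) : Q p ≤ 1 ∧ ∃ y, InCone (M p.1) p.2 y ∧
      SepGE (M p.1) p.2 ‖y - p.2‖ ∧ τ₀ ≤ ‖y - p.2‖ ∧ ‖y - p.2‖ ≤ 2 * τ₁ ∧
      v < err G' G'' ‖y - p.2‖ (|⟪y - p.2, nu (M p.1) p.2⟫| / ‖y - p.2‖) := by
  obtain ⟨u, hu, huv⟩ := exists_lt_of_lt_csSup (s := vals M Q G' G'' p) ⟨0, Or.inl rfl⟩ hv
  rcases hu with rfl | ⟨h1, y, h2, h3, rfl⟩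
  · linarith
  refine ⟨h1, y, h2, h3, ?_, ?_, huv⟩
  · by_contra h4
    rw [P.small _ _ (not_le.1 h4).le] at huv
    linarith
  · by_contra h4
    linarith [P.large _ _ (not_le.1 h4).le (half_le_cos h2) (cos_le _ _ _)]

lemma tendsto_err (P : Prof A m τ₁ τ₀ G G' G'') {d c : ℕ → ℝ} {d₀ c₀ : ℝ} (h0 : 0 < d₀)
    (hd : Tendsto d atTop (𝓝 d₀)) (hc : Tendsto c atTop (𝓝 c₀)) :
    Tendsto (fun i => err G' G'' (d i) (c i)) atTop (𝓝 (err G' G'' d₀ c₀)) := by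
  have hG' : Continuous G' := continuous_iff_continuousAt.2 fun u => (P.d2 u).continuousAt
  exact (((P.c2.tendsto _).comp hd).mul ((hc.pow 2).const_sub 1)).add
    ((((hG'.tendsto _).comp hd).mul ((hc.const_sub 1).pow 2)).div hd h0.ne')

/-- the source is upper semicontinuous at the regular times -/
lemma usc_src (h : WF D μ M J I) (P : Prof A m τ₁ τ₀ G G' G'') (hA : 0 < A) (h0 : 0 < τ₀)
    (hQ : Continuous Q) {K : Set (ℝ × E3)} (hK : IsCompact K) (hU : K ⊆ WL.trk M (regSet M I))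
    (hb : ∀ p ∈ K, Q p ≤ 1 → ∀ s ≤ 2 * τ₁, ¬ Bad (M p.1) p.2 s) {p : ℝ × E3} (hp : p ∈ K)
    (hJ : p.1 ∈ J) : UpperSemicontinuousWithinAt (src M Q G' G'') K p := by
  intro v hv
  by_contra hcon
  obtain ⟨v', hv1, hv2⟩ := exists_between hv
  have hv0 : 0 ≤ v' := (src_nonneg P hA h0 p).trans hv1.le
  have hfr : ∃ᶠ q in 𝓝[K] p, q ∈ K ∧ v' < src M Q G' G'' q :=
    ((not_eventually.1 hcon).and_eventually self_mem_nhdsWithin).mono fun q hq =>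
      ⟨hq.2, hv2.trans_le (not_lt.1 hq.1)⟩
  obtain ⟨q, hq1, hq2⟩ := exists_seq_forall_of_frequently hfr
  have hq := tendsto_nhds_of_tendsto_nhdsWithin hq1
  choose hQq y hy1 hy2 hy3 hy4 hy5 using fun i => exists_chord P hv0 (hq2 i).2
  obtain ⟨⟨t, x, z⟩, hz, φ, hφ, hlim'⟩ := (isCompact_pairs h hK hU (2 * τ₁)).tendsto_subseq
    (x := fun i => ((q i).1, (q i).2, y i)) fun i => ⟨(hq2 i).1, hy1 i, hy4 i⟩
  have hlim : Tendsto (fun i => ((q (φ i)).1, (q (φ i)).2, y (φ i))) atTop (𝓝 (t, x, z)) := hlim'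
  have hqφ : Tendsto (fun i => q (φ i)) atTop (𝓝 p) := hq.comp hφ.tendsto_atTop
  have hx : Tendsto (fun i => (q (φ i)).2) atTop (𝓝 x) := hlim.snd_nhds.fst_nhds
  have hy : Tendsto (fun i => y (φ i)) atTop (𝓝 z) := hlim.snd_nhds.snd_nhds
  have e : p = (t, x) := tendsto_nhds_unique hqφ (hlim.fst_nhds.prodMk_nhds hx)
  subst e
  have hQp : Q (t, x) ≤ 1 := le_of_tendsto' ((hQ.tendsto _).comp hqφ) fun i => hQq (φ i)
  have hd : Tendsto (fun i => ‖y (φ i) - (q (φ i)).2‖) atTop (𝓝 ‖z - x‖) := (hy.sub hx).norm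
  have hd0 : 0 < ‖z - x‖ := h0.trans_le (ge_of_tendsto' hd fun i => hy3 (φ i))
  have hi0 := (contOn_inner h (t, x, z) (hU hp)).tendsto.comp
    (tendsto_nhdsWithin_iff.2 ⟨hlim, Eventually.of_forall fun i => hU (hq2 (φ i)).1⟩)
  have hi : Tendsto (fun i => |⟪y (φ i) - (q (φ i)).2, nu (M (q (φ i)).1) (q (φ i)).2⟫|) atTop
      (𝓝 |⟪z - x, nu (M t) x⟫|) := by
    simpa only [Function.comp_def] using hi0
  have herr : v' ≤ err G' G'' ‖z - x‖ (|⟪z - x, nu (M t) x⟫| / ‖z - x‖) :=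
    ge_of_tendsto' (tendsto_err P hd0 hd (hi.div hd hd0.ne')) fun i => (hy5 (φ i)).le
  have hsep : SepGE (M t) x ‖z - x‖ :=
    sep_lim h (hU hp) hJ hz.2.1 (fun s hs => hb _ hp hQp s (hs.trans hz.2.2)) hqφ hd
      (fun i => (hU (hq2 (φ i)).1).2) fun i => hy2 (φ i)
  have : err G' G'' ‖z - x‖ (|⟪z - x, nu (M t) x⟫| / ‖z - x‖) ≤ src M Q G' G'' (t, x) :=
    le_csSup (bdd_vals P hA h0 _) (Or.inr ⟨hQp, z, hz.2.1, hsep, rfl⟩)
  linarith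

end Src

end Vale.Agent.P218G.BW
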