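import Vale.Agent.P218G.BarB

/-! The minimum principle and the size of the source. -/

open MeasureTheory Set Filter Topology Metric
open scoped ENNReal NNReal RealInnerProductSpace ContDiff

namespace Vale.Agent.P218G.BW

open P218FT

variable {D : ℝ} {μ : ℝ → Measure E3} {M : ℝ → Set E3} {J I : Set ℝ}
  {A m τ₁ τ₀ : ℝ} {G G' G'' : ℝ → ℝ} {Q : ℝ × E3 → ℝ}

lemma Prof.nonneg (P : Prof A m τ₁ τ₀ G G' G'') (d : ℝ) : 0 ≤ G d := by
  rcases le_total d τ₀ with h | h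
  · rw [P.zero d h]
  · exact P.zero τ₀ le_rfl ▸ P.mono h

lemma min_principle (hT : TwoW) (h : WF D μ M J I) (P : Prof A m τ₁ τ₀ G G' G'') (hA : 0 < A)
    (h0 : 0 < τ₀) (h0m : τ₀ ≤ m) {t₁ t₂ R ε lvl : ℝ} {c : E3} (hI : Icc t₁ t₂ ⊆ I) (hε : 0 < ε)
    {β : ℝ × E3 → ℝ} (hβ : ContDiff ℝ 2 β) {K T₂ : Set (ℝ × E3)} (hK : IsCompact K)
    (hT₂ : IsCompact T₂) (hU : K ⊆ WL.trk M (regSet M I)) (hKw : K ⊆ win M (Icc t₁ t₂) c R)
    (hTw : T₂ ⊆ win M (Icc t₁ t₂) c R) (hcov : ∀ p ∈ win M (Icc t₁ t₂) c R, p ∈ K ∨ p ∈ T₂)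
    (s0 : ∀ p, Super β p ε) (s1 : ∀ p ∈ K, Super β p (src M Q G' G'' p + ε))
    (hm : lvl ≤ G m)
    (hlow : ∀ p ∈ win M (Icc t₁ t₂) c R, 0 ≤ β p ∧ (β p < lvl → Q p ≤ 1 ∧ ‖p.2 - c‖ < R ∧
      (p.1 = t₁ → p ∈ K ∧ SepGE (M p.1) p.2 m) ∧ (p ∈ K → (∀ s ≤ m, ¬ Bad (M p.1) p.2 s) ∧
        (p ∈ T₂ → ¬ SepGE (M p.1) p.2 τ₀)))) :
    (∀ q ∈ pairs M K m, lvl ≤ G ‖q.2.2 - q.2.1‖ + β (q.1, q.2.1)) ∧ ∀ p ∈ T₂, lvl ≤ β p := by
  set V : ℝ × E3 × E3 → ℝ := fun q => G ‖q.2.2 - q.2.1‖ + β (q.1, q.2.1) with hV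
  set dg : ℝ × E3 → ℝ × E3 × E3 := fun p => (p.1, p.2, p.2) with hdg
  have hVd : ∀ p, V (dg p) = β p := fun p => by
    simp only [hV, hdg, sub_self, norm_zero, P.zero 0 h0.le, zero_add]
  have hGc : Continuous G := continuous_iff_continuousAt.2 fun u => (P.d1 u).continuousAt
  have hVc : Continuous V := (hGc.comp (by fun_prop)).add (hβ.continuous.comp (by fun_prop))
  have hTc : IsCompact (pairs M K m ∪ dg '' T₂) :=
    (isCompact_pairs h hK hU m).union (hT₂.image (by fun_prop))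
  suffices H : ∀ q ∈ pairs M K m ∪ dg '' T₂, lvl ≤ V q from
    ⟨fun q hq => H q (Or.inl hq), fun p hp => hVd p ▸ H _ (Or.inr ⟨p, hp, rfl⟩)⟩
  intro q₁ hq₁
  by_contra hlt
  obtain ⟨q₀, hq₀, hmin⟩ := hTc.exists_isMinOn ⟨q₁, hq₁⟩ hVc.continuousOn
  have hlt₀ : V q₀ < lvl := lt_of_le_of_lt (hmin hq₁) (not_le.1 hlt)
  -- backward neighbourhoods lie in the window
  have near : ∀ p ∈ win M (Icc t₁ t₂) c R, p.1 ≠ t₁ → ‖p.2 - c‖ < R →
      ∀ᶠ q : ℝ × E3 in 𝓝 p, q.1 ≤ p.1 → q.2 ∈ M q.1 → q ∈ win M (Icc t₁ t₂) c R := by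
    intro p hp h1 h2
    filter_upwards [continuous_fst.continuousAt.eventually
      (lt_mem_nhds (lt_of_le_of_ne hp.1.1.1 h1.symm)),
      (isOpen_lt (f := fun q : ℝ × E3 => ‖q.2 - c‖) (by fun_prop) continuous_const).mem_nhds h2]
      with q a1 a2 a3 a4 using ⟨⟨⟨a1.le, a3.trans hp.1.1.2⟩, a4⟩, le_of_lt a2⟩
  -- the two-point case
  have caseA : ∀ (t : ℝ) (x y : E3), (t, x) ∈ K → InCone (M t) x y → ‖y - x‖ ≤ m →
      V (t, x, y) ≤ V q₀ → False := by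
    intro t x y' hp hy' hm' hle'
    obtain ⟨y, hy, hsep, hyy⟩ := exists_min h (hU hp) hy'
    have hle : G ‖y - x‖ + β (t, x) ≤ V q₀ := le_trans (by
      simp only [hV]; linarith [P.mono hyy]) hle'
    have hw := hKw hp
    obtain ⟨b0, b1⟩ := hlow _ hw
    obtain ⟨b1, b2, b3, b4⟩ := b1 (by linarith [P.nonneg ‖y - x‖])
    have hd : ‖y - x‖ < m := by
      refine lt_of_le_of_ne (hyy.trans hm') fun e => ?_
      rw [e] at hle
      linarith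
    have ht : t ≠ t₁ := fun e => absurd ((b3 e).2 y hy) (not_le.2 hd)
    have ho := open_cone hy hsep ((b4 hp).1 _ hd.le)
    have hd0 : 0 < ‖y - x‖ := norm_pos_iff.2 (sub_ne_zero.2 hy.2.1)
    have hc := half_le_cos hy
    have key := (hT D μ M J I h t (hI hw.1.1) x hw.1.2 β _ hβ (s1 _ hp)).2 y hy.1 (hU hp).1.2
      ‖y - x‖ (|⟪y - x, nu (M t) x⟫| / ‖y - x‖) rfl (by field_simp) hd0 (by linarith) G G' (G'' _)
      (Eventually.of_forall P.d1) (P.d2 _) (P.alt _) (by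
        filter_upwards [(Continuous.tendsto (f := fun q : ℝ × E3 × E3 => (q.1, q.2.1))
          (by fun_prop) (t, x, y)).eventually (near _ hw ht b2), ev_cone h (hU hp) ho,
          (isOpen_lt (f := fun q : ℝ × E3 × E3 => ‖q.2.2 - q.2.1‖) (by fun_prop)
            continuous_const).mem_nhds hd] with q a1 a2 a3 a4 a5 a6
        refine hle.trans ?_
        rcases hcov _ (a1 a4 a5) with a7 | a7
        · exact hmin (a := q) (Or.inl ⟨a7, a2 a5 a6, le_of_lt a3⟩)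
        · have a8 : V q₀ ≤ V (dg (q.1, q.2.1)) := hmin (Or.inr ⟨_, a7, rfl⟩)
          rw [hVd] at a8
          linarith [P.nonneg ‖q.2.2 - q.2.1‖])
    have : err G' G'' ‖y - x‖ (|⟪y - x, nu (M t) x⟫| / ‖y - x‖) ≤ src M Q G' G'' (t, x) :=
      le_csSup (bdd_vals P hA h0 _) (Or.inr ⟨b1, y, hy, hsep, rfl⟩)
    unfold err at this
    linarith
  rcases hq₀ with hq₀ | ⟨p, hp, rfl⟩
  · exact caseA q₀.1 q₀.2.1 q₀.2.2 hq₀.1 hq₀.2.1 hq₀.2.2 le_rfl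
  rw [hVd] at hlt₀
  have hw := hTw hp
  obtain ⟨b1, b2, b3, b4⟩ := (hlow _ hw).2 hlt₀
  by_cases hpK : p ∈ K
  · have := (b4 hpK).2 hp
    simp only [SepGE, not_forall, not_le] at this
    obtain ⟨y, hy, hyd⟩ := this
    refine caseA p.1 p.2 y hpK hy (hyd.le.trans h0m) ?_
    rw [hVd]
    simp only [hV, P.zero _ hyd.le, zero_add, le_refl]
  · have key := (hT D μ M J I h p.1 (hI hw.1.1) p.2 hw.1.2 β _ hβ (s0 _)).1 (by
      filter_upwards [near _ hw (fun e => hpK (b3 e).1) b2,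
        hK.isClosed.isOpen_compl.mem_nhds hpK] with q a1 a2 a3 a4
      have a8 : V (dg p) ≤ V (dg q) :=
        hmin (Or.inr ⟨_, (hcov _ (a1 a3 a4)).resolve_left a2, rfl⟩)
      rwa [hVd, hVd] at a8)
    linarith

/-! ### The size of the source -/

lemma gr_eq {Q : ℝ × E3 → ℝ} (hQ : ContDiff ℝ 2 Q) (p : ℝ × E3) :
    gr Q p = rz ((fderiv ℝ Q p).comp (ContinuousLinearMap.inr ℝ ℝ E3)) := by
  have h1 : HasFDerivAt (fun y => Q (p.1, y))
      ((fderiv ℝ Q p).comp (ContinuousLinearMap.inr ℝ ℝ E3)) p.2 :=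
    (hQ.differentiable (by simp) p).hasFDerivAt.comp p.2 (hasFDerivAt_prodMk_right p.1 p.2)
  rw [gr, gradient_eq_rz]
  simp only [h1.fderiv]

lemma continuous_gr {Q : ℝ × E3 → ℝ} (hQ : ContDiff ℝ 2 Q) : Continuous (gr Q) := by
  rw [show gr Q = _ from funext (gr_eq hQ)]
  exact rz.continuous.comp ((hQ.continuous_fderiv (by simp)).clm_comp continuous_const)

/-- the energy at time `t` -/
noncomputable def en (M : ℝ → Set E3) (Q : ℝ × E3 → ℝ) (t : ℝ) : ℝ≥0∞ :=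
  ∫⁻ x, ENNReal.ofReal (max (2 - Q (t, x)) 0 * ‖pt (nu (M t) x) (gr Q (t, x))‖ ^ 2) ∂(area (M t))

lemma ratio_J (h : WF D μ M J I) {t : ℝ} (ht : t ∈ J) : AreaRatio D (M t) := fun p r hr =>
  h.eq t ht ▸ h.ratio t (h.sub ht) p r hr

lemma aemeas_en (h : WF D μ M J I) (hQ : ContDiff ℝ 2 Q) {T : Set ℝ} (hT : MeasurableSet T)
    (hTJ : T ⊆ J) {c : E3} {R : ℝ} (hR : ∀ t ∈ T, ∀ x, R ≤ ‖x - c‖ → 2 ≤ Q (t, x)) :
    AEMeasurable (en M Q) (volume.restrict T) := by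
  set g : ℝ × E3 → ℝ := fun p => max (2 - Q p) 0 * ‖pt (nu (M p.1) p.2) (gr Q p)‖ ^ 2 with hg
  have hgc : ContinuousOn g (track M J) :=
    ((continuous_const.sub hQ.continuous).max continuous_const).continuousOn.mul
      ((h.mcf.continuousOn_pt.clm_apply (continuous_gr hQ).continuousOn).norm.pow 2)
  set ψ : E3 → ℝ := fun x => max 0 (min 1 (R + 1 - ‖x - c‖)) with hψ
  have hψc : Continuous ψ := by simp only [hψ]; fun_prop
  have h1 := cont_proof M J h.mcf (fun p => ψ p.2 * g p) (R + 1 + ‖c‖)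
    ((hψc.comp continuous_snd).continuousOn.mul hgc) fun p hp => by
      have : ‖p.2‖ ≤ ‖p.2 - c‖ + ‖c‖ := by simpa using norm_add_le (p.2 - c) c
      have h2 : ψ p.2 = 0 := max_eq_left ((min_le_right _ _).trans (by linarith))
      simp only [h2, zero_mul]
  refine (((h1.mono hTJ).aemeasurable (μ := volume) hT).ennreal_ofReal).congr ?_
  filter_upwards [ae_restrict_mem hT] with t ht
  have hz : ∀ x, R ≤ ‖x - c‖ → g (t, x) = 0 := fun x hx => by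
    simp only [hg, max_eq_right (sub_nonpos.2 (hR t ht x hx)), zero_mul]
  have e : ∀ x, ψ x * g (t, x) = g (t, x) := fun x => by
    rcases le_total R ‖x - c‖ with h2 | h2
    · rw [hz x h2, mul_zero]
    · have : ψ x = 1 := by
        simp only [hψ]
        rw [min_eq_left (by linarith), max_eq_right zero_le_one]
      rw [this, one_mul]
  simp only [e]
  have := (ratio_J h (hTJ ht)).locFin
  exact ofReal_integral_eq_lintegral_ofReal (Hu.integrable_of_cts (h.mcf.isSurf (hTJ ht)).1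
    (hgc.comp (Continuous.prodMk_right t).continuousOn fun y hy => ⟨hTJ ht, hy⟩) (y := c)
    fun x _ hx => hz x hx) (Eventually.of_forall fun x => by simp only [hg]; positivity)

/-- the integral of the source at a time -/
noncomputable def hh (M : ℝ → Set E3) (K : Set (ℝ × E3)) (f : ℝ × E3 → ℝ) (t : ℝ) : ℝ≥0∞ :=
  ∫⁻ x, K.indicator (fun p => ENNReal.ofReal (f p)) (t, x) ∂(area (M t))

lemma hh_le {K : Set (ℝ × E3)} {f : ℝ × E3 → ℝ} {t a b R : ℝ} {c : E3} (ha : 0 ≤ a) (hb : 0 ≤ b)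
    (hR : 0 < R) (hD : AreaRatio D (M t)) (F : E3 → ℝ)
    (hK : ∀ x, (t, x) ∈ K → ‖x - c‖ < R ∧ f (t, x) ≤ a * F x + b) :
    hh M K f t ≤ ENNReal.ofReal a * ∫⁻ x, ENNReal.ofReal (F x) ∂(area (M t)) +
      ENNReal.ofReal (b * (D * R ^ 2)) := by
  have h1 : ∫⁻ x, (ball c R).indicator (fun _ => ENNReal.ofReal b) x ∂(area (M t)) ≤
      ENNReal.ofReal (b * (D * R ^ 2)) := by
    rw [lintegral_indicator measurableSet_ball, setLIntegral_const, ENNReal.ofReal_mul hb]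
    gcongr
    exact hD c R hR
  refine le_trans ?_ (add_le_add le_rfl h1)
  rw [← lintegral_const_mul' _ _ ENNReal.ofReal_ne_top,
    ← lintegral_add_right _ (measurable_const.indicator measurableSet_ball)]
  refine lintegral_mono fun x => ?_
  by_cases hx : (t, x) ∈ K
  · rw [indicator_of_mem hx, indicator_of_mem (mem_ball_iff_norm.2 (hK x hx).1),
      ← ENNReal.ofReal_mul ha]
    exact (ENNReal.ofReal_le_ofReal (hK x hx).2).trans ENNReal.ofReal_add_le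
  · rw [indicator_of_notMem hx]
    exact zero_le

/-- the static inequality for `N` with the constant `C` -/
def SIAt (C : ℝ) (N : Set E3) : Prop :=
  ∀ (ζ : E3 → ℝ) (c : E3) (R m : ℝ), 0 < m → ContDiff ℝ 1 ζ → (∀ x, R ≤ ‖x - c‖ → ζ x = 0) →
    (∀ x, 0 ≤ ζ x ∧ ζ x ≤ 1) → (∀ x ∈ N, x ∈ tsupport ζ → ∀ s ≤ m, ¬ Bad N x s) →
    ∀ F : E3 → ℝ, (∀ x ∈ N, F x ≤ 0 ∨ ∃ y, InCone N x y ∧ SepGE N x ‖y - x‖ ∧ ‖y - x‖ ≤ m / 2 ∧
      F x ≤ ζ x ^ 4 * ‖pt (nu N x) (y - x)‖ ^ 4 / ‖y - x‖ ^ 6) →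
    ∫⁻ x, ENNReal.ofReal (F x) ∂(area N) ≤ ENNReal.ofReal C *
      (∫⁻ x in ball c (R + 2 * m), ENNReal.ofReal (a2 N x) ∂(area N) +
        ∫⁻ x, ENNReal.ofReal (‖pt (nu N x) (gradient ζ x)‖ ^ 2) ∂(area N))

/-- the cut-off -/
noncomputable def zt (Q : ℝ × E3 → ℝ) (t : ℝ) (x : E3) : ℝ := sT (3 - 2 * Q (t, x))

lemma zt_smooth (hQ : ContDiff ℝ 2 Q) (t : ℝ) : ContDiff ℝ 1 (zt Q t) :=
  (Real.smoothTransition.contDiff (n := 1)).comp (contDiff_const.sub (contDiff_const.mul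
    ((hQ.comp (contDiff_const.prodMk contDiff_id)).of_le (by norm_num))))

lemma zt_zero {t : ℝ} {x : E3} (hx : 3 / 2 ≤ Q (t, x)) : zt Q t x = 0 :=
  Real.smoothTransition.zero_of_nonpos (by linarith)

lemma zt_supp (hQ : ContDiff ℝ 2 Q) {t : ℝ} {x : E3} (hx : x ∈ tsupport (zt Q t)) :
    Q (t, x) ≤ 3 / 2 :=
  closure_minimal (t := {x | Q (t, x) ≤ 3 / 2}) (fun y hy => by
    by_contra h2
    exact hy (zt_zero (not_le.1 h2).le))
    (isClosed_le (hQ.continuous.comp (Continuous.prodMk_right t)) continuous_const) hx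

lemma grad_zt (hQ : ContDiff ℝ 2 Q) (t : ℝ) (x : E3) :
    gradient (zt Q t) x = (deriv sT (3 - 2 * Q (t, x)) * -2) • gr Q (t, x) := by
  have hQt : ContDiff ℝ 2 fun x => Q (t, x) := hQ.comp (contDiff_const.prodMk contDiff_id)
  have a1 := (hQt.differentiable (by simp) x).hasFDerivAt
  have a2 := (hasDerivAt_sT (3 - 2 * Q (t, x))).comp_hasFDerivAt x
    ((a1.const_mul 2).const_sub 3)
  have a3 : fderiv ℝ (zt Q t) x = _ := a2.fderiv
  refine ext_inner_right ℝ fun v => ?_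
  rw [inner_grad, a3, real_inner_smul_left, gr, inner_grad]
  simp [mul_assoc]

lemma en_zt (hA : ∀ u, |deriv sT u| ≤ A) (hQ : ContDiff ℝ 2 Q) (t : ℝ) :
    ∫⁻ x, ENNReal.ofReal (‖pt (nu (M t) x) (gradient (zt Q t) x)‖ ^ 2) ∂(area (M t)) ≤
      ENNReal.ofReal (8 * A ^ 2) * en M Q t := by
  rw [en, ← lintegral_const_mul' _ _ ENNReal.ofReal_ne_top]
  refine lintegral_mono fun x => ?_
  rw [← ENNReal.ofReal_mul (by positivity)]
  apply ENNReal.ofReal_le_ofReal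
  rw [grad_zt hQ, map_smul, norm_smul, mul_pow, ← mul_assoc, Real.norm_eq_abs, sq_abs]
  refine mul_le_mul_of_nonneg_right ?_ (by positivity)
  rcases le_total (3 / 2) (Q (t, x)) with h2 | h2
  · rw [dsT_of_nonpos (by linarith)]
    simp only [zero_mul, ne_eq, OfNat.ofNat_ne_zero, not_false_eq_true, zero_pow]
    positivity
  · have a1 : deriv sT (3 - 2 * Q (t, x)) ^ 2 ≤ A ^ 2 := by
      rw [← sq_abs]
      exact pow_le_pow_left₀ (abs_nonneg _) (hA _) 2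
    have a2 : 1 / 2 ≤ max (2 - Q (t, x)) 0 := le_max_of_le_left (by linarith)
    nlinarith [sq_nonneg A]

lemma angle_eq {n z : E3} (hn : ‖n‖ = 1) (hz : 0 < ‖z‖) :
    (1 - (|⟪z, n⟫| / ‖z‖) ^ 2) ^ 2 / ‖z‖ ^ 2 = 1 ^ 4 * ‖pt n z‖ ^ 4 / ‖z‖ ^ 6 := by
  rw [show ‖pt n z‖ ^ 4 = (‖pt n z‖ ^ 2) ^ 2 by ring, norm_pt_sq hn, div_pow, sq_abs,
    real_inner_comm]
  field_simp

lemma F_cond (P : Prof A m τ₁ τ₀ G G' G'') (h0 : 0 < τ₀) {t co cc F : ℝ} (hco : 0 < co)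
    (hcc : 0 ≤ cc) {x : E3} (hn : ‖nu (M t) x‖ = 1)
    (herr : Q (t, x) ≤ 1 → ∀ y, InCone (M t) x y → τ₀ ≤ ‖y - x‖ → ‖y - x‖ ≤ 2 * τ₁ →
      ∀ φ : ℝ, 0 ≤ φ → φ ≤ 1 →
      err G' G'' ‖y - x‖ φ ≤ co * ((1 - φ ^ 2) ^ 2 / ‖y - x‖ ^ 2) + cc)
    (hF : src M Q G' G'' (t, x) = 2 * co * F + cc) :
    F ≤ 0 ∨ ∃ y, InCone (M t) x y ∧ SepGE (M t) x ‖y - x‖ ∧ ‖y - x‖ ≤ 4 * τ₁ / 2 ∧
      F ≤ zt Q t x ^ 4 * ‖pt (nu (M t) x) (y - x)‖ ^ 4 / ‖y - x‖ ^ 6 := by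
  rcases le_or_gt F 0 with h2 | h2
  · exact Or.inl h2
  right
  have a2 := mul_pos hco h2
  have a3 : co * F + cc < src M Q G' G'' (t, x) := by rw [hF]; linarith only [a2]
  obtain ⟨b1, y, b2, b3, b4, b5, b6⟩ := exists_chord P (by positivity) a3
  dsimp only at b2 b3 b4 b5 b6
  refine ⟨y, b2, b3, by linarith only [b5], ?_⟩
  have b7 := b6.trans_le (herr b1 y b2 b4 b5 _ (div_nonneg (abs_nonneg _) (norm_nonneg _))
    (cos_le _ _ _))
  have b8 := lt_of_mul_lt_mul_left (lt_of_add_lt_add_right b7) hco.le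
  have b9 : zt Q t x = 1 := Real.smoothTransition.one_of_one_le (by linarith only [b1])
  rw [b9, ← angle_eq hn (h0.trans_le b4)]
  exact b8.le

lemma slice_est (P : Prof A m τ₁ τ₀ G G' G'') (hA : ∀ u, |deriv sT u| ≤ A) (h0 : 0 < τ₀)
    (h1 : 0 < τ₁) {C R t co cc : ℝ} {c : E3} (hR : 16 * τ₁ ≤ R) (hco : 0 < co) (hcc : 0 ≤ cc)
    (hN : IsSurf (M t)) (hD : AreaRatio D (M t)) (hSI : SIAt C (M t))
    (hQ : ContDiff ℝ 2 Q) (hQR : ∀ x, 3 * R / 2 ≤ ‖x - c‖ → 2 ≤ Q (t, x))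
    (hb : ∀ x ∈ M t, Q (t, x) ≤ 3 / 2 → ∀ s ≤ 4 * τ₁, ¬ Bad (M t) x s)
    {K : Set (ℝ × E3)} (hK : ∀ p ∈ K, ‖p.2 - c‖ < 2 * R)
    (herr : ∀ x ∈ M t, Q (t, x) ≤ 1 → ∀ y, InCone (M t) x y → τ₀ ≤ ‖y - x‖ → ‖y - x‖ ≤ 2 * τ₁ →
      ∀ φ : ℝ, 0 ≤ φ → φ ≤ 1 →
      err G' G'' ‖y - x‖ φ ≤ co * ((1 - φ ^ 2) ^ 2 / ‖y - x‖ ^ 2) + cc) :
    hh M K (src M Q G' G'') t ≤ ENNReal.ofReal (2 * co) * (ENNReal.ofReal C *
      (∫⁻ x in ball c (2 * R), ENNReal.ofReal (a2 (M t) x) ∂(area (M t)) +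
        ENNReal.ofReal (8 * A ^ 2) * en M Q t)) + ENNReal.ofReal (cc * (D * (2 * R) ^ 2)) := by
  obtain ⟨F, hF⟩ : ∃ F : E3 → ℝ, ∀ x, src M Q G' G'' (t, x) = 2 * co * F x + cc :=
    ⟨fun x => (src M Q G' G'' (t, x) - cc) / (2 * co), fun x => by field_simp; ring⟩
  have hmain := hSI (zt Q t) c (3 * R / 2) (4 * τ₁) (by positivity) (zt_smooth hQ t)
    (fun x hx => zt_zero (by linarith only [hQR x hx]))
    (fun x => ⟨Real.smoothTransition.nonneg _, Real.smoothTransition.le_one _⟩)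
    (fun x hx hs => hb x hx (zt_supp hQ hs)) F
    fun x hx => F_cond P h0 hco hcc (hN.norm_nu hx) (herr x hx) (hF x)
  have e1 := hh_le (K := K) (f := src M Q G' G'') (a := 2 * co) (R := 2 * R) (c := c)
    (by positivity) hcc (by linarith only [hR, h1]) hD F fun x hx => ⟨hK (t, x) hx, (hF x).le⟩
  have e2 : ∫⁻ x in ball c (3 * R / 2 + 2 * (4 * τ₁)), ENNReal.ofReal (a2 (M t) x) ∂(area (M t)) ≤
      ∫⁻ x in ball c (2 * R), ENNReal.ofReal (a2 (M t) x) ∂(area (M t)) :=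
    lintegral_mono_set (ball_subset_ball (by linarith only [hR]))
  have e3 := hmain.trans (mul_le_mul_right (add_le_add e2 (en_zt hA hQ t)) _)
  exact e1.trans (add_le_add (mul_le_mul_right e3 _) le_rfl)

lemma total_est (h : WF D μ M J I) {t₁ t₂ a C k cc A₀ R δ P E : ℝ} {c : E3}
    (hI : Icc t₁ t₂ ⊆ I) {T' T'' : Set ℝ} (hT' : IsCompact T') (hT'' : IsCompact T'')
    (hs' : T' ⊆ Icc t₁ t₂) (ha : 0 ≤ a) (hC : 0 ≤ C) (hk : 0 ≤ k) (hA₀ : 0 ≤ A₀)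
    (hR : 0 < R) (hP : 0 ≤ P) (hE : 0 ≤ E) (hδ : 0 ≤ δ) {K : Set (ℝ × E3)} {f : ℝ × E3 → ℝ}
    (hK : ∀ p ∈ K, ‖p.2 - c‖ < R ∧ f p ≤ A₀) {p e : ℝ → ℝ≥0∞}
    (he : AEMeasurable e (volume.restrict T'))
    (hp : ∫⁻ t in Icc t₁ t₂, p t ≤ ENNReal.ofReal P) (hE' : ∫⁻ t in Icc t₁ t₂, e t ≤ ENNReal.ofReal E)
    (h1 : ∀ t ∈ T', hh M K f t ≤ ENNReal.ofReal a * (ENNReal.ofReal C *
      (p t + ENNReal.ofReal k * e t)) + T''ᶜ.indicator (fun _ => ENNReal.ofReal cc) t)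
    (h2 : ENNReal.ofReal cc * volume (Icc t₁ t₂ \ T'') ≤ ENNReal.ofReal δ)
    (h3 : ENNReal.ofReal (A₀ * (D * R ^ 2)) * volume (Icc t₁ t₂ \ T') ≤ ENNReal.ofReal δ) :
    ∫⁻ t in Icc t₁ t₂, hh M K f t ≤ ENNReal.ofReal (a * (C * (P + k * E)) + δ + δ) := by
  have b1 : ∫⁻ t in Icc t₁ t₂ \ T', hh M K f t ≤ ENNReal.ofReal δ := by
    refine le_trans ?_ h3
    rw [← setLIntegral_const]
    refine lintegral_mono_ae ?_
    filter_upwards [ae_restrict_of_ae h.ae,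
      ae_restrict_mem (measurableSet_Icc.diff hT'.measurableSet)] with t a1 a2
    simpa using hh_le (a := 0) le_rfl hA₀ hR (ratio_J h (a1 (hI a2.1))) (fun _ => 0)
      fun x hx => ⟨(hK _ hx).1, by simpa using (hK _ hx).2⟩
  have b2 : ∫⁻ t in T', T''ᶜ.indicator (fun _ => ENNReal.ofReal cc) t ≤ ENNReal.ofReal δ := by
    rw [lintegral_indicator hT''.measurableSet.compl, Measure.restrict_restrict
      hT''.measurableSet.compl, setLIntegral_const]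
    refine le_trans (mul_le_mul_right (measure_mono fun t ht => ?_) _) h2
    exact ⟨hs' ht.2, ht.1⟩
  have b3 : ∫⁻ t in T', ENNReal.ofReal a * (ENNReal.ofReal C * (p t + ENNReal.ofReal k * e t)) ≤
      ENNReal.ofReal (a * (C * (P + k * E))) := by
    rw [lintegral_const_mul' _ _ ENNReal.ofReal_ne_top, lintegral_const_mul' _ _
      ENNReal.ofReal_ne_top, lintegral_add_right' _ (he.const_mul _),
      lintegral_const_mul' _ _ ENNReal.ofReal_ne_top, ENNReal.ofReal_mul ha,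
      ENNReal.ofReal_mul hC, ENNReal.ofReal_add hP (by positivity), ENNReal.ofReal_mul hk]
    gcongr
    · exact (lintegral_mono_set hs').trans hp
    · exact (lintegral_mono_set hs').trans hE'
  have b4 : ∫⁻ t in T', hh M K f t ≤ ENNReal.ofReal (a * (C * (P + k * E))) + ENNReal.ofReal δ := by
    refine (setLIntegral_mono' hT'.measurableSet h1).trans ?_
    rw [lintegral_add_right _ (measurable_const.indicator hT''.measurableSet.compl)]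
    exact add_le_add b3 b2
  rw [ENNReal.ofReal_add (by positivity) hδ, ENNReal.ofReal_add (by positivity) hδ]
  refine le_trans ?_ (add_le_add b4 b1)
  refine (lintegral_mono_set (t := T' ∪ (Icc t₁ t₂ \ T')) fun t ht => ?_).trans
    (lintegral_union_le _ _ _)
  by_cases h4 : t ∈ T'
  exacts [Or.inl h4, Or.inr ⟨ht, h4⟩]

/-- compact sets of regular times with a small complement -/
lemma exists_times (h : WF D μ M J I) {t₁ t₂ : ℝ} (hI : Icc t₁ t₂ ⊆ I) {B δ : ℝ} (hB : 0 ≤ B)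
    (hδ : 0 < δ) : ∃ T : Set ℝ, IsCompact T ∧ T ⊆ J ∧ T ⊆ Icc t₁ t₂ ∧
      ENNReal.ofReal B * volume (Icc t₁ t₂ \ T) ≤ ENNReal.ofReal δ := by
  obtain ⟨T, h1, h2, h3⟩ := (measurableSet_Icc.inter h.mcf.isOpen.measurableSet
    : MeasurableSet (Icc t₁ t₂ ∩ J)).exists_isCompact_sdiff_lt (μ := volume)
    (ne_top_of_le_ne_top measure_Icc_lt_top.ne (measure_mono inter_subset_left))
    (ε := ENNReal.ofReal (δ / (B + 1))) (by simp; positivity)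
  refine ⟨T, h2, h1.trans inter_subset_right, h1.trans inter_subset_left, ?_⟩
  have h4 : volume (Icc t₁ t₂ \ T) ≤ volume ((Icc t₁ t₂ ∩ J) \ T) :=
    measure_mono_ae (h.ae.mono fun t ht ht' => ⟨⟨ht'.1, ht (hI ht'.1)⟩, ht'.2⟩)
  refine (mul_le_mul_right (h4.trans h3.le) _).trans ?_
  rw [← ENNReal.ofReal_mul hB]
  apply ENNReal.ofReal_le_ofReal
  rw [mul_div_assoc', div_le_iff₀ (by positivity)]
  nlinarith

end Vale.Agent.P218G.BW
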