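import Vale.Agent.P218G.BarC

/-! The barrier lemma in the weak class. -/

open MeasureTheory Set Filter Topology Metric
open scoped ENNReal NNReal RealInnerProductSpace ContDiff

namespace Vale.Agent.P218G.BW

open P218FT

lemma err_le {A m τ₁ τ₀ : ℝ} {G G' G'' : ℝ → ℝ} (P : Prof A m τ₁ τ₀ G G' G'') (hA : 0 < A)
    (h0 : 0 < τ₀) {α d φ : ℝ} (hα : 0 < α) (d0 : τ₀ ≤ d) (d1 : d ≤ 2 * τ₁) (φ0 : 0 ≤ φ)
    (φ1 : φ ≤ 1) :
    err G' G'' d φ ≤ (2 * √(m * τ₁))⁻¹ * (A * α + 2 * τ₁) * ((1 - φ ^ 2) ^ 2 / d ^ 2) +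
      if 2 * τ₀ ≤ d then 0 else (2 * √(m * τ₁))⁻¹ * (A / α) := by
  have hd : 0 < d := h0.trans_le d0
  have hκ : 0 ≤ (2 * √(m * τ₁))⁻¹ := by positivity
  have hu : 0 ≤ 1 - φ ^ 2 := by nlinarith
  generalize hug : 1 - φ ^ 2 = u at hu ⊢
  have a1 : u ^ 2 / d ≤ 2 * τ₁ * (u ^ 2 / d ^ 2) := by
    calc u ^ 2 / d = d * (u ^ 2 / d ^ 2) := by field_simp
      _ ≤ _ := by gcongr
  have a0 : 0 ≤ A * α * (u ^ 2 / d ^ 2) := by positivity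
  split_ifs with h
  · refine (P.mid d φ h φ0 φ1).trans ?_
    rw [hug, add_zero, mul_assoc]
    exact mul_le_mul_of_nonneg_left (by linarith) hκ
  · refine (P.gen d φ hd φ0 φ1).trans ?_
    rw [hug, mul_assoc, ← mul_add]
    refine mul_le_mul_of_nonneg_left ?_ hκ
    have a2 : A / τ₀ * u ≤ A * (2 * (u / d)) := by
      have : 1 / τ₀ ≤ 2 / d := by
        rw [div_le_div_iff₀ h0 hd]; linarith
      calc A / τ₀ * u = A * (1 / τ₀ * u) := by ring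
        _ ≤ A * (2 / d * u) := by gcongr
        _ = _ := by ring
    have a3 : 2 * (u / d) ≤ α * (u ^ 2 / d ^ 2) + 1 / α := by
      have b1 : α * (u ^ 2 / d ^ 2) + 1 / α - 2 * (u / d) = (α * (u / d) - 1) ^ 2 / α := by
        field_simp
        ring
      have b2 : 0 ≤ (α * (u / d) - 1) ^ 2 / α := by positivity
      linarith
    have a4 := mul_le_mul_of_nonneg_left a3 hA.le
    have a5 : A * (α * (u ^ 2 / d ^ 2) + 1 / α) = A * α * (u ^ 2 / d ^ 2) + A / α := by ring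
    linarith

lemma exists_tau {m R Y γ β : ℝ} (hm : 0 < m) (hR : 0 < R) (hY : 0 ≤ Y) (hγ : 0 < γ) (hβ : 0 < β) :
    ∃ τ : ℝ, 0 < τ ∧ 16 * τ ≤ R ∧ 4 * τ ≤ m ∧ √(2 * τ / m) ≤ γ ∧
      (2 * √(m * τ))⁻¹ * (2 * τ) * Y ≤ β := by
  set u := min γ (β / (Y + 1)) with hu
  have hu0 : 0 < u := by positivity
  refine ⟨min (min (R / 16) (m / 4)) (m * u ^ 2 / 2), by positivity, ?_, ?_, ?_, ?_⟩
  · linarith [(min_le_left _ (m * u ^ 2 / 2)).trans (min_le_left (R / 16) (m / 4))]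
  · linarith [(min_le_left _ (m * u ^ 2 / 2)).trans (min_le_right (R / 16) (m / 4))]
  · rw [Real.sqrt_le_left hγ.le, div_le_iff₀ hm]
    have : u ^ 2 ≤ γ ^ 2 := pow_le_pow_left₀ hu0.le (min_le_left _ _) 2
    nlinarith [min_le_right (min (R / 16) (m / 4)) (m * u ^ 2 / 2)]
  · have h0 : 0 < min (min (R / 16) (m / 4)) (m * u ^ 2 / 2) := by positivity
    have h1 := min_le_right (min (R / 16) (m / 4)) (m * u ^ 2 / 2)
    generalize min (min (R / 16) (m / 4)) (m * u ^ 2 / 2) = τ at h0 h1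
    have h2 : 0 < √(m * τ) := by positivity
    have h3 : (2 * √(m * τ))⁻¹ * (2 * τ) ≤ u := by
      rw [inv_mul_le_iff₀ (by positivity)]
      have : τ / u ≤ √(m * τ) := by
        refine Real.le_sqrt_of_sq_le ?_
        rw [div_pow, div_le_iff₀ (by positivity)]
        nlinarith [mul_pos hm (pow_pos hu0 2)]
      rw [div_le_iff₀ hu0] at this
      linarith
    calc _ ≤ β / (Y + 1) * Y := by
          gcongr
          exact h3.trans (min_le_right _ _)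
      _ ≤ β := by
          rw [div_mul_eq_mul_div, div_le_iff₀ (by positivity)]
          nlinarith

end Vale.Agent.P218G.BW

namespace Vale.Agent.P218G

open P218FT BW

theorem barrierW_of (hT : TwoW) (hRa : RampW) (hEn : EnergyW) (hSr : SrcW) (hSI : SIStmt) :
    BarrierW := by
  intro D₀ μ M J I h₀ t₁ t₂ c R m η₀ η h12 hI hR hm hP hcov hK γ₀ hγ₀
  obtain ⟨D, hD, h⟩ : ∃ D : ℝ, 0 < D ∧ WF D μ M J I := ⟨max D₀ 1, by positivity,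
    { h₀ with ratio := fun t ht p r hr => (h₀.ratio t ht p r hr).trans (ENNReal.ofReal_le_ofReal
        (mul_le_mul_of_nonneg_right (le_max_left _ _) (sq_nonneg r))) }⟩
  obtain ⟨γ, hγ, hγγ, hγ1⟩ : ∃ γ : ℝ, 0 < γ ∧ γ ≤ γ₀ ∧ γ ≤ 1 :=
    ⟨min γ₀ 1, by positivity, min_le_left _ _, min_le_right _ _⟩
  obtain ⟨l₀, hl₀, hact, hmass₀, hcov₀⟩ := hcov
  obtain ⟨A, hA, hAd⟩ := exists_dsT
  obtain ⟨C₀, hC₀, hSr⟩ := hSr D
  obtain ⟨C, hC, hSI⟩ := hSI D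
  obtain ⟨P, hP0, hP⟩ : ∃ P : ℝ, 0 ≤ P ∧ ∫⁻ t in Icc t₁ t₂, ∫⁻ x in ball c (2 * R),
      ENNReal.ofReal (a2 (M t) x) ∂(area (M t)) ≤ ENNReal.ofReal P :=
    ⟨_, ENNReal.toReal_nonneg, (ENNReal.ofReal_toReal hP.ne).ge⟩
  obtain ⟨Y, hY⟩ : ∃ Y, Y = C * (P + 8 * A ^ 2 * (2 * (D * (3 * R / 2) ^ 2))) := ⟨_, rfl⟩
  have hY0 : 0 < Y := by rw [hY]; positivity
  obtain ⟨b, hb⟩ : ∃ b, b = γ / C₀ / 8 := ⟨_, rfl⟩
  have hb0 : 0 < b := by rw [hb]; positivity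
  obtain ⟨τ₁, h1, h1R, h1m, h1γ, h1Y⟩ := exists_tau hm hR hY0.le (γ := γ / 4) (by positivity) hb0
  obtain ⟨κ, hκ⟩ : ∃ κ, κ = (2 * √(m * τ₁))⁻¹ := ⟨_, rfl⟩
  have hκ0 : 0 < κ := by rw [hκ]; positivity
  obtain ⟨α, hα, hαY⟩ : ∃ α : ℝ, 0 < α ∧ κ * (A * α) * Y = b :=
    ⟨b / (κ * A * Y), by positivity, by field_simp⟩
  obtain ⟨T'', hT'', hTJ'', hTI'', hTm''⟩ := exists_times h hI
    (B := κ * (A / α) * (D * (2 * R) ^ 2)) (by positivity) hb0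
  have hJreg : ∀ {T : Set ℝ}, T ⊆ J → win M T c (3 * R / 2) ⊆ regSet M I := fun hT p hp =>
    ⟨h.sub (hT hp.1.1), reg_of_J h (hT hp.1.1) p.2⟩
  obtain ⟨s₀, hs₀, hsep₀⟩ := exists_sep h (isCompact_win h hT'' (hTI''.trans hI) c (3 * R / 2))
    (hJreg hTJ'')
  obtain ⟨τ₀, h0, h01, h0s⟩ : ∃ τ₀ : ℝ, 0 < τ₀ ∧ τ₀ ≤ τ₁ ∧ 2 * τ₀ ≤ s₀ :=
    ⟨min τ₁ (s₀ / 2), by positivity, min_le_left _ _, by linarith [min_le_right τ₁ (s₀ / 2)]⟩
  obtain ⟨G, G', G'', Pf⟩ := exists_prof hAd hm h0 h01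
  have hGm : 1 - γ / 2 ≤ G m := by
    have a1 : √(τ₁ / m) ≤ √(2 * τ₁ / m) := Real.sqrt_le_sqrt (by gcongr; linarith)
    have a2 : √(2 * τ₀ / m) ≤ √(2 * τ₁ / m) := Real.sqrt_le_sqrt (by gcongr)
    linarith [Pf.top]
  obtain ⟨K₀, hK₀, hK₀t, hK₀r, hK⟩ := hK τ₀ h0 (by linarith)
  obtain ⟨δ, hδ, hδr⟩ := hK₀.exists_cthickening_subset_open (isOpen_reg M) hK₀r
  have hW := fun r => isCompact_win h isCompact_Icc hI c r
  set K₁ := win M (Icc t₁ t₂) c R ∩ cthickening δ K₀ with hK₁def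
  set T₂ := win M (Icc t₁ t₂) c R \ thickening δ K₀ with hT₂def
  have hK₁ : IsCompact K₁ := (hW R).inter_right isClosed_cthickening
  have hT₂ : IsCompact T₂ := (hW R).diff isOpen_thickening
  have hK₁U : K₁ ⊆ WL.trk M (regSet M I) := fun p hp => ⟨⟨hI hp.1.1.1, hδr hp.2⟩, hp.1.1.2⟩
  obtain ⟨T', hT', hTJ', hTI', hTm'⟩ := exists_times h hI
    (B := κ * ((A + 1) / τ₀) * (D * (2 * R) ^ 2)) (by positivity) hb0
  obtain ⟨B₀, l₀', hB₀, sB₀, hl₀', hm₀', hact', hle₀⟩ := hRa.1 l₀ hl₀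
  set C₁ := win M {t₁} c R ∩ {p | B₀ p ≤ 1 - γ / 2} with hC₁def
  have hC₁ : IsCompact C₁ := (isCompact_win h isCompact_singleton
    (singleton_subset_iff.2 (hI ⟨le_rfl, h12.le⟩)) c R).inter_right
    (isClosed_le hB₀.continuous continuous_const)
  have hC₁r : ∀ p ∈ C₁, Reg M p ∧ SepGE (M p.1) p.2 m := by
    rintro ⟨t, x⟩ ⟨⟨⟨ht, hx⟩, hxR⟩, hp⟩
    obtain rfl : t = t₁ := ht
    have a1 := (hle₀ (t, x)).1
    have a2 : B₀ (t, x) ≤ 1 - γ / 2 := hp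
    by_contra a3
    have := hcov₀ x hx hxR fun a4 a5 => a3 ⟨a4, a5⟩
    linarith
  obtain ⟨l₁, hl₁, hm₁, hbar₁⟩ := hK (K₁ ∪ win M T' c (3 * R / 2) ∪ C₁)
    ((hK₁.union (isCompact_win h hT' (hTI'.trans hI) c _)).union hC₁) (by
      rintro p ((hp | hp) | hp)
      · exact hp.1.1
      · exact ⟨hTI' hp.1.1, hp.1.2⟩
      · exact ⟨by rw [mem_singleton_iff.1 hp.1.1.1]; exact ⟨le_rfl, h12.le⟩, hp.1.1.2⟩) (by
      rintro p ((hp | hp) | hp)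
      · exact ⟨hδr hp.2, hp.1.2.trans (by linarith)⟩
      · exact ⟨(hJreg hTJ' hp).2, hp.2⟩
      · exact ⟨(hC₁r p hp).1, hp.1.2.trans (by linarith)⟩)
  obtain ⟨B₁, l₁', hB₁, sB₁, hl₁', hm₁', -, hle₁⟩ := hRa.1 l₁ hl₁
  have n₀ : ∀ p, 0 ≤ B₀ p := fun p => (Step.bar_nonneg hl₀ _ _).trans (hle₀ p).1
  have n₁ : ∀ p, 0 ≤ B₁ p := fun p => (Step.bar_nonneg hl₁ _ _).trans (hle₁ p).1
  obtain ⟨qd, hqd, hqs, hqS⟩ : ∃ qd : ℝ × E3 → ℝ,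
      (∀ p, qd p = (‖p.2 - c‖ ^ 2 + 4 * (p.1 - t₁)) / R ^ 2) ∧ ContDiff ℝ 2 qd ∧
      ∀ p, Super qd p 0 := by
    refine ⟨fun q => (‖q.2 - c‖ ^ 2 + 4 * (q.1 - t₁)) / R ^ 2 + 0 * (q.1 - t₁), fun p => by simp,
      ?_, fun p => hRa.2.2 c R t₁ 0 p⟩
    exact ((((contDiff_snd.sub contDiff_const).norm_sq ℝ).add (contDiff_const.mul
      (contDiff_fst.sub contDiff_const))).div_const _).add
      (contDiff_const.mul (contDiff_fst.sub contDiff_const))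
  have nq : ∀ p : ℝ × E3, t₁ ≤ p.1 → ‖p.2 - c‖ ^ 2 / R ^ 2 ≤ qd p := fun p hp => by
    rw [hqd]
    gcongr
    linarith
  have nq0 : ∀ p : ℝ × E3, t₁ ≤ p.1 → 0 ≤ qd p := fun p hp => le_trans (by positivity) (nq p hp)
  obtain ⟨Q, hQ, hQs, hQS⟩ : ∃ Q : ℝ × E3 → ℝ, (∀ p, Q p = B₀ p + B₁ p + qd p) ∧ ContDiff ℝ 2 Q ∧
      ∀ p, Super Q p 0 := ⟨fun p => B₀ p + B₁ p + qd p, fun _ => rfl, (hB₀.add hB₁).add hqs,
    fun p => by
      simpa using hRa.2.1 _ _ p _ _ (hB₀.add hB₁) hqs (hRa.2.1 _ _ p _ _ hB₀ hB₁ (sB₀ p) (sB₁ p))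
        (hqS p)⟩
  have hQR : ∀ t, t₁ ≤ t → ∀ x, 3 * R / 2 ≤ ‖x - c‖ → 2 ≤ Q (t, x) := by
    intro t ht x hx
    have a1 : 2 ≤ ‖x - c‖ ^ 2 / R ^ 2 := by
      rw [le_div_iff₀ (by positivity)]
      nlinarith
    linarith [hQ (t, x), n₀ (t, x), n₁ (t, x), nq (t, x) ht]
  have hQB : ∀ p : ℝ × E3, t₁ ≤ p.1 → bar l₁ p.1 p.2 ≤ Q p := fun p hp => by
    linarith [hQ p, n₀ p, (hle₁ p).1, nq0 p hp]
  have hbad₁ : ∀ p ∈ K₁, Q p ≤ 1 → ∀ s ≤ m, ¬ Bad (M p.1) p.2 s := fun p hp hq s hs hbd => by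
    linarith [hbar₁ p (Or.inl (Or.inl hp)) (Or.inl ⟨s, hs, hbd⟩), hQB p hp.1.1.1.1]
  -- the size of the source
  have hsize : ∫⁻ t in Icc t₁ t₂, hh M K₁ (src M Q G' G'') t < ENNReal.ofReal (γ / C₀) := by
    have hKR : ∀ p ∈ K₁, ‖p.2 - c‖ < 2 * R := fun p hp => hp.1.2.trans_lt (by linarith)
    refine (total_est h hI hT' hT'' hTI' (a := 2 * (κ * (A * α + 2 * τ₁))) (C := C)
      (k := 8 * A ^ 2) (E := 2 * (D * (3 * R / 2) ^ 2)) (by positivity) hC.le (by positivity)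
      (by positivity) (by positivity : 0 < 2 * R) hP0 (by positivity) hb0.le
      (fun p hp => ⟨hKR p hp, hκ ▸ src_le Pf hA h0 p⟩)
      (aemeas_en h hQs hT'.measurableSet hTJ' fun t ht => hQR t (hTI' ht).1) hP
      (hEn D hD.le μ M J I h Q t₁ t₂ c (3 * R / 2) hQs h12.le hI (by positivity) fun t ht x =>
        ⟨by linarith [hQB (t, x) ht.1, Step.bar_nonneg hl₁ t x], hQR t ht.1 x, hQS _⟩)
      (fun t ht => ?_) hTm'' hTm').trans_lt ?_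
    · have hw : ∀ x ∈ M t, Q (t, x) ≤ 3 / 2 → ‖x - c‖ ≤ 3 * R / 2 := fun x _ hq => by
        by_contra a1
        linarith [hQR t (hTI' ht).1 x (not_le.1 a1).le]
      have est := fun (cc : ℝ) (hcc : 0 ≤ cc) => slice_est (M := M) (Q := Q) (K := K₁) (c := c)
        Pf hAd h0 h1 (co := κ * (A * α + 2 * τ₁)) h1R (by positivity) hcc
        (h.mcf.isSurf (hTJ' ht)) (ratio_J h (hTJ' ht))
        (hSI (M t) (h.mcf.isSurf (hTJ' ht)) (ratio_J h (hTJ' ht))) hQs (hQR t (hTI' ht).1)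
        (fun x hx hq s hs hbd => by
          linarith [hbar₁ (t, x) (Or.inl (Or.inr ⟨⟨ht, hx⟩, hw x hx hq⟩))
            (Or.inl ⟨s, by linarith, hbd⟩), hQB (t, x) (hTI' ht).1]) hKR
      by_cases ht'' : t ∈ T''
      · rw [indicator_of_notMem (show t ∉ T''ᶜ from fun a => a ht'')]
        simpa using est 0 le_rfl fun x hx hq y hy d0 d1 φ φ0 φ1 => by
          have a1 := err_le Pf hA h0 hα d0 d1 φ0 φ1
          rwa [if_pos (h0s.trans (hsep₀ (t, x) ⟨⟨ht'', hx⟩, hw x hx (by linarith)⟩ hx y hy)),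
            ← hκ] at a1
      · rw [indicator_of_mem (show t ∈ T''ᶜ from ht'')]
        refine est (κ * (A / α)) (by positivity) fun x hx hq y hy d0 d1 φ φ0 φ1 => ?_
        have a1 := err_le Pf hA h0 hα d0 d1 φ0 φ1
        rw [← hκ] at a1
        refine a1.trans (add_le_add le_rfl ?_)
        split_ifs
        · positivity
        · exact le_rfl
    · rw [ENNReal.ofReal_lt_ofReal_iff (by positivity), ← hY]
      rw [← hκ] at h1Y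
      have : γ / C₀ = 8 * b := by rw [hb]; ring
      nlinarith
  obtain ⟨B₂, l₂, hB₂, sB₂, sB₂', hl₂, hm₂, hle₂⟩ := hSr μ M J I h t₁ t₂ _ (γ / C₀) K₁
    (src M Q G' G'') hI hK₁ (fun p hp => hp.1.1)
    (fun p _ => ⟨src_nonneg Pf hA h0 p, src_le Pf hA h0 p⟩)
    (fun p hp hJ => usc_src h Pf hA h0 hQs.continuous hK₁ hK₁U
      (fun p hp hq s hs => hbad₁ p hp hq s (by linarith)) hp hJ) hsize
  obtain ⟨ε, hε, hεγ⟩ : ∃ ε : ℝ, 0 < ε ∧ ε * (t₂ - t₁) = γ / 2 :=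
    ⟨γ / 2 / (t₂ - t₁), div_pos (by positivity) (by linarith), by
      have : t₂ - t₁ ≠ 0 := by linarith
      field_simp⟩
  obtain ⟨β, hβ, hβs, sβ⟩ : ∃ β : ℝ × E3 → ℝ, (∀ p, β p = Q p + B₂ p + ε * (p.1 - t₁)) ∧
      ContDiff ℝ 2 β ∧ ∀ p e, Super B₂ p e → Super β p (e + ε) := by
    have a1 : ContDiff ℝ 2 fun q : ℝ × E3 =>
        (‖q.2 - c‖ ^ 2 + 4 * (q.1 - t₁)) / 0 ^ 2 + ε * (q.1 - t₁) :=
      ((((contDiff_snd.sub contDiff_const).norm_sq ℝ).add (contDiff_const.mul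
        (contDiff_fst.sub contDiff_const))).div_const _).add
        (contDiff_const.mul (contDiff_fst.sub contDiff_const))
    refine ⟨fun p => Q p + B₂ p + ((‖p.2 - c‖ ^ 2 + 4 * (p.1 - t₁)) / 0 ^ 2 + ε * (p.1 - t₁)),
      fun p => by simp, (hQs.add hB₂).add a1, fun p e he => ?_⟩
    have a2 := hRa.2.1 _ _ p _ _ (hQs.add hB₂) a1 (hRa.2.1 _ _ p _ _ hQs hB₂ (hQS p) he)
      (hRa.2.2 c 0 t₁ ε p)
    rwa [zero_add] at a2
  have hQβ : ∀ p : ℝ × E3, t₁ ≤ p.1 → Q p ≤ β p := fun p hp => by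
    have : 0 ≤ ε * (p.1 - t₁) := mul_nonneg hε.le (by linarith)
    linarith [hβ p, (hle₂ p).1]
  have hK₀T : ∀ p, p ∉ thickening δ K₀ → p ∉ K₀ := fun p hp a => hp (self_subset_thickening hδ _ a)
  have hcv : ∀ p ∈ win M (Icc t₁ t₂) c R, p ∈ K₁ ∨ p ∈ T₂ := fun p hp => by
    by_cases a : p ∈ thickening δ K₀
    exacts [Or.inl ⟨hp, thickening_subset_cthickening _ _ a⟩, Or.inr ⟨hp, a⟩]
  obtain ⟨r1, r2⟩ := min_principle (Q := Q) hT h Pf hA h0 (by linarith) hI hε hβs hK₁ hT₂ hK₁U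
    inter_subset_left sdiff_subset hcv (fun p => by simpa using sβ p 0 (sB₂ p))
    (fun p hp => sβ p _ (sB₂' p hp)) hGm (by
      intro p hp
      have a0 := hQβ p hp.1.1.1
      have a1 := hQB p hp.1.1.1
      refine ⟨by linarith [Step.bar_nonneg hl₁ p.1 p.2], fun hlt => ⟨by linarith, ?_, fun e => ?_,
        fun hk => ⟨hbad₁ p hk (by linarith), fun ht hs => ?_⟩⟩⟩
      · have a2 : ‖p.2 - c‖ ^ 2 / R ^ 2 < 1 := by
          linarith [hQ p, n₀ p, n₁ p, nq p hp.1.1.1]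
        rw [div_lt_one (by positivity)] at a2
        exact lt_of_pow_lt_pow_left₀ 2 hR.le a2
      · have a2 : p ∈ C₁ := ⟨⟨⟨e, hp.1.2⟩, hp.2⟩, by
          show B₀ p ≤ 1 - γ / 2
          linarith [hQ p, n₁ p, nq0 p hp.1.1.1]⟩
        refine ⟨(hcv p hp).resolve_right fun ht => ?_, (hC₁r p a2).2⟩
        linarith [hbar₁ p (Or.inr a2) (Or.inr ⟨hK₀T p ht.2, fun y hy =>
          le_trans (by linarith) ((hC₁r p a2).2 y hy)⟩)]
      · linarith [hbar₁ p (Or.inl (Or.inl hk)) (Or.inr ⟨hK₀T p ht.2, hs⟩)])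
  refine ⟨l₁' + l₂, Step.valid_add hl₁' hl₂, ?_, fun x hx hxR d hd => ?_⟩
  · rw [Step.mass_add, hm₁']
    have : C₀ * (γ / C₀) = γ := by field_simp
    linarith
  have hw : (t₂, x) ∈ win M (Icc t₁ t₂) c R := ⟨⟨⟨h12.le, le_rfl⟩, hx⟩, hxR⟩
  have u0 : B₀ (t₂, x) ≤ η₀ * (4 * Real.pi * (t₂ - t₁))⁻¹ := by
    have a1 := Step.bar_le_mass hl₀' (t₁ := t₁) (t := t₂) (d := t₂ - t₁) (fun s' hs' => by
      obtain ⟨s, a1, a2⟩ := hact' s' hs'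
      exact a2.trans_lt (hact s a1)) (by linarith) le_rfl x
    refine ((hle₀ (t₂, x)).2.trans a1).trans (mul_le_mul_of_nonneg_right (hm₀' ▸ hmass₀) ?_)
    have := Real.pi_pos
    have : 0 < t₂ - t₁ := by linarith
    positivity
  have u1 : β (t₂, x) ≤ η₀ * (4 * Real.pi * (t₂ - t₁))⁻¹ + bar (l₁' + l₂) t₂ x +
      (‖x - c‖ ^ 2 + 4 * (t₂ - t₁)) / R ^ 2 + γ / 2 := by
    rw [Step.bar_add, hβ, hQ, hqd]
    linarith [(hle₁ (t₂, x)).2, (hle₂ (t₂, x)).2]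
  have u2 : 1 - γ / 2 ≤ √(d / m) + β (t₂, x) := by
    rcases hcv _ hw with a | a
    · obtain ⟨y, hy, hyd⟩ := hd (hδr a.2)
      have a1 : √(‖y - x‖ / m) ≤ √(d / m) := Real.sqrt_le_sqrt (by gcongr)
      rcases le_total ‖y - x‖ m with a2 | a2
      · have a3 : 1 - γ / 2 ≤ G ‖y - x‖ + β (t₂, x) := r1 (t₂, x, y) ⟨a, hy, a2⟩
        linarith [Pf.le_sqrt _ (norm_nonneg (y - x))]
      · have a3 : 1 ≤ √(‖y - x‖ / m) := Real.one_le_sqrt.2 ((one_le_div hm).2 a2)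
        linarith [hQβ (t₂, x) h12.le, hQB (t₂, x) h12.le, Step.bar_nonneg hl₁ t₂ x]
    · linarith [r2 _ a, Real.sqrt_nonneg (d / m)]
  linarith

end Vale.Agent.P218G
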