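import Vale.Agent.P218FT.Spec2

/-! The class of weak flows which are smooth at almost every time. -/

open MeasureTheory Set Filter Topology Metric
open scoped ENNReal NNReal RealInnerProductSpace ContDiff

namespace Vale.Agent.P218G

open P218FT

/-- mass ratios at most `D` -/
def MRatio (D : ℝ) (ν : Measure E3) : Prop :=
  ∀ (p : E3) (r : ℝ), 0 < r → ν (ball p r) ≤ ENNReal.ofReal (D * r ^ 2)

/-- the Gaussian mass of `ν` at centre `y` and scale `r` -/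
noncomputable def gM (ν : Measure E3) (y : E3) (r : ℝ) : ℝ := ∫ x, gk (r ^ 2) (x - y) ∂ν

/-- the Gaussian density ratio of the flow at `(y, t)` and scale `r` -/
noncomputable def densM (μ : ℝ → Measure E3) (y : E3) (t r : ℝ) : ℝ := gM (μ (t - r ^ 2)) y r

/-- near `(t, x)` the track has a smooth equation, and it moves by mean curvature at `(t, x)` -/
def Loc (M : ℝ → Set E3) (t : ℝ) (x : E3) : Prop :=
  ∃ w : ℝ × E3 → ℝ, ContDiff ℝ ∞ w ∧
    gradient (fun y => w (t, y)) x ≠ 0 ∧ (∀ᶠ p : ℝ × E3 in 𝓝 (t, x), p.2 ∈ M p.1 ↔ w p = 0) ∧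
    deriv (fun s => w (s, x)) t = -⟪gradient (fun y => w (t, y)) x, Hv (M t) x⟫

/-- near `p` the track is a smooth mean curvature flow -/
def Reg (M : ℝ → Set E3) (p : ℝ × E3) : Prop :=
  ∀ᶠ q : ℝ × E3 in 𝓝 p, q.2 ∈ M q.1 → Loc M q.1 q.2

/-- the right-hand side of Brakke's inequality -/
noncomputable def rate (M : ℝ → Set E3) (f : ℝ × E3 → ℝ) (t : ℝ) : ℝ :=
  ∫ x, (fderiv ℝ f (t, x) (1, Hv (M t) x) - ‖Hv (M t) x‖ ^ 2 * f (t, x)) ∂(area (M t))

/-- A Brakke flow `(μ_t)_{t ∈ I}` with closed space-time support `M`, which is a smooth flow of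
multiplicity one on the open set `J` of times, of full measure. -/
structure WF (D : ℝ) (μ : ℝ → Measure E3) (M : ℝ → Set E3) (J I : Set ℝ) : Prop where
  isOpen : IsOpen I
  sub : J ⊆ I
  ae : ∀ᵐ t : ℝ, t ∈ I → t ∈ J
  mcf : IsMCF M J
  eq : ∀ t ∈ J, μ t = area (M t)
  closed : ∀ t ∈ I, ∀ x, x ∉ M t → ∀ᶠ p : ℝ × E3 in 𝓝 (t, x), p.2 ∉ M p.1
  supp : ∀ t ∈ I, μ t (M t)ᶜ = 0
  dense : track M I ⊆ closure (track M J)
  ratio : ∀ t ∈ I, MRatio D (μ t)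
  h2 : ∀ a b : ℝ, Icc a b ⊆ I → ∀ (c : E3) (r : ℝ), diss M 0 c r a b < ⊤
  brakke : ∀ f : ℝ × E3 → ℝ, ContDiff ℝ 1 f → HasCompactSupport f → (∀ p, 0 ≤ f p) →
    ∀ a b : ℝ, a ≤ b → Icc a b ⊆ I → IntervalIntegrable (rate M f) volume a b ∧
      ∫ x, f (b, x) ∂(μ b) - ∫ x, f (a, x) ∂(μ a) ≤ ∫ t in a..b, rate M f t

/-- the local regularity theorem holds for the flow, at all scales, with the given constants -/
def White (ε r C : ℝ) (μ : ℝ → Measure E3) (M : ℝ → Set E3) (I : Set ℝ) : Prop :=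
  ∀ (x₀ : E3) (t₀ l : ℝ), 0 < l → Icc (t₀ - 4 * l ^ 2) t₀ ⊆ I →
    (∀ y ∈ ball x₀ (3 * l), ∀ t ∈ Icc (t₀ - 3 * l ^ 2) t₀, densM μ y t l ≤ 1 + ε) →
    ∀ t ∈ Icc (t₀ - l ^ 2) t₀, ∀ x ∈ M t, x ∈ ball x₀ l →
      Reg M (t, x) ∧ TwoPt (M t) x (r * l) (C / l)

/-- the weak class: constants `D` (mass ratios), `G` (Gauss-Bonnet), `ε, r, C` (local regularity) -/
structure InW (D G ε r C : ℝ) (μ : ℝ → Measure E3) (M : ℝ → Set E3) (J I : Set ℝ) : Prop where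
  wf : WF D μ M J I
  white : White ε r C μ M I
  lgb : ∀ t ∈ J, LGB G (M t)

/-- test functions with values in `[0, 1]` and compact support in `U` -/
structure Adm (f : ℝ × E3 → ℝ) (U : Set (ℝ × E3)) : Prop where
  smooth : ContDiff ℝ 1 f
  cpt : HasCompactSupport f
  sub : tsupport f ⊆ U
  nonneg : ∀ p, 0 ≤ f p
  le_one : ∀ p, f p ≤ 1

/-- the mass which is lost in `U` beyond the smooth evolution -/
noncomputable def drop (M : ℝ → Set E3) (U : Set (ℝ × E3)) : ℝ≥0∞ :=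
  ⨆ (f : ℝ × E3 → ℝ) (_ : Adm f U), ENNReal.ofReal (∫ t, rate M f t)

/-- dissipation above the level `Λ` plus the sudden loss of mass in `B(c, r) × (a, b)` -/
noncomputable def dis2 (M : ℝ → Set E3) (Λ : ℝ) (c : E3) (r a b : ℝ) : ℝ≥0∞ :=
  diss M Λ c r a b + drop M (Ioo a b ×ˢ ball c r)

/-- the parabolic rescaling of a family of measures about `(x₀, t₀)` -/
noncomputable def scaleM (lam : ℝ) (x₀ : E3) (t₀ : ℝ) (μ : ℝ → Measure E3) : ℝ → Measure E3 :=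
  fun s => ENNReal.ofReal (lam ^ 2) • (μ (t₀ + s / lam ^ 2)).map (fun x => lam • (x - x₀))

end Vale.Agent.P218G
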