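import Vale.Agent.P218F.DynBridge

/-! Locally smooth slices: globalisation of a piece of surface, identification of the tangent
planes and of the mean curvature of a varifold which is carried by a surface. -/

open MeasureTheory Set Filter Topology Metric
open scoped ENNReal NNReal RealInnerProductSpace ContDiff

namespace Vale.Agent.P218G.Dyn

open Vale.Agent.P214 (proj divAlong)
open Vale.Agent.P218FT
open Vale.Agent.P218.H552 (MC BF brakkeRHS)
open Vale.Agent.P218F.Dyn (hm tg)
open Vale.Agent.P218F.DynBridge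

/-- `N` is a smooth properly embedded surface in the open set `U` -/
def SurfOn (N U : Set E3) : Prop :=
  (∀ x ∈ U, x ∉ N → ∀ᶠ y in 𝓝 x, y ∉ N) ∧ ∀ x ∈ U, x ∈ N → ∃ w, IsEqn N x w

lemma surfOn_of_isSurf {N : Set E3} (h : IsSurf N) (U : Set E3) : SurfOn N U :=
  ⟨fun _ _ hx => h.1.isOpen_compl.mem_nhds hx, fun x _ hx => h.2 x hx⟩

lemma SurfOn.mono {N U V : Set E3} (h : SurfOn N U) (hV : V ⊆ U) : SurfOn N V :=
  ⟨fun x hx => h.1 x (hV hx), fun x hx => h.2 x (hV hx)⟩

lemma exists_squash : ∃ h : ℝ → ℝ, ContDiff ℝ ∞ h ∧ (∀ t, |t| ≤ 1 → h t = t) ∧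
    (∀ t, |h t| ≤ 8) ∧ ∀ t, deriv h t ≠ 0 := by
  let χ : ContDiffBump (0 : ℝ) := ⟨1, 2, one_pos, one_lt_two⟩
  set β : ℝ → ℝ := fun s => χ s + (1 - χ s) * (1 / (1 + s ^ 2)) with hβ
  have hp : ∀ s : ℝ, 0 < 1 + s ^ 2 := fun s => by positivity
  have h1 : ContDiff ℝ ∞ β := χ.contDiff.add ((contDiff_const.sub χ.contDiff).mul
    (contDiff_const.div (by fun_prop) fun s => (hp s).ne'))
  have h2 : ∀ t, HasDerivAt (fun u => ∫ s in (0 : ℝ)..u, β s) (β t) t := fun t =>
    (h1.continuous.integral_hasStrictDerivAt 0 t).hasDerivAt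
  have h3 : deriv (fun u => ∫ s in (0 : ℝ)..u, β s) = β := funext fun t => (h2 t).deriv
  have h4 : ∀ s, 0 < β s ∧ β s ≤ 5 * (1 / (1 + s ^ 2)) := fun s => by
    have a1 : 0 ≤ χ s := χ.nonneg
    have a2 : χ s ≤ 1 := χ.le_one
    have a3 : 0 < 1 / (1 + s ^ 2) := by positivity
    have a4 : 1 / (1 + s ^ 2) ≤ 1 := by rw [div_le_one (hp s)]; nlinarith
    refine ⟨by simp only [hβ]; nlinarith, ?_⟩
    rcases le_or_gt 2 |s| with h | h
    · have : χ s = 0 := χ.zero_of_le_dist (by simpa using h)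
      simp only [hβ, this]; linarith
    · have a5 : 1 ≤ 5 * (1 / (1 + s ^ 2)) := by
        rw [mul_one_div, le_div_iff₀ (hp s), ← sq_abs]; nlinarith [abs_nonneg s]
      simp only [hβ]; nlinarith
  refine ⟨_, contDiff_infty_iff_deriv.2 ⟨fun t => (h2 t).differentiableAt, h3.symm ▸ h1⟩,
    fun t ht => ?_, fun t => ?_, fun t => h3.symm ▸ (h4 t).1.ne'⟩
  · rw [intervalIntegral.integral_congr (g := fun _ => 1) fun s hs => ?_]
    · simp
    · have : χ s = 1 := χ.one_of_mem_closedBall (by
        rw [mem_closedBall_zero_iff]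
        exact (by simpa using abs_sub_left_of_mem_uIcc hs : |s| ≤ |t|).trans ht)
      simp [hβ, this]
  · have a1 := intervalIntegral.norm_integral_le_abs_of_norm_le (f := β) (a := 0) (b := t)
      (μ := volume) (g := fun s => 5 * (1 / (1 + s ^ 2)))
      (Eventually.of_forall fun s => by rw [Real.norm_of_nonneg (h4 s).1.le]; exact (h4 s).2)
      (Continuous.intervalIntegrable (continuous_const.mul
        (continuous_const.div (by fun_prop) fun s => (hp s).ne')) _ _)
    rw [intervalIntegral.integral_const_mul, integral_one_div_one_add_sq, Real.arctan_zero,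
      sub_zero, abs_mul] at a1
    have a2 : |Real.arctan t| ≤ Real.pi / 2 :=
      abs_le.2 ⟨(Real.neg_pi_div_two_lt_arctan t).le, (Real.arctan_lt_pi_div_two t).le⟩
    have a3 := Real.pi_lt_d2
    rw [Real.norm_eq_abs, abs_of_pos (by norm_num : (0 : ℝ) < 5)] at a1
    linarith

/-- a submersion of the space into `B(x, 14 r)` which is the identity on `B(x, r)` -/
lemma exists_subm (x : E3) {r : ℝ} (hr : 0 < r) : ∃ Φ : E3 → E3, ContDiff ℝ ∞ Φ ∧
    (∀ y, ‖y - x‖ ≤ r → Φ y = y) ∧ (∀ y, Φ y ∈ ball x (14 * r)) ∧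
    ∀ y, Function.Surjective (fderiv ℝ Φ y) := by
  obtain ⟨h, h1, h2, h3, h4⟩ := exists_squash
  set Φ : E3 → E3 := fun y => WithLp.toLp 2 fun i => x i + r * h ((y i - x i) / r) with hΦ
  have h5 : ContDiff ℝ ∞ Φ := contDiff_euclidean.2 fun i => by
    simp only [hΦ]; fun_prop
  refine ⟨Φ, h5, fun y hy => ?_, fun y => ?_, fun y v => ?_⟩
  · ext i
    have : |y i - x i| ≤ r := (PiLp.norm_apply_le (y - x) i).trans hy
    simp only [hΦ]
    rw [h2 _ (by rwa [abs_div, abs_of_pos hr, div_le_one hr])]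
    field_simp
    ring
  · rw [mem_ball_iff_norm, ← sq_lt_sq₀ (norm_nonneg _) (by positivity), EuclideanSpace.real_norm_sq_eq,
      Fin.sum_univ_three]
    have a : ∀ i, ((Φ y - x) i) ^ 2 ≤ 64 * r ^ 2 := fun i => by
      have := pow_le_pow_left₀ (abs_nonneg _) (h3 ((y i - x i) / r)) 2
      rw [sq_abs] at this
      simp only [hΦ, PiLp.sub_apply, add_sub_cancel_left, mul_pow]
      nlinarith [sq_nonneg r]
    nlinarith [a 0, a 1, a 2, sq_pos_of_pos hr]
  · have a : ∀ i u, fderiv ℝ Φ y u i = deriv h ((y i - x i) / r) * u i := fun i u => by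
      have b1 := (EuclideanSpace.proj (𝕜 := ℝ) i).hasFDerivAt.comp y
        (h5.differentiable (by simp) y).hasFDerivAt
      have b2 := (((h1.differentiable (by simp) _).hasDerivAt.comp_hasFDerivAt y
        (((EuclideanSpace.proj (𝕜 := ℝ) i).hasFDerivAt.sub_const (x i)).mul_const
          r⁻¹)).const_mul r).const_add (x i)
      have b3 := DFunLike.congr_fun (b1.unique b2) u
      simp only [ContinuousLinearMap.comp_apply, smul_apply, smul_eq_mul, PiLp.proj_apply] at b3
      rw [b3, div_eq_mul_inv]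
      field_simp
    refine ⟨WithLp.toLp 2 fun i => (deriv h ((y i - x i) / r))⁻¹ * v i, ?_⟩
    ext i
    rw [a, mul_inv_cancel_left₀ (h4 _)]

/-- **Globalisation**: a surface in `B(x, 14 r)` agrees in `B(x, r)` with a complete surface. -/
theorem SurfOn.globalise {N : Set E3} {x : E3} {r : ℝ} (hr : 0 < r)
    (h : SurfOn N (ball x (14 * r))) :
    ∃ N', IsSurf N' ∧ ∀ y, ‖y - x‖ ≤ r → (y ∈ N' ↔ y ∈ N) := by
  obtain ⟨Φ, h1, h2, h3, h4⟩ := exists_subm x hr
  refine ⟨Φ ⁻¹' N, ⟨isOpen_compl_iff.1 (isOpen_iff_mem_nhds.2 fun y hy => ?_), fun y hy => ?_⟩,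
    fun y hy => by rw [mem_preimage, h2 y hy]⟩
  · exact h1.continuous.continuousAt.eventually (h.1 _ (h3 y) hy)
  · obtain ⟨w, a1, a2, a3⟩ := h.2 _ (h3 y) hy
    refine ⟨w ∘ Φ, a1.comp h1, fun h0 => a2 ?_, h1.continuous.continuousAt.eventually a3⟩
    rw [← norm_eq_zero, norm_grad, norm_eq_zero] at h0 ⊢
    rw [fderiv_comp y (a1.differentiable (by simp) _) (h1.differentiable (by simp) _)] at h0
    ext v
    obtain ⟨u, rfl⟩ := h4 y v
    exact DFunLike.congr_fun h0 u

/-- surfaces with the same germ -/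
lemma isEqn_congr {N N' : Set E3} {x : E3} {w : E3 → ℝ} (h : IsEqn N x w)
    (he : ∀ᶠ y in 𝓝 x, y ∈ N' ↔ y ∈ N) : IsEqn N' x w :=
  ⟨h.1, h.2.1, (he.and h.2.2).mono fun _ hy => hy.1.trans hy.2⟩

variable {μ μ' : Measure E3} {T T' : E3 → Submodule ℝ E3} {H H' : E3 → E3} {N U : Set E3}

lemma eq_tg_of_proj {x : E3} {w : E3 → ℝ} (hw : IsEqn N x w) (hx : x ∈ N) {P : Submodule ℝ E3}
    (hP : Module.finrank ℝ P = 2) (h0 : proj P (gradient w x) = 0) : P = tg N x := by
  obtain ⟨ε, hε, h1, -⟩ := hw.nu_sh hx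
  have h2 : nu N x ≠ 0 := by
    rw [← norm_ne_zero_iff, nu, norm_nuw hw.isEqn_eqn.2.1]; exact one_ne_zero
  have h3 := Submodule.finrank_add_finrank_orthogonal (ℝ ∙ nu N x)
  rw [finrank_span_singleton h2, finrank_euclideanSpace_fin] at h3
  refine Submodule.eq_of_le_of_finrank_eq (fun v hv => ?_) (by rw [hP, tg]; omega)
  have h4 : gradient w x ∈ Pᗮ := by
    simpa [h0] using Vale.Agent.P218.H552.sub_proj_mem P (gradient w x)
  rw [tg, Submodule.mem_orthogonal_singleton_iff_inner_left, h1, nuw, inner_smul_right,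
    inner_smul_right, (Submodule.mem_orthogonal P _).1 h4 v hv, mul_zero, mul_zero]

/-- **The tangent planes** of a varifold which is carried by a surface. -/
theorem mc_eq_tg (h : MC 2 μ T H) (hU : IsOpen U) (hN : ∀ x ∈ U, x ∈ N → ∃ w, IsEqn N x w)
    (hs : ∀ᵐ y ∂μ, y ∈ U → y ∈ N) : ∀ᵐ y ∂μ, y ∈ U → T y = tg N y := by
  have := h.fin
  have key : μ {y | y ∈ U ∧ y ∈ N ∧ T y ≠ tg N y} = 0 := by
    refine measure_null_of_locally_null _ fun x hx => ?_
    obtain ⟨w, hw⟩ := hN x hx.1 hx.2.1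
    obtain ⟨δ, hδ, hb⟩ := Metric.eventually_nhds_iff_ball.1 (hw.eventually.and (hU.mem_nhds hx.1))
    let φ : ContDiffBump x := ⟨δ / 4, δ / 2, by positivity, by linarith⟩
    have hφ : ContDiff ℝ 1 φ := φ.contDiff
    have hw1 : ContDiff ℝ 1 w := hw.1.of_le one_le_inf
    have hg : ContDiff ℝ 1 (gradient w) := contDiff_grad_one hw.two
    have h1 : ∀ᵐ y ∂μ, φ y * w y = 0 ∧ fderiv ℝ (fun z => φ z * w z) y = φ y • fderiv ℝ w y := by
      filter_upwards [hs] with y hy
      rw [fderiv_fun_mul (hφ.differentiable one_ne_zero y) (hw1.differentiable one_ne_zero y)]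
      by_cases hy' : y ∈ ball x δ
      · rw [(hb y hy').1.zero (hy (hb y hy').2)]; simp
      · have h2 : y ∉ tsupport φ := fun h2 =>
          hy' (closedBall_subset_ball (by linarith : δ / 2 < δ) (φ.tsupport_eq ▸ h2))
        rw [image_eq_zero_of_notMem_tsupport h2, fderiv_of_notMem_tsupport (𝕜 := ℝ) h2]; simp
    have h2 := h.fv (fun y => (φ y * w y) • gradient w y) ((hφ.mul hw1).smul hg)
      (φ.hasCompactSupport.mul_right.smul_right)
    rw [integral_congr_ae (g := fun y => φ y * ‖proj (T y) (gradient w y)‖ ^ 2),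
      integral_eq_zero_of_ae (f := fun y => ⟪(φ y * w y) • gradient w y, H y⟫)
        (h1.mono fun y hy => by simp [hy.1]), neg_zero,
      integral_eq_zero_iff_of_nonneg (fun y => mul_nonneg φ.nonneg (sq_nonneg _))] at h2
    · refine ⟨_ ∩ ball x (δ / 4), inter_mem_nhdsWithin _ (ball_mem_nhds x (by positivity)),
        measure_eq_zero_iff_ae_notMem.2 ?_⟩
      filter_upwards [h2, h.dim] with y e1 e2 e3
      rw [φ.one_of_mem_closedBall (ball_subset_closedBall e3.2), one_mul] at e1
      exact e3.1.2.2 (eq_tg_of_proj (hb y (ball_subset_ball (by linarith) e3.2)).1 e3.1.2.1 e2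
        (by simpa using e1))
    · refine Integrable.mono' (g := fun y => φ y * ‖gradient w y‖ ^ 2)
        ((hφ.continuous.mul (hg.continuous.norm.pow 2)).integrable_of_hasCompactSupport
          φ.hasCompactSupport.mul_right)
        (hφ.continuous.aestronglyMeasurable.mul ((isBoundedBilinearMap_apply.continuous
          |>.comp_aestronglyMeasurable (h.Tmeas.prodMk
            hg.continuous.aestronglyMeasurable)).norm.pow 2)) (Eventually.of_forall fun y => ?_)
      rw [Real.norm_of_nonneg (mul_nonneg φ.nonneg (sq_nonneg _))]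
      gcongr
      · exact φ.nonneg
      · exact Submodule.norm_starProjection_apply_le _ _
    · filter_upwards [h1] with y hy
      rw [divAlong, fderiv_fun_smul ((hφ.mul hw1).differentiable one_ne_zero y)
        (hg.differentiable one_ne_zero y), hy.1, hy.2, zero_smul, zero_add,
        Vale.Agent.P218.H552.trace_comp_smulRight, smul_apply, smul_eq_mul, ← inner_grad,
        ← real_inner_self_eq_norm_sq, Vale.Agent.P218.H552.inner_proj_left, proj,
        Submodule.starProjection_eq_self_iff.2 (Submodule.starProjection_apply_mem _ _)]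
  filter_upwards [measure_eq_zero_iff_ae_notMem.1 key, hs] with y h1 h2 h3
  by_contra h4
  exact h1 ⟨h3, h2 h3, h4⟩

lemma integral_eq_of_restrict {F : Type*} [NormedAddCommGroup F] [NormedSpace ℝ F] {f : E3 → F}
    (he : μ.restrict U = μ'.restrict U) (hf : ∀ x, x ∉ U → f x = 0) :
    ∫ x, f x ∂μ = ∫ x, f x ∂μ' := by
  rw [← setIntegral_eq_integral_of_forall_compl_eq_zero hf, he,
    setIntegral_eq_integral_of_forall_compl_eq_zero hf]

lemma restrict_eq_of_subset {V : Set E3} (he : μ.restrict U = μ'.restrict U) (hVU : V ⊆ U) :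
    μ.restrict V = μ'.restrict V := by
  rw [← Measure.restrict_restrict_of_subset hVU, he, Measure.restrict_restrict_of_subset hVU]

lemma mc_integrableOn (h : MC 2 μ T H) {K : Set E3} (hK : IsCompact K) : IntegrableOn H K μ := by
  have := h.fin
  refine Integrable.mono' ((integrableOn_const (C := (1 : ℝ)) hK.measure_lt_top.ne).add
    (h.locL2 K hK)) h.meas.restrict (Eventually.of_forall fun x => ?_)
  simp only [Pi.add_apply]
  nlinarith [sq_nonneg (‖H x‖ - 1), norm_nonneg (H x)]

/-- **The mean curvature** is determined by the measure and the tangent planes. -/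
theorem mc_eq_H (h : MC 2 μ T H) (h' : MC 2 μ' T' H') (hU : IsOpen U)
    (he : μ.restrict U = μ'.restrict U) (hT : ∀ᵐ y ∂μ, y ∈ U → T y = T' y) :
    ∀ᵐ y ∂μ, y ∈ U → H y = H' y := by
  have hi : ∀ K ⊆ U, IsCompact K → IntegrableOn H' K μ := fun K hKU hK => by
    rw [IntegrableOn, restrict_eq_of_subset he hKU]
    exact mc_integrableOn h' hK
  have key := hU.ae_eq_zero_of_integral_contDiff_smul_eq_zero (μ := μ) (f := fun y => H y - H' y)
    ((locallyIntegrableOn_iff hU.isLocallyClosed).2 fun K hKU hK =>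
      (mc_integrableOn h hK).sub (hi K hKU hK)) fun g hg hgc hgU => ?_
  · filter_upwards [key] with y h1 h2 using sub_eq_zero.1 (h1 h2)
  have i0 : ∀ G : E3 → E3, IntegrableOn G (tsupport g) μ → Integrable (fun y => g y • G y) μ :=
    fun G hG => (integrableOn_iff_integrable_of_support_subset
      ((Function.support_smul_subset_left _ _).trans (subset_tsupport g))).1
        (hG.continuousOn_smul hg.continuous.continuousOn hgc)
  have i1 := i0 H (mc_integrableOn h hgc)
  have i2 := i0 H' (hi _ hgU hgc)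
  simp only [smul_sub]
  refine integral_eq_zero_of_forall_integral_inner_eq_zero ℝ _ (i1.sub i2) fun c => ?_
  have hX : ContDiff ℝ 1 fun y => g y • c := (hg.of_le one_le_inf).smul contDiff_const
  have e1 := h.fv _ hX hgc.smul_right
  have e2 := h'.fv _ hX hgc.smul_right
  have hz : ∀ (P : Submodule ℝ E3) y, y ∉ U → divAlong P (fun y => g y • c) y = 0 := fun P y hy => by
    rw [divAlong, fderiv_of_notMem_tsupport (𝕜 := ℝ) fun h0 =>
      hy (hgU (tsupport_smul_subset_left _ _ h0))]
    simp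
  rw [← integral_eq_of_restrict he fun y hy => hz _ y hy, ← integral_eq_of_restrict he fun y hy => by
    rw [image_eq_zero_of_notMem_tsupport fun h0 => hy (hgU h0), zero_smul, inner_zero_left],
    ← integral_congr_ae (f := fun y => divAlong (T y) (fun y => g y • c) y) (hT.mono fun y hy => by
      by_cases hy' : y ∈ U
      · simp only [hy hy']
      · simp only [hz _ y hy']), e1, neg_inj] at e2
  simp only [inner_sub_right, inner_smul_right]
  simp only [real_inner_smul_left] at e2
  rw [integral_sub (by simpa only [inner_smul_right] using i1.const_inner (𝕜 := ℝ) c)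
    (by simpa only [inner_smul_right] using i2.const_inner (𝕜 := ℝ) c), e2, sub_self]

lemma mc_smul (h : MC 2 μ T H) (c : ℝ≥0) : MC 2 (c • μ) T H where
  fin := by have := h.fin; infer_instance
  Tmeas := h.Tmeas.smul_measure c
  dim := Measure.ae_smul_measure h.dim c
  meas := h.meas.smul_measure c
  locL2 K hK := by
    rw [IntegrableOn, Measure.restrict_smul]
    exact (h.locL2 K hK).smul_measure_nnreal
  normal := Measure.ae_smul_measure h.normal c
  fv X h1 h2 := by
    rw [integral_smul_nnreal_measure, integral_smul_nnreal_measure, h.fv X h1 h2, smul_neg]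

/-- tangent planes and mean curvature of a varifold which is a smooth surface in `U` -/
theorem mc_eq (hFV : FVStmt) (h : MC 2 μ T H) (hN : IsSurf N) (hU : IsOpen U) {c : ℝ≥0}
    (he : μ.restrict U = (c • hm N).restrict U) :
    ∀ᵐ y ∂μ, y ∈ U → y ∈ N ∧ T y = tg N y ∧ H y = Hv N y := by
  have h1 : ∀ᵐ y ∂μ, y ∈ U → y ∈ N := by
    rw [← ae_restrict_iff' hU.measurableSet, he]
    exact ae_restrict_of_ae (Measure.ae_smul_measure (ae_mem hN.1) c)
  have h2 := mc_eq_tg h hU (fun x _ hx => hN.2 x hx) h1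
  filter_upwards [h1, h2, mc_eq_H h (mc_smul (mc hFV hN) c) hU he h2] with y a b d hy
    using ⟨a hy, b hy, d hy⟩

lemma bf_smul {μ : ℝ → Measure E3} {T : ℝ → E3 → Submodule ℝ E3} {H : ℝ → E3 → E3}
    (h : BF 2 μ T H) (c : ℝ≥0) : BF 2 (fun t => c • μ t) T H where
  fin t ht := by have := h.fin t ht; infer_instance
  mc := h.mc.mono fun _ ht => mc_smul ht c
  ineq φ h1 h2 h3 a b h4 h5 := by
    obtain ⟨h6, h7⟩ := h.ineq φ h1 h2 h3 a b h4 h5
    simp only [brakkeRHS, integral_smul_nnreal_measure, NNReal.smul_def, smul_eq_mul] at h6 h7 ⊢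
    refine ⟨h6.const_mul _, ?_⟩
    rw [intervalIntegral.integral_const_mul, ← mul_sub]
    exact mul_le_mul_of_nonneg_left h7 c.coe_nonneg

end Vale.Agent.P218G.Dyn
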