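import Vale.Agent.P218F.LgbMain
import Vale.Agent.P218F.LgbCount
import Mathlib.MeasureTheory.Measure.Lebesgue.VolumeOfBalls

/-! The local Gauss-Bonnet estimate for closed surfaces of bounded genus, not necessarily
connected. -/

open MeasureTheory Set Filter Topology Metric
open scoped ENNReal NNReal RealInnerProductSpace ContDiff

namespace Vale.Agent.P218G

open Vale.Agent.P218FT Vale.Agent.P218F.Lgb

/-- the total genus `∑ (1 - χ / 2)` of a closed surface, the sum being over the connected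
components and the Euler characteristic being `χ = (2π)⁻¹ ∫ K` -/
noncomputable def genus (N : Set E3) : ℝ :=
  (Nat.card (ConnectedComponents N) : ℝ) - (4 * Real.pi)⁻¹ * ∫ x, gK N x ∂(area N)

namespace Dis

variable {N : Set E3}

theorem locConn (hN : IsSurf N) : LocallyConnectedSpace N := by
  refine locallyConnectedSpace_iff_connected_subsets.2 fun x U hU => ?_
  obtain ⟨J, pr, h, W, hxW, C, -⟩ := Chart.exists_chart_tangent hN x.2
  obtain ⟨O, hO, hOU⟩ := (mem_nhds_subtype _ _ _).1 hU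
  have e := C.gr_pr x.2 hxW
  obtain ⟨δ, hδ, hb⟩ := Metric.mem_nhds_iff.1 (C.continuous_gr.continuousAt.preimage_mem_nhds
    (show O ∩ W ∈ 𝓝 (Chart.gr (nu N x) J h (pr x)) by
      rw [e]; exact inter_mem hO (C.isOpen.mem_nhds hxW)))
  refine ⟨Subtype.val ⁻¹' (Chart.gr (nu N x) J h '' ball (pr x) δ), ?_, ?_, ?_⟩
  · have h1 : ∀ᶠ y in 𝓝 (x : E3), y ∈ W ∧ pr y ∈ ball (pr x) δ :=
      (C.isOpen.eventually_mem hxW).and (pr.continuous.continuousAt (ball_mem_nhds _ hδ))
    filter_upwards [continuous_subtype_val.continuousAt.eventually h1] with y hy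
    exact ⟨_, hy.2, C.gr_pr y.2 hy.1⟩
  · rw [← IsInducing.subtypeVal.isPreconnected_image, image_preimage_eq_of_subset]
    · exact (convex_ball _ _).isPreconnected.image _ C.continuous_gr.continuousOn
    · rintro _ ⟨u, hu, rfl⟩
      exact ⟨⟨_, C.gr_mem (hb hu).2⟩, rfl⟩
  · rintro y ⟨u, hu, e⟩
    exact hOU (show y.1 ∈ O from e ▸ (hb hu).1)

/-- a connected component -/
def comp (N : Set E3) (c : ConnectedComponents N) : Set E3 :=
  Subtype.val '' (ConnectedComponents.mk ⁻¹' {c})

theorem comp_subset (c : ConnectedComponents N) : comp N c ⊆ N := by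
  rintro _ ⟨y, -, rfl⟩
  exact y.2

theorem comp_closed (hN : IsSurf N) (c : ConnectedComponents N) : IsClosed (comp N c) := by
  have := locConn hN
  exact hN.1.isClosedEmbedding_subtypeVal.isClosedMap _
    (isClosed_singleton.preimage ConnectedComponents.continuous_coe)

theorem comp_isEqn (hN : IsSurf N) {c : ConnectedComponents N} {x : E3} (hx : x ∈ comp N c)
    {w : E3 → ℝ} (hw : IsEqn N x w) : IsEqn (comp N c) x w := by
  have := locConn hN
  obtain ⟨O, hO, e⟩ := isOpen_induced_iff.1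
    ((isOpen_discrete {c}).preimage (ConnectedComponents.continuous_coe (α := N)))
  have key : ∀ y, y ∈ comp N c ↔ y ∈ N ∧ y ∈ O := fun y => by
    rw [comp, ← e, Subtype.image_preimage_coe]
    rfl
  refine ⟨hw.1, hw.2.1, ?_⟩
  filter_upwards [hw.2.2, hO.mem_nhds ((key x).1 hx).2] with y h1 h2
  rw [key, ← h1, and_iff_left h2]

theorem comp_isSurf (hN : IsSurf N) (c : ConnectedComponents N) : IsSurf (comp N c) :=
  ⟨comp_closed hN c, fun _ hx => ⟨_, comp_isEqn hN hx (hN.isEqn (comp_subset c hx))⟩⟩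

theorem comp_conn (c : ConnectedComponents N) : IsConnected (comp N c) := by
  obtain ⟨x, rfl⟩ := ConnectedComponents.surjective_coe c
  rw [comp, connectedComponents_preimage_singleton]
  exact isConnected_connectedComponent.image _ continuous_subtype_val.continuousOn

theorem lint_split (hN : IsSurf N) [Fintype (ConnectedComponents N)] (F : E3 → ℝ → ℝ≥0∞)
    {S : Set E3} (hS : MeasurableSet S) :
    ∫⁻ x in S, F (Hv N x) (a2 N x) ∂(area N) =
      ∑ c, ∫⁻ x in S, F (Hv (comp N c) x) (a2 (comp N c) x) ∂(area (comp N c)) := by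
  have h1 : S ∩ N = ⋃ c, S ∩ comp N c := by
    rw [← inter_iUnion]
    congr 1
    refine subset_antisymm (fun x hx => ?_) (iUnion_subset comp_subset)
    exact mem_iUnion.2 ⟨ConnectedComponents.mk (⟨x, hx⟩ : N), ⟨x, hx⟩, rfl, rfl⟩
  have h2 : Pairwise (Function.onFun Disjoint fun c => S ∩ comp N c) := fun c c' hc => by
    refine disjoint_left.2 fun x ⟨_, y, hy, e⟩ ⟨_, y', hy', e'⟩ => hc ?_
    rw [← Subtype.ext (e.trans e'.symm)] at hy'
    exact hy.symm.trans hy'
  simp only [area, Measure.restrict_restrict hS]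
  rw [h1, lintegral_iUnion (fun c => hS.inter (comp_closed hN c).measurableSet) h2, tsum_fintype]
  refine Finset.sum_congr rfl fun c _ => setLIntegral_congr_fun
    (hS.inter (comp_closed hN c).measurableSet) fun x hx => ?_
  have he := hN.isEqn (comp_subset c hx.2)
  have he' := comp_isEqn hN hx.2 he
  simp only [he.Hv_eq (comp_subset c hx.2), he.a2_eq (comp_subset c hx.2), he'.Hv_eq hx.2,
    he'.a2_eq hx.2]

end Dis

open Dis in
/-- the local Gauss-Bonnet estimate in one ball, for closed surfaces of bounded genus -/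
theorem lgb_genus_loc (D g : ℝ) : ∃ G : ℝ, ∀ N : Set E3, IsSurf N → IsCompact N → genus N ≤ g →
    ∀ (p : E3) (r : ℝ), 0 < r → area N (ball p (2 * r)) ≤ ENNReal.ofReal (D * (2 * r) ^ 2) →
    ∫⁻ x in ball p r, ENNReal.ofReal (a2 N x) ∂(area N) ≤
      ENNReal.ofReal G * (1 + ∫⁻ x in ball p (2 * r), ENNReal.ofReal (‖Hv N x‖ ^ 2) ∂(area N)) := by
  obtain ⟨K, hK, hβ⟩ := exists_ridge
  set a : ℝ≥0∞ := ENNReal.ofReal (2 * (1 + K) * (2 * K ^ 2)) * ENNReal.ofReal (4 * D) with ha
  set b : ℝ≥0∞ := ENNReal.ofReal (2 * (1 + K) * (1 + K) ^ 2) with hb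
  set c : ℝ≥0∞ := ENNReal.ofReal (2 / 3) with hc
  set X : ℝ := 4 * Real.pi * max g 0 with hXdef
  set G : ℝ≥0∞ := 3 * (c * ENNReal.ofReal X + 2 * a) + (1 + 6 * b) with hG
  have hGt : G ≠ ⊤ := by rw [hG, ha, hb, hc]; finiteness
  refine ⟨G.toReal, fun N hN hcp hX p r hr hD => ?_⟩
  rw [ENNReal.ofReal_toReal hGt]
  obtain ⟨β, b1, b2, b3, b4, b5⟩ := hβ p r hr
  have := locConn hN
  have := isCompact_iff_compactSpace.1 hcp
  have := Fintype.ofFinite (ConnectedComponents N)
  set a' : ℝ≥0∞ := ENNReal.ofReal (2 * (1 + K) * (2 * K ^ 2) / r ^ 2) with ha'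
  have k0 : ∀ N' : Set E3, IsSurf N' → ∫⁻ x in ball p (2 * r), dI N' β 1 (closedBall 0 1) x
      ∂(area N') ≤ ∫⁻ x in ball p (2 * r), a' + b * ENNReal.ofReal (‖Hv N' x‖ ^ 2) ∂(area N') := by
    intro N' hN'
    refine lintegral_mono_ae ?_
    filter_upwards [ae_restrict_of_ae (ae_mem_area hN'), ae_restrict_mem measurableSet_ball]
      with x hx hx'
    refine (dI_le hN' b1 hx (b5 x hx').1 (b5 x hx').2).trans_eq ?_
    rw [hb, ha', ← ENNReal.ofReal_mul (by positivity),
      ← ENNReal.ofReal_add (by positivity) (by positivity)]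
    congr 1
    field_simp
  have s1 := lint_split hN (fun H A => ENNReal.ofReal (-1 * ((‖H‖ ^ 2 - A) / 2)))
    (measurableSet_ball (x := p) (ε := r))
  have s2 := lint_split hN (fun H A => ENNReal.ofReal (1 * ((‖H‖ ^ 2 - A) / 2))) MeasurableSet.univ
  have s3 := lint_split hN (fun H A => ENNReal.ofReal (-1 * ((‖H‖ ^ 2 - A) / 2))) MeasurableSet.univ
  have s4 := lint_split hN (fun H _ => a' + b * ENNReal.ofReal (‖H‖ ^ 2))
    (measurableSet_ball (x := p) (ε := 2 * r))
  simp only [Measure.restrict_univ] at s2 s3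
  set H := ∫⁻ x in ball p (2 * r), ENNReal.ofReal (‖Hv N x‖ ^ 2) ∂(area N) with hH
  set Kb := ∫⁻ x in ball p r, ENNReal.ofReal (-1 * gK N x) ∂(area N) with hKb
  set Kp := ∫⁻ x, ENNReal.ofReal (1 * gK N x) ∂(area N) with hKp
  set Km := ∫⁻ x, ENNReal.ofReal (-1 * gK N x) ∂(area N) with hKm
  set k : ℕ := Fintype.card (ConnectedComponents N) with hk
  have hpi := Real.pi_pos
  have k3 : ∫⁻ x in ball p (2 * r), a' + b * ENNReal.ofReal (‖Hv N x‖ ^ 2) ∂(area N) ≤
      a + b * H := by
    rw [lintegral_add_left measurable_const, setLIntegral_const,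
      lintegral_const_mul' _ _ ENNReal.ofReal_ne_top]
    refine add_le_add_left ?_ _
    refine (mul_le_mul_right hD _).trans_eq ?_
    rw [ha, ha', ← ENNReal.ofReal_mul (by positivity), ← ENNReal.ofReal_mul (by positivity)]
    congr 1
    field_simp
    ring
  have k1 : c * Kb + c * Kp ≤ c * (ENNReal.ofReal (4 * Real.pi * k) + Km) + 2 * (a + b * H) := by
    have e1 : c * ENNReal.ofReal (4 * Real.pi * k) =
        ∑ _j : ConnectedComponents N, 2 * volume (closedBall (0 : E3) 1) := by
      rw [Finset.sum_const, Finset.card_univ, ← hk, EuclideanSpace.volume_closedBall_fin_three,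
        nsmul_eq_mul, hc, ENNReal.ofReal_one, one_pow, one_mul, ← ENNReal.ofReal_natCast,
        ← ENNReal.ofReal_ofNat 2, ← ENNReal.ofReal_mul (by norm_num),
        ← ENNReal.ofReal_mul (by norm_num), ← ENNReal.ofReal_mul (by positivity)]
      congr 1
      ring
    refine le_trans ?_ (add_le_add_right (mul_le_mul_right k3 2) _)
    rw [mul_add c, e1, s4, show Kb = _ from s1, show Kp = _ from s2, show Km = _ from s3]
    simp only [Finset.mul_sum, ← Finset.sum_add_distrib]
    refine Finset.sum_le_sum fun j _ => ?_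
    have hs := comp_isSurf hN j
    exact (int_count count_proof hs (hcp.of_isClosed_subset hs.1 (comp_subset j)) (comp_conn j) hr
      b1 b2 b3 b4).trans (add_le_add_right (mul_le_mul_right (k0 _ hs) 2) _)
  have hp : Kp ≠ ⊤ := lint_gK_ne_top hN hcp _
  have hm : Km ≠ ⊤ := lint_gK_ne_top hN hcp _
  have k2 : ENNReal.ofReal (4 * Real.pi * k) + Km ≤ Kp + ENNReal.ofReal X := by
    rw [genus, integral_eq_lintegral_pos_part_sub_lintegral_neg_part (integrable_gK hN hcp),
      Nat.card_eq_fintype_card, ← hk] at hX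
    simp only [neg_mul, one_mul] at hKp hKm
    rw [← hKp, ← hKm] at hX
    rw [← ENNReal.ofReal_toReal hm, ← ENNReal.ofReal_toReal hp,
      ← ENNReal.ofReal_add (by positivity) ENNReal.toReal_nonneg,
      ← ENNReal.ofReal_add ENNReal.toReal_nonneg (by positivity)]
    refine ENNReal.ofReal_le_ofReal ?_
    have e2 := mul_le_mul_of_nonneg_left (hX.trans (le_max_left g 0))
      (show 0 ≤ 4 * Real.pi by positivity)
    rw [mul_sub, mul_inv_cancel_left₀ (by positivity)] at e2
    linarith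
  have k4 : c * Kb ≤ c * ENNReal.ofReal X + 2 * (a + b * H) := by
    have hcp' : c * Kp ≠ ⊤ := ENNReal.mul_ne_top ENNReal.ofReal_ne_top hp
    refine (ENNReal.add_le_add_iff_right hcp').1 (k1.trans ?_)
    calc _ ≤ c * (Kp + ENNReal.ofReal X) + 2 * (a + b * H) := by gcongr
      _ = _ := by ring
  have k5 : 2 * Kb = 3 * (c * Kb) := by
    rw [← mul_assoc, hc, ← ENNReal.ofReal_ofNat 3, ← ENNReal.ofReal_mul (by norm_num)]
    norm_num
  calc ∫⁻ x in ball p r, ENNReal.ofReal (a2 N x) ∂(area N)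
      ≤ ∫⁻ x in ball p r, ENNReal.ofReal (1 * ‖Hv N x‖ ^ 2)
          + 2 * ENNReal.ofReal (-1 * gK N x) ∂(area N) := by
        refine lintegral_mono fun x => ?_
        have : a2 N x = 1 * ‖Hv N x‖ ^ 2 + 2 * (-1 * gK N x) := by rw [gK]; ring
        rw [this]
        refine ENNReal.ofReal_add_le.trans_eq ?_
        rw [ENNReal.ofReal_mul zero_le_two, ENNReal.ofReal_ofNat]
    _ = ∫⁻ x in ball p r, ENNReal.ofReal (‖Hv N x‖ ^ 2) ∂(area N) + 2 * Kb := by
        rw [lintegral_add_left' (aemeas_Hv hN 1 _), lintegral_const_mul' _ _ (by simp)]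
        simp only [one_mul, hKb]
    _ ≤ H + 3 * (c * ENNReal.ofReal X + 2 * (a + b * H)) := by
        rw [k5]
        gcongr
        exact lintegral_mono_set (ball_subset_ball (by linarith))
    _ = 3 * (c * ENNReal.ofReal X + 2 * a) + (1 + 6 * b) * H := by ring
    _ ≤ G * 1 + G * H := by
        rw [mul_one]
        gcongr
        · exact le_self_add
        · exact le_add_self
    _ = _ := by rw [mul_add]

/-- **The local Gauss-Bonnet estimate** for closed surfaces of bounded genus -/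
theorem lgb_genus (D g : ℝ) : ∃ G : ℝ, ∀ N : Set E3, IsSurf N → IsCompact N → AreaRatio D N →
    genus N ≤ g → LGB G N :=
  (lgb_genus_loc D g).imp fun _ h N hN hc hD hg p r hr =>
    h N hN hc hg p r hr (hD p (2 * r) (by positivity))

end Vale.Agent.P218G
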