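import Vale.Agent.P218G.Glue
import Vale.Agent.P218G.Defs
import Vale.Agent.P218G.DynA
import Vale.Agent.P218G.LgbDis
import Vale.Agent.P218FT.EVMain

/-! From unit-regular integral Brakke flows which are regular at almost every time to the
abstract weak class. -/

open MeasureTheory Set Filter Topology Metric
open scoped ENNReal NNReal RealInnerProductSpace ContDiff

namespace Vale.Agent.P218G.Rg

open Vale.Agent.P218 Vale.Agent.P218G.Lit
open Vale.Agent.P218FT (E3 IsSurf IsMCF Hv TwoPt area gk track diss AreaRatio)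
open Vale.Agent.P218F.Dyn (hm)

/-- the normalising constant: `cE • μH[2]` is the normalised Hausdorff measure -/
noncomputable def cE : ℝ≥0 := (P218GA.cH 2)⁻¹

/-- the regular times in `(a, b)` -/
def regT (μ : ℝ → Measure E3) (a b : ℝ) : Set ℝ := {t | t ∈ Ioo a b ∧ IsRegularTime μ t}

theorem cE_pos : 0 < cE := inv_pos.2 (P218GA.cH_pos 2)

theorem cE_smul {X : Type*} [EMetricSpace X] [MeasurableSpace X] [BorelSpace X] :
    cE • (μH[2] : Measure X) = μHE[2] := by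
  have h := P218GA.hausdorff_eq_smul (X := X) 2
  rw [Nat.cast_ofNat] at h
  rw [h, smul_smul, cE, inv_mul_cancel₀ (P218GA.cH_pos 2).ne', one_smul]

theorem cE_hm (N : Set E3) : cE • hm N = area N := by
  rw [hm, area, ← cE_smul, Measure.restrict_smul]

theorem cE_om0 : (cE : ℝ) * om0 = 4 * Real.pi := by
  have h1 := integral_smul_nnreal_measure
    (fun p : EuclideanSpace ℝ (Fin 2) => Real.exp (-‖p‖ ^ 2 / 4)) cE (μ := μH[2])
  rw [cE_smul, EuclideanSpace.euclideanHausdorffMeasure_eq_volume] at h1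
  have h2 := GaussianFourier.integral_rexp_neg_mul_sq_norm (V := EuclideanSpace ℝ (Fin 2))
    (b := 1 / 4) (by norm_num)
  have h3 : (fun p : EuclideanSpace ℝ (Fin 2) => Real.exp (-(1 / 4) * ‖p‖ ^ 2)) =
      fun p => Real.exp (-‖p‖ ^ 2 / 4) := funext fun p => by congr 1; ring
  rw [h3, h1] at h2
  simp only [finrank_euclideanSpace, Fintype.card_fin, Nat.cast_ofNat] at h2
  rw [div_self two_ne_zero, Real.rpow_one, NNReal.smul_def, smul_eq_mul] at h2
  rw [om0, h2]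
  ring

theorem gM_eq (m : Measure E3) (y : E3) (l : ℝ) : om0 * gM (cE • m) y l = GA m y (l ^ 2) := by
  have h1 : ∀ z : E3, gk (l ^ 2) z = (4 * Real.pi)⁻¹ * gk0 (l ^ 2) z := fun z => by
    rw [gk, gk0, mul_inv, mul_assoc]
  simp only [gM, h1]
  rw [integral_smul_nnreal_measure, integral_const_mul, NNReal.smul_def, smul_eq_mul, GA,
    ← mul_assoc, ← mul_assoc, mul_comm om0, cE_om0, mul_inv_cancel₀ (by positivity), one_mul]

namespace Br

variable {μ : ℝ → Measure E3} {a b : ℝ}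

theorem mem_RegS (ha : 0 ≤ a) {t : ℝ} (ht : t ∈ regT μ a b) (x : E3) : (t, x) ∈ RegS μ :=
  ⟨ha.trans_lt ht.1.1, ht.2 x⟩

theorem isOpen_regT (h : ∀ a : ℝ, 0 < a → ∃ D, GS μ a D) (ha : 0 ≤ a) {R : ℝ}
    (hR : ∀ t : ℝ, 0 < t → Spt μ t ⊆ closedBall 0 R) : IsOpen (regT μ a b) := by
  refine isOpen_iff_mem_nhds.2 fun t ht => ?_
  have h1 := (isCompact_closedBall (0 : E3) R).eventually_forall_of_forall_eventually (x₀ := t)
    (P := fun s x => (s, x) ∈ RegS μ) fun x _ =>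
      (Gl.isOpen_RegS μ).mem_nhds (mem_RegS ha ht x)
  filter_upwards [h1, isOpen_Ioo.mem_nhds ht.1] with s h2 h3
  refine ⟨h3, fun x => ?_⟩
  have hs : 0 < s := ha.trans_lt h3.1
  by_cases hx : x ∈ Spt μ s
  · exact (h2 x (hR s hs hx)).2
  · exact ((glue_proof μ h).2.2 s x hs hx).2

theorem mcf (h : ∀ a : ℝ, 0 < a → ∃ D, GS μ a D) (ha : 0 ≤ a) (hJ : IsOpen (regT μ a b)) :
    IsMCF (Spt μ) (regT μ a b) :=
  ⟨hJ, fun t ht x hx => (glue_proof μ h).1.closed (t, x) (mem_RegS ha ht x) hx,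
    fun t ht x hx => (glue_proof μ h).1.loc (t, x) (mem_RegS ha ht x) hx⟩

theorem eq_hm (h : ∀ a : ℝ, 0 < a → ∃ D, GS μ a D) (ha : 0 ≤ a) {t : ℝ} (ht : t ∈ regT μ a b) :
    μ t = hm (Spt μ t) := by
  have h1 := (glue_proof μ h).2.1 t
  rwa [show tsl (RegS μ) t = univ from eq_univ_of_forall fun x => mem_RegS ha ht x,
    Measure.restrict_univ, inter_univ] at h1

theorem reg_of_mem (h : ∀ a : ℝ, 0 < a → ∃ D, GS μ a D) {p : ℝ × E3} (hp : p ∈ RegS μ) :
    Reg (Spt μ) p := by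
  filter_upwards [(Gl.isOpen_RegS μ).mem_nhds hp] with q hq hx
  exact (glue_proof μ h).1.loc q hq hx

theorem frequently_left {J : Set ℝ} (hJ : ∀ᵐ t : ℝ, t ∈ Ioo a b → t ∈ J) {t : ℝ}
    (ht : t ∈ Ioo a b) : ∃ᶠ s in 𝓝[<] t, s ∈ J := by
  intro hcon
  obtain ⟨l, hl, hs⟩ := mem_nhdsLT_iff_exists_Ioo_subset.1 (hcon.and (Ioo_mem_nhdsLT ht.1))
  have h1 : volume (Ioo l t) = 0 := measure_mono_null
    (fun s hs' => fun h => (hs hs').1 (h ⟨(hs hs').2.1, hs'.2.trans ht.2⟩)) hJ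
  rw [Real.volume_Ioo, ENNReal.ofReal_eq_zero] at h1
  linarith [mem_Iio.1 hl]

theorem fderiv_split {f : ℝ × E3 → ℝ} (hf : ContDiff ℝ 1 f) (t : ℝ) (x v : E3) :
    fderiv ℝ f (t, x) (1, v) = fderiv ℝ (fun y => f (t, y)) x v + deriv (fun s => f (s, x)) t := by
  have h0 := (hf.differentiable one_ne_zero (t, x)).hasFDerivAt
  have h1 := (h0.comp x (hasFDerivAt_prodMk_right t x)).fderiv
  have h2 := (h0.comp_hasDerivAt t ((hasDerivAt_id t).prodMk (hasDerivAt_const t x))).deriv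
  have e1 : fderiv ℝ (fun y => f (t, y)) x v = fderiv ℝ f (t, x) (0, v) :=
    congrArg (fun L => L v) h1
  have e2 : deriv (fun s => f (s, x)) t = fderiv ℝ f (t, x) (1, 0) := h2
  rw [e1, e2, ← map_add]
  simp

/-- the abstract weak flow -/
theorem wf (hμ : IsIntegralBrakkeFlow 2 μ) (h : ∀ a : ℝ, 0 < a → ∃ D, GS μ a D) (ha : 0 < a)
    {D : ℝ} (hD : GS μ a D) (hJ : IsOpen (regT μ a b))
    (hae : ∀ᵐ t : ℝ, t ∈ Ioo a b → IsRegularTime μ t) :
    WF (cE * (Real.exp (1 / 4) * D)) (fun t => cE • μ t) (Spt μ) (regT μ a b) (Ioo a b) := by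
  obtain ⟨V, H, h1, h2, h3⟩ := hμ.ineq
  have hM := mcf h ha.le hJ
  have hae' : ∀ᵐ t : ℝ, t ∈ Ioo a b → t ∈ regT μ a b := hae.mono fun t ht ht' => ⟨ht', ht ht'⟩
  have heq : ∀ t ∈ regT μ a b, cE • μ t = area (Spt μ t) := fun t ht => by
    rw [← cE_hm, ← eq_hm h ha.le ht]
  have hH : ∀ᵐ t : ℝ, t ∈ Ioo a b → cE • μ t = area (Spt μ t) ∧
      ∀ᵐ x ∂(μ t), H t x = Hv (Spt μ t) x := by
    filter_upwards [hae', h1] with t e1 e2 ht
    obtain ⟨e3, e4⟩ := e2 (ha.trans ht.1).le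
    have e5 := H552.mc_of_isMeanCurvature e4
    rw [e3] at e5
    refine ⟨heq t (e1 ht), ?_⟩
    exact (Dyn.mc_eq P218FT.fv_proof e5 (hM.isSurf (e1 ht)) isOpen_univ (c := 1)
      (by rw [one_smul, ← eq_hm h ha.le (e1 ht)])).mono fun x hx => (hx (mem_univ x)).2.2
  refine ⟨isOpen_Ioo, fun t ht => ht.1, hae', hM, heq, fun t ht x hx => hD.closed ht.1 hx,
    fun t ht => ?_, ?_, fun t ht p r hr => ?_, fun a' b' hI c r => ?_,
    fun f hf hfc hf0 a' b' hab hI => ?_⟩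
  · rw [Measure.coe_nnreal_smul_apply, show μ t (Spt μ t)ᶜ = 0 from hD.supp t ht.1, mul_zero]
  · rintro ⟨t, x⟩ ⟨ht, hx⟩
    by_contra hcon
    have e1 := isClosed_closure.isOpen_compl.mem_nhds hcon
    rw [nhds_prod_eq] at e1
    obtain ⟨A, hA, B, hB, hAB⟩ := mem_prod_iff.1 e1
    obtain ⟨r, hr, hb⟩ := Metric.mem_nhds_iff.1 hB
    refine Gl.not_spt hD ht.1 hr (((frequently_left hae' ht).and_eventually
      (mem_nhdsWithin_of_mem_nhds hA)).mono fun s hs => ?_) hx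
    exact measure_mono_null (fun z hz hz' => hAB (mk_mem_prod hs.2 (hb hz))
      (subset_closure ⟨hs.1, hz'⟩)) (hD.supp s hs.1.1.1)
  · have e := hD.ent t ht.1.le
    have := e.lf
    have e1 : μ t (ball p r) ≤ ENNReal.ofReal (Real.exp (1 / 4) * r ^ 2 * D) :=
      (measure_mono ball_subset_closedBall).trans
        ((ENNReal.le_ofReal_iff_toReal_le (isCompact_closedBall p r).measure_lt_top.ne
          (mul_nonneg (by positivity) e.nonneg)).2 (e.ball_le p hr))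
    rw [Measure.coe_nnreal_smul_apply, mul_assoc, ENNReal.ofReal_mul cE.coe_nonneg,
      ENNReal.ofReal_coe_nnreal, mul_right_comm]
    exact mul_le_mul_right e1 _
  · have e1 : diss (Spt μ) 0 c r a' b' ≤
        ∫⁻ t in Icc a' b', cE * ∫⁻ x in closedBall c r, (1 + ‖H t x‖ₑ ^ 2) ∂(μ t) := by
      refine lintegral_mono_ae ((ae_restrict_iff' measurableSet_Icc).2 (hH.mono fun t ht ht' => ?_))
      obtain ⟨e2, e3⟩ := ht (hI ht')
      rw [← e2, Measure.restrict_smul, lintegral_smul_measure]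
      refine mul_le_mul_right ((lintegral_mono_ae ((ae_restrict_of_ae e3).mono fun x hx => ?_)).trans
        (lintegral_mono_set ball_subset_closedBall)) _
      rw [sub_zero, hx, ENNReal.ofReal_pow (norm_nonneg _), ofReal_norm]
      exact le_add_self
    refine e1.trans_lt ?_
    rw [lintegral_const_mul' _ _ ENNReal.coe_ne_top]
    refine ENNReal.mul_lt_top ENNReal.coe_lt_top ((lintegral_mono_set fun t ht => ?_).trans_lt
      (h2 b' _ (isCompact_closedBall c r)))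
    exact ⟨(ha.trans (hI ht).1).le, ht.2⟩
  · obtain ⟨e1, e2⟩ := h3 f hf hfc hf0 a' b' (ha.trans (hI ⟨le_rfl, hab⟩).1).le hab
    have e3 : ∀ᵐ t : ℝ, t ∈ uIoc a' b' →
        cE * ∫ x, brakkeIntegrand (H t) f t x ∂(μ t) = rate (Spt μ) f t := by
      refine hH.mono fun t ht ht' => ?_
      rw [uIoc_of_le hab] at ht'
      obtain ⟨e4, e5⟩ := ht (hI (Ioc_subset_Icc_self ht'))
      rw [rate, ← e4, integral_smul_nnreal_measure, NNReal.smul_def, smul_eq_mul]
      congr 1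
      refine integral_congr_ae (e5.mono fun x hx => ?_)
      simp only [brakkeIntegrand, hx, fderiv_split hf]
      ring
    refine ⟨(e1.const_mul cE).congr_ae ((ae_restrict_iff' measurableSet_uIoc).2 e3), ?_⟩
    rw [← intervalIntegral.integral_congr_ae e3, intervalIntegral.integral_const_mul,
      integral_smul_nnreal_measure, integral_smul_nnreal_measure, NNReal.smul_def, NNReal.smul_def,
      smul_eq_mul, smul_eq_mul, ← mul_sub]
    exact mul_le_mul_of_nonneg_left e2 cE.coe_nonneg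

/-- the local regularity theorem in the form of the weak class -/
theorem white (hW : WeakWhiteStmt) (D : ℝ) : ∃ ε r C : ℝ, 0 < ε ∧ ε ≤ 1 ∧ 0 < r ∧ 0 < C ∧
    ∀ (μ : ℝ → Measure E3) (a b : ℝ), IsIntegralBrakkeFlow 2 μ → μ 0 univ < ⊤ → IsUnitRegular μ →
      (∀ a : ℝ, 0 < a → ∃ D, GS μ a D) → 0 ≤ a → GS μ a D →
      White ε r C (fun t => cE • μ t) (Spt μ) (Ioo a b) := by
  obtain ⟨ε, r, C, hε, hr, -, hC, hW⟩ := hW D
  refine ⟨min ε 1, r / 2, 2 * C, lt_min hε one_pos, min_le_right _ _, half_pos hr, by positivity,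
    fun μ a b hμ h0 hU h ha hD x₀ t₀ l hl hI hd t ht x hx hxb => ?_⟩
  have h1 : a < t₀ - 4 * l ^ 2 := (hI ⟨le_rfl, by nlinarith⟩).1
  have hl2 : 0 < l ^ 2 := by positivity
  have hL : Low μ x t (l / 2) ε := by
    intro y σ hy h2 h3
    have hy' : y ∈ ball x₀ (3 * l) := by
      rw [mem_ball, dist_eq_norm] at hxb ⊢
      linarith [norm_sub_le_norm_sub_add_norm_sub y x x₀]
    have e1 := hd y hy' (t - (l / 2) ^ 2 + σ) ⟨by linarith [ht.1], by linarith [ht.2]⟩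
    have e2 := hD.mono1 y (t := t - (l / 2) ^ 2 + σ) (s := t - (l / 2) ^ 2 + σ - l ^ 2)
      (s' := t - (l / 2) ^ 2) (by linarith [ht.1]) (by linarith) (by linarith)
    rw [add_sub_cancel_left, sub_sub_cancel, ← gM_eq] at e2
    refine e2.trans ?_
    rw [mul_comm]
    exact mul_le_mul_of_nonneg_right (e1.trans (by linarith [min_le_left ε 1])) om0_pos.le
  obtain ⟨e1, e2⟩ := hW μ hμ h0 hU a x t (l / 2) (half_pos hl) ha hD (by linarith [ht.1]) hL t
    ⟨by linarith [sq_nonneg (r * (l / 2))], le_rfl⟩ x (by rw [sub_self, norm_zero]; positivity)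
  refine ⟨reg_of_mem h e1, ?_⟩
  have e3 := e2 hx
  rwa [show r * (l / 2) = r / 2 * l by ring, show C / (l / 2) = 2 * C / l by field_simp] at e3

end Br

/-- **BRIDGE** -/
theorem bridge (hGS : GSStmt) (hB : BddStmt) (hW : WeakWhiteStmt) {μ : ℝ → Measure E3}
    (hμ : IsIntegralBrakkeFlow 2 μ) (h0 : μ 0 univ < ⊤) {R : ℝ} (hR : μ 0 (closedBall 0 R)ᶜ = 0)
    (hU : IsUnitRegular μ) {a b g : ℝ} (ha : 0 < a)
    (hae : ∀ᵐ t : ℝ, t ∈ Ioo a b → IsRegularTime μ t)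
    (hg : ∀ t ∈ Ioo a b, IsRegularTime μ t → ∀ N, IsSurf N → μ t = hm N → genus N ≤ g) :
    ∃ D G ε r C : ℝ, 0 < ε ∧ ε ≤ 1 ∧ 0 < r ∧ 0 < C ∧
      InW D G ε r C (fun t => cE • μ t) (Spt μ) (regT μ a b) (Ioo a b) := by
  have h : ∀ a : ℝ, 0 < a → ∃ D, GS μ a D := fun a ha => ⟨_, hGS μ hμ h0 a ha⟩
  obtain ⟨D, hD⟩ := h a ha
  have hb := hB μ hμ h0 R hR
  have hwf := Br.wf hμ h ha hD (Br.isOpen_regT h ha.le hb) hae
  obtain ⟨ε, r, C, hε, hε1, hr, hC, hWh⟩ := Br.white hW D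
  obtain ⟨G, hG⟩ := lgb_genus (cE * (Real.exp (1 / 4) * D)) g
  refine ⟨_, G, ε, r, C, hε, hε1, hr, hC, hwf, hWh μ a b hμ h0 hU h ha.le hD, fun t ht => ?_⟩
  have hS := hwf.mcf.isSurf ht
  refine hG _ hS ((isCompact_closedBall 0 R).of_isClosed_subset hS.1 (hb t (ha.trans ht.1.1)))
    (fun p ρ hρ => ?_) (hg t ht.1 ht.2 _ hS (Br.eq_hm h ha.le ht))
  rw [← hwf.eq t ht]
  exact hwf.ratio t ht.1 p ρ hρ

end Vale.Agent.P218G.Rg
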