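import Vale.Agent.P218G.Defs
import Vale.Agent.P218FT.ConvSpec
import Vale.Agent.P218FT.Scale

/-! Statements of the blocks of the proof of regularity and multiplicity one of tangent flows in
the weak class. -/

open MeasureTheory Set Filter Topology Metric
open scoped ENNReal NNReal RealInnerProductSpace ContDiff

namespace Vale.Agent.P218G

open P218FT

/-! ### Definitions -/

/-- approximate invariance under time shifts and translations orthogonal to `e` -/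
def AIM (μ : ℝ → Measure E3) (e : E3) (R η : ℝ) : Prop :=
  ∀ (ζ : E3 → ℝ) (p : E3) (K : ℝ), ‖p‖ ≤ R → Test ζ p R K → ∀ s ∈ Ico (-5 : ℝ) 0,
    ∀ t ∈ Ico (-5 : ℝ) 0, ∀ b : E3, ⟪b, e⟫ = 0 → ‖b‖ ≤ R →
    |∫ x, ζ (x - b) ∂(μ s) - ∫ x, ζ x ∂(μ t)| ≤ η * K

/-- a barrier of mass at most `η`, active before `t`, is at least `1` at time `t` on the points of
`M t ∩ B(c, R)` which are singular or have separation less than `m` -/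
def CovW (M : ℝ → Set E3) (t : ℝ) (c : E3) (R m η : ℝ) : Prop :=
  ∃ l : Multiset Src, Valid l ∧ (∀ s ∈ l, s.τ' < t) ∧ mass l ≤ η ∧
    ∀ x ∈ M t, ‖x - c‖ ≤ R → (Reg M (t, x) → ¬ SepGE (M t) x m) → 1 ≤ bar l t x

/-- the time derivative -/
noncomputable def dt (Q : ℝ × E3 → ℝ) (p : ℝ × E3) : ℝ := fderiv ℝ Q p (1, 0)

/-- the spatial gradient -/
noncomputable def gr (Q : ℝ × E3 → ℝ) (p : ℝ × E3) : E3 := gradient (fun y => Q (p.1, y)) p.2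

/-- the spatial Hessian -/
noncomputable def hs (Q : ℝ × E3 → ℝ) (p : ℝ × E3) : E3 →L[ℝ] E3 :=
  fderiv ℝ (gradient fun y => Q (p.1, y)) p.2

/-- `(∂_t - tr_T D²) Q ≥ e` at `p` for every plane `T` -/
def Super (Q : ℝ × E3 → ℝ) (p : ℝ × E3) (e : ℝ) : Prop :=
  ∀ n : E3, ‖n‖ = 1 → tr (hs Q p) - ⟪hs Q p n, n⟫ + e ≤ dt Q p

/-! ### Monotonicity and densities (helper18) -/

/-- Gaussian integrals under a mass ratio bound -/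
def GaussW : Prop :=
  ∃ C₀ : ℝ, 0 < C₀ ∧ ∀ D : ℝ, 0 ≤ D →
    (∀ ν : Measure E3, MRatio D ν → (∀ (y : E3) (σ : ℝ), 0 < σ →
      Integrable (fun x => gk σ (x - y)) ν ∧ ∫ x, gk σ (x - y) ∂ν ≤ C₀ * D) ∧
      ContinuousOn (fun q : E3 × ℝ => gM ν q.1 q.2) (univ ×ˢ Ioi 0)) ∧
    ∀ η : ℝ, 0 < η → ∃ ρ : ℝ, 0 < ρ ∧ ∀ ν : Measure E3, MRatio D ν → ∀ (y : E3) (r : ℝ), 0 < r →
      ∫ x in (ball y (ρ * r))ᶜ, gk (r ^ 2) (x - y) ∂ν ≤ η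

/-- Huisken's monotonicity formula with the dissipation and the sudden loss of mass -/
def HuiskenW : Prop :=
  ∀ (D : ℝ) (μ : ℝ → Measure E3) (M : ℝ → Set E3) (J I : Set ℝ), WF D μ M J I →
    ∀ (y : E3) (t₀ a b : ℝ), a ≤ b → b < t₀ → Icc a b ⊆ I → ∀ (U : Set (ℝ × E3)) (κ : ℝ), 0 ≤ κ →
      U ⊆ Ioo a b ×ˢ univ → (∀ p ∈ U, κ ≤ gk (t₀ - p.1) (p.2 - y)) →
      ENNReal.ofReal (gM (μ b) y √(t₀ - b)) +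
        (∫⁻ t in Icc a b, ∫⁻ x, ENNReal.ofReal (‖relV (M t) y (t₀ - t) x‖ ^ 2 * gk (t₀ - t) (x - y))
          ∂(area (M t))) + ENNReal.ofReal κ * drop M U ≤ ENNReal.ofReal (gM (μ a) y √(t₀ - a))

/-- the density ratios are monotone -/
def MonoW : Prop :=
  ∀ (D : ℝ) (μ : ℝ → Measure E3) (M : ℝ → Set E3) (J I : Set ℝ), WF D μ M J I →
    ∀ (y : E3) (t r r' : ℝ), 0 < r → r ≤ r' → Icc (t - r' ^ 2) (t - r ^ 2) ⊆ I →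
      densM μ y t r ≤ densM μ y t r'

/-- the density is one at a regular point -/
def DensW : Prop :=
  ∀ (D : ℝ) (μ : ℝ → Measure E3) (M : ℝ → Set E3) (J I : Set ℝ), WF D μ M J I →
    ∀ t ∈ I, ∀ x ∈ M t, Reg M (t, x) → Tendsto (fun r => densM μ x t r) (𝓝[>] 0) (𝓝 1)

/-- the density ratios are at least one at the points of the track -/
def OneLeW : Prop :=
  ∀ (D : ℝ) (μ : ℝ → Measure E3) (M : ℝ → Set E3) (J I : Set ℝ), WF D μ M J I →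
    ∀ (t r : ℝ), 0 < r → Icc (t - r ^ 2) t ⊆ I → ∀ x ∈ M t, 1 ≤ densM μ x t r

/-- the gap lemma, the compact set of points of small density ratio, and uniformity of the density
on compact sets of regular points -/
def GapW : Prop :=
  ∀ (D ε r C : ℝ) (μ : ℝ → Measure E3) (M : ℝ → Set E3) (J I : Set ℝ), 0 < ε → WF D μ M J I →
    White ε r C μ M I →
    (∀ (t ρ : ℝ), 0 < ρ → Icc (t - ρ ^ 2) t ⊆ I → ∀ x ∈ M t, densM μ x t ρ < 1 + ε →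
      Reg M (t, x)) ∧
    (∀ (K : Set (ℝ × E3)) (ρ : ℝ), IsCompact K → 0 < ρ →
      (∀ p ∈ K, p.2 ∈ M p.1 ∧ Icc (p.1 - ρ ^ 2) p.1 ⊆ I) → ∃ K₀ : Set (ℝ × E3), IsCompact K₀ ∧
        K₀ ⊆ K ∧ (∀ p ∈ K₀, Reg M p) ∧ ∀ p ∈ K, densM μ p.2 p.1 ρ ≤ 1 + ε / 2 → p ∈ K₀) ∧
    ∀ K : Set (ℝ × E3), IsCompact K → K ⊆ track M I → (∀ p ∈ K, Reg M p) →
      ∃ ρ₀ : ℝ, 0 < ρ₀ ∧ ∀ p ∈ K, ∀ ρ, 0 < ρ → ρ ≤ ρ₀ → densM μ p.2 p.1 ρ ≤ 1 + ε / 2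

/-- the loss of mass is monotone and superadditive -/
def DropW : Prop :=
  (∀ (M : ℝ → Set E3) (U V : Set (ℝ × E3)), U ⊆ V → drop M U ≤ drop M V) ∧
  ∀ (D : ℝ) (μ : ℝ → Measure E3) (M : ℝ → Set E3) (J I : Set ℝ), WF D μ M J I →
    ∀ (a b : ℝ), Icc a b ⊆ I → ∀ (ι : Type) (u : Finset ι) (U : ι → Set (ℝ × E3))
      (V : Set (ℝ × E3)), (u : Set ι).PairwiseDisjoint U → (∀ i ∈ u, U i ⊆ V) →
      V ⊆ Ioo a b ×ˢ univ → ∑ i ∈ u, drop M (U i) ≤ drop M V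

/-- integrals change little in time when the dissipation and the loss are small -/
def StaticW : Prop :=
  ∀ (D : ℝ), 0 ≤ D → ∀ (μ : ℝ → Measure E3) (M : ℝ → Set E3) (J I : Set ℝ), WF D μ M J I →
    ∀ (ζ : E3 → ℝ) (p : E3) (R K a s t b α d d' : ℝ), 0 < R → Test ζ p R K → a < s → s ≤ t →
      t < b → Icc a b ⊆ I → 0 < α → 0 ≤ d → 0 ≤ d' → diss M 0 p R s t ≤ ENNReal.ofReal d →
      drop M (Ioo a b ×ˢ ball p (2 * R)) ≤ ENNReal.ofReal d' →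
      |∫ x, ζ x ∂(μ t) - ∫ x, ζ x ∂(μ s)|
        ≤ K * (α * (D * R ^ 2) * (t - s) + (1 + α⁻¹) * d + d')

/-- approximate invariance from a bounded potential of `|A|²` and a small dissipation -/
def AIW : Prop :=
  ∀ D L R η : ℝ, 0 < R → 0 < η → ∃ Γ c : ℝ, 3 ≤ Γ ∧ 0 < c ∧
    ∀ (μ : ℝ → Measure E3) (M : ℝ → Set E3) (J I : Set ℝ), WF D μ M J I →
      Icc (-Γ ^ 2) 0 ⊆ I → potA M 0 0 Γ (-Γ ^ 2) (-1) ≤ ENNReal.ofReal L →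
      dis2 M 0 0 Γ (-Γ ^ 2) 0 ≤ ENNReal.ofReal (c * Γ ^ 2) → ∃ e : E3, ‖e‖ = 1 ∧ AIM μ e R η

/-- the dissipation above a fixed level and the loss tend to zero along the rescaled flow -/
def DissW : Prop :=
  ∀ (D : ℝ) (μ : ℝ → Measure E3) (M : ℝ → Set E3) (J : Set ℝ) (a b : ℝ), a < b →
    WF D μ M J (Ioo a b) → ∀ (x₀ : E3) (R : ℝ), 0 < R → ∃ Λ : ℝ, 0 ≤ Λ ∧
      ∀ δ : ℝ, 0 < δ → ∀ᶠ lam in 𝓝[>] (0 : ℝ),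
        dis2 M (Λ / lam ^ 2) x₀ (R * lam) (b - 2 * lam ^ 2) (b - lam ^ 2 / 4096)
          ≤ ENNReal.ofReal (δ * lam ^ 2)

/-! ### Scaling and restriction -/

/-- the class is invariant under parabolic rescaling and restriction to smaller open sets -/
def ScaleW : Prop :=
  (∀ (D : ℝ) (μ : ℝ → Measure E3) (M : ℝ → Set E3) (J I I' : Set ℝ), WF D μ M J I → IsOpen I' →
    I' ⊆ I → WF D μ M (J ∩ I') I') ∧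
  ∀ (lam : ℝ) (x₀ : E3) (t₀ : ℝ), 0 < lam → ∀ (μ : ℝ → Measure E3) (M : ℝ → Set E3),
    (∀ (y : E3) (s r : ℝ), 0 < r → densM (scaleM lam x₀ t₀ μ) y s r =
      densM μ (x₀ + lam⁻¹ • y) (t₀ + s / lam ^ 2) (r / lam)) ∧
    (∀ (y : E3) (s : ℝ), Reg M (t₀ + s / lam ^ 2, x₀ + lam⁻¹ • y) →
      Reg (scaleFlow lam x₀ t₀ M) (s, y)) ∧
    ∀ (D : ℝ) (J I : Set ℝ), WF D μ M J I →
      WF D (scaleM lam x₀ t₀ μ) (scaleFlow lam x₀ t₀ M) (scaleInt lam t₀ J) (scaleInt lam t₀ I) ∧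
      (∀ ε r C : ℝ, White ε r C μ M I →
        White ε r C (scaleM lam x₀ t₀ μ) (scaleFlow lam x₀ t₀ M) (scaleInt lam t₀ I)) ∧
      (∀ G : ℝ, (∀ t ∈ J, LGB G (M t)) →
        ∀ s ∈ scaleInt lam t₀ J, LGB G (scaleFlow lam x₀ t₀ M s)) ∧
      ∀ (y : E3) (s r a b : ℝ), Icc (t₀ + a / lam ^ 2) (t₀ + b / lam ^ 2) ⊆ I →
        potA (scaleFlow lam x₀ t₀ M) y s r a b = potA M (x₀ + lam⁻¹ • y) (t₀ + s / lam ^ 2)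
          (r / lam) (t₀ + a / lam ^ 2) (t₀ + b / lam ^ 2) ∧
        ∀ Λ : ℝ, diss (scaleFlow lam x₀ t₀ M) Λ y r a b = ENNReal.ofReal (lam ^ 2) *
            diss M (Λ * lam ^ 2) (x₀ + lam⁻¹ • y) (r / lam) (t₀ + a / lam ^ 2) (t₀ + b / lam ^ 2) ∧
          dis2 (scaleFlow lam x₀ t₀ M) Λ y r a b = ENNReal.ofReal (lam ^ 2) *
            dis2 M (Λ * lam ^ 2) (x₀ + lam⁻¹ • y) (r / lam) (t₀ + a / lam ^ 2) (t₀ + b / lam ^ 2)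

/-! ### Bad points -/

/-- the scale-free core of the bad point lemma -/
def BadCoreW : Prop :=
  ∀ D ε r C : ℝ, 0 < ε → ε ≤ 1 → 0 < r → 0 < C → ∃ σ R η : ℝ, 1 ≤ σ ∧ 0 < R ∧ 0 < η ∧
    ∀ (μ : ℝ → Measure E3) (M : ℝ → Set E3) (J I : Set ℝ), WF D μ M J I → White ε r C μ M I →
      Icc (-5 : ℝ) 0 ⊆ I → (0 : E3) ∈ M 0 → Reg M (0, 0) → ∀ (e : E3) (s : ℝ), ‖e‖ = 1 →
      AIM μ e R η → SepGE (M 0) 0 s → σ ≤ s → densM μ 0 0 1 ≤ 1 + ε / 2 →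
      (Bad (M 0) 0 s ∧ s = σ ∨ 1 + ε / 2 < densM μ 0 0 2) → False

/-- a regular point which is bad, or has separation at least `s` and a large density ratio at the
scale `s / σ`, has a large potential of `|A|²` or a definite dissipation at a smaller scale -/
def BadW : Prop :=
  ∀ D ε r C L : ℝ, 0 < ε → ε ≤ 1 → 0 < r → 0 < C → ∃ σ Γ c : ℝ, 1 ≤ σ ∧ 1 ≤ Γ ∧ 0 < c ∧
    ∀ (μ : ℝ → Measure E3) (M : ℝ → Set E3) (J I : Set ℝ), WF D μ M J I → White ε r C μ M I →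
      ∀ (t : ℝ) (x : E3) (s : ℝ), 0 < s → x ∈ M t → Reg M (t, x) → SepGE (M t) x s →
      (Bad (M t) x s ∨ 1 + ε / 2 < densM μ x t (s / σ)) → Icc (t - (Γ * s) ^ 2) t ⊆ I →
      ∃ ρ : ℝ, 0 < ρ ∧ ρ ≤ s ∧ (ρ = s / σ ∨ 1 + ε / 2 < densM μ x t (2 * ρ)) ∧
        (ENNReal.ofReal L ≤ potA M x t (Γ * ρ) (t - (Γ * ρ) ^ 2) (t - ρ ^ 2) ∨
          ENNReal.ofReal (c * (Γ * ρ) ^ 2) ≤ dis2 M 0 x (Γ * ρ) (t - (Γ * ρ) ^ 2) t)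

/-! ### The barrier -/

/-- the support of the flow is a viscosity solution -/
def ViscW : Prop :=
  ∀ (D : ℝ) (μ : ℝ → Measure E3) (M : ℝ → Set E3) (J I : Set ℝ), WF D μ M J I →
    ∀ t₀ ∈ I, ∀ y₀ ∈ M t₀, ∀ (a : ℝ) (g : E3) (S : E3 →L[ℝ] E3), (∀ u v, ⟪S u, v⟫ = ⟪u, S v⟫) →
      (∀ η : ℝ, 0 < η → ∀ᶠ q : ℝ × E3 in 𝓝 (t₀, y₀), q.1 ≤ t₀ → q.2 ∈ M q.1 →
        -(η * (‖q.2 - y₀‖ ^ 2 + (t₀ - q.1))) ≤
          a * (q.1 - t₀) + ⟪g, q.2 - y₀⟫ + ⟪S (q.2 - y₀), q.2 - y₀⟫ / 2) →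
      ∃ n : E3, ‖n‖ = 1 ∧ g = ‖g‖ • n ∧ a ≤ tr S - ⟪S n, n⟫

/-- the one-point and the two-point minimum principle -/
def TwoW : Prop :=
  ∀ (D : ℝ) (μ : ℝ → Measure E3) (M : ℝ → Set E3) (J I : Set ℝ), WF D μ M J I →
    ∀ t ∈ I, ∀ x ∈ M t, ∀ (β : ℝ × E3 → ℝ) (e : ℝ), ContDiff ℝ 2 β → Super β (t, x) e →
      ((∀ᶠ q : ℝ × E3 in 𝓝 (t, x), q.1 ≤ t → q.2 ∈ M q.1 → β (t, x) ≤ β q) → e ≤ 0) ∧
      ∀ y ∈ M t, Reg M (t, x) → ∀ (d c : ℝ), ‖y - x‖ = d → |⟪y - x, nu (M t) x⟫| = c * d →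
        0 < d → 0 < c → ∀ (g g' : ℝ → ℝ) (g'' : ℝ), (∀ᶠ u in 𝓝 d, HasDerivAt g (g' u) u) →
        HasDerivAt g' g'' d → (0 < g' d ∨ g' d = 0 ∧ g'' = 0) →
        (∀ᶠ q : ℝ × E3 × E3 in 𝓝 (t, x, y), q.1 ≤ t → q.2.1 ∈ M q.1 → q.2.2 ∈ M q.1 →
          g d + β (t, x) ≤ g ‖q.2.2 - q.2.1‖ + β (q.1, q.2.1)) →
        e ≤ g'' * (1 - c ^ 2) + g' d * (1 - c) ^ 2 / d

/-- barriers with a smooth activation; calculus of supersolutions -/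
def RampW : Prop :=
  (∀ l : Multiset Src, Valid l → ∃ (B : ℝ × E3 → ℝ) (l' : Multiset Src), ContDiff ℝ 2 B ∧
    (∀ p, Super B p 0) ∧ Valid l' ∧ mass l' = mass l ∧ (∀ s' ∈ l', ∃ s ∈ l, s'.τ' ≤ s.τ') ∧
    ∀ p : ℝ × E3, bar l p.1 p.2 ≤ B p ∧ B p ≤ bar l' p.1 p.2) ∧
  (∀ (Q Q' : ℝ × E3 → ℝ) (p : ℝ × E3) (e e' : ℝ), ContDiff ℝ 2 Q → ContDiff ℝ 2 Q' →
    Super Q p e → Super Q' p e' → Super (fun q => Q q + Q' q) p (e + e')) ∧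
  ∀ (c : E3) (R t₁ e : ℝ) (p : ℝ × E3),
    Super (fun q => (‖q.2 - c‖ ^ 2 + 4 * (q.1 - t₁)) / R ^ 2 + e * (q.1 - t₁)) p e

/-- the energy estimate for a nonnegative supersolution -/
def EnergyW : Prop :=
  ∀ (D : ℝ), 0 ≤ D → ∀ (μ : ℝ → Measure E3) (M : ℝ → Set E3) (J I : Set ℝ), WF D μ M J I →
    ∀ (Q : ℝ × E3 → ℝ) (a b : ℝ) (c : E3) (R : ℝ), ContDiff ℝ 2 Q → a ≤ b → Icc a b ⊆ I → 0 < R →
      (∀ t ∈ Icc a b, ∀ x, 0 ≤ Q (t, x) ∧ (R ≤ ‖x - c‖ → 2 ≤ Q (t, x)) ∧ Super Q (t, x) 0) →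
      ∫⁻ t in Icc a b, ∫⁻ x, ENNReal.ofReal (max (2 - Q (t, x)) 0 *
        ‖pt (nu (M t) x) (gr Q (t, x))‖ ^ 2) ∂(area (M t)) ≤ ENNReal.ofReal (2 * (D * R ^ 2))

/-- a barrier with a prescribed source -/
def SrcW : Prop :=
  ∀ D : ℝ, ∃ C₀ : ℝ, 0 < C₀ ∧
    ∀ (μ : ℝ → Measure E3) (M : ℝ → Set E3) (J I : Set ℝ), WF D μ M J I →
    ∀ (a b A β : ℝ) (K : Set (ℝ × E3)) (f : ℝ × E3 → ℝ), Icc a b ⊆ I → IsCompact K →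
      K ⊆ track M (Icc a b) → (∀ p ∈ K, 0 ≤ f p ∧ f p ≤ A) →
      (∀ p ∈ K, p.1 ∈ J → UpperSemicontinuousWithinAt f K p) →
      ∫⁻ t in Icc a b, ∫⁻ x, K.indicator (fun p => ENNReal.ofReal (f p)) (t, x) ∂(area (M t))
        < ENNReal.ofReal β →
      ∃ (B : ℝ × E3 → ℝ) (l : Multiset Src), ContDiff ℝ 2 B ∧ (∀ p, Super B p 0) ∧
        (∀ p ∈ K, Super B p (f p)) ∧ Valid l ∧ mass l ≤ C₀ * β ∧
        ∀ p : ℝ × E3, 0 ≤ B p ∧ B p ≤ bar l p.1 p.2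

/-- the static inequality for the angle between the normal and the shortest chord in the cone -/
def SIStmt : Prop :=
  ∀ D : ℝ, ∃ C : ℝ, 0 < C ∧ ∀ N : Set E3, IsSurf N → AreaRatio D N →
    ∀ (ζ : E3 → ℝ) (c : E3) (R m : ℝ), 0 < m → ContDiff ℝ 1 ζ → (∀ x, R ≤ ‖x - c‖ → ζ x = 0) →
      (∀ x, 0 ≤ ζ x ∧ ζ x ≤ 1) → (∀ x ∈ N, x ∈ tsupport ζ → ∀ s ≤ m, ¬ Bad N x s) →
      ∀ F : E3 → ℝ, (∀ x ∈ N, F x ≤ 0 ∨ ∃ y, InCone N x y ∧ SepGE N x ‖y - x‖ ∧ ‖y - x‖ ≤ m / 2 ∧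
        F x ≤ ζ x ^ 4 * ‖pt (nu N x) (y - x)‖ ^ 4 / ‖y - x‖ ^ 6) →
      ∫⁻ x, ENNReal.ofReal (F x) ∂(area N) ≤ ENNReal.ofReal C *
        (∫⁻ x in ball c (R + 2 * m), ENNReal.ofReal (a2 N x) ∂(area N) +
          ∫⁻ x, ENNReal.ofReal (‖pt (nu N x) (gradient ζ x)‖ ^ 2) ∂(area N))

/-- the barrier lemma -/
def BarrierW : Prop :=
  ∀ (D : ℝ) (μ : ℝ → Measure E3) (M : ℝ → Set E3) (J I : Set ℝ), WF D μ M J I →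
    ∀ (t₁ t₂ : ℝ) (c : E3) (R m η₀ η : ℝ), t₁ < t₂ → Icc t₁ t₂ ⊆ I → 0 < R → 0 < m →
    ∫⁻ t in Icc t₁ t₂, ∫⁻ x in ball c (2 * R), ENNReal.ofReal (a2 (M t) x) ∂(area (M t)) < ⊤ →
    CovW M t₁ c R m η₀ →
    (∀ τ : ℝ, 0 < τ → τ ≤ m → ∃ K₀ : Set (ℝ × E3), IsCompact K₀ ∧ K₀ ⊆ track M (Icc t₁ t₂) ∧
      (∀ p ∈ K₀, Reg M p) ∧ ∀ K : Set (ℝ × E3), IsCompact K → K ⊆ track M (Icc t₁ t₂) →
        (∀ p ∈ K, Reg M p ∧ ‖p.2 - c‖ ≤ 3 * R / 2) → ∃ l : Multiset Src, Valid l ∧ mass l ≤ η ∧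
        ∀ p ∈ K, ((∃ s ≤ m, Bad (M p.1) p.2 s) ∨ p ∉ K₀ ∧ SepGE (M p.1) p.2 τ) →
          2 ≤ bar l p.1 p.2) →
    ∀ γ : ℝ, 0 < γ → ∃ l : Multiset Src, Valid l ∧ mass l ≤ η + γ ∧
      ∀ x ∈ M t₂, ‖x - c‖ ≤ R → ∀ d : ℝ, (Reg M (t₂, x) → ∃ y, InCone (M t₂) x y ∧ ‖y - x‖ ≤ d) →
        1 - γ ≤ √(d / m) + η₀ * (4 * Real.pi * (t₂ - t₁))⁻¹ + bar l t₂ x +
          (‖x - c‖ ^ 2 + 4 * (t₂ - t₁)) / R ^ 2

/-! ### The iteration -/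

/-- the step of the iteration -/
def StepW : Prop :=
  ∀ D G ε r C R Λ η : ℝ, 0 < ε → ε ≤ 1 → 0 < r → 0 < C → 16 ≤ R → 0 < η →
    ∃ m₀ δ : ℝ, 0 < m₀ ∧ 0 < δ ∧
    ∀ (μ : ℝ → Measure E3) (M : ℝ → Set E3) (J I : Set ℝ), InW D G ε r C μ M J I →
      ∀ (c : E3) (t₁ t₂ lam m : ℝ), 0 < lam → 0 < m →
      m ≤ m₀ → Icc (t₁ - lam ^ 2) t₂ ⊆ I → lam ^ 2 / 2 ≤ t₂ - t₁ → t₂ - t₁ ≤ lam ^ 2 →
      dis2 M (Λ / lam ^ 2) c (4 * R * lam) (t₁ - lam ^ 2) t₂ ≤ ENNReal.ofReal (δ * lam ^ 2) →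
      CovW M t₁ c (R * lam) (m * lam) (lam ^ 2 / 2) →
      CovW M t₂ c (R * lam / 4) (m * lam / 4) (η * lam ^ 2)

/-- **Block T1**: regularity and uniform one-sheet curvature bounds for the rescaled flow -/
def T1W : Prop :=
  ∀ (D G ε r C : ℝ) (μ : ℝ → Measure E3) (M : ℝ → Set E3) (J : Set ℝ) (a b : ℝ), 0 < ε → ε ≤ 1 →
    0 < r → 0 < C → a < b → InW D G ε r C μ M J (Ioo a b) → ∀ (x₀ : E3) (R : ℝ),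
    ∃ r' C' t₁ : ℝ, 0 < r' ∧ 0 < C' ∧ t₁ < b ∧ ∀ t ∈ Ioo t₁ b, ∀ x ∈ M t,
      ‖x - x₀‖ ≤ R * √(b - t) → Reg M (t, x) ∧ TwoPt (M t) x (r' * √(b - t)) (C' / √(b - t))

/-- **Block T**: the rescalings about `(x₀, b)` converge along every ultrafilter, smoothly and
weakly at every negative time, to a self-similar flow of class `C(D, G)` -/
def ConvW : Prop :=
  ∀ (D G ε r C : ℝ) (μ : ℝ → Measure E3) (M : ℝ → Set E3) (J : Set ℝ) (a b : ℝ), 0 < ε → ε ≤ 1 →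
    0 < r → 0 < C → a < b → InW D G ε r C μ M J (Ioo a b) → ∀ (x₀ : E3) (ι : Type)
    (U : Ultrafilter ι) (lam : ι → ℝ), Tendsto lam U atTop →
    ∃ S : Set E3, IsShr S ∧ InC D G (ssFlow S) (Iio 0) ∧
      SLim U (fun i => scaleFlow (lam i) x₀ b M) (ssFlow S) (Iio 0) ∧
      Tendsto (fun ρ => densM μ x₀ b ρ) (𝓝[>] 0) (𝓝 (gA S 0 1)) ∧
      ∀ s < 0, ∀ φ : E3 → ℝ, Continuous φ → HasCompactSupport φ →
        Tendsto (fun i => ∫ x, φ x ∂(scaleM (lam i) x₀ b μ s)) U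
          (𝓝 (∫ x, φ x ∂(area (ssFlow S s))))

end Vale.Agent.P218G
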