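import Vale.Agent.P218G.Bridge
import Vale.Agent.P218G.DynB
import Vale.Agent.P218G.Spec

/-! Uniqueness of tangent flows for unit-regular flows which are regular at almost every time,
with bounded genus: the assembly. -/

open MeasureTheory Set Filter Topology Metric
open scoped ENNReal NNReal

namespace Vale.Agent.P218G.Rg

open Vale.Agent.P218 Vale.Agent.P218G.Lit
open Vale.Agent.P218FT (E3 IsSurf IsShr InC ssFlow scaleSet area)
open Vale.Agent.P218F.Dyn (hm)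

theorem scaleM_smul (c : ℝ≥0) (μ : ℝ → Measure E3) (lam : ℝ) (x₀ : E3) (t₀ s : ℝ) :
    scaleM lam x₀ t₀ (fun t => c • μ t) s = c • rescaled 2 μ x₀ t₀ lam s := by
  rw [scaleM, rescaled, Measure.map_smul, smul_comm]

theorem ss_one (S : Set E3) : ssFlow S (-1) = S := by
  ext y
  simp [ssFlow, scaleSet]

/-- some tangent flow is a smooth shrinker of class `C(D, G)` -/
theorem exists_shr (hGS : GSStmt) (hB : BddStmt) (hW : WeakWhiteStmt) (hC : ConvW)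
    {μ : ℝ → Measure E3} (hμ : IsIntegralBrakkeFlow 2 μ) (h0 : μ 0 univ < ⊤) {R : ℝ}
    (hR : μ 0 (closedBall 0 R)ᶜ = 0) (hU : IsUnitRegular μ) {a t₀ g : ℝ} (ha : 0 < a)
    (ht : a < t₀) (hae : ∀ᵐ t : ℝ, t ∈ Ioo a t₀ → IsRegularTime μ t)
    (hg : ∀ t ∈ Ioo a t₀, IsRegularTime μ t → ∀ N, IsSurf N → μ t = hm N → genus N ≤ g)
    (x₀ : E3) : ∃ (S : Set E3) (D G : ℝ), IsShr S ∧ InC D G (ssFlow S) (Iio 0) ∧
      hm S ∈ tangentSlices 2 μ x₀ t₀ := by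
  obtain ⟨D, G, ε, r, C, hε, hε1, hr, hC0, hI⟩ := bridge hGS hB hW hμ h0 hR hU ha hae hg
  obtain ⟨T, H, hBF⟩ := H552.exists_BF hμ
  obtain ⟨κ, ⟨S, h1, h2, rfl⟩, h3⟩ := Dyn.mem_tangentSlices (x₀ := x₀) hBF h0 (ha.trans ht)
    (P := fun κ => ∃ S, IsShr S ∧ InC D G (ssFlow S) (Iio 0) ∧ κ = hm S) fun U lam hl => by
      obtain ⟨S, e1, e2, -, -, e3⟩ := hC D G ε r C _ _ _ a t₀ hε hε1 hr hC0 ht hI x₀ ℕ U lam hl
      have hc : hm S = cE⁻¹ • area S := by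
        rw [← cE_hm, smul_smul, inv_mul_cancel₀ cE_pos.ne', one_smul]
      refine ⟨hm S, ⟨S, e1, e2, rfl⟩, ?_, fun φ hφ hφc => ?_⟩
      · have := P218FT.Chart.locFin_proof S e1.1
        rw [hc]
        infer_instance
      · have e4 := (e3 (-1) (by norm_num) φ hφ hφc).const_mul (cE : ℝ)⁻¹
        have hne : (cE : ℝ) ≠ 0 := by exact_mod_cast cE_pos.ne'
        simp only [scaleM_smul, ss_one, ← cE_hm, integral_smul_nnreal_measure, NNReal.smul_def,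
          smul_eq_mul, inv_mul_cancel_left₀ hne] at e4
        exact e4
  exact ⟨S, D, G, h1, h2, h3⟩

/-- **Case B** -/
theorem caseB (hGS : GSStmt) (hB : BddStmt) (hW : WeakWhiteStmt) (hC : ConvW) (hA : AGenStmt)
    (hSt : P218F.Dyn.StaticStmt) {μ : ℝ → Measure E3} (hμ : IsIntegralBrakkeFlow 2 μ)
    (h0 : μ 0 univ < ⊤) {R : ℝ} (hR : μ 0 (closedBall 0 R)ᶜ = 0) (hU : IsUnitRegular μ)
    {a t₀ g : ℝ} (ha : 0 < a) (ht : a < t₀) (hae : ∀ᵐ t : ℝ, t ∈ Ioo a t₀ → IsRegularTime μ t)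
    (hg : ∀ t ∈ Ioo a t₀, IsRegularTime μ t → ∀ N, IsSurf N → μ t = hm N → genus N ≤ g)
    (x₀ : E3) : TangentFlowUnique 2 μ x₀ t₀ := by
  obtain ⟨S, D, G, h1, h2, h3⟩ := exists_shr hGS hB hW hC hμ h0 hR hU ha ht hae hg x₀
  exact hA μ hμ h0 hU x₀ t₀ (ha.trans ht) S h1.1 (fun hne => hSt D G S h1 h2 hne) h3

end Vale.Agent.P218G.Rg
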