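import Vale.Agent.P218G.ConvL1

/-! Compactness of locally smooth flows with two-point bounds. -/

open Set Filter Topology Metric
open scoped ContDiff RealInnerProductSpace

namespace Vale.Agent.P218G.CL

open Vale.Agent.P218FT Vale.Agent.P218FT.Chart Vale.Agent.P218G.WL
open Vale.Agent.P218FT.Conv hiding GD exists_gd exists_cyl exists_graphs comp_loc comp_proof

variable {ι : Type}

/-- graphs over a common plane -/
lemma exists_graphs (U : Ultrafilter ι) {M : ι → ℝ → Set E3} {K : ι → Set (ℝ × E3)} {r C ρ : ℝ}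
    (hC : 0 < C) (hρ : 0 < ρ) (hρr : 10 * ρ ≤ r) (hρC : 600 * (C * ρ) ≤ 1) (x : E3)
    {t₀ t₁ t₂ : ι → ℝ} {y : ι → E3}
    (h : ∀ᶠ i in U, MCFOn (M i) (K i) ∧ t₀ i ∈ Icc (t₁ i) (t₂ i) ∧
      (∀ s ∈ Icc (t₁ i) (t₂ i), ∀ z, ‖z - x‖ ≤ r → (s, z) ∈ K i) ∧
      (∀ s ∈ Icc (t₁ i) (t₂ i), ∀ z ∈ M i s, ‖z - x‖ ≤ r → TwoPt (M i s) z r C) ∧
      y i ∈ M i (t₀ i) ∧ ‖y i - x‖ ≤ ρ) :
    ∃ (e : E3) (J : P2 →L[ℝ] E3) (pr : E3 →L[ℝ] P2) (f : ι → P2 × ℝ → ℝ), Frame e J pr ∧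
      ∀ᶠ i in U, ∃ O : Set (P2 × ℝ), IsOpen O ∧ ContDiffOn ℝ ∞ (f i) O ∧
        cyl (pr (y i - x)) (t₀ i) (t₁ i) (t₂ i) ρ ⊆ O ∧
        ∀ p ∈ cyl (pr (y i - x)) (t₀ i) (t₁ i) (t₂ i) ρ, GEq (f i) p ∧ ‖gx (f i) p‖ ≤ 1 ∧
          ‖hx (f i) p‖ ≤ 16 * C ∧ |f i p| ≤ 3 * ρ ∧
          ∀ z : ℝ, |z| ≤ 6 * ρ → (x + J p.1 + z • e ∈ M i p.2 ↔ z = f i p) := by
  classical
  obtain ⟨e, he, hlim⟩ := (isCompact_sphere (0 : E3) 1).ultrafilter_le_nhds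
    (U.map fun i => nu (M i (t₀ i)) (y i)) (by
      rw [le_principal_iff, Ultrafilter.mem_coe, Ultrafilter.mem_map]
      exact h.mono fun i hi => mem_sphere_zero_iff_norm.2
        (hi.1.norm_nu (hi.2.2.1 _ hi.2.1 _ (by linarith [hi.2.2.2.2.2])) hi.2.2.2.2.1))
  have hlim' : Tendsto (fun i => nu (M i (t₀ i)) (y i)) U (𝓝 e) := hlim
  obtain ⟨J, pr, F⟩ := exists_frame (mem_sphere_zero_iff_norm.1 he)
  have h1 : ∀ᶠ i in U, 16 / 17 ≤ ⟪nu (M i (t₀ i)) (y i), e⟫ ^ 2 := by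
    have := (hlim'.inner (𝕜 := ℝ) (tendsto_const_nhds (x := e))).pow 2
    rw [F.inner_n] at this
    exact this.eventually_const_le (by norm_num)
  let P : ι → (P2 × ℝ → ℝ) → Prop := fun i f => ∃ O : Set (P2 × ℝ), IsOpen O ∧
    ContDiffOn ℝ ∞ f O ∧ cyl (pr (y i - x)) (t₀ i) (t₁ i) (t₂ i) ρ ⊆ O ∧
    ∀ p ∈ cyl (pr (y i - x)) (t₀ i) (t₁ i) (t₂ i) ρ, GEq f p ∧ ‖gx f p‖ ≤ 1 ∧
      ‖hx f p‖ ≤ 16 * C ∧ |f p| ≤ 3 * ρ ∧
      ∀ z : ℝ, |z| ≤ 6 * ρ → (x + J p.1 + z • e ∈ M i p.2 ↔ z = f p)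
  have h2 : ∀ᶠ i in U, ∃ f, P i f := by
    filter_upwards [h, h1] with i hi hi1
    have e1 : x + J (pr (y i - x)) + ⟪e, y i - x⟫ • e = y i := by
      rw [add_assoc, F.decomp, add_sub_cancel]
    refine exists_cyl hC hρ hρr hρC hi.1 x F hi.2.1 hi.2.2.1 hi.2.2.2.1
      (z₀ := ⟪e, y i - x⟫) ((F.norm_pr_le _).trans hi.2.2.2.2.2) ?_ (e1.symm ▸ hi.2.2.2.2.1)
      (e1.symm ▸ hi1)
    refine (abs_real_inner_le_norm _ _).trans ?_
    rw [F.unit, one_mul]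
    exact hi.2.2.2.2.2
  refine ⟨e, J, pr, fun i => if hi : ∃ f, P i f then hi.choose else 0, F, h2.mono fun i hi => ?_⟩
  simp only [dif_pos hi]
  exact hi.choose_spec

/-- the limit of smoothly converging flows is a flow -/
theorem isMCF_of_slim {U : Filter ι} [U.NeBot] {M : ι → ℝ → Set E3}
    {K : ι → Set (ℝ × E3)} {L : ℝ → Set E3} {I : Set ℝ} (h : SLim U M L I) (hI : IsOpen I)
    (hM : ∀ᶠ i in U, MCFOn (M i) (K i))
    (hK : ∀ t ∈ I, ∀ x, ∃ W ∈ 𝓝 (t, x), ∀ᶠ i in U, W ⊆ K i) : IsMCF L I := by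
  refine ⟨hI, fun t ht x hx => ?_, fun t ht x hx => ?_⟩
  · obtain ⟨W, hW, h1⟩ := h.out t ht x hx
    filter_upwards [interior_mem_nhds.2 hW,
      continuous_fst.continuousAt.eventually (hI.mem_nhds ht)] with q hq hqI hqL
    obtain ⟨y, y1, y2⟩ := (h.slice_const hqI).exists_seq hqL
    have h2 : Tendsto (fun i => (q.1, y i)) U (𝓝 q) := tendsto_const_nhds.prodMk_nhds y1
    obtain ⟨i, a1, a2, a3⟩ :=
      (h1.and (y2.and (h2.eventually (mem_interior_iff_mem_nhds.1 hq)))).exists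
    exact a1 _ a3 a2
  · obtain ⟨W, w, v, h1, h2, h3, h4, h5, h6, h7, h8⟩ := h.loc t ht x hx
    refine ⟨v, h4, h6, mem_of_superset (h1.mem_nhds h2) h7, ?_⟩
    obtain ⟨y, y1, y2⟩ := (h.slice_const ht).exists_seq hx
    have a1 : Tendsto (fun i => (t, y i)) U (𝓝 (t, x)) := tendsto_const_nhds.prodMk_nhds y1
    have a2 := (h5.fderiv h1).tendsto_comp h1 h2 a1
    have eg : ∀ (u : ℝ × E3 → ℝ), ContDiff ℝ ∞ u → ∀ z : E3, gradient (sl u t) z =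
        rz ((fderiv ℝ u (t, z)).comp (ContinuousLinearMap.inr ℝ ℝ E3)) := fun u hu z => by
      rw [gradient_eq_rz, ← fderiv_sl hu]
    have a3 : Tendsto (fun i => gradient (sl (w i) t) (y i)) U (𝓝 (gradient (sl v t) x)) := by
      simp only [eg _ (h3 _), eg _ h4]
      have : Continuous fun A : ℝ × E3 →L[ℝ] ℝ => rz (A.comp (ContinuousLinearMap.inr ℝ ℝ E3)) :=
        rz.continuous.comp (continuous_id.clm_comp continuous_const)
      exact (this.tendsto _).comp a2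
    have a4 : Tendsto (fun i => fderiv ℝ (w i) (t, y i) (1, 0)) U (𝓝 (fderiv ℝ v (t, x) (1, 0))) :=
      ((ContinuousLinearMap.apply ℝ ℝ ((1 : ℝ), (0 : E3))).continuous.tendsto _).comp a2
    have a5 := (a3.inner (𝕜 := ℝ) ((h.slice_const ht).tendsto_Hv hx y1 y2)).neg
    rw [deriv_time h4]
    refine tendsto_nhds_unique a4 (a5.congr' ?_)
    obtain ⟨V, hV, hV'⟩ := hK t ht x
    filter_upwards [hM, hV', y2, h8, a3.eventually_ne h6, a1.eventually (h1.mem_nhds h2),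
      a1.eventually hV] with i b1 b2 b3 b4 b5 b6 b7
    rw [← deriv_time (h3 i)]
    exact (b1.eqn_of_isEqnT (b2 b7) b3 ⟨h3 i, b5, mem_of_superset (h1.mem_nhds b6) b4⟩).symm

/-- the local structure of the limit set -/
lemma comp_loc (U : Ultrafilter ι) {M : ι → ℝ → Set E3} {K : ι → Set (ℝ × E3)} {t : ℝ} {x : E3}
    {r C : ℝ} (hr : 0 < r) (hC : 1 ≤ C)
    (hM : ∀ᶠ i in U, MCFOn (M i) (K i) ∧
      (∀ s ∈ Icc (t - r) (t + r), ∀ z, ‖z - x‖ ≤ r → (s, z) ∈ K i) ∧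
      ∀ s ∈ Icc (t - r) (t + r), ∀ z ∈ M i s, ‖z - x‖ ≤ r → TwoPt (M i s) z r C)
    (hx : ∀ W ∈ 𝓝 (t, x), ∀ᶠ i in U, ∃ p ∈ W, p.2 ∈ M i p.1) :
    ∃ (W : Set (ℝ × E3)) (w : ι → ℝ × E3 → ℝ) (v : ℝ × E3 → ℝ),
      IsOpen W ∧ (t, x) ∈ W ∧ (∀ i, ContDiff ℝ ∞ (w i)) ∧ ContDiff ℝ ∞ v ∧ CInf U W w v ∧
      gradient (fun y => v (t, y)) x ≠ 0 ∧
      (∀ p ∈ W, (∀ V ∈ 𝓝 p, ∀ᶠ i in U, ∃ q ∈ V, q.2 ∈ M i q.1) ↔ v p = 0) ∧
      ∀ᶠ i in U, ∀ p ∈ W, p.2 ∈ M i p.1 ↔ w i p = 0 := by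
  classical
  obtain ⟨ρ, hρ, hρr, hρC, hρ1⟩ := exists_rho hr hC
  have hρ2 : ρ ^ 2 ≤ ρ := by nlinarith
  have hρ3 : 0 < ρ ^ 2 := by positivity
  have h1 := hx _ (closedBall_mem_nhds (t, x) (half_pos hρ3))
  let p : ι → ℝ × E3 := fun i =>
    if hi : ∃ p ∈ closedBall (t, x) (ρ ^ 2 / 2), p.2 ∈ M i p.1 then hi.choose else (t, x)
  have hp : ∀ᶠ i in U, |(p i).1 - t| ≤ ρ ^ 2 / 2 ∧ ‖(p i).2 - x‖ ≤ ρ ^ 2 / 2 ∧
      (p i).2 ∈ M i (p i).1 := h1.mono fun i hi => by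
    have := hi.choose_spec
    have h2 := (closedBall_prod_same t x (ρ ^ 2 / 2)).symm.subset this.1
    simp only [p, dif_pos hi]
    exact ⟨mem_closedBall_iff_norm.1 h2.1, mem_closedBall_iff_norm.1 h2.2, this.2⟩
  obtain ⟨e, J, pr, f, F, hf⟩ := exists_graphs U (M := M) (K := K) (by linarith : 0 < C) hρ hρr hρC x
    (t₀ := fun i => (p i).1) (t₁ := fun _ => t - r) (t₂ := fun _ => t + r) (y := fun i => (p i).2)
    (by
      filter_upwards [hM, hp] with i a1 a2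
      have := abs_le.1 a2.1
      exact ⟨a1.1, ⟨by linarith, by linarith⟩, a1.2.1, a1.2.2, a2.2.2, by linarith [a2.2.1]⟩)
  let D : Set (P2 × ℝ) := ball 0 (ρ / 4) ×ˢ ball t (ρ ^ 2 / 4)
  have hD : IsOpen D := isOpen_ball.prod isOpen_ball
  have hsub : ∀ᶠ i in U, ∀ q ∈ D, closedBall q.1 (ρ / 4) ×ˢ Icc (q.2 - (ρ / 4) ^ 2) q.2 ⊆
      cyl (pr ((p i).2 - x)) (p i).1 (t - r) (t + r) ρ := by
    filter_upwards [hp] with i hi q hq a ha
    have b1 := mem_ball_zero_iff.1 hq.1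
    have b2 := abs_lt.1 (mem_ball_iff_norm.1 hq.2)
    have b3 := mem_closedBall_iff_norm.1 ha.1
    have b4 := (F.norm_pr_le _).trans hi.2.1
    have b5 := abs_le.1 hi.1
    have b6 := ha.2.1
    have b7 := ha.2.2
    refine ⟨mem_closedBall_iff_norm.2 ?_, ⟨by linarith, by linarith⟩,
      mem_closedBall_iff_norm.2 (abs_le.2 ⟨by linarith, by linarith⟩)⟩
    have c1 := norm_sub_le a.1 (pr ((p i).2 - x))
    have c2 := norm_le_insert' a.1 q.1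
    linarith
  have hself : ∀ q : P2 × ℝ, q ∈ closedBall q.1 (ρ / 4) ×ˢ Icc (q.2 - (ρ / 4) ^ 2) q.2 := fun q =>
    ⟨mem_closedBall_self (by positivity), by linarith [sq_nonneg (ρ / 4)], le_rfl⟩
  have hbd : ∀ k, Bd k U D f := by
    refine Bd.of_forall ?_ fun j => ?_
    · filter_upwards [hf, hsub] with i ⟨O, a1, a2, a3, _⟩ a5
      exact a2.mono fun q hq => a3 (a5 q hq (hself q))
    rcases Nat.eq_zero_or_pos j with rfl | hj
    · refine ⟨3 * ρ, ?_⟩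
      filter_upwards [hf, hsub] with i ⟨O, _, _, _, a4⟩ a5 q hq
      rw [norm_iteratedFDeriv_zero]
      exact (a4 q (a5 q hq (hself q))).2.2.2.1
    · obtain ⟨B, hB⟩ := Int.int_proof j (16 * C) (ρ / 4) hj (by positivity)
      refine ⟨B, ?_⟩
      filter_upwards [hf, hsub] with i ⟨O, a1, a2, a3, a4⟩ a5 q hq
      exact hB (f i) O q.1 q.2 a1 a2 ((a5 q hq).trans a3) fun a ha =>
        ⟨(a4 a (a5 q hq ha)).1, (a4 a (a5 q hq ha)).2.1.trans (by linarith),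
          (a4 a (a5 q hq ha)).2.2.1⟩
  obtain ⟨f₀, hf₀⟩ := exists_cinf U hD ((convex_ball _ _).prod (convex_ball _ _))
    (isBounded_ball.prod isBounded_ball) hbd
  have hball : ∀ q ∈ ball (t, x) (ρ ^ 2 / 4), (pr (q.2 - x), q.1) ∈ D ∧ |⟪e, q.2 - x⟫| ≤ 6 * ρ := by
    intro q hq
    rw [← ball_prod_same] at hq
    have b1 := mem_ball_iff_norm.1 hq.2
    exact ⟨⟨mem_ball_zero_iff.2 ((F.norm_pr_le _).trans_lt (by linarith)), hq.1⟩,
      (abs_inner_le F _).trans (by linarith)⟩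
  obtain ⟨δ, w, v, hδ, a1, a2, a3, a4, a5, a6⟩ := exists_equations hD hf₀
    (A := fun q : ℝ × E3 => (pr (q.2 - x), q.1)) (by fun_prop)
    (ℓ := fun q : ℝ × E3 => ⟪e, q.2 - x⟫) (contDiff_const.inner ℝ (by fun_prop))
    (q₀ := (t, x)) (by positivity : 0 < ρ ^ 2 / 4) fun q hq => (hball q hq).1
  have hgr : ∀ᶠ i in U, ∀ q ∈ D, ∀ z : ℝ, |z| ≤ 6 * ρ →
      (x + J q.1 + z • e ∈ M i q.2 ↔ z = f i q) := by
    filter_upwards [hf, hsub] with i ⟨O, _, _, _, b4⟩ b5 q hq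
    exact (b4 q (b5 q hq (hself q))).2.2.2.2
  have hfb : ∀ᶠ i in U, ∀ q ∈ D, |f i q| ≤ 3 * ρ := by
    filter_upwards [hf, hsub] with i ⟨O, _, _, _, b4⟩ b5 q hq
    exact (b4 q (b5 q hq (hself q))).2.2.2.1
  have hiff : ∀ᶠ i in U, ∀ q ∈ ball (t, x) δ, q.2 ∈ M i q.1 ↔ w i q = 0 := by
    filter_upwards [hgr, a5] with i b1 b2 q hq
    have b3 := b1 _ (hball q (a1 hq)).1 _ (hball q (a1 hq)).2
    rw [decomp' F] at b3
    rw [b2 q hq, sub_eq_zero]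
    exact b3
  refine ⟨ball (t, x) δ, w, v, isOpen_ball, mem_ball_self hδ, a2, a3, a4, ?_,
    fun q hq => ⟨fun hL => ?_, fun h0 V hV => ?_⟩, hiff⟩
  · refine grad_ne_zero (e := e) (c := f₀ (0, t)) ((contDiff_sl a3 t).differentiable (by simp) x) ?_
    have b1 : Tendsto (fun s : ℝ => (t, x + s • e)) (𝓝 0) (𝓝 (t, x)) :=
      Continuous.tendsto' (by fun_prop) _ _ (by simp)
    filter_upwards [b1.eventually (ball_mem_nhds _ hδ)] with s hs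
    rw [a6 _ hs]
    simp [F.pr_n, real_inner_smul_right, F.unit]
  · refine zero_of_approx a4 isOpen_ball hq fun V hV => ?_
    filter_upwards [hL V hV, hiff] with i ⟨a, b1, b2⟩ b3
    exact ⟨a, b1, fun b4 => (b3 a b4).1 b2⟩
  · have b0 := (hball q (a1 hq)).1
    have b1 : f₀ (pr (q.2 - x), q.1) = ⟪e, q.2 - x⟫ := by
      rw [a6 q hq, sub_eq_zero] at h0
      exact h0.symm
    have b2 : Tendsto (fun i => (q.1, x + J (pr (q.2 - x)) + f i (pr (q.2 - x), q.1) • e)) U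
        (𝓝 q) := by
      have := tendsto_const_nhds (x := q.1) |>.prodMk_nhds
        (((hf₀.tendsto b0).smul_const e).const_add (x + J (pr (q.2 - x))))
      rwa [b1, decomp' F] at this
    filter_upwards [b2.eventually hV, hgr, hfb] with i c1 c2 c3
    exact ⟨_, c1, (c2 _ b0 _ ((c3 _ b0).trans (by linarith))).2 rfl⟩

/-- **Compactness** of locally smooth flows with locally uniform two-point bounds -/
theorem comp_on (U : Ultrafilter ι) (M : ι → ℝ → Set E3) (K : ι → Set (ℝ × E3)) {I : Set ℝ}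
    (hI : IsOpen I) (hM : ∀ᶠ i in U, MCFOn (M i) (K i))
    (hT : ∀ t ∈ I, ∀ x : E3, ∃ W ∈ 𝓝 (t, x), ∃ r C : ℝ, 0 < r ∧ ∀ᶠ i in U, W ⊆ K i ∧ ∀ p ∈ W,
      p.2 ∈ M i p.1 → TwoPt (M i p.1) p.2 r C) :
    ∃ L : ℝ → Set E3, IsMCF L I ∧ SLim U M L I := by
  let L : ℝ → Set E3 := fun t => {x | ∀ W ∈ 𝓝 (t, x), ∀ᶠ i in U, ∃ p ∈ W, p.2 ∈ M i p.1}
  have hS : SLim U M L I := by
    refine ⟨fun t _ x hx => ?_, fun t ht x hx => ?_⟩
    · have hx' : ¬ ∀ W ∈ 𝓝 (t, x), ∀ᶠ i in U, ∃ p ∈ W, p.2 ∈ M i p.1 := hx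
      push Not at hx'
      obtain ⟨W, hW, h1⟩ := hx'
      exact ⟨W, hW, h1⟩
    · obtain ⟨W, hW, r, C, hr, h1⟩ := hT t ht x
      obtain ⟨r₁, hr₁, h3⟩ := nhds_basis_closedBall.mem_iff.1 hW
      refine comp_loc U (K := K) (r := min r r₁) (C := max C 1)
        (lt_min hr hr₁) (le_max_right _ _) ?_ hx
      have m1 : min r r₁ ≤ r₁ := min_le_right _ _
      have hin : ∀ s ∈ Icc (t - min r r₁) (t + min r r₁), ∀ z, ‖z - x‖ ≤ min r r₁ → (s, z) ∈ W := by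
        intro s hs z hzx
        rw [← Real.closedBall_eq_Icc] at hs
        refine h3 ?_
        rw [← closedBall_prod_same]
        exact ⟨closedBall_subset_closedBall m1 hs, mem_closedBall_iff_norm.2 (hzx.trans m1)⟩
      filter_upwards [hM, h1] with i a1 a2
      exact ⟨a1, fun s hs z hz => a2.1 (hin s hs z hz), fun s hs z hz hzx =>
        twoPt_mono' (a2.2 (s, z) (hin s hs z hzx) hz) (min_le_left _ _) (le_max_left _ _)⟩
  refine ⟨L, isMCF_of_slim hS hI hM fun t ht x => ?_, hS⟩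
  obtain ⟨W, hW, r, C, -, h1⟩ := hT t ht x
  exact ⟨W, hW, h1.mono fun i hi => hi.1⟩

end Vale.Agent.P218G.CL
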