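import Vale.Agent.P218G.HuG
import Vale.Agent.P218FT.EVMain
import Vale.Agent.P218FT.Huisken3
import Vale.Agent.P218FT.Local2

/-! Basic facts about weak flows and Brakke's inequality: localisation in time, linearity of the
right-hand side, the loss functional. -/

open MeasureTheory Set Filter Topology Metric
open scoped ENNReal NNReal RealInnerProductSpace ContDiff

namespace Vale.Agent.P218G

open P218FT

variable {D : ℝ} {μ : ℝ → Measure E3} {M : ℝ → Set E3} {J I : Set ℝ}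

/-! ### elementary facts -/

theorem WF.isSurf (h : WF D μ M J I) {t : ℝ} (ht : t ∈ J) : IsSurf (M t) := h.mcf.isSurf ht

theorem WF.areaRatio (h : WF D μ M J I) {t : ℝ} (ht : t ∈ J) : AreaRatio D (M t) := by
  have := h.ratio t (h.sub ht)
  rwa [h.eq t ht] at this

theorem WF.isClosed (h : WF D μ M J I) {t : ℝ} (ht : t ∈ I) : IsClosed (M t) := by
  have hc : Continuous fun y : E3 => ((t, y) : ℝ × E3) := by fun_prop
  rw [← isOpen_compl_iff, isOpen_iff_mem_nhds]
  intro x hx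
  exact (hc.tendsto x).eventually (h.closed t ht x hx)

theorem WF.locFin (h : WF D μ M J I) {t : ℝ} (ht : t ∈ I) : IsLocallyFiniteMeasure (μ t) :=
  (h.ratio t ht).locFin

theorem WF.ae_mem (h : WF D μ M J I) {t : ℝ} (ht : t ∈ I) : ∀ᵐ x ∂(μ t), x ∈ M t := h.supp t ht

theorem WF.mono_D (h : WF D μ M J I) {D' : ℝ} (hD : D ≤ D') : WF D' μ M J I :=
  { h with ratio := fun t ht => (h.ratio t ht).mono hD }

theorem WF.ae_restrict (h : WF D μ M J I) {S : Set ℝ} (hS : MeasurableSet S) (hI : S ⊆ I) :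
    ∀ᵐ t ∂(volume.restrict S), t ∈ J := by
  filter_upwards [ae_restrict_mem hS, ae_restrict_of_ae h.ae] with t ht h1 using h1 (hI ht)

theorem WF.ae_Icc (h : WF D μ M J I) {a b : ℝ} (hI : Icc a b ⊆ I) :
    ∀ᵐ t ∂(volume.restrict (Icc a b)), t ∈ J := h.ae_restrict measurableSet_Icc hI

/-- a set of times of positive measure contains a smooth time -/
theorem WF.exists_mem_of_pos (h : WF D μ M J I) {S : Set ℝ} (hI : S ⊆ I) (hS : volume S ≠ 0) :
    ∃ t ∈ S, t ∈ J := by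
  by_contra hc
  push Not at hc
  exact hS (measure_mono_null (fun t ht => fun h1 => hc t ht (h1 (hI ht))) h.ae)

theorem WF.exists_Ioo (h : WF D μ M J I) {a b : ℝ} (hab : a < b) (hI : Ioo a b ⊆ I) :
    ∃ t ∈ Ioo a b, t ∈ J :=
  h.exists_mem_of_pos hI (by simp [hab])

theorem WF.frequently_left (h : WF D μ M J I) {t : ℝ} (ht : t ∈ I) : ∃ᶠ s in 𝓝[<] t, s ∈ J := by
  rw [frequently_iff]
  intro U hU
  obtain ⟨a, ha, hsub⟩ := mem_nhdsLT_iff_exists_Ioo_subset.mp
    (inter_mem hU (mem_nhdsWithin_of_mem_nhds (h.isOpen.mem_nhds ht)))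
  obtain ⟨s, hs, hJ⟩ := h.exists_Ioo ha fun s hs => (hsub hs).2
  exact ⟨s, (hsub hs).1, hJ⟩

theorem WF.frequently_right (h : WF D μ M J I) {t : ℝ} (ht : t ∈ I) : ∃ᶠ s in 𝓝[>] t, s ∈ J := by
  rw [frequently_iff]
  intro U hU
  obtain ⟨a, ha, hsub⟩ := mem_nhdsGT_iff_exists_Ioo_subset.mp
    (inter_mem hU (mem_nhdsWithin_of_mem_nhds (h.isOpen.mem_nhds ht)))
  obtain ⟨s, hs, hJ⟩ := h.exists_Ioo ha fun s hs => (hsub hs).2
  exact ⟨s, (hsub hs).1, hJ⟩

/-- restriction of a weak flow to an open set of times -/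
theorem WF.restrict (h : WF D μ M J I) {O : Set ℝ} (hO : IsOpen O) :
    WF D μ M (J ∩ O) (I ∩ O) where
  isOpen := h.isOpen.inter hO
  sub := inter_subset_inter_left _ h.sub
  ae := h.ae.mono fun _ h1 ht => ⟨h1 ht.1, ht.2⟩
  mcf := h.mcf.mono (h.mcf.isOpen.inter hO) inter_subset_left
  eq t ht := h.eq t ht.1
  closed t ht := h.closed t ht.1
  supp t ht := h.supp t ht.1
  dense p hp := by
    have h1 := (hO.preimage continuous_fst).inter_closure
      (show p ∈ Prod.fst ⁻¹' O ∩ closure (track M J) from ⟨hp.1.2, h.dense ⟨hp.1.1, hp.2⟩⟩)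
    refine closure_mono ?_ h1
    exact fun q hq => ⟨⟨hq.2.1, hq.1⟩, hq.2.2⟩
  ratio t ht := h.ratio t ht.1
  h2 a b hI := h.h2 a b fun t ht => (hI ht).1
  brakke f h1 h2 h3 a b hab hI := h.brakke f h1 h2 h3 a b hab fun t ht => (hI ht).1

/-- the track over a closed set of times is closed -/
theorem WF.isClosed_track (h : WF D μ M J I) {S : Set ℝ} (hS : IsClosed S) (hI : S ⊆ I) :
    IsClosed (track M S) := by
  refine isOpen_compl_iff.1 (isOpen_iff_mem_nhds.2 fun p hp => ?_)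
  by_cases h1 : p.1 ∈ S
  · have h2 : p.2 ∉ M p.1 := fun h2 => hp ⟨h1, h2⟩
    filter_upwards [h.closed p.1 (hI h1) p.2 h2] with q hq h3 using hq h3.2
  · filter_upwards [continuous_fst.continuousAt.eventually (hS.isOpen_compl.mem_nhds h1)]
      with q hq h3 using hq h3.1

/-- a function which is continuous on the smooth times is measurable -/
theorem WF.aemeasurable (h : WF D μ M J I) {S : Set ℝ} (hS : MeasurableSet S) (hI : S ⊆ I)
    {O : Set ℝ} (hO : IsOpen O) (hSO : S ⊆ O) {g : ℝ → ℝ} (hg : ContinuousOn g (J ∩ O)) :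
    AEStronglyMeasurable g (volume.restrict S) := by
  have hm : MeasurableSet (J ∩ O) := (h.mcf.isOpen.inter hO).measurableSet
  have h1 : AEStronglyMeasurable g ((volume.restrict S).restrict (J ∩ O)) :=
    hg.aestronglyMeasurable hm
  rwa [Measure.restrict_eq_self_of_ae_mem] at h1
  filter_upwards [h.ae_restrict hS hI, ae_restrict_mem hS] with t h2 h3 using ⟨h2, hSO h3⟩

/-! ### the integrand of Brakke's inequality -/

/-- `C¹` functions with bounded spatial support -/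
structure CB (f : ℝ × E3 → ℝ) (R : ℝ) : Prop where
  smooth : ContDiff ℝ 1 f
  zero : ∀ p : ℝ × E3, R ≤ ‖p.2‖ → f p = 0

theorem exists_CB {f : ℝ × E3 → ℝ} (hf : ContDiff ℝ 1 f) (hc : HasCompactSupport f) :
    ∃ R, 0 < R ∧ CB f R := by
  obtain ⟨R, hR⟩ := (hc.isCompact.image continuous_snd).isBounded.subset_ball_lt 0 0
  refine ⟨R, hR.1, hf, fun p hp => ?_⟩
  by_contra h0
  have := hR.2 (mem_image_of_mem _ (subset_tsupport _ h0))
  rw [mem_ball_zero_iff] at this
  linarith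

theorem CB.mono {f : ℝ × E3 → ℝ} {R R' : ℝ} (h : CB f R) (hR : R ≤ R') : CB f R' :=
  ⟨h.smooth, fun p hp => h.zero p (hR.trans hp)⟩

theorem CB.add {f g : ℝ × E3 → ℝ} {R : ℝ} (hf : CB f R) (hg : CB g R) :
    CB (fun p => f p + g p) R :=
  ⟨hf.smooth.add hg.smooth, fun p hp => by simp [hf.zero p hp, hg.zero p hp]⟩

theorem CB.sub {f g : ℝ × E3 → ℝ} {R : ℝ} (hf : CB f R) (hg : CB g R) :
    CB (fun p => f p - g p) R :=
  ⟨hf.smooth.sub hg.smooth, fun p hp => by simp [hf.zero p hp, hg.zero p hp]⟩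

theorem CB.const_mul {f : ℝ × E3 → ℝ} {R : ℝ} (hf : CB f R) (c : ℝ) :
    CB (fun p => c * f p) R :=
  ⟨contDiff_const.mul hf.smooth, fun p hp => by simp [hf.zero p hp]⟩

theorem CB.time_mul {f : ℝ × E3 → ℝ} {R : ℝ} (hf : CB f R) {θ : ℝ → ℝ} (hθ : ContDiff ℝ 1 θ) :
    CB (fun p => θ p.1 * f p) R :=
  ⟨(hθ.comp contDiff_fst).mul hf.smooth, fun p hp => by simp [hf.zero p hp]⟩

theorem CB.slice_continuous {f : ℝ × E3 → ℝ} {R : ℝ} (hf : CB f R) (t : ℝ) :
    Continuous fun x => f (t, x) := hf.smooth.continuous.comp (by fun_prop)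

theorem CB.slice_cpt {f : ℝ × E3 → ℝ} {R : ℝ} (hf : CB f R) (t : ℝ) :
    HasCompactSupport fun x => f (t, x) := by
  refine HasCompactSupport.intro (isCompact_closedBall 0 R) fun x hx => hf.zero _ ?_
  rw [mem_closedBall_zero_iff, not_le] at hx
  exact hx.le

theorem CB.integrable {f : ℝ × E3 → ℝ} {R : ℝ} (hf : CB f R) (t : ℝ) (ν : Measure E3)
    [IsLocallyFiniteMeasure ν] : Integrable (fun x => f (t, x)) ν :=
  (hf.slice_continuous t).integrable_of_hasCompactSupport (hf.slice_cpt t)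

theorem CB.fderiv_zero {f : ℝ × E3 → ℝ} {R : ℝ} (hf : CB f R) {p : ℝ × E3} (hp : R + 1 ≤ ‖p.2‖) :
    fderiv ℝ f p = 0 := by
  have h1 : ∀ᶠ q : ℝ × E3 in 𝓝 p, R < ‖q.2‖ :=
    continuous_snd.norm.continuousAt.eventually (lt_mem_nhds (by linarith))
  have h2 : f =ᶠ[𝓝 p] fun _ => 0 := h1.mono fun q hq => hf.zero q hq.le
  rw [h2.fderiv_eq]
  simp

/-- the integrand -/
noncomputable def rint (M : ℝ → Set E3) (f : ℝ × E3 → ℝ) (p : ℝ × E3) : ℝ :=
  fderiv ℝ f p (1, Hv (M p.1) p.2) - ‖Hv (M p.1) p.2‖ ^ 2 * f p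

theorem rate_eq (M : ℝ → Set E3) (f : ℝ × E3 → ℝ) (t : ℝ) :
    rate M f t = ∫ x, rint M f (t, x) ∂(area (M t)) := rfl

theorem CB.continuousOn_rint {f : ℝ × E3 → ℝ} {R : ℝ} (hf : CB f R) (hM : IsMCF M J) :
    ContinuousOn (rint M f) (track M J) :=
  ((hf.smooth.continuous_fderiv one_ne_zero).continuousOn.clm_apply
    (continuousOn_const.prodMk hM.continuousOn_Hv)).sub
    ((hM.continuousOn_Hv.norm.pow 2).mul hf.smooth.continuous.continuousOn)

theorem CB.rint_zero {f : ℝ × E3 → ℝ} {R : ℝ} (hf : CB f R) (M : ℝ → Set E3) (p : ℝ × E3)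
    (hp : R + 1 ≤ ‖p.2‖) : rint M f p = 0 := by
  simp [rint, hf.fderiv_zero hp, hf.zero p (by linarith)]

theorem CB.integrable_rint {f : ℝ × E3 → ℝ} {R : ℝ} (hf : CB f R) (hM : IsMCF M J) {t : ℝ}
    (ht : t ∈ J) : Integrable (fun x => rint M f (t, x)) (area (M t)) :=
  (EV.cont_full (EV.isFam_of_mcf hM) (hf.continuousOn_rint hM) (hf.rint_zero M)).1 t ht

theorem CB.continuousOn_rate {f : ℝ × E3 → ℝ} {R : ℝ} (hf : CB f R) (hM : IsMCF M J) :
    ContinuousOn (rate M f) J :=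
  cont_proof M J hM _ _ (hf.continuousOn_rint hM) (hf.rint_zero M)

theorem CB.continuousOn_area {f : ℝ × E3 → ℝ} {R : ℝ} (hf : CB f R) (hM : IsMCF M J) :
    ContinuousOn (fun t => ∫ x, f (t, x) ∂(area (M t))) J :=
  cont_proof M J hM _ _ hf.smooth.continuous.continuousOn hf.zero

/-- at smooth times the integrals are continuous in time -/
theorem WF.continuousAt (h : WF D μ M J I) {f : ℝ × E3 → ℝ} {R : ℝ} (hf : CB f R) {t : ℝ}
    (ht : t ∈ J) : ContinuousAt (fun s => ∫ x, f (s, x) ∂(μ s)) t := by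
  refine ((hf.continuousOn_area h.mcf).continuousAt (h.mcf.isOpen.mem_nhds ht)).congr ?_
  filter_upwards [h.mcf.isOpen.mem_nhds ht] with s hs
  rw [h.eq s hs]

/-- at smooth times Brakke's inequality is an identity -/
theorem WF.hasDerivAt (h : WF D μ M J I) {f : ℝ × E3 → ℝ} {R : ℝ} (hf : CB f R) {t : ℝ}
    (ht : t ∈ J) : HasDerivAt (fun s => ∫ x, f (s, x) ∂(μ s)) (rate M f t) t := by
  refine (ev_proof M J h.mcf f R hf.smooth hf.zero t ht).congr_of_eventuallyEq ?_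
  filter_upwards [h.mcf.isOpen.mem_nhds ht] with s hs
  rw [h.eq s hs]

theorem rint_add {f g : ℝ × E3 → ℝ} (hf : ContDiff ℝ 1 f) (hg : ContDiff ℝ 1 g) (p : ℝ × E3) :
    rint M (fun p => f p + g p) p = rint M f p + rint M g p := by
  unfold rint
  rw [fderiv_fun_add (hf.differentiable one_ne_zero p) (hg.differentiable one_ne_zero p)]
  simp only [add_apply]
  ring

theorem rint_const_mul {f : ℝ × E3 → ℝ} (hf : ContDiff ℝ 1 f) (c : ℝ) (p : ℝ × E3) :
    rint M (fun p => c * f p) p = c * rint M f p := by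
  unfold rint
  rw [fderiv_const_mul (hf.differentiable one_ne_zero p)]
  simp only [smul_apply, smul_eq_mul]
  ring

theorem rint_time_mul {f : ℝ × E3 → ℝ} (hf : ContDiff ℝ 1 f) {θ : ℝ → ℝ} (hθ : ContDiff ℝ 1 θ)
    (p : ℝ × E3) :
    rint M (fun p => θ p.1 * f p) p = deriv θ p.1 * f p + θ p.1 * rint M f p := by
  have h1 : HasFDerivAt (fun p : ℝ × E3 => θ p.1)
      ((ContinuousLinearMap.toSpanSingleton ℝ (deriv θ p.1)).comp (ContinuousLinearMap.fst ℝ ℝ E3))
      p :=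
    HasFDerivAt.comp p (g := θ) (f := Prod.fst)
      (hθ.differentiable one_ne_zero p.1).hasDerivAt.hasFDerivAt hasFDerivAt_fst
  have h2 := (h1.mul (hf.differentiable one_ne_zero p).hasFDerivAt).fderiv
  unfold rint
  rw [show (fun p : ℝ × E3 => θ p.1 * f p) = (fun p : ℝ × E3 => θ p.1) * f from rfl, h2]
  simp
  ring

theorem rate_add (hM : IsMCF M J) {f g : ℝ × E3 → ℝ} {R : ℝ} (hf : CB f R) (hg : CB g R) {t : ℝ}
    (ht : t ∈ J) : rate M (fun p => f p + g p) t = rate M f t + rate M g t := by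
  simp only [rate_eq, rint_add hf.smooth hg.smooth]
  exact integral_add (hf.integrable_rint hM ht) (hg.integrable_rint hM ht)

theorem rate_const_mul {f : ℝ × E3 → ℝ} (hf : ContDiff ℝ 1 f) (c t : ℝ) :
    rate M (fun p => c * f p) t = c * rate M f t := by
  simp only [rate_eq, rint_const_mul hf]
  exact integral_const_mul _ _

theorem rate_sub (hM : IsMCF M J) {f g : ℝ × E3 → ℝ} {R : ℝ} (hf : CB f R) (hg : CB g R) {t : ℝ}
    (ht : t ∈ J) : rate M (fun p => f p - g p) t = rate M f t - rate M g t := by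
  have h1 := rate_add hM hf (hg.const_mul (-1)) ht
  rw [rate_const_mul hg.smooth] at h1
  simpa [sub_eq_add_neg] using h1

theorem rate_time_mul (hM : IsMCF M J) {f : ℝ × E3 → ℝ} {R : ℝ} (hf : CB f R) {θ : ℝ → ℝ}
    (hθ : ContDiff ℝ 1 θ) {t : ℝ} (ht : t ∈ J) :
    rate M (fun p => θ p.1 * f p) t =
      deriv θ t * ∫ x, f (t, x) ∂(area (M t)) + θ t * rate M f t := by
  have := Chart.locFin_proof _ (hM.isSurf ht)
  simp only [rate_eq, rint_time_mul hf.smooth hθ]
  rw [integral_add ((hf.integrable t _).const_mul _) ((hf.integrable_rint hM ht).const_mul _),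
    integral_const_mul, integral_const_mul]

theorem rate_congr {f g : ℝ × E3 → ℝ} {t : ℝ} (h : ∀ x, f =ᶠ[𝓝 (t, x)] g) :
    rate M f t = rate M g t := by
  unfold rate
  congr 1
  funext x
  rw [(h x).fderiv_eq, (h x).self_of_nhds]

theorem rate_congr_time {f g : ℝ × E3 → ℝ} {t : ℝ} (h : ∀ᶠ s in 𝓝 t, ∀ x, f (s, x) = g (s, x)) :
    rate M f t = rate M g t :=
  rate_congr fun x => ((continuous_fst.tendsto ((t, x) : ℝ × E3)).eventually h).mono
    fun q hq => hq q.2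

/-- the rate vanishes at times outside the support -/
theorem rate_eq_zero {f : ℝ × E3 → ℝ} {t : ℝ} (h : ∀ x, (t, x) ∉ tsupport f) : rate M f t = 0 := by
  rw [rate_congr (g := fun _ => 0) fun x => notMem_tsupport_iff_eventuallyEq.mp (h x)]
  simp [rate]

/-! ### localisation in time -/

theorem exists_cut {a b : ℝ} (hab : a ≤ b) {O : Set ℝ} (hO : IsOpen O) (hI : Icc a b ⊆ O) :
    ∃ θ : ℝ → ℝ, ContDiff ℝ 1 θ ∧ HasCompactSupport θ ∧ tsupport θ ⊆ O ∧ (∀ t, 0 ≤ θ t) ∧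
      (∀ t, θ t ≤ 1) ∧ ∀ t ∈ Icc a b, ∀ᶠ s in 𝓝 t, θ s = 1 := by
  obtain ⟨δ, hδ, hsub⟩ := isCompact_Icc.exists_cthickening_subset_open hO hI
  let θ : ContDiffBump ((a + b) / 2) :=
    ⟨(b - a) / 2 + δ / 2, (b - a) / 2 + δ, by linarith, by linarith⟩
  refine ⟨θ, θ.contDiff, θ.hasCompactSupport, ?_, fun t => θ.nonneg, fun t => θ.le_one, ?_⟩
  · rw [θ.tsupport_eq]
    refine Subset.trans (fun t ht => ?_) hsub
    rw [mem_closedBall, Real.dist_eq, abs_le] at ht
    change -((b - a) / 2 + δ) ≤ _ ∧ _ ≤ (b - a) / 2 + δ at ht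
    refine mem_cthickening_of_dist_le t (max a (min t b)) δ _
      ⟨le_max_left _ _, max_le hab (min_le_right _ _)⟩ ?_
    rw [Real.dist_eq, abs_le]
    rcases le_total t b with h1 | h1
    · rw [min_eq_left h1]
      rcases le_total a t with h2 | h2
      · rw [max_eq_right h2]; constructor <;> linarith
      · rw [max_eq_left h2]; constructor <;> linarith [ht.1]
    · rw [min_eq_right h1, max_eq_right hab]; constructor <;> linarith [ht.2]
  · intro t ht
    refine θ.eventuallyEq_one_of_mem_ball ?_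
    rw [mem_ball, Real.dist_eq, abs_lt]
    change -((b - a) / 2 + δ / 2) < _ ∧ _ < (b - a) / 2 + δ / 2
    constructor <;> linarith [ht.1, ht.2]

/-- a function which is `C¹` for times in `O` agrees near `[a, b]` with a global one -/
theorem exists_global {a b : ℝ} (hab : a ≤ b) {O : Set ℝ} (hO : IsOpen O) (hI : Icc a b ⊆ O)
    {f : ℝ × E3 → ℝ} {R : ℝ} (hf : ContDiffOn ℝ 1 f (O ×ˢ univ))
    (hR : ∀ p : ℝ × E3, p.1 ∈ O → R ≤ ‖p.2‖ → f p = 0) :
    ∃ g : ℝ × E3 → ℝ, CB g R ∧ HasCompactSupport g ∧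
      (∀ t ∈ Icc a b, ∀ᶠ s in 𝓝 t, ∀ x, g (s, x) = f (s, x)) ∧
      ∀ p, ∃ c : ℝ, 0 ≤ c ∧ c ≤ 1 ∧ g p = c * f p ∧ (p.1 ∉ O → c = 0) := by
  obtain ⟨θ, h1, h2, h3, h4, h5, h6⟩ := exists_cut hab hO hI
  have hθ0 : ∀ s, s ∉ O → θ s = 0 := fun s hs => image_eq_zero_of_notMem_tsupport fun h => hs (h3 h)
  have hz : ∀ p : ℝ × E3, R ≤ ‖p.2‖ → θ p.1 * f p = 0 := fun p hp => by
    by_cases h : p.1 ∈ O
    · rw [hR p h hp, mul_zero]
    · rw [hθ0 _ h, zero_mul]
  refine ⟨fun p => θ p.1 * f p, ⟨?_, hz⟩, ?_, fun t ht => ?_,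
    fun p => ⟨θ p.1, h4 _, h5 _, rfl, hθ0 _⟩⟩
  · rw [contDiff_iff_contDiffAt]
    intro p
    by_cases hp : p.1 ∈ O
    · exact (h1.comp contDiff_fst).contDiffAt.mul
        (hf.contDiffAt ((hO.prod isOpen_univ).mem_nhds ⟨hp, mem_univ _⟩))
    · have h7 : ∀ᶠ q : ℝ × E3 in 𝓝 p, θ q.1 = 0 :=
        continuous_fst.continuousAt.eventually
          (notMem_tsupport_iff_eventuallyEq.mp fun h => hp (h3 h))
      refine (contDiffAt_const (c := (0 : ℝ))).congr_of_eventuallyEq ?_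
      filter_upwards [h7] with q hq
      rw [hq, zero_mul]
  · refine HasCompactSupport.intro (h2.isCompact.prod (isCompact_closedBall (0 : E3) R))
      fun p hp => ?_
    by_cases h : p.1 ∈ tsupport θ
    · refine hz p ?_
      by_contra h'
      exact hp ⟨h, mem_closedBall_zero_iff.mpr (not_le.mp h').le⟩
    · rw [image_eq_zero_of_notMem_tsupport h, zero_mul]
  · filter_upwards [h6 t ht] with s hs x
    simp only [hs, one_mul]

/-- **Brakke's inequality** for test functions defined near the interval -/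
theorem WF.brakke_loc (h : WF D μ M J I) {O : Set ℝ} (hO : IsOpen O) {f : ℝ × E3 → ℝ} {R : ℝ}
    (hf : ContDiffOn ℝ 1 f (O ×ˢ univ)) (hR : ∀ p : ℝ × E3, p.1 ∈ O → R ≤ ‖p.2‖ → f p = 0)
    (h0 : ∀ p : ℝ × E3, p.1 ∈ O → 0 ≤ f p) {a b : ℝ} (hab : a ≤ b) (hI : Icc a b ⊆ I)
    (hIO : Icc a b ⊆ O) : IntervalIntegrable (rate M f) volume a b ∧
      ∫ x, f (b, x) ∂(μ b) - ∫ x, f (a, x) ∂(μ a) ≤ ∫ t in a..b, rate M f t := by
  obtain ⟨g, hg, hc, he, hs⟩ := exists_global hab hO hIO hf hR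
  have hg0 : ∀ p, 0 ≤ g p := fun p => by
    obtain ⟨c, h1, -, h2, h3⟩ := hs p
    by_cases hp : p.1 ∈ O
    · rw [h2]; exact mul_nonneg h1 (h0 p hp)
    · rw [h2, h3 hp, zero_mul]
  obtain ⟨h1, h2⟩ := h.brakke g hg.smooth hc hg0 a b hab hI
  have e : EqOn (rate M g) (rate M f) (uIcc a b) := fun t ht =>
    rate_congr_time (he t (by rwa [uIcc_of_le hab] at ht))
  refine ⟨h1.congr fun t ht => e (uIoc_subset_uIcc ht), ?_⟩
  rw [intervalIntegral.integral_congr e] at h2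
  simpa only [(he a ⟨le_rfl, hab⟩).self_of_nhds, (he b ⟨hab, le_rfl⟩).self_of_nhds] using h2

theorem WF.brakke_CB (h : WF D μ M J I) {f : ℝ × E3 → ℝ} {R : ℝ} (hf : CB f R)
    (h0 : ∀ p, 0 ≤ f p) {a b : ℝ} (hab : a ≤ b) (hI : Icc a b ⊆ I) :
    IntervalIntegrable (rate M f) volume a b ∧
      ∫ x, f (b, x) ∂(μ b) - ∫ x, f (a, x) ∂(μ a) ≤ ∫ t in a..b, rate M f t :=
  h.brakke_loc isOpen_univ hf.smooth.contDiffOn (fun p _ => hf.zero p) (fun p _ => h0 p) hab hI
    (subset_univ _)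

/-- a spatial cutoff -/
theorem exists_space_cut (c : E3) {r r' : ℝ} (hr : 0 < r) (hrr : r < r') :
    ∃ χ : E3 → ℝ, ContDiff ℝ 1 χ ∧ (∀ x, 0 ≤ χ x) ∧ (∀ x, χ x ≤ 1) ∧
      (∀ x, ‖x - c‖ ≤ r → χ x = 1) ∧ (∀ x, r' ≤ ‖x - c‖ → χ x = 0) := by
  let χ : ContDiffBump c := ⟨r, r', hr, hrr⟩
  exact ⟨χ, χ.contDiff, fun x => χ.nonneg, fun x => χ.le_one,
    fun x hx => χ.one_of_mem_closedBall (mem_closedBall_iff_norm.mpr hx),
    fun x hx => χ.zero_of_le_dist (by rwa [dist_eq_norm])⟩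

/-- the rate of a signed test function is integrable -/
theorem WF.intervalIntegrable_rate (h : WF D μ M J I) {f : ℝ × E3 → ℝ} {R : ℝ} (hf : CB f R)
    {a b : ℝ} (hab : a ≤ b) (hI : Icc a b ⊆ I) : IntervalIntegrable (rate M f) volume a b := by
  obtain ⟨g, hg, hc, he, -⟩ := exists_global hab isOpen_univ (subset_univ _)
    hf.smooth.contDiffOn (fun p _ => hf.zero p)
  obtain ⟨K, hK⟩ := hg.smooth.continuous.bounded_above_of_compact_support hc
  have hK0 : 0 ≤ K := (norm_nonneg _).trans (hK 0)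
  obtain ⟨χ, c1, c2, -, c4, c5⟩ := exists_space_cut 0 (r := |R| + 1) (r' := |R| + 2)
    (by positivity) (by linarith)
  have hχ : CB (fun p : ℝ × E3 => K * χ p.2) (|R| + 2) :=
    ⟨contDiff_const.mul (c1.comp contDiff_snd), fun p hp => by
      rw [c5 _ (by simpa using hp), mul_zero]⟩
  have hg' : CB g (|R| + 2) := hg.mono (by linarith [le_abs_self R])
  have h1 := (h.brakke_CB (hg'.add hχ) (fun p => ?_) hab hI).1
  · have h2 := (h.brakke_CB hχ (fun p => mul_nonneg hK0 (c2 _)) hab hI).1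
    refine (h1.sub h2).congr_ae ?_
    rw [uIoc_of_le hab]
    filter_upwards [h.ae_restrict measurableSet_Ioc (Ioc_subset_Icc_self.trans hI),
      ae_restrict_mem measurableSet_Ioc] with t ht ht'
    rw [rate_add h.mcf hg' hχ ht, add_sub_cancel_right]
    exact rate_congr_time (he t (Ioc_subset_Icc_self ht'))
  · by_cases hp : R ≤ ‖p.2‖
    · rw [hg.zero p hp, zero_add]; exact mul_nonneg hK0 (c2 _)
    · rw [c4 _ (by rw [sub_zero]; linarith [le_abs_self R, not_le.mp hp]), mul_one]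
      have := hK p
      rw [Real.norm_eq_abs, abs_le] at this
      linarith [this.1]

/-! ### the loss functional -/

/-- the loss of the integral of `f` in the interval `[a, b]` beyond the smooth evolution -/
noncomputable def loss (μ : ℝ → Measure E3) (M : ℝ → Set E3) (f : ℝ × E3 → ℝ) (a b : ℝ) : ℝ :=
  ∫ x, f (a, x) ∂(μ a) - ∫ x, f (b, x) ∂(μ b) + ∫ t in a..b, rate M f t

theorem WF.loss_nonneg (h : WF D μ M J I) {f : ℝ × E3 → ℝ} {R : ℝ} (hf : CB f R)
    (h0 : ∀ p, 0 ≤ f p) {a b : ℝ} (hab : a ≤ b) (hI : Icc a b ⊆ I) : 0 ≤ loss μ M f a b := by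
  have := (h.brakke_CB hf h0 hab hI).2
  unfold loss
  linarith

theorem WF.loss_add_time (h : WF D μ M J I) {f : ℝ × E3 → ℝ} {R : ℝ} (hf : CB f R) {a b c : ℝ}
    (hab : a ≤ b) (hbc : b ≤ c) (hI : Icc a c ⊆ I) :
    loss μ M f a c = loss μ M f a b + loss μ M f b c := by
  unfold loss
  rw [← intervalIntegral.integral_add_adjacent_intervals
    (h.intervalIntegrable_rate hf hab ((Icc_subset_Icc_right hbc).trans hI))
    (h.intervalIntegrable_rate hf hbc ((Icc_subset_Icc_left hab).trans hI))]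
  ring

theorem WF.integral_rate_add (h : WF D μ M J I) {f g : ℝ × E3 → ℝ} {R : ℝ} (hf : CB f R)
    (hg : CB g R) {a b : ℝ} (hab : a ≤ b) (hI : Icc a b ⊆ I) :
    ∫ t in a..b, rate M (fun p => f p + g p) t =
      (∫ t in a..b, rate M f t) + ∫ t in a..b, rate M g t := by
  rw [← intervalIntegral.integral_add (h.intervalIntegrable_rate hf hab hI)
    (h.intervalIntegrable_rate hg hab hI)]
  refine intervalIntegral.integral_congr_ae ?_
  rw [uIoc_of_le hab]
  filter_upwards [h.ae] with t ht ht'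
  exact rate_add h.mcf hf hg (ht (hI (Ioc_subset_Icc_self ht')))

theorem WF.loss_add (h : WF D μ M J I) {f g : ℝ × E3 → ℝ} {R : ℝ} (hf : CB f R) (hg : CB g R)
    {a b : ℝ} (hab : a ≤ b) (hI : Icc a b ⊆ I) :
    loss μ M (fun p => f p + g p) a b = loss μ M f a b + loss μ M g a b := by
  have := h.locFin (hI ⟨le_rfl, hab⟩)
  have := h.locFin (hI ⟨hab, le_rfl⟩)
  unfold loss
  rw [h.integral_rate_add hf hg hab hI, integral_add (hf.integrable a _) (hg.integrable a _),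
    integral_add (hf.integrable b _) (hg.integrable b _)]
  ring

theorem loss_const_mul {f : ℝ × E3 → ℝ} (hf : ContDiff ℝ 1 f) (c a b : ℝ) :
    loss μ M (fun p => c * f p) a b = c * loss μ M f a b := by
  unfold loss
  simp only [rate_const_mul hf, integral_const_mul, intervalIntegral.integral_const_mul]
  ring

theorem WF.loss_sub (h : WF D μ M J I) {f g : ℝ × E3 → ℝ} {R : ℝ} (hf : CB f R) (hg : CB g R)
    {a b : ℝ} (hab : a ≤ b) (hI : Icc a b ⊆ I) :
    loss μ M (fun p => f p - g p) a b = loss μ M f a b - loss μ M g a b := by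
  have h1 := h.loss_add hf (hg.const_mul (-1)) hab hI
  rw [loss_const_mul hg.smooth] at h1
  simpa [sub_eq_add_neg] using h1

theorem WF.loss_mono (h : WF D μ M J I) {f g : ℝ × E3 → ℝ} {R : ℝ} (hf : CB f R) (hg : CB g R)
    (hfg : ∀ p, f p ≤ g p) {a b : ℝ} (hab : a ≤ b) (hI : Icc a b ⊆ I) :
    loss μ M f a b ≤ loss μ M g a b := by
  have h1 := h.loss_nonneg (hg.sub hf) (fun p => sub_nonneg.mpr (hfg p)) hab hI
  rw [h.loss_sub hg hf hab hI] at h1
  linarith

theorem WF.abs_loss_le (h : WF D μ M J I) {f g : ℝ × E3 → ℝ} {R : ℝ} (hf : CB f R) (hg : CB g R)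
    (hfg : ∀ p, |f p| ≤ g p) {a b : ℝ} (hab : a ≤ b) (hI : Icc a b ⊆ I) :
    |loss μ M f a b| ≤ loss μ M g a b := by
  have h1 := h.loss_mono hf hg (fun p => (le_abs_self _).trans (hfg p)) hab hI
  have h2 := h.loss_mono (hf.const_mul (-1)) hg
    (fun p => by have := (neg_le_abs _).trans (hfg p); linarith) hab hI
  rw [loss_const_mul hf.smooth] at h2
  rw [abs_le]
  constructor <;> linarith

/-- the loss in a smaller interval is smaller -/
theorem WF.loss_mono_time (h : WF D μ M J I) {f : ℝ × E3 → ℝ} {R : ℝ} (hf : CB f R)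
    (h0 : ∀ p, 0 ≤ f p) {a' a b b' : ℝ} (ha : a' ≤ a) (hab : a ≤ b) (hb : b ≤ b')
    (hI : Icc a' b' ⊆ I) : loss μ M f a b ≤ loss μ M f a' b' := by
  rw [h.loss_add_time hf ha (hab.trans hb) hI,
    h.loss_add_time hf hab hb ((Icc_subset_Icc_left ha).trans hI)]
  have h1 := h.loss_nonneg hf h0 ha ((Icc_subset_Icc_right (hab.trans hb)).trans hI)
  have h2 := h.loss_nonneg hf h0 hb ((Icc_subset_Icc_left (ha.trans hab)).trans hI)
  linarith

end Vale.Agent.P218G
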