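import Vale.Agent.P218G.ConvL2
import Vale.Agent.P218G.HuB
import Vale.Agent.P218G.Spec
import Vale.Agent.P218FT.ConvD
import Mathlib.Geometry.Manifold.SmoothApprox

/-! Smooth convergence of the rescalings of a weak flow, from the two-point bounds. -/

open MeasureTheory Set Filter Topology Metric
open scoped ENNReal NNReal RealInnerProductSpace ContDiff

namespace Vale.Agent.P218G.CL

open Vale.Agent.P218FT Vale.Agent.P218G.WL
open Vale.Agent.P218FT.Conv hiding GD exists_gd exists_cyl exists_graphs comp_loc comp_proof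

variable {D : ℝ} {μ : ℝ → Measure E3} {M : ℝ → Set E3} {J I : Set ℝ} {ι : Type}

theorem reg_of_notMem (h : WF D μ M J I) {p : ℝ × E3} (hp : p.1 ∈ I) (hx : p.2 ∉ M p.1) :
    Reg M p :=
  (h.closed p.1 hp p.2 hx).mono fun _ hq hq' => absurd hq' hq

/-- a weak flow is a smooth flow in the set of its regular points -/
theorem mcfOn (h : WF D μ M J I) : MCFOn M {p | p.1 ∈ I ∧ Reg M p} :=
  ⟨(h.isOpen.preimage continuous_fst).inter isOpen_setOfPred_eventually_nhds,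
    fun p hp => h.closed p.1 hp.1 p.2, fun _ hp hx => hp.2.self_of_nhds hx⟩

/-- the masses are almost decreasing -/
theorem semi (h : WF D μ M J I) {φ : E3 → ℝ} {R : ℝ} (hφ : ContDiff ℝ 1 φ)
    (hR : ∀ x, R ≤ ‖x‖ → φ x = 0) (h0 : ∀ x, 0 ≤ φ x) {t : ℝ} (ht : t ∈ I) {ε : ℝ} (hε : 0 < ε) :
    ∀ᶠ u in 𝓝 t, (u ≤ t → ∫ x, φ x ∂(μ t) ≤ ∫ x, φ x ∂(μ u) + ε) ∧
      (t ≤ u → ∫ x, φ x ∂(μ u) ≤ ∫ x, φ x ∂(μ t) + ε) := by
  obtain ⟨δ, hδ, hs⟩ := nhds_basis_closedBall.mem_iff.1 (h.isOpen.mem_nhds ht)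
  rw [Real.closedBall_eq_Icc] at hs
  have hf : CB (fun p : ℝ × E3 => φ p.2) R := ⟨hφ.comp contDiff_snd, fun p hp => hR _ hp⟩
  have hle : t - δ ≤ t + δ := by linarith
  have hi := h.intervalIntegrable_rate hf hle hs
  have hn : Icc (t - δ) (t + δ) ∈ 𝓝 t := Icc_mem_nhds (by linarith) (by linarith)
  have hc := intervalIntegral.continuousOn_primitive_interval' hi (a := t)
    (by rw [uIcc_of_le hle]; exact mem_of_mem_nhds hn)
  rw [uIcc_of_le hle] at hc
  have h1 := (hc.continuousAt hn).abs.eventually (gt_mem_nhds (by simpa using hε))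
  filter_upwards [h1, hn] with u h2 h3
  have h4 := abs_lt.1 h2
  constructor
  · intro hu
    have := (h.brakke_CB hf (fun p => h0 _) hu
      ((Icc_subset_Icc h3.1 (by linarith)).trans hs)).2
    rw [intervalIntegral.integral_symm] at this
    linarith [h4.1]
  · intro hu
    have := (h.brakke_CB hf (fun p => h0 _) hu
      ((Icc_subset_Icc (by linarith) h3.2).trans hs)).2
    linarith [h4.2]

/-- smooth times close to the rescaled times -/
theorem exists_times {U : Filter ι} {lam : ι → ℝ} (hl : Tendsto lam U atTop) {b s : ℝ}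
    (hs : ∀ᶠ i in U, b + s / lam i ^ 2 ∈ I) {F : ℝ → Filter ℝ} (hF : ∀ t ∈ I, ∃ᶠ u in F t, u ∈ J)
    (hF' : ∀ t, F t ≤ 𝓝 t) {P : ι → ℝ → Prop}
    (hP : ∀ᶠ i in U, ∀ᶠ u in F (b + s / lam i ^ 2), P i u) :
    ∃ τ : ι → ℝ, Tendsto τ U (𝓝 s) ∧
      ∀ᶠ i in U, b + τ i / lam i ^ 2 ∈ J ∧ P i (b + τ i / lam i ^ 2) := by
  classical
  have h1 : ∀ᶠ i in U, ∃ u, u ∈ J ∧ P i u ∧ |(u - b) * lam i ^ 2 - s| < (lam i)⁻¹ := by
    filter_upwards [hl.eventually_gt_atTop 0, hs, hP] with i l0 a1 a2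
    have hc : Continuous fun u : ℝ => |(u - b) * lam i ^ 2 - s| := by fun_prop
    have a3 : ∀ᶠ u in 𝓝 (b + s / lam i ^ 2), |(u - b) * lam i ^ 2 - s| < (lam i)⁻¹ :=
      hc.continuousAt.eventually (gt_mem_nhds (by
        simp only [Sc.tdn_tup l0.ne', sub_self, abs_zero]
        exact inv_pos.2 l0))
    exact ((hF _ a1).and_eventually (a2.and (hF' _ a3))).exists
  let u : ι → ℝ := fun i =>
    if hi : ∃ u, u ∈ J ∧ P i u ∧ |(u - b) * lam i ^ 2 - s| < (lam i)⁻¹ then hi.choose else 0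
  have h2 : ∀ᶠ i in U, u i ∈ J ∧ P i (u i) ∧ |(u i - b) * lam i ^ 2 - s| < (lam i)⁻¹ :=
    h1.mono fun i hi => by
      simp only [u, dif_pos hi]
      exact hi.choose_spec
  refine ⟨fun i => (u i - b) * lam i ^ 2, ?_, ?_⟩
  · rw [tendsto_iff_norm_sub_tendsto_zero]
    exact squeeze_zero' (Eventually.of_forall fun _ => norm_nonneg _)
      (h2.mono fun i hi => hi.2.2.le) (tendsto_inv_atTop_zero.comp hl)
  · filter_upwards [h2, hl.eventually_gt_atTop 0] with i hi l0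
    rw [Sc.tup_tdn l0.ne']
    exact ⟨hi.1, hi.2.1⟩

theorem integral_scaleM {lam : ℝ} (hl : 0 < lam) (x₀ : E3) (b s : ℝ) (φ : E3 → ℝ) :
    ∫ y, φ y ∂(scaleM lam x₀ b μ s) =
      lam ^ 2 * ∫ x, φ (lam • (x - x₀)) ∂(μ (b + s / lam ^ 2)) := by
  rw [scaleM, integral_smul_measure, (Sc.embDn hl.ne' x₀).integral_map,
    ENNReal.toReal_ofReal (by positivity), smul_eq_mul]

theorem mratio_scaleM {lam : ℝ} (hl : 0 < lam) (x₀ : E3) {b s : ℝ}
    (h : MRatio D (μ (b + s / lam ^ 2))) : MRatio D (scaleM lam x₀ b μ s) := by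
  intro p r hr
  rw [scaleM, Measure.smul_apply, (Sc.embDn hl.ne' x₀).map_apply, Sc.preimage_ball hl, smul_eq_mul]
  refine (mul_le_mul_right (h _ _ (div_pos hr hl)) _).trans (le_of_eq ?_)
  rw [← ENNReal.ofReal_mul (by positivity)]
  congr 1
  field_simp

theorem abs_integral_sub_le {ν : Measure E3} (hν : MRatio D ν) {f g : E3 → ℝ} {R η : ℝ} (hR : 0 < R)
    (hη : 0 ≤ η) (hf : Continuous f) (hg : Continuous g) (f0 : ∀ x, R ≤ ‖x‖ → f x = 0)
    (g0 : ∀ x, R ≤ ‖x‖ → g x = 0) (h : ∀ x, |f x - g x| ≤ η) :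
    |∫ x, f x ∂ν - ∫ x, g x ∂ν| ≤ η * (max D 0 * R ^ 2) := by
  have := hν.locFin
  have cs : ∀ k : E3 → ℝ, (∀ x, R ≤ ‖x‖ → k x = 0) → HasCompactSupport k := fun k hk =>
    HasCompactSupport.intro (isCompact_closedBall 0 R) fun x hx =>
      hk x (not_le.1 (mt mem_closedBall_zero_iff.2 hx)).le
  rw [← integral_sub (hf.integrable_of_hasCompactSupport (cs f f0))
    (hg.integrable_of_hasCompactSupport (cs g g0)),
    ← setIntegral_eq_integral_of_forall_compl_eq_zero (s := ball (0 : E3) R) fun x hx => by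
      have := not_lt.1 (mt mem_ball_zero_iff.2 hx)
      rw [f0 x this, g0 x this, sub_zero]]
  refine (norm_setIntegral_le_of_norm_le_const (f := fun x => f x - g x) (C := η)
    (hν.ball_lt_top 0 R) fun x _ => h x).trans ?_
  gcongr
  exact ENNReal.toReal_le_of_le_ofReal (by positivity) (hν.mono (le_max_left D 0) 0 R hR)

/-- weak convergence can be tested on nonnegative `C¹` functions -/
theorem weak_of_smooth {U : Filter ι} {m : ι → Measure E3} {ν : Measure E3}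
    (hm : ∀ᶠ i in U, MRatio D (m i)) (hν : MRatio D ν)
    (h : ∀ (φ : E3 → ℝ) (R : ℝ), ContDiff ℝ 1 φ → (∀ x, R ≤ ‖x‖ → φ x = 0) → (∀ x, 0 ≤ φ x) →
      Tendsto (fun i => ∫ x, φ x ∂(m i)) U (𝓝 (∫ x, φ x ∂ν)))
    {φ : E3 → ℝ} (hφ : Continuous φ) (hc : HasCompactSupport φ) :
    Tendsto (fun i => ∫ x, φ x ∂(m i)) U (𝓝 (∫ x, φ x ∂ν)) := by
  obtain ⟨R, hR0, hR⟩ := hc.isCompact.isBounded.subset_ball_lt 0 0
  have φ0 : ∀ x, R ≤ ‖x‖ → φ x = 0 := fun x hx => by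
    by_contra h0
    exact not_lt.2 hx (mem_ball_zero_iff.1 (hR (subset_tsupport _ h0)))
  have cs : ∀ (k : E3 → ℝ) (ρ : ℝ), (∀ x, ρ ≤ ‖x‖ → k x = 0) → HasCompactSupport k := fun k ρ hk =>
    HasCompactSupport.intro (isCompact_closedBall 0 ρ) fun x hx =>
      hk x (not_le.1 (mt mem_closedBall_zero_iff.2 hx)).le
  have h1 : ∀ g : E3 → ℝ, ContDiff ℝ 1 g → (∀ x, R ≤ ‖x‖ → g x = 0) →
      Tendsto (fun i => ∫ x, g x ∂(m i)) U (𝓝 (∫ x, g x ∂ν)) := by
    intro g hg g0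
    obtain ⟨K, hK⟩ := hg.continuous.bounded_above_of_compact_support (cs g R g0)
    have hK0 : 0 ≤ K := (norm_nonneg _).trans (hK 0)
    obtain ⟨χ, c1, c2, -, c4, c5⟩ := exists_space_cut (0 : E3) hR0 (lt_add_one R)
    simp only [sub_zero] at c4 c5
    have a1 := h (fun x => K * χ x) (R + 1) (contDiff_const.mul c1)
      (fun x hx => by simp [c5 x hx]) fun x => mul_nonneg hK0 (c2 x)
    have a2 := h (fun x => g x + K * χ x) (R + 1) (hg.add (contDiff_const.mul c1))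
      (fun x hx => by simp [c5 x hx, g0 x (by linarith)]) fun x => by
        by_cases hx : ‖x‖ ≤ R
        · have := (abs_le.1 (hK x)).1
          rw [c4 x hx]
          linarith
        · rw [g0 x (not_le.1 hx).le, zero_add]
          exact mul_nonneg hK0 (c2 x)
    have e : ∀ κ : Measure E3, MRatio D κ →
        ∫ x, (g x + K * χ x) ∂κ - ∫ x, K * χ x ∂κ = ∫ x, g x ∂κ := fun κ hκ => by
      have := hκ.locFin
      rw [integral_add (hg.continuous.integrable_of_hasCompactSupport (cs g R g0))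
        ((c1.continuous.integrable_of_hasCompactSupport (cs χ _ c5)).const_mul K),
        add_sub_cancel_right]
    rw [← e ν hν]
    exact (a2.sub a1).congr' (hm.mono fun i hi => e _ hi)
  rw [Metric.tendsto_nhds]
  intro ε hε
  set A := max D 0 * R ^ 2 with hA
  have hA0 : 0 ≤ A := by positivity
  have hη : 0 < ε / (3 * (A + 1)) := by positivity
  obtain ⟨g, g1, g2, g3⟩ := hφ.exists_contDiff_approx 1 (ε := fun _ => ε / (3 * (A + 1)))
    continuous_const fun _ => hη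
  have g0 : ∀ x, R ≤ ‖x‖ → g x = 0 := fun x hx => by
    by_contra h0
    exact g3 h0 (φ0 x hx)
  have key : ∀ κ : Measure E3, MRatio D κ → |∫ x, g x ∂κ - ∫ x, φ x ∂κ| ≤ ε / 3 := fun κ hκ => by
    refine (abs_integral_sub_le hκ hR0 hη.le g1.continuous hφ g0 φ0 fun x => (g2 x).le).trans ?_
    rw [← hA, div_mul_eq_mul_div, div_le_div_iff₀ (by positivity) (by norm_num)]
    nlinarith
  filter_upwards [hm, Metric.tendsto_nhds.1 (h1 g g1 g0) (ε / 3) (by positivity)] with i a1 a2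
  have b1 := abs_le.1 (key _ a1)
  have b2 := abs_le.1 (key _ hν)
  rw [Real.dist_eq, abs_lt] at a2 ⊢
  constructor <;> linarith [a2.1, a2.2, b1.1, b1.2, b2.1, b2.2]

/-- smooth convergence of the supports gives weak convergence of the measures at all times -/
theorem weak_of_slim (h : WF D μ M J I) {U : Filter ι} [U.NeBot] {lam : ι → ℝ}
    (hl : Tendsto lam U atTop) {x₀ : E3} {b : ℝ} {L : ℝ → Set E3} {I' : Set ℝ}
    (hS : SLim U (fun i => scaleFlow (lam i) x₀ b M) L I') {s : ℝ} (hs' : s ∈ I')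
    (hs : ∀ᶠ i in U, b + s / lam i ^ 2 ∈ I) {φ : E3 → ℝ} (hφ : Continuous φ)
    (hc : HasCompactSupport φ) :
    Tendsto (fun i => ∫ x, φ x ∂(scaleM (lam i) x₀ b μ s)) U (𝓝 (∫ x, φ x ∂(area (L s)))) := by
  have l0 := hl.eventually_gt_atTop 0
  have hsl : ∀ τ : ι → ℝ, Tendsto τ U (𝓝 s) → (∀ᶠ i in U, b + τ i / lam i ^ 2 ∈ J) →
      SLimS U (fun i => scaleFlow (lam i) x₀ b M (τ i)) (L s) ∧
      (∀ᶠ i in U, IsSurf (scaleFlow (lam i) x₀ b M (τ i))) ∧
      ∀ᶠ i in U, AreaRatio D (scaleFlow (lam i) x₀ b M (τ i)) := fun τ h1 h2 =>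
    ⟨hS.slice h1 hs', by
      filter_upwards [l0, h2] with i a1 a2 using (h.isSurf a2).scale a1.ne' x₀, by
      filter_upwards [l0, h2] with i a1 a2 using (h.areaRatio a2).scale a1 x₀⟩
  obtain ⟨τ₀, t1, t2⟩ := exists_times hl hs (F := fun t => 𝓝[<] t) (fun t ht => h.frequently_left ht)
    (fun t => nhdsWithin_le_nhds) (P := fun _ _ => True) (by simp)
  obtain ⟨s1, s2, s3⟩ := hsl τ₀ t1 (t2.mono fun i hi => hi.1)
  have hLA : AreaRatio D (L s) := s1.ratio s2 s3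
  refine weak_of_smooth (D := D) ?_ hLA (fun ψ R p1 p2 p3 => ?_) hφ hc
  · filter_upwards [l0, hs] with i a1 a2 using mratio_scaleM a1 x₀ (h.ratio _ a2)
  have pc : HasCompactSupport ψ := HasCompactSupport.intro (isCompact_closedBall 0 R) fun x hx =>
    p2 x (not_le.1 (mt mem_closedBall_zero_iff.2 hx)).le
  have hsemi : ∀ᶠ i in U, ∀ᶠ u in 𝓝 (b + s / lam i ^ 2),
      (u ≤ b + s / lam i ^ 2 → ∫ x, ψ (lam i • (x - x₀)) ∂(μ (b + s / lam i ^ 2)) ≤
        ∫ x, ψ (lam i • (x - x₀)) ∂(μ u) + (lam i ^ 3)⁻¹) ∧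
      (b + s / lam i ^ 2 ≤ u → ∫ x, ψ (lam i • (x - x₀)) ∂(μ u) ≤
        ∫ x, ψ (lam i • (x - x₀)) ∂(μ (b + s / lam i ^ 2)) + (lam i ^ 3)⁻¹) := by
    filter_upwards [l0, hs] with i a1 a2
    refine semi h (φ := fun x => ψ (lam i • (x - x₀))) (R := ‖x₀‖ + R / lam i)
      (p1.comp (by fun_prop)) (fun x hx => p2 _ ?_) (fun x => p3 _) a2 (by positivity)
    rw [norm_smul, Real.norm_of_nonneg a1.le, ← div_le_iff₀' a1]
    linarith [norm_sub_norm_le x x₀]
  have lim : ∀ τ : ι → ℝ, Tendsto τ U (𝓝 s) → (∀ᶠ i in U, b + τ i / lam i ^ 2 ∈ J) →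
      Tendsto (fun i => lam i ^ 2 * ∫ x, ψ (lam i • (x - x₀)) ∂(μ (b + τ i / lam i ^ 2))) U
        (𝓝 (∫ x, ψ x ∂(area (L s)))) := fun τ h1 h2 => by
    obtain ⟨q1, q2, -⟩ := hsl τ h1 h2
    refine (q1.tendsto_area q2 q1.isSurf p1.continuous pc).congr' ?_
    filter_upwards [l0, h2] with i a1 a2
    rw [scaleFlow_apply, integral_scale a1, h.eq _ a2, smul_eq_mul]
  obtain ⟨τ₁, a1, a2⟩ := exists_times hl hs (F := fun t => 𝓝[<] t)
    (fun t ht => h.frequently_left ht) (fun t => nhdsWithin_le_nhds)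
    (P := fun i u => ∫ x, ψ (lam i • (x - x₀)) ∂(μ (b + s / lam i ^ 2)) ≤
      ∫ x, ψ (lam i • (x - x₀)) ∂(μ u) + (lam i ^ 3)⁻¹) (by
      filter_upwards [hsemi] with i hi
      filter_upwards [nhdsWithin_le_nhds hi, self_mem_nhdsWithin] with u c1 c2
        using c1.1 (le_of_lt c2))
  obtain ⟨τ₂, b1, b2⟩ := exists_times hl hs (F := fun t => 𝓝[>] t)
    (fun t ht => h.frequently_right ht) (fun t => nhdsWithin_le_nhds)
    (P := fun i u => ∫ x, ψ (lam i • (x - x₀)) ∂(μ u) ≤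
      ∫ x, ψ (lam i • (x - x₀)) ∂(μ (b + s / lam i ^ 2)) + (lam i ^ 3)⁻¹) (by
      filter_upwards [hsemi] with i hi
      filter_upwards [nhdsWithin_le_nhds hi, self_mem_nhdsWithin] with u c1 c2
        using c1.2 (le_of_lt c2))
  have z : Tendsto (fun i => (lam i)⁻¹) U (𝓝 0) := tendsto_inv_atTop_zero.comp hl
  have u1 := (lim τ₁ a1 (a2.mono fun i hi => hi.1)).add z
  have u2 := (lim τ₂ b1 (b2.mono fun i hi => hi.1)).sub z
  rw [add_zero] at u1
  rw [sub_zero] at u2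
  have e : ∀ l : ℝ, 0 < l → l ^ 2 * (l ^ 3)⁻¹ = l⁻¹ := fun l hl => by field_simp
  refine tendsto_of_tendsto_of_tendsto_of_le_of_le' u2 u1 ?_ ?_
  · filter_upwards [l0, b2] with i c1 c2
    have := mul_le_mul_of_nonneg_left c2.2 (sq_nonneg (lam i))
    rw [mul_add, e _ c1] at this
    rw [integral_scaleM c1]
    linarith
  · filter_upwards [l0, a2] with i c1 c2
    have := mul_le_mul_of_nonneg_left c2.2 (sq_nonneg (lam i))
    rw [mul_add, e _ c1] at this
    rw [integral_scaleM c1]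
    exact this

/-- **Smooth convergence of the rescalings** of a weak flow, from regularity with two-point bounds
and the monotonicity of the density ratios -/
theorem conv_w {G a b : ℝ} (hab : a < b) (h : WF D μ M J (Ioo a b)) (hG : ∀ t ∈ J, LGB G (M t))
    (x₀ : E3)
    (hT : ∀ R : ℝ, ∃ r C t₁ : ℝ, 0 < r ∧ 0 < C ∧ t₁ < b ∧ ∀ t ∈ Ioo t₁ b, ∀ x ∈ M t,
      ‖x - x₀‖ ≤ R * √(b - t) → Reg M (t, x) ∧ TwoPt (M t) x (r * √(b - t)) (C / √(b - t)))
    (hmono : MonotoneOn (fun r => densM μ x₀ b r) (Ioo 0 √(b - a)))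
    (U : Ultrafilter ι) {lam : ι → ℝ} (hl : Tendsto lam U atTop) :
    ∃ S : Set E3, IsShr S ∧ InC D G (ssFlow S) (Iio 0) ∧
      SLim U (fun i => scaleFlow (lam i) x₀ b M) (ssFlow S) (Iio 0) ∧
      Tendsto (fun r => densM μ x₀ b r) (𝓝[>] 0) (𝓝 (gA S 0 1)) ∧
      ∀ s < 0, ∀ φ : E3 → ℝ, Continuous φ → HasCompactSupport φ →
        Tendsto (fun i => ∫ x, φ x ∂(scaleM (lam i) x₀ b μ s)) U
          (𝓝 (∫ x, φ x ∂(area (ssFlow S s)))) := by
  have l0 := hl.eventually_gt_atTop 0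
  have hin : ∀ s < 0, ∀ᶠ i in (U : Filter ι), b + s / lam i ^ 2 ∈ Ioo a b :=
    fun s hs => (ev_time hl hab s).mono fun i hi => ⟨hi.2 s le_rfl, tup_lt hi.1 hs⟩
  obtain ⟨L, hL, hS⟩ := comp_on U (fun i => scaleFlow (lam i) x₀ b M)
    (fun i => scaleReg (lam i) x₀ b {p | p.1 ∈ Ioo a b ∧ Reg M p}) isOpen_Iio
    (l0.mono fun i hi => (mcfOn h).scale hi x₀ b)
    (fun t ht x => by
      have ht' : t < 0 := ht
      have q0 : 0 < √(-(t / 2)) := Real.sqrt_pos.2 (by linarith)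
      obtain ⟨r, C, t₁, r0, C0, h1, h2⟩ := hT ((‖x‖ + 1) / √(-(t / 2)))
      refine ⟨Ioo (2 * t) (t / 2) ×ˢ ball x 1, prod_mem_nhds (Ioo_mem_nhds (by linarith)
        (by linarith)) (ball_mem_nhds x one_pos), r * √(-(t / 2)), C / √(-(t / 2)),
        by positivity, ?_⟩
      filter_upwards [ev_time hl h1 (2 * t), ev_time hl hab (2 * t)] with i hi hi'
      have l0 := hi.1
      have key : ∀ p ∈ Ioo (2 * t) (t / 2) ×ˢ ball x 1, p.2 ∈ scaleFlow (lam i) x₀ b M p.1 →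
          Reg M (b + p.1 / lam i ^ 2, x₀ + (lam i)⁻¹ • p.2) ∧
          TwoPt (scaleFlow (lam i) x₀ b M p.1) p.2 (r * √(-(t / 2))) (C / √(-(t / 2))) := by
        intro p hp hm
        have hq : √(-(t / 2)) ≤ √(-p.1) := Real.sqrt_le_sqrt (by linarith [hp.1.2])
        have hy : ‖p.2‖ ≤ ‖x‖ + 1 := by
          have h3 := mem_ball_iff_norm.1 hp.2
          linarith [norm_le_norm_add_norm_sub' p.2 x, norm_sub_rev p.2 x]
        have h3 := h2 (b + p.1 / lam i ^ 2) ⟨hi.2 _ hp.1.1.le, tup_lt l0 (by linarith [hp.1.2])⟩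
          _ hm (by
            rw [add_sub_cancel_left, norm_smul, norm_inv, Real.norm_eq_abs, abs_of_pos l0,
              sqrt_tup l0, ← mul_div_assoc, inv_mul_eq_div]
            refine div_le_div_of_nonneg_right (hy.trans ?_) l0.le
            rw [div_mul_eq_mul_div, le_div_iff₀ q0]
            exact mul_le_mul_of_nonneg_left hq (by positivity))
        rw [sqrt_tup l0] at h3
        refine ⟨h3.1, (twoPt_scale l0 hm _ _).2 (twoPt_mono h3.2 ?_ ?_)⟩
        · rw [mul_div_assoc]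
          gcongr
        · rw [div_div_eq_mul_div, div_mul_eq_mul_div]
          gcongr
      refine ⟨fun p hp => ?_, fun p hp hm => (key p hp hm).2⟩
      have hI : b + p.1 / lam i ^ 2 ∈ Ioo a b :=
        ⟨hi'.2 _ hp.1.1.le, tup_lt l0 (by linarith [hp.1.2])⟩
      refine ⟨hI, ?_⟩
      by_cases hm : p.2 ∈ scaleFlow (lam i) x₀ b M p.1
      · exact (key p hp hm).1
      · exact reg_of_notMem h hI hm)
  have hsl : ∀ s < 0, ∃ τ : ι → ℝ, Tendsto τ U (𝓝 s) ∧ (∀ᶠ i in U, b + τ i / lam i ^ 2 ∈ J) ∧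
      SLimS U (fun i => scaleFlow (lam i) x₀ b M (τ i)) (L s) ∧
      (∀ᶠ i in U, IsSurf (scaleFlow (lam i) x₀ b M (τ i))) ∧
      ∀ᶠ i in U, AreaRatio D (scaleFlow (lam i) x₀ b M (τ i)) := fun s hs => by
    obtain ⟨τ, t1, t2⟩ := exists_times hl (hin s hs) (F := fun t => 𝓝[<] t)
      (fun t ht => h.frequently_left ht) (fun t => nhdsWithin_le_nhds) (P := fun _ _ => True)
      (by simp)
    exact ⟨τ, t1, t2.mono fun i hi => hi.1, hS.slice t1 hs, by
      filter_upwards [l0, t2] with i a1 a2 using (h.isSurf a2.1).scale a1.ne' x₀, by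
      filter_upwards [l0, t2] with i a1 a2 using (h.areaRatio a2.1).scale a1 x₀⟩
  have hA : ∀ s < 0, AreaRatio D (L s) := fun s hs => by
    obtain ⟨τ, -, -, t3, t4, t5⟩ := hsl s hs
    exact t3.ratio t4 t5
  have hG' : ∀ s < 0, LGB G (L s) := fun s hs => by
    obtain ⟨τ, -, t2, t3, t4, -⟩ := hsl s hs
    refine t3.lgb t4 ?_
    filter_upwards [l0, t2] with i a1 a2
      using (hG _ a2).scale a1 (h.isSurf a2).1.measurableSet x₀
  have q0 : 0 < √(b - a) := Real.sqrt_pos.2 (sub_pos.2 hab)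
  have hΘ := hmono.tendsto_nhdsWithin_Ioo_right (nonempty_Ioo.2 q0)
    ⟨0, by rintro _ ⟨r, -, rfl⟩; exact densM_nonneg _ _ _ _⟩
  set Θ := sInf ((fun r => densM μ x₀ b r) '' Ioo 0 √(b - a))
  have hc : ∀ s < 0, gA (L s) 0 √(0 - s) = Θ := fun s hs => by
    have s0 : 0 < √(0 - s) := Real.sqrt_pos.2 (by linarith)
    obtain ⟨τ, t1, t2, t3, t4, t5⟩ := hsl s hs
    have r1 : Tendsto (fun i => √(0 - τ i)) U (𝓝 √(0 - s)) := (t1.const_sub 0).sqrt
    have r2 : ∀ᶠ i in (U : Filter ι), τ i < 0 := t1.eventually (gt_mem_nhds hs)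
    refine tendsto_nhds_unique (t3.tendsto_gA t4 t5 (y₀ := 0) tendsto_const_nhds r1 s0) ?_
    have h1 : Tendsto (fun i => √(0 - τ i) / lam i) U (𝓝[>] 0) :=
      tendsto_nhdsWithin_iff.2 ⟨r1.div_atTop hl, by
        filter_upwards [l0, r2] with i a1 a2 using div_pos (Real.sqrt_pos.2 (by linarith)) a1⟩
    refine (hΘ.comp h1).congr' ?_
    filter_upwards [l0, r2, t2] with i hi a1 a2
    rw [scaleFlow_apply, gA_scale hi, Function.comp_apply, densM, div_pow,
      Real.sq_sqrt (by linarith), smul_zero, add_zero, zero_sub, neg_div, sub_neg_eq_add,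
      h.eq _ a2]
    rfl
  have hV := fun s hs x hx => relV_eq_zero hL (fun t ht => hA t ht) hc (s := s) hs (x := x) hx
  have hss := fun s (hs : s ∈ Iio (0 : ℝ)) => self_similar hL hV (s := s) hs
  have m1 : (-1 : ℝ) < 0 := by norm_num
  refine ⟨L (-1), ⟨hL.isSurf m1, fun x hx => by simpa using hV (-1) m1 x hx⟩,
    ⟨hL.congr hss, fun t ht => hss t ht ▸ hA t ht, fun t ht => hss t ht ▸ hG' t ht⟩,
    hS.congr isOpen_Iio hss, ?_, fun s hs φ hφ hφc => ?_⟩
  · have := hc (-1) m1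
    rw [zero_sub, neg_neg, Real.sqrt_one] at this
    rwa [this]
  · exact weak_of_slim h hl (hS.congr isOpen_Iio hss) hs (hin s hs) hφ hφc

end Vale.Agent.P218G.CL

namespace Vale.Agent.P218G

/-- **Block T** in the weak class, from the two-point bounds and the monotonicity formula -/
theorem convW_proof (hT : T1W) (hM : MonoW) : ConvW := by
  intro D G ε r C μ M J a b hε hε1 hr hC hab h x₀ ι U lam hl
  refine CL.conv_w hab h.wf h.lgb x₀ (hT D G ε r C μ M J a b hε hε1 hr hC hab h x₀)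
    (fun ρ hρ ρ' hρ' hle => hM D μ M J _ h.wf x₀ b ρ ρ' hρ.1 hle fun u hu => ?_) U hl
  have h1 := (Real.lt_sqrt hρ'.1.le).1 hρ'.2
  have h2 := pow_pos hρ.1 2
  exact ⟨by linarith [hu.1], by linarith [hu.2]⟩

end Vale.Agent.P218G
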