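import Vale.Agent.P218G.HuW

/-! Gaussian densities of weak flows: regular points, the lower bound on the track, and the gap
lemma. -/

open MeasureTheory Set Filter Topology Metric
open scoped ENNReal NNReal RealInnerProductSpace ContDiff

namespace Vale.Agent.P218G

open P218FT P218FT.Hu

variable {D : ℝ} {μ : ℝ → Measure E3} {M : ℝ → Set E3} {J I : Set ℝ}

theorem Reg.loc {t : ℝ} {x : E3} (h : Reg M (t, x)) (hx : x ∈ M t) : Loc M t x :=
  h.self_of_nhds hx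

theorem Reg.eventually {p : ℝ × E3} (h : Reg M p) : ∀ᶠ q in 𝓝 p, Reg M q := h.eventually_nhds

theorem isOpen_reg (M : ℝ → Set E3) : IsOpen {p | Reg M p} :=
  isOpen_iff_mem_nhds.mpr fun _ hp => Reg.eventually hp

/-- all points at smooth times are regular -/
theorem reg_of_mcf (hM : IsMCF M J) {p : ℝ × E3} (hp : p.1 ∈ J) : Reg M p := by
  filter_upwards [continuous_fst.continuousAt.eventually (hM.isOpen.mem_nhds hp)] with q hq hx
  exact hM.loc q.1 hq q.2 hx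

theorem WF.reg (h : WF D μ M J I) {p : ℝ × E3} (hp : p.1 ∈ J) : Reg M p := reg_of_mcf h.mcf hp

/-- a space-time chart over the tangent plane -/
theorem Loc.exists_chart {t : ℝ} {x : E3} (hL : Loc M t x) (hx : x ∈ M t) (hI : I ∈ 𝓝 t) :
    ∃ (n : E3) (P : Chart.E2 →L[ℝ] E3) (pr : E3 →L[ℝ] Chart.E2) (h : ℝ × Chart.E2 → ℝ) (δ : ℝ),
      0 < δ ∧ ContDiff ℝ ∞ h ∧ gradient (fun u => h (t, u)) (pr x) = 0 ∧
      ∀ s, |s - t| < δ → s ∈ I ∧ Chart.IsChart (M s) n P pr (fun u => h (s, u)) (ball x δ) := by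
  obtain ⟨w, hw, hg, he, -⟩ := hL
  set n := nuw (fun y => w (t, y)) x with hn
  obtain ⟨P, pr, F⟩ := Chart.exists_frame (n := n) (norm_nuw hg)
  have hc : Continuous fun y : E3 => ((t, y) : ℝ × E3) := by fun_prop
  have hin : ⟪gradient (fun y => w (t, y)) x, n⟫ ≠ 0 := by
    rw [inner_grad_nuw hg]
    exact norm_ne_zero_iff.mpr hg
  have hn' : fderiv ℝ w (t, x) (0, n) ≠ 0 := by
    have h1 : fderiv ℝ w (t, x) (0, n) = ⟪gradient (fun y => w (t, y)) x, n⟫ := by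
      rw [inner_grad, fderiv_slice hw (t, x)]
      rfl
    rwa [h1]
  obtain ⟨h, hh, hev⟩ := F.exists_graph hw (he.self_of_nhds.mp hx) hn'
  have hI' : ∀ᶠ q : ℝ × E3 in 𝓝 (t, x), q.1 ∈ I :=
    (continuous_fst.tendsto ((t, x) : ℝ × E3)).eventually hI
  obtain ⟨δ, hδ, hb⟩ := Metric.eventually_nhds_iff.mp ((he.and hev).and hI')
  have hd : ∀ s y, |s - t| < δ → y ∈ ball x δ → dist ((s, y) : ℝ × E3) (t, x) < δ :=
    fun s y hs hy => by
      rw [Prod.dist_eq]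
      exact max_lt hs hy
  have hC : ∀ s, |s - t| < δ → s ∈ I ∧
      Chart.IsChart (M s) n P pr (fun u => h (s, u)) (ball x δ) := fun s hs =>
    ⟨(hb (hd s x hs (mem_ball_self hδ))).2, F, hh.comp (by fun_prop), isOpen_ball, fun y hy =>
      (hb (hd s y hs hy)).1.1.trans (hb (hd s y hs hy)).1.2⟩
  refine ⟨n, P, pr, h, δ, hδ, hh, ?_, hC⟩
  have hw' : ContDiff ℝ ∞ fun y => w (t, y) := hw.comp (by fun_prop)
  have h3 := (hC t (by simpa using hδ)).2.pr_gradient hx (mem_ball_self hδ)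
    (hw'.differentiable (by simp) x) (((hc.tendsto x).eventually he).mono fun z hz => hz.1)
  rw [grad_eq_smul_nuw hg, map_smul, F.pr_n, smul_zero, ← grad_eq_smul_nuw hg, eq_comm,
    neg_eq_zero, smul_eq_zero, real_inner_comm] at h3
  exact h3.resolve_left hin

theorem WF.frequently_sq (h : WF D μ M J I) {t : ℝ} (ht : t ∈ I) :
    ∃ᶠ r : ℝ in 𝓝[>] 0, t - r ^ 2 ∈ J := by
  have h1 : Tendsto (fun s : ℝ => √(t - s)) (𝓝[<] t) (𝓝[>] 0) := by
    refine tendsto_nhdsWithin_iff.mpr ⟨?_, eventually_mem_nhdsWithin.mono fun s hs =>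
      Real.sqrt_pos.mpr (sub_pos.mpr hs)⟩
    have : Continuous fun s : ℝ => √(t - s) := by fun_prop
    simpa using (this.tendsto t).mono_left nhdsWithin_le_nhds
  refine h1.frequently ((h.frequently_left ht).mp (eventually_mem_nhdsWithin.mono fun s hs h2 => ?_))
  rwa [Real.sq_sqrt (sub_nonneg.mpr (le_of_lt hs)), sub_sub_cancel]

/-- along smooth times the density ratios at a regular point tend to one -/
theorem WF.dens_J (h : WF D μ M J I) {t : ℝ} (ht : t ∈ I) {x : E3} (hx : x ∈ M t)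
    (hL : Loc M t x) {η : ℝ} (hη : 0 < η) :
    ∀ᶠ r : ℝ in 𝓝[>] 0, t - r ^ 2 ∈ J → |densM μ x t r - 1| < η := by
  obtain ⟨n, P, pr, g, δ, hδ, hh, h0, hC⟩ := hL.exists_chart hx (h.isOpen.mem_nhds ht)
  have hmain := main_part hδ hh hx h0 fun s hs => ⟨h.isClosed (hC s hs).1, (hC s hs).2⟩
  obtain ⟨C₀, -, hG⟩ := gauss_proof
  obtain ⟨ρ, hρ, hρ'⟩ := (hG (max D 0) (le_max_right _ _)).2 (η / 2) (by positivity)
  have h1 : ∀ᶠ r : ℝ in 𝓝 0, ρ * r < δ := by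
    have : Continuous fun r : ℝ => ρ * r := by fun_prop
    exact this.continuousAt.eventually (gt_mem_nhds (by simpa using hδ))
  filter_upwards [self_mem_nhdsWithin, mem_nhdsWithin_of_mem_nhds h1,
    Metric.tendsto_nhds.mp hmain (η / 2) (by positivity)] with r hr h1 h3 hJ
  have hr0 : 0 < r := hr
  have hA := h.areaRatio hJ
  have hN := (h.isSurf hJ).1
  have h2 := hρ' _ (hA.mono (le_max_left _ _)) x r hr0
  have hp : ∀ y : E3, 0 ≤ gk (r ^ 2) (y - x) := fun y => gk_nonneg (sq_nonneg r) _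
  have h4 : ∫ y in (M (t - r ^ 2) ∩ ball x δ)ᶜ, gk (r ^ 2) (y - x) ∂(area (M (t - r ^ 2))) ≤
      η / 2 := by
    refine le_trans (setIntegral_mono_set
      (integrable_gk hA x (by positivity)).integrableOn (Eventually.of_forall hp) ?_) h2
    filter_upwards [Hu.ae_mem hN] with y hy h3 h4
    exact h3 ⟨hy, ball_subset_ball h1.le h4⟩
  have h5 : 0 ≤ ∫ y in (M (t - r ^ 2) ∩ ball x δ)ᶜ, gk (r ^ 2) (y - x) ∂(area (M (t - r ^ 2))) :=
    integral_nonneg hp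
  have h6 := integral_add_compl (hN.measurableSet.inter (measurableSet_ball (x := x) (ε := δ)))
    (integrable_gk hA x (σ := r ^ 2) (by positivity))
  unfold densM gM
  rw [h.eq _ hJ, ← h6]
  rw [Real.dist_eq, abs_lt] at h3
  rw [abs_lt]
  constructor <;> linarith [h3.1, h3.2]

theorem WF.one_le_loc (h : WF D μ M J I) {t r : ℝ} (hr : 0 < r) (hI : Icc (t - r ^ 2) t ⊆ I)
    {x : E3} (hx : x ∈ M t) (hL : Loc M t x) : 1 ≤ densM μ x t r := by
  have ht : t ∈ I := hI ⟨by nlinarith, le_rfl⟩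
  refine le_of_forall_pos_le_add fun η hη => ?_
  obtain ⟨s, h1, h2, h3⟩ := ((h.frequently_sq ht).and_eventually
    ((h.dens_J ht hx hL hη).and (Ioo_mem_nhdsGT hr))).exists
  have h4 := h.densM_mono x t h3.1 h3.2.le fun u hu => hI ⟨hu.1, hu.2.trans (by nlinarith)⟩
  have h5 := abs_lt.mp (h2 h1)
  linarith [h5.1]

theorem WF.eventually_Icc (h : WF D μ M J I) {t : ℝ} (ht : t ∈ I) :
    ∀ᶠ r : ℝ in 𝓝 0, Icc (t - r ^ 2) (t + r ^ 2) ⊆ I := by
  obtain ⟨δ, hδ, hb⟩ := nhds_basis_closedBall.mem_iff.1 (h.isOpen.mem_nhds ht)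
  rw [Real.closedBall_eq_Icc] at hb
  have hc : Continuous fun r : ℝ => r ^ 2 := by fun_prop
  filter_upwards [hc.continuousAt.eventually (gt_mem_nhds (show (0 : ℝ) ^ 2 < δ by simpa))]
    with r hr
  exact (Icc_subset_Icc (by linarith) (by linarith)).trans hb

/-- the density is one at a regular point -/
theorem WF.tendsto_dens (h : WF D μ M J I) {t : ℝ} (ht : t ∈ I) {x : E3} (hx : x ∈ M t)
    (hL : Loc M t x) : Tendsto (fun r => densM μ x t r) (𝓝[>] 0) (𝓝 1) := by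
  have hI := h.eventually_Icc ht
  refine tendsto_order.mpr ⟨fun c hc => ?_, fun c hc => ?_⟩
  · filter_upwards [self_mem_nhdsWithin, mem_nhdsWithin_of_mem_nhds hI] with r hr h1
    exact hc.trans_le (h.one_le_loc hr
      ((Icc_subset_Icc_right (by nlinarith [sq_nonneg r])).trans h1) hx hL)
  · obtain ⟨s, h1, h2, h3, h4⟩ := ((h.frequently_sq ht).and_eventually
      ((h.dens_J ht hx hL (sub_pos.mpr hc)).and
        (eventually_mem_nhdsWithin.and (mem_nhdsWithin_of_mem_nhds hI)))).exists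
    filter_upwards [Ioo_mem_nhdsGT h3] with r hr
    have h5 := h.densM_mono x t hr.1 hr.2.le
      ((Icc_subset_Icc_right (by nlinarith [sq_nonneg r, sq_nonneg s])).trans h4)
    have h6 := abs_lt.mp (h2 h1)
    linarith [h6.2]

theorem densW_proof : DensW := fun _ _ _ _ _ h _ ht _ hx hR => h.tendsto_dens ht hx (hR.loc hx)

/-- the density ratios are at least one on the track -/
theorem WF.one_le (h : WF D μ M J I) {t r : ℝ} (hr : 0 < r) (hI : Icc (t - r ^ 2) t ⊆ I)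
    {x : E3} (hx : x ∈ M t) : 1 ≤ densM μ x t r := by
  have hr2 : 0 < r ^ 2 := by positivity
  have ht : t ∈ I := hI ⟨by linarith, le_rfl⟩
  have ha : t - r ^ 2 ∈ I := hI ⟨le_rfl, by linarith⟩
  obtain ⟨δ, hδ, hb⟩ := nhds_basis_closedBall.mem_iff.1 (h.isOpen.mem_nhds ht)
  rw [Real.closedBall_eq_Icc] at hb
  have hc := (h.ratio _ ha).continuousAt_gM_sqrt (a := t - r ^ 2) (p := (t, x)) (by simp [hr2])
  have hcl := mem_closure_iff_frequently.mp (h.dense (show (t, x) ∈ track M I from ⟨ht, hx⟩))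
  have hev : ∀ᶠ q : ℝ × E3 in 𝓝 (t, x), q.1 ∈ Ioo (t - r ^ 2) (t + δ) :=
    continuous_fst.continuousAt.eventually (Ioo_mem_nhds (by simp [hr2]) (by simp [hδ]))
  have h1 : 1 ≤ gM (μ (t - r ^ 2)) x √(t - (t - r ^ 2)) := by
    refine ge_of_tendsto_of_frequently hc.tendsto ((hcl.and_eventually hev).mono fun q hq => ?_)
    have h2 : 0 ≤ q.1 - (t - r ^ 2) := by linarith [hq.2.1]
    rw [← densM_sqrt μ q.2 hq.2.1.le]
    refine h.one_le_loc (Real.sqrt_pos.mpr (sub_pos.mpr hq.2.1)) ?_ hq.1.2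
      (h.mcf.loc q.1 hq.1.1 q.2 hq.1.2)
    rw [Real.sq_sqrt h2, sub_sub_cancel]
    intro u hu
    rcases le_total u t with h3 | h3
    · exact hI ⟨hu.1, h3⟩
    · exact hb ⟨by linarith, by linarith [hu.2, hq.2.2]⟩
  rwa [sub_sub_cancel, Real.sqrt_sq hr.le] at h1

theorem oneLeW_proof : OneLeW := fun _ _ _ _ _ h _ _ hr hI _ hx => h.one_le hr hI hx

/-- **upper semicontinuity** of the density ratios -/
theorem WF.eventually_dens_lt (h : WF D μ M J I) {p : ℝ × E3} {ρ c : ℝ} (hρ : 0 < ρ)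
    (hI : Icc (p.1 - ρ ^ 2) p.1 ⊆ I) (hc : densM μ p.2 p.1 ρ < c) :
    ∀ᶠ q : ℝ × E3 in 𝓝 p, ∀ r, 0 < r → r ≤ ρ / 2 → densM μ q.2 q.1 r < c := by
  have hρ2 : 0 < ρ ^ 2 := by positivity
  have ht : p.1 ∈ I := hI ⟨by linarith, le_rfl⟩
  have ha : p.1 - ρ ^ 2 ∈ I := hI ⟨le_rfl, by linarith⟩
  obtain ⟨δ, hδ, hb⟩ := nhds_basis_closedBall.mem_iff.1 (h.isOpen.mem_nhds ht)
  rw [Real.closedBall_eq_Icc] at hb
  have h1 := (h.ratio _ ha).continuousAt_gM_sqrt (a := p.1 - ρ ^ 2) (p := p) (by linarith)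
  have h2 : gM (μ (p.1 - ρ ^ 2)) p.2 √(p.1 - (p.1 - ρ ^ 2)) < c := by
    rwa [sub_sub_cancel, Real.sqrt_sq hρ.le]
  have hev : ∀ᶠ q : ℝ × E3 in 𝓝 p, q.1 ∈ Ioo (p.1 - ρ ^ 2 / 2) (p.1 + δ) :=
    continuous_fst.continuousAt.eventually (Ioo_mem_nhds (by linarith) (by linarith))
  filter_upwards [h1.eventually (gt_mem_nhds h2), hev] with q h3 h4 r hr hrρ
  have h5 : r ^ 2 ≤ (ρ / 2) ^ 2 := by gcongr
  refine (h.densM_le_gM q.2 hr (a := p.1 - ρ ^ 2) (by nlinarith [h4.1]) fun u hu => ?_).trans_lt h3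
  rcases le_total u p.1 with h6 | h6
  · exact hI ⟨hu.1, h6⟩
  · exact hb ⟨by linarith, by nlinarith [hu.2, h4.2, sq_nonneg r]⟩

/-- limits of points with small density ratios have small density ratios at smaller scales -/
theorem WF.dens_le_of_closure (h : WF D μ M J I) {S : Set (ℝ × E3)} {ρ ρ' c : ℝ} (hρ' : 0 < ρ')
    (hρ : ρ' < ρ) (hS : ∀ q ∈ S, Icc (q.1 - ρ ^ 2) q.1 ⊆ I ∧ densM μ q.2 q.1 ρ ≤ c) {p : ℝ × E3}
    (hp : p ∈ closure S) (hI : p.1 - ρ' ^ 2 ∈ I) : densM μ p.2 p.1 ρ' ≤ c := by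
  have hρ2 : 0 < ρ' ^ 2 := by positivity
  have hρ3 : ρ' ^ 2 < ρ ^ 2 := by gcongr
  have h1 := (h.ratio _ hI).continuousAt_gM_sqrt (a := p.1 - ρ' ^ 2) (p := p) (by linarith)
  have hev : ∀ᶠ q : ℝ × E3 in 𝓝 p, q.1 ∈ Ioo (p.1 - ρ' ^ 2) (p.1 - ρ' ^ 2 + ρ ^ 2) :=
    continuous_fst.continuousAt.eventually (Ioo_mem_nhds (by linarith) (by linarith))
  have h2 : gM (μ (p.1 - ρ' ^ 2)) p.2 √(p.1 - (p.1 - ρ' ^ 2)) ≤ c := by
    refine le_of_tendsto_of_frequently h1.tendsto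
      (((mem_closure_iff_frequently.mp hp).and_eventually hev).mono fun q hq => ?_)
    refine le_trans ?_ (hS q hq.1).2
    have h3 := h.gM_anti q.2 (t₀ := q.1) (a := q.1 - ρ ^ 2) (b := p.1 - ρ' ^ 2)
      (by linarith [hq.2.2]) hq.2.1 ((Icc_subset_Icc_right hq.2.1.le).trans (hS q hq.1).1)
    rwa [sub_sub_cancel, Real.sqrt_sq (hρ'.le.trans hρ.le)] at h3
  rwa [sub_sub_cancel, Real.sqrt_sq hρ'.le] at h2

/-- **The gap lemma**, with the two-point bound at some scale -/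
theorem WF.gap (h : WF D μ M J I) {ε r C : ℝ} (hW : White ε r C μ M I) {t ρ : ℝ} (hρ : 0 < ρ)
    (hI : Icc (t - ρ ^ 2) t ⊆ I) {x : E3} (hx : x ∈ M t) (hd : densM μ x t ρ < 1 + ε) :
    Reg M (t, x) := by
  obtain ⟨δ, hδ, hb⟩ := Metric.eventually_nhds_iff.mp
    (h.eventually_dens_lt (p := (t, x)) hρ hI hd)
  obtain ⟨l, hl, l1, l2, l3⟩ : ∃ l : ℝ, 0 < l ∧ l ≤ ρ / 2 ∧ l ≤ δ / 4 ∧ l ≤ 1 :=
    ⟨min (ρ / 2) (min (δ / 4) 1), by positivity, min_le_left _ _,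
      (min_le_right _ _).trans (min_le_left _ _), (min_le_right _ _).trans (min_le_right _ _)⟩
  have l4 : l ^ 2 ≤ (ρ / 2) ^ 2 := by gcongr
  have l5 : l ^ 2 ≤ l := by nlinarith
  refine (hW x t l hl ((Icc_subset_Icc_left (by nlinarith)).trans hI) (fun y hy s hs => ?_) t
    ⟨by nlinarith, le_rfl⟩ x hx (mem_ball_self hl)).1
  refine (hb (y := (s, y)) ?_ l hl l1).le
  rw [Prod.dist_eq, max_lt_iff, Real.dist_eq, abs_lt]
  exact ⟨⟨by linarith [hs.1], by linarith [hs.2]⟩, (mem_ball.mp hy).trans (by linarith)⟩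

theorem gapW_proof : GapW := by
  intro D ε r C μ M J I hε h hW
  refine ⟨fun t ρ hρ hI x hx hd => h.gap hW hρ hI hx hd, fun K ρ hK hρ hKI => ?_,
    fun K hK hKI hreg => ?_⟩
  · have hsub : closure {p ∈ K | densM μ p.2 p.1 ρ ≤ 1 + ε / 2} ⊆ K :=
      closure_minimal (fun p hp => hp.1) hK.isClosed
    refine ⟨_, hK.of_isClosed_subset isClosed_closure hsub, hsub, fun p hp => ?_,
      fun p hp hd => subset_closure ⟨hp, hd⟩⟩
    have h1 : Icc (p.1 - (ρ / 2) ^ 2) p.1 ⊆ I :=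
      (Icc_subset_Icc_left (by nlinarith)).trans (hKI p (hsub hp)).2
    have h2 := h.dens_le_of_closure (ρ := ρ) (ρ' := ρ / 2) (c := 1 + ε / 2) (by positivity)
      (by linarith) (fun q hq => ⟨(hKI q hq.1).2, hq.2⟩) hp (h1 ⟨le_rfl, by nlinarith⟩)
    exact h.gap hW (by positivity) h1 (hKI p (hsub hp)).1 (by linarith)
  · refine hK.induction_on
      (p := fun S => ∃ ρ₀ : ℝ, 0 < ρ₀ ∧ ∀ p ∈ S, ∀ ρ, 0 < ρ → ρ ≤ ρ₀ →
        densM μ p.2 p.1 ρ ≤ 1 + ε / 2) ⟨1, one_pos, by simp⟩ ?_ ?_ ?_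
    · rintro S T hST ⟨ρ₀, h0, h1⟩
      exact ⟨ρ₀, h0, fun p hp => h1 p (hST hp)⟩
    · rintro S T ⟨ρ₀, h0, h1⟩ ⟨ρ₁, h2, h3⟩
      refine ⟨min ρ₀ ρ₁, lt_min h0 h2, fun p hp ρ hρ hρ' => ?_⟩
      rcases hp with hp | hp
      · exact h1 p hp ρ hρ (hρ'.trans (min_le_left _ _))
      · exact h3 p hp ρ hρ (hρ'.trans (min_le_right _ _))
    · intro p hp
      have ht := (hKI hp).1
      have h1 := (h.tendsto_dens ht (hKI hp).2 ((hreg p hp).loc (hKI hp).2)).eventually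
        (gt_mem_nhds (show (1 : ℝ) < 1 + ε / 2 by linarith))
      obtain ⟨ρ, h2, h3, h4⟩ := (h1.and (eventually_mem_nhdsWithin.and
        (mem_nhdsWithin_of_mem_nhds (h.eventually_Icc ht)))).exists
      have hρ : 0 < ρ := h3
      have h5 := h.eventually_dens_lt hρ
        ((Icc_subset_Icc_right (by nlinarith [sq_nonneg ρ])).trans h4) h2
      exact ⟨_, mem_nhdsWithin_of_mem_nhds h5, ρ / 2, by positivity,
        fun q hq r hr hr' => (hq r hr hr').le⟩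

end Vale.Agent.P218G
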