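import Vale.Agent.P218G.HuB
import Vale.Agent.P218G.Spec
import Vale.Agent.P218FT.Static

/-! The sudden loss of mass `drop`: monotonicity, superadditivity, comparison with the loss
functional, and the change of integrals in time. -/

open MeasureTheory Set Filter Topology Metric
open scoped ENNReal NNReal RealInnerProductSpace ContDiff

namespace Vale.Agent.P218G

open P218FT

variable {D : ℝ} {μ : ℝ → Measure E3} {M : ℝ → Set E3} {J I : Set ℝ}

theorem Adm.mono {f : ℝ × E3 → ℝ} {U V : Set (ℝ × E3)} (h : Adm f U) (hUV : U ⊆ V) : Adm f V :=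
  ⟨h.smooth, h.cpt, h.sub.trans hUV, h.nonneg, h.le_one⟩

theorem Adm.zero_of_notMem {f : ℝ × E3 → ℝ} {U : Set (ℝ × E3)} (h : Adm f U) {p : ℝ × E3}
    (hp : p ∉ U) : f p = 0 := image_eq_zero_of_notMem_tsupport fun h' => hp (h.sub h')

theorem Adm.exists_CB {f : ℝ × E3 → ℝ} {U : Set (ℝ × E3)} (h : Adm f U) : ∃ R, 0 < R ∧ CB f R :=
  P218G.exists_CB h.smooth h.cpt

theorem adm_zero (U : Set (ℝ × E3)) : Adm (fun _ => 0) U :=
  ⟨contDiff_const, HasCompactSupport.zero, by simp, fun _ => le_rfl, fun _ => zero_le_one⟩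

theorem Adm.add {f g : ℝ × E3 → ℝ} {U V : Set (ℝ × E3)} (hf : Adm f U) (hg : Adm g V)
    (hUV : Disjoint U V) : Adm (fun p => f p + g p) (U ∪ V) where
  smooth := hf.smooth.add hg.smooth
  cpt := hf.cpt.add hg.cpt
  sub := (tsupport_add f g).trans (union_subset_union hf.sub hg.sub)
  nonneg p := add_nonneg (hf.nonneg p) (hg.nonneg p)
  le_one p := by
    by_cases hp : p ∈ U
    · rw [hg.zero_of_notMem (disjoint_left.mp hUV hp), add_zero]; exact hf.le_one p
    · rw [hf.zero_of_notMem hp, zero_add]; exact hg.le_one p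

theorem le_drop {f : ℝ × E3 → ℝ} {U : Set (ℝ × E3)} (h : Adm f U) :
    ENNReal.ofReal (∫ t, rate M f t) ≤ drop M U :=
  le_iSup₂ (f := fun (f : ℝ × E3 → ℝ) (_ : Adm f U) => ENNReal.ofReal (∫ t, rate M f t)) f h

theorem drop_le {U : Set (ℝ × E3)} {c : ℝ≥0∞}
    (h : ∀ f, Adm f U → ENNReal.ofReal (∫ t, rate M f t) ≤ c) : drop M U ≤ c := iSup₂_le h

theorem drop_mono {U V : Set (ℝ × E3)} (hUV : U ⊆ V) : drop M U ≤ drop M V :=
  drop_le fun _ hf => le_drop (hf.mono hUV)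

theorem drop_empty : drop M ∅ = 0 := by
  refine le_antisymm (drop_le fun f hf => ?_) zero_le
  have : ∀ t, rate M f t = 0 := fun t => rate_eq_zero fun x hx => hf.sub hx
  simp [this]

theorem diss_mono {Λ Λ' : ℝ} {c c' : E3} {r r' a a' b b' : ℝ} (hΛ : Λ' ≤ Λ)
    (hr : ball c r ⊆ ball c' r') (ha : a' ≤ a) (hb : b ≤ b') :
    diss M Λ c r a b ≤ diss M Λ' c' r' a' b' := by
  unfold diss
  refine le_trans (lintegral_mono fun t => (lintegral_mono fun x =>
    ENNReal.ofReal_le_ofReal (by linarith)).trans (lintegral_mono_set hr))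
    (lintegral_mono_set (Icc_subset_Icc ha hb))

theorem dis2_mono {Λ Λ' : ℝ} {c c' : E3} {r r' a a' b b' : ℝ} (hΛ : Λ' ≤ Λ)
    (hr : ball c r ⊆ ball c' r') (ha : a' ≤ a) (hb : b ≤ b') :
    dis2 M Λ c r a b ≤ dis2 M Λ' c' r' a' b' :=
  add_le_add (diss_mono hΛ hr ha hb) (drop_mono (prod_mono (Ioo_subset_Ioo ha hb) hr))

theorem diss_le_dis2 {Λ : ℝ} {c : E3} {r a b : ℝ} : diss M Λ c r a b ≤ dis2 M Λ c r a b :=
  le_self_add

theorem drop_le_dis2 {Λ : ℝ} {c : E3} {r a b : ℝ} :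
    drop M (Ioo a b ×ˢ ball c r) ≤ dis2 M Λ c r a b := le_add_self

/-- the rate of a test function with compact support over `I` is integrable -/
theorem WF.integrable_rate (h : WF D μ M J I) {f : ℝ × E3 → ℝ} (hf : ContDiff ℝ 1 f)
    (hc : HasCompactSupport f) (hs : tsupport f ⊆ I ×ˢ univ) : Integrable (rate M f) := by
  obtain ⟨R, -, hR⟩ := exists_CB hf hc
  have hK : IsCompact (Prod.fst '' tsupport f) := hc.isCompact.image continuous_fst
  have h1 : LocallyIntegrableOn (rate M f) (Prod.fst '' tsupport f) := by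
    rintro _ ⟨p, hp, rfl⟩
    obtain ⟨δ, hδ, hb⟩ := nhds_basis_closedBall.mem_iff.1 (h.isOpen.mem_nhds (hs hp).1)
    rw [Real.closedBall_eq_Icc] at hb
    have h2 := h.intervalIntegrable_rate hR (by linarith) hb
    rw [intervalIntegrable_iff_integrableOn_Icc_of_le (by linarith)] at h2
    exact ⟨_, mem_nhdsWithin_of_mem_nhds (Icc_mem_nhds (by linarith) (by linarith)), h2⟩
  refine (integrableOn_iff_integrable_of_support_subset ?_).mp (h1.integrableOn_isCompact hK)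
  intro t ht
  by_contra h0
  exact ht (rate_eq_zero fun x hx => h0 ⟨_, hx, rfl⟩)

theorem WF.total_add (h : WF D μ M J I) {f g : ℝ × E3 → ℝ} (hf : ContDiff ℝ 1 f)
    (hfc : HasCompactSupport f) (hfs : tsupport f ⊆ I ×ˢ univ) (hg : ContDiff ℝ 1 g)
    (hgc : HasCompactSupport g) (hgs : tsupport g ⊆ I ×ˢ univ) :
    ∫ t, rate M (fun p => f p + g p) t = (∫ t, rate M f t) + ∫ t, rate M g t := by
  obtain ⟨R, -, hR⟩ := exists_CB hf hfc
  obtain ⟨R', -, hR'⟩ := exists_CB hg hgc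
  rw [← integral_add (h.integrable_rate hf hfc hfs) (h.integrable_rate hg hgc hgs)]
  refine integral_congr_ae ?_
  filter_upwards [h.ae] with t ht
  by_cases hI : t ∈ I
  · exact rate_add h.mcf (hR.mono (le_max_left R R')) (hR'.mono (le_max_right R R')) (ht hI)
  · rw [rate_eq_zero fun x hx => hI (hfs hx).1, rate_eq_zero fun x hx => hI (hgs hx).1,
      rate_eq_zero fun x hx => ?_, add_zero]
    rcases tsupport_add f g hx with h1 | h1
    · exact hI (hfs h1).1
    · exact hI (hgs h1).1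

/-- **superadditivity** of the sudden loss of mass -/
theorem WF.drop_union (h : WF D μ M J I) {U V : Set (ℝ × E3)} (hU : U ⊆ I ×ˢ univ)
    (hV : V ⊆ I ×ˢ univ) (hUV : Disjoint U V) : drop M U + drop M V ≤ drop M (U ∪ V) := by
  refine ENNReal.biSup_add_biSup_le' (p := fun f => Adm f U) (q := fun g => Adm g V)
    ⟨_, adm_zero U⟩ ⟨_, adm_zero V⟩ fun f hf g hg => ?_
  rcases le_total (∫ t, rate M f t) 0 with h1 | h1
  · rw [ENNReal.ofReal_of_nonpos h1, zero_add]
    exact le_drop (hg.mono subset_union_right)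
  rcases le_total (∫ t, rate M g t) 0 with h2 | h2
  · rw [ENNReal.ofReal_of_nonpos h2, add_zero]
    exact le_drop (hf.mono subset_union_left)
  rw [← ENNReal.ofReal_add h1 h2,
    ← h.total_add hf.smooth hf.cpt (hf.sub.trans hU) hg.smooth hg.cpt (hg.sub.trans hV)]
  exact le_drop (hf.add hg hUV)

theorem WF.drop_finset (h : WF D μ M J I) {ι : Type*} (s : Finset ι) {U : ι → Set (ℝ × E3)}
    (hU : ∀ i ∈ s, U i ⊆ I ×ˢ univ) (hd : (s : Set ι).PairwiseDisjoint U) :
    ∑ i ∈ s, drop M (U i) ≤ drop M (⋃ i ∈ s, U i) := by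
  classical
  induction s using Finset.induction_on with
  | empty => simp
  | insert a s ha ih =>
    rw [Finset.sum_insert ha, Finset.set_biUnion_insert]
    have h1 := ih (fun i hi => hU i (Finset.mem_insert_of_mem hi))
      (hd.subset (by simp))
    refine le_trans (by gcongr) (h.drop_union (hU a (Finset.mem_insert_self a s))
      (iUnion₂_subset fun i hi => hU i (Finset.mem_insert_of_mem hi)) ?_)
    refine disjoint_iUnion₂_right.mpr fun i hi => ?_
    exact hd (by simp) (by simp [hi]) (fun e => ha (e ▸ hi))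

theorem WF.drop_finset_le (h : WF D μ M J I) {ι : Type*} (s : Finset ι) {U : ι → Set (ℝ × E3)}
    {V : Set (ℝ × E3)} (hU : ∀ i ∈ s, U i ⊆ V) (hV : V ⊆ I ×ˢ univ)
    (hd : (s : Set ι).PairwiseDisjoint U) : ∑ i ∈ s, drop M (U i) ≤ drop M V :=
  (h.drop_finset s (fun i hi => (hU i hi).trans hV) hd).trans (drop_mono (iUnion₂_subset hU))

/-! ### comparison with the loss functional -/

theorem loss_congr {f g : ℝ × E3 → ℝ} {a b : ℝ} (hab : a ≤ b)
    (he : ∀ t ∈ Icc a b, ∀ᶠ s in 𝓝 t, ∀ x, f (s, x) = g (s, x)) :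
    loss μ M f a b = loss μ M g a b := by
  unfold loss
  have e : EqOn (rate M f) (rate M g) (uIcc a b) := fun t ht =>
    rate_congr_time (he t (by rwa [uIcc_of_le hab] at ht))
  rw [intervalIntegral.integral_congr e]
  simp only [(he a ⟨le_rfl, hab⟩).self_of_nhds, (he b ⟨hab, le_rfl⟩).self_of_nhds]

/-- for a test function supported in `(a, b)` the loss is the integral of the rate -/
theorem loss_eq_total {f : ℝ × E3 → ℝ} {a b : ℝ} (hab : a ≤ b)
    (hs : tsupport f ⊆ Ioo a b ×ˢ univ) : loss μ M f a b = ∫ t, rate M f t := by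
  have h0 : ∀ t, t ∉ Ioo a b → ∀ x, f (t, x) = 0 := fun t ht x =>
    image_eq_zero_of_notMem_tsupport fun h => ht (hs h).1
  unfold loss
  simp only [h0 a (by simp), h0 b (by simp), integral_zero, sub_zero, zero_add]
  rw [intervalIntegral.integral_of_le hab, setIntegral_eq_integral_of_forall_compl_eq_zero]
  intro t ht
  exact rate_eq_zero fun x hx => ht (Ioo_subset_Ioc_self (hs hx).1)

theorem WF.total_nonneg (h : WF D μ M J I) {f : ℝ × E3 → ℝ} {a b : ℝ} (hab : a ≤ b)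
    (hf : Adm f (Ioo a b ×ˢ univ)) (hI : Icc a b ⊆ I) : 0 ≤ ∫ t, rate M f t := by
  obtain ⟨R, -, hR⟩ := hf.exists_CB
  rw [← loss_eq_total (μ := μ) hab hf.sub]
  exact h.loss_nonneg hR hf.nonneg hab hI

/-- the loss in `[a, b]` of a function with values in `[0, 1]` is at most the drop in a larger
open cylinder -/
theorem WF.loss_le_drop (h : WF D μ M J I) {f : ℝ × E3 → ℝ} {R : ℝ} (hf : CB f R)
    (h0 : ∀ p, 0 ≤ f p) (h1 : ∀ p, f p ≤ 1) {K B : Set E3} (hK : IsClosed K) (hKB : K ⊆ B)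
    (hz : ∀ p : ℝ × E3, p.2 ∉ K → f p = 0) {a' a b b' : ℝ} (ha : a' < a) (hab : a ≤ b)
    (hb : b < b') (hI : Ioo a' b' ⊆ I) :
    ENNReal.ofReal (loss μ M f a b) ≤ drop M (Ioo a' b' ×ˢ B) := by
  set a₁ := (a' + a) / 2
  set b₁ := (b + b') / 2
  have ha1 : a' < a₁ ∧ a₁ < a := by constructor <;> simp only [a₁] <;> linarith
  have hb1 : b < b₁ ∧ b₁ < b' := by constructor <;> simp only [b₁] <;> linarith
  have hI1 : Icc a₁ b₁ ⊆ I := (Icc_subset_Ioo ha1.1 hb1.2).trans hI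
  obtain ⟨θ, t1, t2, t3, t4, t5, t6⟩ := exists_cut hab isOpen_Ioo (Icc_subset_Ioo ha1.2 hb1.1)
  have hsub : tsupport (fun p : ℝ × E3 => θ p.1 * f p) ⊆ tsupport θ ×ˢ (K ∩ closedBall 0 R) := by
    refine closure_minimal (fun p hp => ⟨?_, ?_, ?_⟩)
      ((isClosed_tsupport θ).prod (hK.inter isClosed_closedBall))
    · exact subset_tsupport _ (left_ne_zero_of_mul hp)
    · by_contra h'
      exact right_ne_zero_of_mul hp (hz p h')
    · by_contra h'
      rw [mem_closedBall_zero_iff, not_le] at h'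
      exact right_ne_zero_of_mul hp (hf.zero p h'.le)
  have hA : Adm (fun p : ℝ × E3 => θ p.1 * f p) (Ioo a₁ b₁ ×ˢ B) :=
    ⟨(hf.time_mul t1).smooth,
      (t2.isCompact.prod ((isCompact_closedBall 0 R).inter_left hK)).of_isClosed_subset
        (isClosed_tsupport _) hsub,
      hsub.trans (prod_mono t3 (inter_subset_left.trans hKB)),
      fun p => mul_nonneg (t4 _) (h0 p), fun p => mul_le_one₀ (t5 _) (h0 p) (h1 p)⟩
  refine le_trans (ENNReal.ofReal_le_ofReal ?_)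
    (le_drop (hA.mono (prod_mono (Ioo_subset_Ioo ha1.1.le hb1.2.le) Subset.rfl)))
  rw [← loss_eq_total (μ := μ) (by linarith [ha1.2, hb1.1])
    (hA.sub.trans (prod_mono Subset.rfl (subset_univ _))),
    ← loss_congr (f := fun p : ℝ × E3 => θ p.1 * f p) hab fun t ht =>
      (t6 t ht).mono fun s hs x => by simp only [hs, one_mul]]
  exact h.loss_mono_time (hf.time_mul t1) hA.nonneg ha1.2.le hab hb1.1.le hI1

/-- the primitive of the rate is continuous -/
theorem WF.continuousOn_primitive (h : WF D μ M J I) {f : ℝ × E3 → ℝ} {R : ℝ} (hf : CB f R)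
    {a b : ℝ} (hab : a ≤ b) (hI : Icc a b ⊆ I) :
    ContinuousOn (fun s => ∫ t in a..s, rate M f t) (Icc a b) := by
  have := intervalIntegral.continuousOn_primitive_interval'
    (h.intervalIntegrable_rate hf hab hI) left_mem_uIcc
  rwa [uIcc_of_le hab] at this

/-- the same with the open cylinder over `(a, b)`, if no mass is lost at the end points -/
theorem WF.loss_le_drop' (h : WF D μ M J I) {f : ℝ × E3 → ℝ} {R : ℝ} (hf : CB f R)
    (h0 : ∀ p, 0 ≤ f p) (h1 : ∀ p, f p ≤ 1) {K B : Set E3} (hK : IsClosed K) (hKB : K ⊆ B)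
    (hz : ∀ p : ℝ × E3, p.2 ∉ K → f p = 0) {a b : ℝ} (hab : a ≤ b) (hI : Icc a b ⊆ I)
    (ha : ContinuousAt (fun s => ∫ x, f (s, x) ∂(μ s)) a)
    (hb : ContinuousAt (fun s => ∫ x, f (s, x) ∂(μ s)) b) :
    ENNReal.ofReal (loss μ M f a b) ≤ drop M (Ioo a b ×ˢ B) := by
  rcases eq_or_lt_of_le hab with rfl | hlt
  · simp [loss]
  have hP := h.continuousOn_primitive hf hab hI
  have e : ∀ s ∈ Icc a b, ∀ u ∈ Icc a b, ∫ t in s..u, rate M f t =
      (∫ t in a..u, rate M f t) - ∫ t in a..s, rate M f t := fun s hs u hu =>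
    (intervalIntegral.integral_interval_sub_left
      (h.intervalIntegrable_rate hf hu.1 ((Icc_subset_Icc_right hu.2).trans hI))
      (h.intervalIntegrable_rate hf hs.1 ((Icc_subset_Icc_right hs.2).trans hI))).symm
  have hsm : ∀ᶠ δ : ℝ in 𝓝[>] 0, δ ∈ Ioo 0 ((b - a) / 2) := Ioo_mem_nhdsGT (by linarith)
  have l1 : Tendsto (fun δ : ℝ => a + δ) (𝓝[>] 0) (𝓝[Icc a b] a) := by
    refine tendsto_nhdsWithin_iff.mpr ⟨?_, hsm.mono fun δ hδ => ⟨by linarith [hδ.1], by
      linarith [hδ.2]⟩⟩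
    have : Continuous fun δ : ℝ => a + δ := by fun_prop
    simpa using (this.tendsto 0).mono_left nhdsWithin_le_nhds
  have l2 : Tendsto (fun δ : ℝ => b - δ) (𝓝[>] 0) (𝓝[Icc a b] b) := by
    refine tendsto_nhdsWithin_iff.mpr ⟨?_, hsm.mono fun δ hδ => ⟨by linarith [hδ.2], by
      linarith [hδ.1]⟩⟩
    have : Continuous fun δ : ℝ => b - δ := by fun_prop
    simpa using (this.tendsto 0).mono_left nhdsWithin_le_nhds
  have hlim : Tendsto (fun δ : ℝ => loss μ M f (a + δ) (b - δ)) (𝓝[>] 0) (𝓝 (loss μ M f a b)) := by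
    have h2 := ((ha.continuousWithinAt.tendsto.comp l1).sub
      (hb.continuousWithinAt.tendsto.comp l2)).add
      (((hP b ⟨hab, le_rfl⟩).tendsto.comp l2).sub ((hP a ⟨le_rfl, hab⟩).tendsto.comp l1))
    rw [intervalIntegral.integral_same, sub_zero] at h2
    refine h2.congr' ?_
    filter_upwards [hsm] with δ hδ
    unfold loss
    rw [e (a + δ) ⟨by linarith [hδ.1], by linarith [hδ.2]⟩ (b - δ)
      ⟨by linarith [hδ.2], by linarith [hδ.1]⟩]
    rfl
  refine le_of_tendsto (ENNReal.tendsto_ofReal hlim) ?_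
  filter_upwards [hsm] with δ hδ
  exact h.loss_le_drop hf h0 h1 hK hKB hz (by linarith [hδ.1]) (by linarith [hδ.2])
    (by linarith [hδ.1]) (Ioo_subset_Icc_self.trans hI)

/-- no mass is lost at smooth times -/
theorem WF.drop_eq_zero (h : WF D μ M J I) {a b : ℝ} (hJ : Icc a b ⊆ J) (B : Set E3) :
    drop M (Ioo a b ×ˢ B) = 0 := by
  refine le_antisymm (drop_le fun f hf => ?_) zero_le
  rcases le_or_gt a b with hab | hab
  · obtain ⟨R, -, hR⟩ := hf.exists_CB
    rw [← loss_eq_total (μ := μ) hab (hf.sub.trans (prod_mono Subset.rfl (subset_univ _)))]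
    unfold loss
    rw [intervalIntegral.integral_eq_sub_of_hasDerivAt
      (fun t ht => h.hasDerivAt hR (hJ (by rwa [uIcc_of_le hab] at ht)))
      (h.intervalIntegrable_rate hR hab (hJ.trans h.sub))]
    simp
  · have : ∀ t, rate M f t = 0 := fun t => rate_eq_zero fun x hx => by
      have := (hf.sub hx).1
      linarith [this.1, this.2]
    simp [this]

/-! ### semicontinuity in time -/

/-- the mass can only jump down: limits from the left -/
theorem WF.eventually_left (h : WF D μ M J I) {f : ℝ × E3 → ℝ} {R : ℝ} (hf : CB f R)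
    (h0 : ∀ p, 0 ≤ f p) {b : ℝ} (hb : b ∈ I) {η : ℝ} (hη : 0 < η) :
    ∀ᶠ s in 𝓝[≤] b, ∫ x, f (b, x) ∂(μ b) ≤ ∫ x, f (s, x) ∂(μ s) + η := by
  obtain ⟨δ, hδ, hI⟩ := nhds_basis_closedBall.mem_iff.1 (h.isOpen.mem_nhds hb)
  rw [Real.closedBall_eq_Icc] at hI
  have hP := (h.continuousOn_primitive hf (by linarith) hI).continuousAt
    (Icc_mem_nhds (show b - δ < b by linarith) (show b < b + δ by linarith))
  have h1 : ∀ᶠ s in 𝓝 b, (∫ t in (b - δ)..b, rate M f t) - η < ∫ t in (b - δ)..s, rate M f t :=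
    hP.eventually (lt_mem_nhds (by linarith))
  filter_upwards [Icc_mem_nhdsLE (show b - δ < b by linarith), mem_nhdsWithin_of_mem_nhds h1]
    with s hs h1
  have h2 := (h.brakke_CB hf h0 hs.2
    ((Icc_subset_Icc hs.1 (show b ≤ b + δ by linarith)).trans hI)).2
  rw [← intervalIntegral.integral_interval_sub_left (a := b - δ)
    (h.intervalIntegrable_rate hf (by linarith)
      ((Icc_subset_Icc_right (show b ≤ b + δ by linarith)).trans hI))
    (h.intervalIntegrable_rate hf hs.1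
      ((Icc_subset_Icc_right (show s ≤ b + δ by linarith [hs.2])).trans hI))] at h2
  linarith

/-- the mass can only jump down: limits from the right -/
theorem WF.eventually_right (h : WF D μ M J I) {f : ℝ × E3 → ℝ} {R : ℝ} (hf : CB f R)
    (h0 : ∀ p, 0 ≤ f p) {a : ℝ} (ha : a ∈ I) {η : ℝ} (hη : 0 < η) :
    ∀ᶠ s in 𝓝[≥] a, ∫ x, f (s, x) ∂(μ s) ≤ ∫ x, f (a, x) ∂(μ a) + η := by
  obtain ⟨δ, hδ, hI⟩ := nhds_basis_closedBall.mem_iff.1 (h.isOpen.mem_nhds ha)
  rw [Real.closedBall_eq_Icc] at hI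
  have hI' : Icc a (a + δ) ⊆ I := (Icc_subset_Icc_left (by linarith)).trans hI
  have hP := h.continuousOn_primitive hf (by linarith) hI' a ⟨le_rfl, by linarith⟩
  have h1 : ∀ᶠ s in 𝓝[Icc a (a + δ)] a, ∫ t in a..s, rate M f t < η :=
    hP.eventually (gt_mem_nhds (by simpa using hη))
  rw [nhdsWithin_Icc_eq_nhdsGE (by linarith)] at h1
  filter_upwards [Icc_mem_nhdsGE (show a < a + δ by linarith), h1] with s hs h1
  have h2 := (h.brakke_CB hf h0 hs.1 ((Icc_subset_Icc_right hs.2).trans hI')).2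
  linarith

/-! ### the change of integrals in time -/

theorem Test.cb {ζ : E3 → ℝ} {p : E3} {R K : ℝ} (hζ : Test ζ p R K) :
    CB (fun q : ℝ × E3 => ζ q.2) (‖p‖ + R) :=
  ⟨hζ.smooth.comp contDiff_snd, fun _ hq => hζ.supp _ (Hu.far hq)⟩

theorem rint_static {ζ : E3 → ℝ} (hζ : ContDiff ℝ 1 ζ) (t : ℝ) (x : E3) :
    rint M (fun q : ℝ × E3 => ζ q.2) (t, x) =
      fderiv ℝ ζ x (Hv (M t) x) - ‖Hv (M t) x‖ ^ 2 * ζ x := by
  have h1 := ((hζ.differentiable one_ne_zero) x).hasFDerivAt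
  have h2 : HasFDerivAt (fun q : ℝ × E3 => ζ q.2)
      ((fderiv ℝ ζ x).comp (ContinuousLinearMap.snd ℝ ℝ E3)) (t, x) :=
    HasFDerivAt.comp (t, x) (g := ζ) (f := Prod.snd) h1 hasFDerivAt_snd
  unfold rint
  rw [h2.fderiv]
  simp

theorem enorm_rate_static {D : ℝ} {t : ℝ} (hA : AreaRatio D (M t)) {ζ : E3 → ℝ}
    {p : E3} {R K α : ℝ} (hR : 0 < R) (hζ : Test ζ p R K) (hα : 0 < α) :
    ‖rate M (fun q : ℝ × E3 => ζ q.2) t‖ₑ ≤ ENNReal.ofReal (K * (α * (D * R ^ 2))) +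
      ENNReal.ofReal (K * (1 + α⁻¹)) *
        ∫⁻ x in ball p R, ENNReal.ofReal (‖Hv (M t) x‖ ^ 2 - 0) ∂(area (M t)) := by
  have hK := hζ.nonneg
  have hpt : ∀ x, ‖fderiv ℝ ζ x (Hv (M t) x) - ‖Hv (M t) x‖ ^ 2 * ζ x‖ₑ ≤
      (ball p R).indicator (fun x => ENNReal.ofReal (K * α) +
        ENNReal.ofReal (K * (1 + α⁻¹)) * ENNReal.ofReal (‖Hv (M t) x‖ ^ 2 - 0)) x := by
    intro x
    by_cases hx : x ∈ ball p R
    · rw [indicator_of_mem hx, ← ENNReal.ofReal_mul (by positivity),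
        ← ENNReal.ofReal_add (by positivity) (by rw [sub_zero]; positivity), ← ofReal_norm]
      apply ENNReal.ofReal_le_ofReal
      set h := ‖Hv (M t) x‖ with hh
      have hh0 : 0 ≤ h := norm_nonneg _
      have e1 : ‖fderiv ℝ ζ x (Hv (M t) x)‖ ≤ K * h :=
        ((fderiv ℝ ζ x).le_opNorm _).trans (by gcongr; exact hζ.b1 x)
      have e2 : ‖h ^ 2 * ζ x‖ ≤ h ^ 2 * K := by
        rw [norm_mul, Real.norm_eq_abs, Real.norm_eq_abs, abs_of_nonneg (by positivity)]
        gcongr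
        exact hζ.b0 x
      have e3 : h ≤ α + α⁻¹ * h ^ 2 := by
        have : α + α⁻¹ * h ^ 2 - h = α⁻¹ * ((α - h / 2) ^ 2 + 3 / 4 * h ^ 2) := by
          field_simp
          ring
        have h4 : 0 ≤ α⁻¹ * ((α - h / 2) ^ 2 + 3 / 4 * h ^ 2) := by positivity
        linarith
      calc ‖fderiv ℝ ζ x (Hv (M t) x) - h ^ 2 * ζ x‖
          ≤ ‖fderiv ℝ ζ x (Hv (M t) x)‖ + ‖h ^ 2 * ζ x‖ := norm_sub_le _ _
        _ ≤ K * (α + α⁻¹ * h ^ 2) + h ^ 2 * K := by
            gcongr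
            exact e1.trans (by gcongr)
        _ = K * α + K * (1 + α⁻¹) * (h ^ 2 - 0) := by ring
    · rw [indicator_of_notMem hx]
      have hx' : R ≤ ‖x - p‖ := by simpa [mem_ball, dist_eq_norm] using hx
      rw [hζ.fderiv_eq_zero hR hx', hζ.supp x hx']
      simp
  simp only [rate_eq, rint_static hζ.smooth]
  calc ‖∫ x, (fderiv ℝ ζ x (Hv (M t) x) - ‖Hv (M t) x‖ ^ 2 * ζ x) ∂(area (M t))‖ₑ
      ≤ ∫⁻ x, ‖fderiv ℝ ζ x (Hv (M t) x) - ‖Hv (M t) x‖ ^ 2 * ζ x‖ₑ ∂(area (M t)) :=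
        enorm_integral_le_lintegral_enorm _
    _ ≤ ∫⁻ x, (ball p R).indicator (fun x => ENNReal.ofReal (K * α) +
          ENNReal.ofReal (K * (1 + α⁻¹)) * ENNReal.ofReal (‖Hv (M t) x‖ ^ 2 - 0)) x
          ∂(area (M t)) := lintegral_mono hpt
    _ = ENNReal.ofReal (K * α) * area (M t) (ball p R) +
          ENNReal.ofReal (K * (1 + α⁻¹)) *
            ∫⁻ x in ball p R, ENNReal.ofReal (‖Hv (M t) x‖ ^ 2 - 0) ∂(area (M t)) := by
        rw [lintegral_indicator measurableSet_ball, lintegral_add_left measurable_const,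
          setLIntegral_const, lintegral_const_mul' _ _ ENNReal.ofReal_ne_top]
    _ ≤ ENNReal.ofReal (K * α) * ENNReal.ofReal (D * R ^ 2) +
          ENNReal.ofReal (K * (1 + α⁻¹)) *
            ∫⁻ x in ball p R, ENNReal.ofReal (‖Hv (M t) x‖ ^ 2 - 0) ∂(area (M t)) := by
        gcongr
        exact hA p R hR
    _ = _ := by rw [← ENNReal.ofReal_mul (by positivity), mul_assoc]

/-- the smooth part of the change of an integral -/
theorem WF.abs_integral_rate_le (h : WF D μ M J I) (hD : 0 ≤ D) {ζ : E3 → ℝ} {p : E3}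
    {R K a b α d : ℝ} (hR : 0 < R) (hζ : Test ζ p R K) (hab : a ≤ b) (hI : Icc a b ⊆ I)
    (hα : 0 < α) (hd : 0 ≤ d) (hdiss : diss M 0 p R a b ≤ ENNReal.ofReal d) :
    |∫ t in a..b, rate M (fun q : ℝ × E3 => ζ q.2) t|
      ≤ K * (α * (D * R ^ 2) * (b - a) + (1 + α⁻¹) * d) := by
  have hK := hζ.nonneg
  have hba : 0 ≤ b - a := sub_nonneg.mpr hab
  have hl : ∫⁻ t in Icc a b, ‖rate M (fun q : ℝ × E3 => ζ q.2) t‖ₑ ≤
      ENNReal.ofReal (K * (α * (D * R ^ 2) * (b - a) + (1 + α⁻¹) * d)) := by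
    calc ∫⁻ t in Icc a b, ‖rate M (fun q : ℝ × E3 => ζ q.2) t‖ₑ
        ≤ ∫⁻ t in Icc a b, (ENNReal.ofReal (K * (α * (D * R ^ 2))) +
            ENNReal.ofReal (K * (1 + α⁻¹)) *
              ∫⁻ x in ball p R, ENNReal.ofReal (‖Hv (M t) x‖ ^ 2 - 0) ∂(area (M t))) :=
          lintegral_mono_ae ((h.ae_Icc hI).mono fun t ht =>
            enorm_rate_static (h.areaRatio ht) hR hζ hα)
      _ = ENNReal.ofReal (K * (α * (D * R ^ 2))) * ENNReal.ofReal (b - a) +
            ENNReal.ofReal (K * (1 + α⁻¹)) * diss M 0 p R a b := by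
          rw [lintegral_add_left measurable_const, setLIntegral_const,
            lintegral_const_mul' _ _ ENNReal.ofReal_ne_top, Real.volume_Icc]
          rfl
      _ ≤ ENNReal.ofReal (K * (α * (D * R ^ 2))) * ENNReal.ofReal (b - a) +
            ENNReal.ofReal (K * (1 + α⁻¹)) * ENNReal.ofReal d := by gcongr
      _ = _ := by
          rw [← ENNReal.ofReal_mul (by positivity), ← ENNReal.ofReal_mul (by positivity),
            ← ENNReal.ofReal_add (by positivity) (by positivity)]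
          congr 1
          ring
  rw [intervalIntegral.integral_of_le hab, ← integral_Icc_eq_integral_Ioc, ← Real.norm_eq_abs]
  have h1 := (enorm_integral_le_lintegral_enorm _).trans hl
  rw [← ofReal_norm] at h1
  exact (ENNReal.ofReal_le_ofReal_iff (by positivity)).mp h1

/-- the loss of a test function is controlled by the loss of a cutoff function -/
theorem WF.abs_loss_test (h : WF D μ M J I) {ζ : E3 → ℝ} {p : E3} {R R' K a b d : ℝ} (hR : 0 < R)
    (hRR : R < R') (hζ : Test ζ p R K) (hab : a ≤ b) (hI : Icc a b ⊆ I) (hd : 0 ≤ d)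
    (hdrop : ∀ χ : ℝ × E3 → ℝ, CB χ (‖p‖ + R') → (∀ q, 0 ≤ χ q) → (∀ q, χ q ≤ 1) →
      (∀ q : ℝ × E3, q.2 ∉ closedBall p ((R + R') / 2) → χ q = 0) →
      ENNReal.ofReal (loss μ M χ a b) ≤ ENNReal.ofReal d) :
    |loss μ M (fun q : ℝ × E3 => ζ q.2) a b| ≤ K * d := by
  have hK := hζ.nonneg
  obtain ⟨χ, c1, c2, c3, c4, c5⟩ := exists_space_cut p hR (show R < (R + R') / 2 by linarith)
  have hχ : CB (fun q : ℝ × E3 => χ q.2) (‖p‖ + R') :=
    ⟨c1.comp contDiff_snd, fun q hq => c5 _ (by linarith [Hu.far hq])⟩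
  have h1 := h.abs_loss_le ((Test.cb hζ).mono (by linarith)) (hχ.const_mul K) (fun q => ?_) hab hI
  · rw [loss_const_mul hχ.smooth] at h1
    have h2 := hdrop _ hχ (fun q => c2 _) (fun q => c3 _) fun q hq => c5 _ (by
      rw [mem_closedBall_iff_norm, not_le] at hq; exact hq.le)
    rw [ENNReal.ofReal_le_ofReal_iff hd] at h2
    exact h1.trans (by gcongr)
  · rcases le_total R ‖q.2 - p‖ with h2 | h2
    · simp only [hζ.supp _ h2, abs_zero]
      exact mul_nonneg hK (c2 _)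
    · simp only [c4 _ h2, mul_one]
      exact hζ.b0 _

/-- **Integrals change little in time** when the dissipation and the drop are small -/
theorem WF.static (h : WF D μ M J I) (hD : 0 ≤ D) {ζ : E3 → ℝ} {p : E3}
    {R R' K a' a b b' α d d' : ℝ} (hR : 0 < R) (hRR : R < R') (hζ : Test ζ p R K) (ha : a' < a)
    (hab : a ≤ b) (hb : b < b') (hI : Ioo a' b' ⊆ I) (hα : 0 < α) (hd : 0 ≤ d) (hd' : 0 ≤ d')
    (hdiss : diss M 0 p R a b ≤ ENNReal.ofReal d)
    (hdrop : drop M (Ioo a' b' ×ˢ ball p R') ≤ ENNReal.ofReal d') :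
    |∫ x, ζ x ∂(μ b) - ∫ x, ζ x ∂(μ a)|
      ≤ K * (α * (D * R ^ 2) * (b - a) + (1 + α⁻¹) * d + d') := by
  have hI' : Icc a b ⊆ I := (Icc_subset_Ioo ha hb).trans hI
  have h1 := h.abs_integral_rate_le hD hR hζ hab hI' hα hd hdiss
  have h2 := h.abs_loss_test hR hRR hζ hab hI' hd' fun χ c1 c2 c3 c4 =>
    (h.loss_le_drop c1 c2 c3 isClosed_closedBall (closedBall_subset_ball (by linarith)) c4 ha hab
      hb hI).trans hdrop
  unfold loss at h2
  rw [abs_le] at h1 h2 ⊢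
  constructor <;> linarith [h1.1, h1.2, h2.1, h2.2]

/-- the same between two smooth times -/
theorem WF.static_J (h : WF D μ M J I) (hD : 0 ≤ D) {ζ : E3 → ℝ} {p : E3}
    {R R' K a b α d d' : ℝ} (hR : 0 < R) (hRR : R < R') (hζ : Test ζ p R K) (ha : a ∈ J)
    (hab : a ≤ b) (hb : b ∈ J) (hI : Icc a b ⊆ I) (hα : 0 < α) (hd : 0 ≤ d) (hd' : 0 ≤ d')
    (hdiss : diss M 0 p R a b ≤ ENNReal.ofReal d)
    (hdrop : drop M (Ioo a b ×ˢ ball p R') ≤ ENNReal.ofReal d') :
    |∫ x, ζ x ∂(μ b) - ∫ x, ζ x ∂(μ a)|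
      ≤ K * (α * (D * R ^ 2) * (b - a) + (1 + α⁻¹) * d + d') := by
  have h1 := h.abs_integral_rate_le hD hR hζ hab hI hα hd hdiss
  have h2 := h.abs_loss_test hR hRR hζ hab hI hd' fun χ c1 c2 c3 c4 =>
    (h.loss_le_drop' c1 c2 c3 isClosed_closedBall (closedBall_subset_ball (by linarith)) c4 hab hI
      (h.continuousAt c1 ha) (h.continuousAt c1 hb)).trans hdrop
  unfold loss at h2
  rw [abs_le] at h1 h2 ⊢
  constructor <;> linarith [h1.1, h1.2, h2.1, h2.2]

theorem dropW_proof : DropW :=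
  ⟨fun _ _ _ h => drop_mono h, fun _ _ _ _ _ h _ _ hI _ u _ _ hd hU hV =>
    h.drop_finset_le u hU (hV.trans (prod_mono (Ioo_subset_Icc_self.trans hI) Subset.rfl)) hd⟩

theorem staticW_proof : StaticW :=
  fun _ hD _ _ _ _ h _ _ _ _ _ _ _ _ _ _ _ hR hζ ha hst hb hI hα hd hd' h1 h2 =>
    h.static hD hR (by linarith) hζ ha hst hb (Ioo_subset_Icc_self.trans hI) hα hd hd' h1 h2

theorem gaussW_proof : GaussW := by
  obtain ⟨C₀, hC, h⟩ := gaussM
  exact ⟨C₀, hC, fun D hD => ⟨fun ν hν => ⟨(h D hD).1 ν hν, hν.continuousOn_gM⟩, (h D hD).2⟩⟩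

end Vale.Agent.P218G
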