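import Vale.Agent.P218G.Defs
import Vale.Agent.P218FT.EVMain
import Vale.Agent.P218FT.Local2
import Vale.Agent.P218FT.Huisken1
import Vale.Agent.P218FT.Chart

/-! Brakke's inequality for test functions `θ ∘ Q`: the energy estimate. -/

open MeasureTheory Set Filter Topology Metric
open scoped ENNReal NNReal RealInnerProductSpace ContDiff

namespace Vale.Agent.P218G.En

open P218FT

/-- the time derivative -/
noncomputable def dT (Q : ℝ × E3 → ℝ) (p : ℝ × E3) : ℝ := fderiv ℝ Q p (1, 0)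

/-- the spatial gradient -/
noncomputable def gS (Q : ℝ × E3 → ℝ) (p : ℝ × E3) : E3 := gradient (sl Q p.1) p.2

/-- the spatial Hessian -/
noncomputable def hS (Q : ℝ × E3 → ℝ) (p : ℝ × E3) : E3 →L[ℝ] E3 :=
  fderiv ℝ (gradient (sl Q p.1)) p.2

/-- the operator `∂_t - tr_{n^⊥} D²` -/
noncomputable def heat (Q : ℝ × E3 → ℝ) (p : ℝ × E3) (n : E3) : ℝ :=
  dT Q p - (tr (hS Q p) - ⟪hS Q p n, n⟫)

lemma fderiv_sl' {G : Type*} [NormedAddCommGroup G] [NormedSpace ℝ G] {Q : ℝ × E3 → G} {t : ℝ}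
    {y : E3} (hQ : DifferentiableAt ℝ Q (t, y)) : HasFDerivAt (fun x => Q (t, x))
      ((fderiv ℝ Q (t, y)).comp (ContinuousLinearMap.inr ℝ ℝ E3)) y :=
  hQ.hasFDerivAt.comp y (hasFDerivAt_prodMk_right t y)

lemma inner_gS {Q : ℝ × E3 → ℝ} {p : ℝ × E3} (hQ : DifferentiableAt ℝ Q p) (v : E3) :
    ⟪gS Q p, v⟫ = fderiv ℝ Q p (0, v) := by
  rw [gS, inner_grad]
  exact DFunLike.congr_fun (fderiv_sl' (t := p.1) (y := p.2) hQ).fderiv v

lemma fderiv_prod {Q : ℝ × E3 → ℝ} {p : ℝ × E3} (hQ : DifferentiableAt ℝ Q p) (c : ℝ) (v : E3) :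
    fderiv ℝ Q p (c, v) = c * dT Q p + ⟪gS Q p, v⟫ := by
  have : ((c, v) : ℝ × E3) = c • ((1 : ℝ), (0 : E3)) + ((0 : ℝ), v) := by simp
  rw [this, map_add, map_smul, inner_gS hQ, dT, smul_eq_mul]

lemma gS_eq {Q : ℝ × E3 → ℝ} (hQ : Differentiable ℝ Q) :
    gS Q = fun p => rz ((fderiv ℝ Q p).comp (ContinuousLinearMap.inr ℝ ℝ E3)) := by
  funext p
  refine ext_inner_right ℝ fun v => ?_
  rw [inner_gS (hQ p), inner_rz]
  rfl

lemma contDiff_gS {Q : ℝ × E3 → ℝ} (hQ : ContDiff ℝ 2 Q) : ContDiff ℝ 1 (gS Q) := by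
  rw [gS_eq (hQ.differentiable (by norm_num))]
  exact rz.contDiff.comp ((hQ.fderiv_right (m := 1) (by norm_num)).clm_comp contDiff_const)

lemma continuous_dT {Q : ℝ × E3 → ℝ} (hQ : ContDiff ℝ 1 Q) : Continuous (dT Q) :=
  (hQ.continuous_fderiv one_ne_zero).clm_apply continuous_const

lemma continuous_gS {Q : ℝ × E3 → ℝ} (hQ : ContDiff ℝ 1 Q) : Continuous (gS Q) := by
  rw [gS_eq (hQ.differentiable one_ne_zero)]
  exact rz.continuous.comp ((hQ.continuous_fderiv one_ne_zero).clm_comp continuous_const)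

lemma hS_eq {Q : ℝ × E3 → ℝ} (hQ : ContDiff ℝ 2 Q) :
    hS Q = fun p => (fderiv ℝ (gS Q) p).comp (ContinuousLinearMap.inr ℝ ℝ E3) := by
  funext p
  exact (fderiv_sl' (t := p.1) (y := p.2) ((contDiff_gS hQ).differentiable one_ne_zero _)).fderiv

lemma continuous_hS {Q : ℝ × E3 → ℝ} (hQ : ContDiff ℝ 2 Q) : Continuous (hS Q) := by
  rw [hS_eq hQ]
  exact ((contDiff_gS hQ).continuous_fderiv one_ne_zero).clm_comp continuous_const

lemma dT_congr {Q Q' : ℝ × E3 → ℝ} {p : ℝ × E3} (h : Q =ᶠ[𝓝 p] Q') : dT Q p = dT Q' p := by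
  rw [dT, dT, h.fderiv_eq]

lemma sl_congr {Q Q' : ℝ × E3 → ℝ} {p : ℝ × E3} (h : Q =ᶠ[𝓝 p] Q') :
    sl Q p.1 =ᶠ[𝓝 p.2] sl Q' p.1 :=
  ((continuous_const.prodMk continuous_id).tendsto' p.2 p rfl).eventually h

lemma gS_congr {Q Q' : ℝ × E3 → ℝ} {p : ℝ × E3} (h : Q =ᶠ[𝓝 p] Q') : gS Q p = gS Q' p :=
  (sl_congr h).gradient_eq

lemma hS_congr {Q Q' : ℝ × E3 → ℝ} {p : ℝ × E3} (h : Q =ᶠ[𝓝 p] Q') : hS Q p = hS Q' p := by
  refine Filter.EventuallyEq.fderiv_eq ?_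
  filter_upwards [(sl_congr h).eventually_nhds] with y hy using
    Filter.EventuallyEq.gradient_eq hy

lemma heat_congr {Q Q' : ℝ × E3 → ℝ} {p : ℝ × E3} (h : Q =ᶠ[𝓝 p] Q') (n : E3) :
    heat Q p n = heat Q' p n := by
  rw [heat, heat, dT_congr h, hS_congr h]

lemma tr_smulRight (l : E3 →L[ℝ] ℝ) (v : E3) : tr (l.smulRight v) = l v := by
  have : (l.smulRight v).toLinearMap = l.toLinearMap.smulRight v := rfl
  rw [tr, this, LinearMap.trace_smulRight]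
  rfl

lemma divT_smul (N : Set E3) {g : E3 → ℝ} {Y : E3 → E3} {x : E3} (hg : DifferentiableAt ℝ g x)
    (hY : DifferentiableAt ℝ Y x) : divT N (fun y => g y • Y y) x =
      g x * divT N Y x + fderiv ℝ g x (pt (nu N x) (Y x)) := by
  have h := hg.hasFDerivAt.fun_smul hY.hasFDerivAt
  rw [divT, divT, h.fderiv, tr_add, tr_smul, tr_smulRight, pt_apply, map_sub, map_smul]
  simp only [add_apply, smul_apply, ContinuousLinearMap.smulRight_apply,
    inner_add_left, real_inner_smul_left, smul_eq_mul, real_inner_comm (Y x)]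
  ring

variable {D : ℝ} {μ : ℝ → Measure E3} {M : ℝ → Set E3} {J I : Set ℝ}

/-- Brakke's inequality for test functions with bounded spatial support -/
theorem brakke (h : WF D μ M J I) {f : ℝ × E3 → ℝ} (hf : ContDiff ℝ 1 f) (h0 : ∀ p, 0 ≤ f p)
    {c : E3} {R a b : ℝ} (hR : ∀ t ∈ Icc a b, ∀ x, R ≤ ‖x - c‖ → f (t, x) = 0) (hab : a ≤ b)
    (hI : Icc a b ⊆ I) : IntervalIntegrable (rate M f) volume a b ∧
      ∫ x, f (b, x) ∂(μ b) - ∫ x, f (a, x) ∂(μ a) ≤ ∫ t in a..b, rate M f t := by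
  let τ : ContDiffBump ((a, c) : ℝ × E3) :=
    ⟨b - a + |R| + 1, b - a + |R| + 2, by linarith [abs_nonneg R], by linarith⟩
  have hτ : ∀ t ∈ Icc a b, ∀ x, ‖x - c‖ < |R| + 1 → ∀ᶠ q in 𝓝 (t, x), τ q = 1 := fun t ht x hx =>
    τ.eventuallyEq_one_of_mem_ball (by
      rw [mem_ball, Prod.dist_eq, Real.dist_eq, abs_of_nonneg (by linarith [ht.1]), dist_eq_norm]
      show max (t - a) ‖x - c‖ < b - a + |R| + 1
      exact max_lt (by linarith [ht.2, abs_nonneg R]) (by linarith))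
  have e0 : ∀ t ∈ Icc a b, ∀ x, τ (t, x) * f (t, x) = f (t, x) := fun t ht x => by
    by_cases hx : ‖x - c‖ < |R| + 1
    · rw [(hτ t ht x hx).self_of_nhds, one_mul]
    · rw [hR t ht x (by linarith [le_abs_self R]), mul_zero]
  obtain ⟨h1, h2⟩ := h.brakke (fun p => τ p * f p) (τ.contDiff.mul hf)
    τ.hasCompactSupport.mul_right (fun p => mul_nonneg τ.nonneg (h0 p)) a b hab hI
  have e : ∀ t ∈ Ioo a b, rate M (fun p => τ p * f p) t = rate M f t := by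
    intro t ht
    have e2 : ∀ x, fderiv ℝ (fun p : ℝ × E3 => τ p * f p) (t, x) = fderiv ℝ f (t, x) := by
      intro x
      refine Filter.EventuallyEq.fderiv_eq ?_
      filter_upwards [(continuous_fst.tendsto ((t, x) : ℝ × E3)).eventually
        (Icc_mem_nhds ht.1 ht.2)] with q hq using e0 q.1 hq q.2
    simp only [rate, e2, e0 t (Ioo_subset_Icc_self ht)]
  have e' : ∀ᵐ t, t ∈ uIoc a b → rate M (fun p => τ p * f p) t = rate M f t := by
    filter_upwards [compl_mem_ae_iff.2 (measure_singleton b)] with t hb ht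
    rw [uIoc_of_le hab] at ht
    exact e t ⟨ht.1, lt_of_le_of_ne ht.2 hb⟩
  simp only [e0 a (left_mem_Icc.2 hab), e0 b (right_mem_Icc.2 hab)] at h2
  rw [intervalIntegral.integral_congr_ae e'] at h2
  exact ⟨h1.congr_ae ((ae_restrict_iff' measurableSet_uIoc).2 e'), h2⟩

section comp

variable {θ θ' θ'' : ℝ → ℝ} {Q : ℝ × E3 → ℝ}

lemma contDiff_of_deriv (h1 : ∀ s, HasDerivAt θ (θ' s) s) (h2 : Continuous θ') : ContDiff ℝ 1 θ := by
  rw [contDiff_one_iff_deriv]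
  refine ⟨fun s => (h1 s).differentiableAt, ?_⟩
  rwa [show deriv θ = θ' from funext fun s => (h1 s).deriv]

/-- the integrand of the rate of `θ ∘ Q` after the first variation formula -/
noncomputable def ig (θ θ' θ'' : ℝ → ℝ) (Q : ℝ × E3 → ℝ) (M : ℝ → Set E3) (t : ℝ) (x : E3) : ℝ :=
  θ' (Q (t, x)) * heat Q (t, x) (nu (M t) x)
    - θ'' (Q (t, x)) * ‖pt (nu (M t) x) (gS Q (t, x))‖ ^ 2 - ‖Hv (M t) x‖ ^ 2 * θ (Q (t, x))

/-- the rate of `θ ∘ Q` at a smooth time -/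
theorem rate_comp (hM : IsMCF M J) (h1 : ∀ s, HasDerivAt θ (θ' s) s)
    (h2 : ∀ s, HasDerivAt θ' (θ'' s) s) (h3 : Continuous θ'') (hQ : ContDiff ℝ 2 Q) {c : E3}
    {R t : ℝ} (hR : ∀ x, R ≤ ‖x - c‖ → θ (Q (t, x)) = 0 ∧ θ' (Q (t, x)) = 0) (ht : t ∈ J) :
    Integrable (ig θ θ' θ'' Q M t) (area (M t)) ∧
      rate M (fun p => θ (Q p)) t = ∫ x, ig θ θ' θ'' Q M t x ∂(area (M t)) := by
  have hS := hM.isSurf ht
  have c2 : ContDiff ℝ 1 θ' := contDiff_of_deriv h2 h3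
  have c1 : ContDiff ℝ 1 θ := contDiff_of_deriv h1 c2.continuous
  have hQ1 : ContDiff ℝ 1 Q := hQ.of_le (by norm_num)
  have hQd := hQ1.differentiable one_ne_zero
  have hsl : ContDiff ℝ 1 (sl Q t) := contDiff_sl hQ1 t
  have hg : ContDiff ℝ 1 (gradient (sl Q t)) := contDiff_grad_one (contDiff_sl hQ t)
  set X : E3 → E3 := fun y => θ' (sl Q t y) • gradient (sl Q t) y with hX
  have hXc : ContDiff ℝ 1 X := (c2.comp hsl).smul hg
  have hXs : HasCompactSupport X := by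
    refine HasCompactSupport.intro (isCompact_closedBall c R) fun y hy => ?_
    rw [mem_closedBall, dist_eq_norm, not_le] at hy
    simp only [hX, sl, (hR y hy.le).2, zero_smul]
  obtain ⟨i1, i2, i3⟩ := EV.fv_full hS hXc hXs
  have d1 : ∀ x, HasFDerivAt (fun p => θ (Q p)) (θ' (Q (t, x)) • fderiv ℝ Q (t, x)) (t, x) :=
    fun x => (h1 _).comp_hasFDerivAt (t, x) (hQd _).hasFDerivAt
  have i4 : Integrable (fun x => fderiv ℝ (fun p => θ (Q p)) (t, x) (1, Hv (M t) x) -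
      ‖Hv (M t) x‖ ^ 2 * θ (Q (t, x))) (area (M t)) := by
    have := Chart.locFin_proof _ hS
    have cH : ContinuousOn (fun x => Hv (M t) x) (M t) :=
      hM.continuousOn_Hv.comp (f := fun x => (t, x)) (by fun_prop) fun _ hx => ⟨ht, hx⟩
    have cD : Continuous fun x => fderiv ℝ (fun p => θ (Q p)) (t, x) :=
      ((c1.comp hQ1).continuous_fderiv one_ne_zero).comp (by fun_prop)
    refine Hu.integrable_of_cts hS.1 ((cD.continuousOn.clm_apply
      (continuousOn_const.prodMk cH)).sub ((cH.norm.pow 2).mul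
        (c1.continuous.comp hsl.continuous).continuousOn)) (y := c) (R := R) fun x _ hx => ?_
    rw [(d1 x).fderiv, (hR x hx).1, (hR x hx).2]
    simp
  have e : ∀ᵐ x ∂(area (M t)), ig θ θ' θ'' Q M t x =
      (fderiv ℝ (fun p => θ (Q p)) (t, x) (1, Hv (M t) x) - ‖Hv (M t) x‖ ^ 2 * θ (Q (t, x)))
        - ⟪X x, Hv (M t) x⟫ - divT (M t) X x := by
    filter_upwards [Hu.ae_mem hS.1] with x hx
    have hn := hS.norm_nu hx
    have d2 : HasFDerivAt (fun y => θ' (sl Q t y)) (θ'' (Q (t, x)) • fderiv ℝ (sl Q t) x) x :=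
      (h2 _).comp_hasFDerivAt x (hsl.differentiable one_ne_zero x).hasFDerivAt
    have e1 : ⟪gS Q (t, x), pt (nu (M t) x) (gS Q (t, x))⟫ = ‖pt (nu (M t) x) (gS Q (t, x))‖ ^ 2 := by
      rw [← real_inner_self_eq_norm_sq, inner_pt_left, pt_pt hn]
    rw [hX, divT_smul _ d2.differentiableAt (hg.differentiable one_ne_zero x), (d1 x).fderiv,
      d2.fderiv,
      smul_apply, smul_apply, fderiv_prod (hQd _), ← inner_grad, real_inner_smul_left]
    simp only [ig, heat, divT, smul_eq_mul, ← e1]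
    simp only [gS, En.hS, sl]
    ring
  refine ⟨((i4.sub i2).sub i1).congr (e.mono fun x hx => hx.symm), ?_⟩
  have i5 := integral_sub (i4.sub i2) i1
  simp only [Pi.sub_apply] at i5
  rw [integral_congr_ae e, i5, integral_sub i4 i2, i3]
  simp only [rate]
  ring

/-- **Brakke's inequality for `θ ∘ Q`** -/
theorem brakke_comp (h : WF D μ M J I) (h1 : ∀ s, HasDerivAt θ (θ' s) s)
    (h2 : ∀ s, HasDerivAt θ' (θ'' s) s) (h3 : Continuous θ'') (h0 : ∀ s, 0 ≤ θ s)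
    (hQ : ContDiff ℝ 2 Q) {c : E3} {R a b : ℝ}
    (hR : ∀ t ∈ Icc a b, ∀ x, R ≤ ‖x - c‖ → θ (Q (t, x)) = 0 ∧ θ' (Q (t, x)) = 0) (hab : a ≤ b)
    (hI : Icc a b ⊆ I) {g : ℝ → E3 → ℝ≥0∞}
    (hg : ∀ t ∈ Icc a b, t ∈ J → ∀ x ∈ M t, 0 ≤ -ig θ θ' θ'' Q M t x ∧
      g t x ≤ ENNReal.ofReal (-ig θ θ' θ'' Q M t x)) :
    ENNReal.ofReal (∫ x, θ (Q (b, x)) ∂(μ b)) + ∫⁻ t in Icc a b, ∫⁻ x, g t x ∂(area (M t)) ≤
      ENNReal.ofReal (∫ x, θ (Q (a, x)) ∂(μ a)) := by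
  have c2 : ContDiff ℝ 1 θ' := contDiff_of_deriv h2 h3
  have c1 : ContDiff ℝ 1 θ := contDiff_of_deriv h1 c2.continuous
  obtain ⟨i1, i2⟩ := brakke h (f := fun p => θ (Q p)) (c1.comp (hQ.of_le (by norm_num)))
    (fun p => h0 _) (fun t ht x hx => (hR t ht x hx).1) hab hI
  have key : ∀ᵐ t ∂(volume.restrict (Icc a b)), 0 ≤ -rate M (fun p => θ (Q p)) t ∧
      ∫⁻ x, g t x ∂(area (M t)) ≤ ENNReal.ofReal (-rate M (fun p => θ (Q p)) t) := by
    rw [ae_restrict_iff' measurableSet_Icc]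
    filter_upwards [h.ae] with t htJ ht
    have hJ := htJ (hI ht)
    obtain ⟨j1, j2⟩ := rate_comp h.mcf h1 h2 h3 hQ (hR t ht) hJ
    have a0 : 0 ≤ᵐ[area (M t)] fun x => -ig θ θ' θ'' Q M t x := by
      filter_upwards [Hu.ae_mem (h.mcf.isSurf hJ).1] with x hx using (hg t ht hJ x hx).1
    rw [j2, ← integral_neg]
    refine ⟨integral_nonneg_of_ae a0, ?_⟩
    rw [ofReal_integral_eq_lintegral_ofReal (f := fun x => -ig θ θ' θ'' Q M t x) j1.neg a0]
    refine lintegral_mono_ae ?_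
    filter_upwards [Hu.ae_mem (h.mcf.isSurf hJ).1] with x hx using (hg t ht hJ x hx).2
  have i3 : IntegrableOn (fun t => -rate M (fun p => θ (Q p)) t) (Icc a b) :=
    ((intervalIntegrable_iff_integrableOn_Icc_of_le hab).1 i1).neg
  have k1 := lintegral_mono_ae (key.mono fun t ht => ht.2)
  rw [← ofReal_integral_eq_lintegral_ofReal i3 (key.mono fun t ht => ht.1)] at k1
  have k2 : 0 ≤ ∫ t in Icc a b, -rate M (fun p => θ (Q p)) t :=
    integral_nonneg_of_ae (key.mono fun t ht => ht.1)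
  refine (add_le_add_right k1 _).trans ?_
  rw [← ENNReal.ofReal_add (integral_nonneg fun x => h0 _) k2]
  refine ENNReal.ofReal_le_ofReal ?_
  rw [intervalIntegral.integral_of_le hab, ← integral_Icc_eq_integral_Ioc] at i2
  rw [integral_neg]
  linarith

end comp

/-- the cube of the positive part of `c - s` -/
noncomputable def cube (c s : ℝ) : ℝ := max (c - s) 0 ^ 3

lemma hasDerivAt_cube (c s : ℝ) : HasDerivAt (cube c) (-(3 * max (c - s) 0 ^ 2)) s := by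
  have := (Hu.hasDerivAt_pos3 (c - s)).comp s ((hasDerivAt_id s).const_sub c)
  exact this.congr_deriv (by ring)

lemma hasDerivAt_cube' (c s : ℝ) :
    HasDerivAt (fun s => -(3 * max (c - s) 0 ^ 2)) (6 * max (c - s) 0) s := by
  have := (((Hu.hasDerivAt_pos2 (c - s)).comp s ((hasDerivAt_id s).const_sub c)).const_mul 3).neg
  exact this.congr_deriv (by ring)

lemma cube_nonneg (c s : ℝ) : 0 ≤ cube c s := pow_nonneg (le_max_right _ _) 3

/-- Brakke's inequality for `(c - Q)₊³` -/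
theorem brakke_cube (h : WF D μ M J I) {Q : ℝ × E3 → ℝ} (hQ : ContDiff ℝ 2 Q) {c : E3}
    {k R a b : ℝ} (hR : ∀ t ∈ Icc a b, ∀ x, R ≤ ‖x - c‖ → k ≤ Q (t, x)) (hab : a ≤ b)
    (hI : Icc a b ⊆ I) {g : ℝ → E3 → ℝ≥0∞}
    (hg : ∀ t ∈ Icc a b, t ∈ J → ∀ x ∈ M t, (k ≤ Q (t, x) → g t x = 0) ∧ (Q (t, x) < k →
      ∃ r : ℝ, 0 ≤ r ∧ g t x ≤ ENNReal.ofReal r ∧
        r ≤ 3 * (k - Q (t, x)) ^ 2 * heat Q (t, x) (nu (M t) x) +
          6 * (k - Q (t, x)) * ‖pt (nu (M t) x) (gS Q (t, x))‖ ^ 2)) :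
    ENNReal.ofReal (∫ x, cube k (Q (b, x)) ∂(μ b)) + ∫⁻ t in Icc a b, ∫⁻ x, g t x ∂(area (M t)) ≤
      ENNReal.ofReal (∫ x, cube k (Q (a, x)) ∂(μ a)) := by
  refine brakke_comp h (hasDerivAt_cube k) (hasDerivAt_cube' k) (by fun_prop) (cube_nonneg k) hQ
    (c := c) (R := R) (fun t ht x hx => ?_) hab hI fun t ht hJ x hx => ?_
  · simp [cube, max_eq_right (sub_nonpos.2 (hR t ht x hx))]
  · obtain ⟨g1, g2⟩ := hg t ht hJ x hx
    rcases le_or_gt k (Q (t, x)) with h1 | h1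
    · simp [ig, cube, max_eq_right (sub_nonpos.2 h1), g1 h1]
    · obtain ⟨r, r0, r1, r2⟩ := g2 h1
      have h2 : r ≤ -ig (cube k) (fun s => -(3 * max (k - s) 0 ^ 2)) (fun s => 6 * max (k - s) 0)
          Q M t x := by
        have := mul_nonneg (sq_nonneg ‖Hv (M t) x‖) (cube_nonneg k (Q (t, x)))
        simp only [ig, max_eq_left (sub_pos.2 h1).le]
        linarith
      exact ⟨r0.trans h2, r1.trans (ENNReal.ofReal_le_ofReal h2)⟩

/-- **The energy estimate** for a nonnegative supersolution -/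
theorem energy (h : WF D μ M J I) {Q : ℝ × E3 → ℝ} (hQ : ContDiff ℝ 2 Q) {c : E3} {R a b : ℝ}
    (hR0 : 0 < R) (hR : ∀ t ∈ Icc a b, ∀ x, R ≤ ‖x - c‖ → 3 ≤ Q (t, x)) (hab : a ≤ b)
    (hI : Icc a b ⊆ I) (h0 : ∀ x, 0 ≤ Q (a, x))
    (hs : ∀ t ∈ Icc a b, t ∈ J → ∀ x ∈ M t, Q (t, x) < 3 → 0 ≤ heat Q (t, x) (nu (M t) x)) :
    ∫⁻ t in Icc a b, ∫⁻ x, {y | Q (t, y) ≤ 2}.indicator
      (fun y => ENNReal.ofReal (‖pt (nu (M t) y) (gS Q (t, y))‖ ^ 2)) x ∂(area (M t)) ≤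
      ENNReal.ofReal (27 * (D * R ^ 2)) := by
  have ha : a ∈ I := hI (left_mem_Icc.2 hab)
  refine (le_add_self.trans (brakke_cube h hQ hR hab hI fun t ht hJ x hx => ⟨fun h1 => ?_,
    fun h1 => ?_⟩)).trans ?_
  · exact indicator_of_notMem (s := {y | Q (t, y) ≤ 2}) (fun h2 : Q (t, x) ≤ 2 => by linarith) _
  · have h2 := mul_nonneg (sq_nonneg (3 - Q (t, x))) (hs t ht hJ x hx h1)
    have h3 := sq_nonneg ‖pt (nu (M t) x) (gS Q (t, x))‖
    by_cases h4 : Q (t, x) ≤ 2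
    · refine ⟨_, h3, (indicator_of_mem (s := {y | Q (t, y) ≤ 2}) h4 _).le, ?_⟩
      nlinarith
    · refine ⟨0, le_rfl, (indicator_of_notMem (s := {y | Q (t, y) ≤ 2}) h4 _).le.trans zero_le, ?_⟩
      have := mul_nonneg (sub_pos.2 h1).le h3
      nlinarith
  · refine ((Real.ofReal_le_enorm _).trans (enorm_integral_le_lintegral_enorm _)).trans ?_
    have h1 : ∀ x, ‖cube 3 (Q (a, x))‖ₑ ≤ (ball c R).indicator (fun _ => ENNReal.ofReal 27) x := by
      intro x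
      by_cases hx : x ∈ ball c R
      · rw [indicator_of_mem hx, Real.enorm_eq_ofReal (cube_nonneg _ _)]
        refine ENNReal.ofReal_le_ofReal ?_
        have : max (3 - Q (a, x)) 0 ≤ 3 := max_le (by linarith [h0 x]) (by norm_num)
        exact (pow_le_pow_left₀ (le_max_right _ _) this 3).trans (by norm_num)
      · rw [indicator_of_notMem hx]
        rw [mem_ball, dist_eq_norm, not_lt] at hx
        simp [cube, max_eq_right (sub_nonpos.2 (hR a (left_mem_Icc.2 hab) x hx))]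
    refine (lintegral_mono h1).trans ?_
    rw [lintegral_indicator_const measurableSet_ball, ENNReal.ofReal_mul (p := 27) (by norm_num)]
    exact mul_le_mul_right (h.ratio a ha c R hR0) _

end Vale.Agent.P218G.En
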