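import Vale.Agent.P218G.FinSpec
import Vale.Agent.P218G.LgbDis

/-! Finite genus gives the local Gauss-Bonnet estimate. -/

open MeasureTheory Set Filter Topology Metric
open scoped ENNReal

namespace Vale.Agent.P218G.Rg

open Vale.Agent.P218FT

namespace FG

variable {N S : Set E3} {U B : Set E3}

theorem area_eq (e : N ∩ U = S ∩ U) (hB : MeasurableSet B) (h : B ⊆ U) :
    (area N).restrict B = (area S).restrict B := by
  rw [area, area, Measure.restrict_restrict hB, Measure.restrict_restrict hB,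
    ← inter_eq_left.2 h, inter_assoc, inter_assoc, inter_comm U, inter_comm U, e]

theorem lint_eq (hN : IsSurf N) (hU : IsOpen U) (e : N ∩ U = S ∩ U)
    (hB : MeasurableSet B) (h : B ⊆ U) (F : E3 → ℝ → ℝ≥0∞) :
    ∫⁻ x in B, F (Hv N x) (a2 N x) ∂(area N) = ∫⁻ x in B, F (Hv S x) (a2 S x) ∂(area S) := by
  rw [← area_eq e hB h]
  refine lintegral_congr_ae ?_
  filter_upwards [ae_restrict_of_ae (P218F.Lgb.ae_mem_area hN), ae_restrict_mem hB] with x hx hb
  have k : ∀ y ∈ U, y ∈ S ↔ y ∈ N := fun y hy => by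
    simpa [hy] using (Set.ext_iff.1 e y).symm
  have hx' := (k x (h hb)).2 hx
  have he := hN.isEqn hx
  have he' : IsEqn S x _ := ⟨he.1, he.2.1, by
    filter_upwards [he.2.2, hU.mem_nhds (h hb)] with y h1 h2
    rw [k y h2, h1]⟩
  simp only [he.Hv_eq hx, he.a2_eq hx, he'.Hv_eq hx', he'.a2_eq hx']

end FG

/-- **FING** -/
theorem finGenus_proof : FinGenusStmt := by
  rintro S D - hD ⟨g, hg⟩
  obtain ⟨G, hG⟩ := lgb_genus_loc D g
  refine ⟨G, fun p r hr => ?_⟩
  obtain ⟨N, hN, hc, e, h1⟩ := hg (‖p‖ + 2 * r)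
  have s2 : ball p (2 * r) ⊆ ball 0 (‖p‖ + 2 * r) :=
    ball_subset_ball' (by rw [dist_zero_right, add_comm])
  have s1 : ball p r ⊆ ball 0 (‖p‖ + 2 * r) := (ball_subset_ball (by linarith)).trans s2
  have := hG N hN hc h1 p r hr (by
    rw [← Measure.restrict_apply_self, FG.area_eq e measurableSet_ball s2,
      Measure.restrict_apply_self]
    exact hD p _ (by positivity))
  rwa [FG.lint_eq hN isOpen_ball e measurableSet_ball s1 fun _ A => ENNReal.ofReal A,
    FG.lint_eq hN isOpen_ball e measurableSet_ball s2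
      fun H _ => ENNReal.ofReal (‖H‖ ^ 2)] at this

end Vale.Agent.P218G.Rg
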