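import Vale.Agent.P218G.RegA
import Mathlib.Analysis.SpecialFunctions.Trigonometric.DerivHyp

/-! Density ratios close to one force flatness. -/

open MeasureTheory Set Filter Topology Metric
open scoped ENNReal NNReal RealInnerProductSpace

namespace Vale.Agent.P218G.Rg

open Vale.Agent.P218 Vale.Agent.P218G.Lit
open Vale.Agent.P218FT (E3)

namespace F0

/-! ### Elementary inequalities -/

lemma cosh_ge (w : ℝ) : 2 + w ^ 2 ≤ Real.exp w + Real.exp (-w) := by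
  have h1 : |w / 2| ≤ |Real.sinh (w / 2)| := by
    rw [Real.abs_sinh]; exact Real.self_le_sinh_iff.2 (abs_nonneg _)
  have h2 : (w / 2) ^ 2 ≤ Real.sinh (w / 2) ^ 2 := sq_le_sq.2 h1
  have h3 := Real.cosh_two_mul (w / 2)
  have h4 := Real.cosh_sq (w / 2)
  have h5 := Real.cosh_eq (2 * (w / 2))
  rw [show 2 * (w / 2) = w by ring] at h3 h5
  nlinarith

lemma exp_le_cubic (w : ℝ) : Real.exp w ≤ 1 + w + w ^ 2 / 2 + |w| ^ 3 * Real.exp |w| := by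
  have h0 : 1 ≤ Real.exp |w| := Real.one_le_exp (abs_nonneg w)
  have h3 : 0 ≤ |w| ^ 3 := by positivity
  rcases le_total |w| 1 with h | h
  · have h1 := (abs_le.1 (Real.exp_bound h (n := 3) (by norm_num))).2
    simp only [Finset.sum_range_succ, Finset.sum_range_zero, Nat.factorial] at h1
    norm_num at h1
    nlinarith
  · have h1 : Real.exp w ≤ Real.exp |w| := Real.exp_le_exp.2 (le_abs_self w)
    have h2 : 1 ≤ |w| ^ 3 := one_le_pow₀ h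
    nlinarith [sq_nonneg (w + 1)]

lemma cubic_le (r : ℝ) (hr : 0 ≤ r) :
    r ^ 3 * Real.exp r * Real.exp (-r ^ 2 / 8) ≤ 6 * Real.exp 8 := by
  have h1 := Real.pow_div_factorial_le_exp r hr 3
  simp only [Nat.factorial] at h1
  norm_num at h1
  have h2 : r ^ 3 ≤ 6 * Real.exp r := by linarith
  calc r ^ 3 * Real.exp r * Real.exp (-r ^ 2 / 8)
      ≤ 6 * Real.exp r * Real.exp r * Real.exp (-r ^ 2 / 8) := by gcongr
    _ = 6 * Real.exp (r + r + -r ^ 2 / 8) := by rw [Real.exp_add, Real.exp_add]; ring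
    _ ≤ 6 * Real.exp 8 := by
        have : r + r + -r ^ 2 / 8 ≤ 8 := by nlinarith [sq_nonneg (r - 8)]
        gcongr

lemma exp_neg_le {w : ℝ} (hw : 0 < w) : Real.exp (-w) ≤ 1 / w := by
  rw [le_div_iff₀ hw, mul_comm]; exact mul_exp_neg_le w

lemma gk0_sub {σ : ℝ} (hσ : 0 < σ) (z v : E3) :
    gk0 σ (z - v) * Real.exp (‖v‖ ^ 2 / (4 * σ)) = Real.exp (⟪v, z⟫ / (2 * σ)) * gk0 σ z := by
  unfold gk0
  rw [mul_assoc, ← Real.exp_add, mul_left_comm, ← Real.exp_add, norm_sub_sq_real,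
    real_inner_comm]
  congr 2
  field_simp; ring

/-! ### Moments -/

/-- the first moment -/
noncomputable def M1 (m : Measure E3) (p : E3) (σ : ℝ) (v : E3) : ℝ :=
  ∫ x, ⟪v, x - p⟫ * gk0 σ (x - p) ∂m

/-- the second moment -/
noncomputable def M2 (m : Measure E3) (p : E3) (σ : ℝ) (v : E3) : ℝ :=
  ∫ x, ⟪v, x - p⟫ ^ 2 * gk0 σ (x - p) ∂m

variable {m : Measure E3} {D σ : ℝ} {p : E3}

lemma int1 (h : Ent m D) (hσ : 0 < σ) (p v : E3) :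
    Integrable (fun x => ⟪v, x - p⟫ * gk0 σ (x - p)) m := by
  simpa using h.int_aff p hσ 0 v

lemma int2 (h : Ent m D) (hσ : 0 < σ) (p v : E3) :
    Integrable (fun x => ⟪v, x - p⟫ ^ 2 * gk0 σ (x - p)) m := by
  simpa using h.int_GQ p hσ 0 v

lemma M1_smul (a : ℝ) (v : E3) : M1 m p σ (a • v) = a * M1 m p σ v := by
  unfold M1
  rw [← integral_const_mul]
  congr 1; ext x
  rw [real_inner_smul_left]; ring

lemma M2_smul (a : ℝ) (v : E3) : M2 m p σ (a • v) = a ^ 2 * M2 m p σ v := by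
  unfold M2
  rw [← integral_const_mul]
  congr 1; ext x
  rw [real_inner_smul_left]; ring

lemma M2_par (h : Ent m D) (hσ : 0 < σ) (v w : E3) :
    M2 m p σ (v - w) + M2 m p σ (v + w) = 2 * M2 m p σ v + 2 * M2 m p σ w := by
  unfold M2
  rw [← integral_add (int2 h hσ p _) (int2 h hσ p _), ← integral_const_mul, ← integral_const_mul,
    ← integral_add ((int2 h hσ p _).const_mul _) ((int2 h hσ p _).const_mul _)]
  congr 1; ext x
  rw [inner_sub_left, inner_add_left]; ring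

lemma mgf_eq (hσ : 0 < σ) (p v : E3) (x : E3) :
    gk0 σ (x - (p + v)) * Real.exp (‖v‖ ^ 2 / (4 * σ)) =
      Real.exp (⟪v, x - p⟫ / (2 * σ)) * gk0 σ (x - p) := by
  rw [← gk0_sub hσ, sub_sub]

lemma upper (h : Ent m D) (hσ : 0 < σ) (p v : E3) :
    2 * GA m p σ + M2 m p σ v / (4 * σ ^ 2) ≤
      (GA m (p + v) σ + GA m (p + -v) σ) * Real.exp (‖v‖ ^ 2 / (4 * σ)) := by
  unfold GA M2
  rw [← integral_const_mul, ← integral_div, ← integral_add ((h.int p σ hσ).const_mul _)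
    ((int2 h hσ p v).div_const _), ← integral_add (h.int _ σ hσ) (h.int _ σ hσ),
    ← integral_mul_const]
  refine integral_mono (((h.int p σ hσ).const_mul _).add ((int2 h hσ p v).div_const _))
    (((h.int _ σ hσ).add (h.int _ σ hσ)).mul_const _) fun x => ?_
  have h1 := mgf_eq hσ p v x
  have h2 := mgf_eq hσ p (-v) x
  rw [norm_neg, inner_neg_left, neg_div] at h2
  have h3 := mul_le_mul_of_nonneg_right (cosh_ge (⟪v, x - p⟫ / (2 * σ))) (gk0_pos hσ (x - p)).le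
  have h4 : (2 + (⟪v, x - p⟫ / (2 * σ)) ^ 2) * gk0 σ (x - p) =
      2 * gk0 σ (x - p) + ⟪v, x - p⟫ ^ 2 * gk0 σ (x - p) / (4 * σ ^ 2) := by
    field_simp; ring
  simp only
  linarith

lemma first (h : Ent m D) (hσ : 0 < σ) (p v : E3) :
    GA m p σ + M1 m p σ v / (2 * σ) ≤ GA m (p + v) σ * Real.exp (‖v‖ ^ 2 / (4 * σ)) := by
  unfold GA M1
  rw [← integral_div, ← integral_add (h.int p σ hσ) ((int1 h hσ p v).div_const _),
    ← integral_mul_const]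
  refine integral_mono ((h.int p σ hσ).add ((int1 h hσ p v).div_const _))
    ((h.int _ σ hσ).mul_const _) fun x => ?_
  have h1 := mgf_eq hσ p v x
  have h3 := mul_le_mul_of_nonneg_right (Real.add_one_le_exp (⟪v, x - p⟫ / (2 * σ)))
    (gk0_pos hσ (x - p)).le
  have h4 : (⟪v, x - p⟫ / (2 * σ) + 1) * gk0 σ (x - p) =
      gk0 σ (x - p) + ⟪v, x - p⟫ * gk0 σ (x - p) / (2 * σ) := by
    field_simp; ring
  simp only
  linarith

lemma cubic_gk0 (h1 : 1 / 2 ≤ σ) (h2 : σ ≤ 1) {v : E3} (hv : ‖v‖ ≤ 1) (z : E3) :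
    |⟪v, z⟫ / (2 * σ)| ^ 3 * Real.exp |⟪v, z⟫ / (2 * σ)| * gk0 σ z ≤
      12 * Real.exp 8 * ‖v‖ ^ 3 * gk0 (2 * σ) z := by
  have hσ : 0 < σ := by linarith
  have a1 : |⟪v, z⟫ / (2 * σ)| ≤ ‖v‖ * ‖z‖ := by
    rw [abs_div, abs_of_pos (by positivity : 0 < 2 * σ)]
    exact (div_le_self (abs_nonneg _) (by linarith)).trans (abs_real_inner_le_norm v z)
  have a2 : |⟪v, z⟫ / (2 * σ)| ≤ ‖z‖ :=
    a1.trans (mul_le_of_le_one_left (norm_nonneg _) hv)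
  have a3 : -‖z‖ ^ 2 / (8 * σ) ≤ -‖z‖ ^ 2 / 8 := by
    rw [neg_div, neg_div, neg_le_neg_iff]
    exact div_le_div_of_nonneg_left (by positivity) (by positivity) (by linarith)
  have a4 := gk0_pos (by positivity : 0 < 2 * σ) z
  have a5 := cubic_le ‖z‖ (norm_nonneg _)
  rw [gk0_double hσ]
  calc |⟪v, z⟫ / (2 * σ)| ^ 3 * Real.exp |⟪v, z⟫ / (2 * σ)| *
        (2 * Real.exp (-‖z‖ ^ 2 / (8 * σ)) * gk0 (2 * σ) z)
      ≤ (‖v‖ * ‖z‖) ^ 3 * Real.exp ‖z‖ * (2 * Real.exp (-‖z‖ ^ 2 / 8) * gk0 (2 * σ) z) := by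
        gcongr
    _ = 2 * ‖v‖ ^ 3 * gk0 (2 * σ) z * (‖z‖ ^ 3 * Real.exp ‖z‖ * Real.exp (-‖z‖ ^ 2 / 8)) := by ring
    _ ≤ 2 * ‖v‖ ^ 3 * gk0 (2 * σ) z * (6 * Real.exp 8) := by gcongr
    _ = _ := by ring

lemma lower (h : Ent m D) (h1 : 1 / 2 ≤ σ) (h2 : σ ≤ 1) (p : E3) {v : E3} (hv : ‖v‖ ≤ 1) :
    GA m (p + v) σ * Real.exp (‖v‖ ^ 2 / (4 * σ)) ≤
      GA m p σ + M1 m p σ v / (2 * σ) + M2 m p σ v / (8 * σ ^ 2) +
        12 * Real.exp 8 * ‖v‖ ^ 3 * D := by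
  have hσ : 0 < σ := by linarith
  have hσ2 : 0 < 2 * σ := by positivity
  have i1 := (int1 h hσ p v).div_const (2 * σ)
  have i2 := (int2 h hσ p v).div_const (8 * σ ^ 2)
  have i3 := (h.int p _ hσ2).const_mul (12 * Real.exp 8 * ‖v‖ ^ 3)
  have key : ∫ x, gk0 σ (x - (p + v)) * Real.exp (‖v‖ ^ 2 / (4 * σ)) ∂m ≤
      ∫ x, (gk0 σ (x - p) + ⟪v, x - p⟫ * gk0 σ (x - p) / (2 * σ) +
        ⟪v, x - p⟫ ^ 2 * gk0 σ (x - p) / (8 * σ ^ 2) +
        12 * Real.exp 8 * ‖v‖ ^ 3 * gk0 (2 * σ) (x - p)) ∂m := by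
    refine integral_mono ((h.int _ σ hσ).mul_const _)
      ((((h.int p σ hσ).add i1).add i2).add i3) fun x => ?_
    have a1 := mgf_eq hσ p v x
    have a2 := mul_le_mul_of_nonneg_right (exp_le_cubic (⟪v, x - p⟫ / (2 * σ)))
      (gk0_pos hσ (x - p)).le
    have a3 := cubic_gk0 h1 h2 hv (x - p)
    have a4 : (1 + ⟪v, x - p⟫ / (2 * σ) + (⟪v, x - p⟫ / (2 * σ)) ^ 2 / 2) * gk0 σ (x - p) =
        gk0 σ (x - p) + ⟪v, x - p⟫ * gk0 σ (x - p) / (2 * σ) +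
          ⟪v, x - p⟫ ^ 2 * gk0 σ (x - p) / (8 * σ ^ 2) := by
      field_simp; ring
    simp only
    rw [add_mul] at a2
    linarith
  rw [integral_mul_const, integral_add (((h.int p σ hσ).fun_add i1).fun_add i2) i3,
    integral_add ((h.int p σ hσ).fun_add i1) i2, integral_add (h.int p σ hσ) i1, integral_div,
    integral_div, integral_const_mul] at key
  have a5 := mul_le_mul_of_nonneg_left (h.le p _ hσ2)
    (by positivity : 0 ≤ 12 * Real.exp 8 * ‖v‖ ^ 3)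
  unfold GA M1 M2 at *
  linarith

lemma trace (h : Ent m D) (hσ : 0 < σ) (h2 : σ ≤ 1) (p : E3) {e₁ e₂ e₃ : E3}
    (he : ∀ z : E3, ⟪e₁, z⟫ ^ 2 + ⟪e₂, z⟫ ^ 2 + ⟪e₃, z⟫ ^ 2 = ‖z‖ ^ 2) :
    σ * GA m p σ + (1 - σ) / 4 * (M2 m p σ e₁ + M2 m p σ e₂ + M2 m p σ e₃) ≤ GA m p 1 := by
  have i1 := int2 h hσ p e₁
  have i2 := int2 h hσ p e₂
  have i3 := int2 h hσ p e₃
  unfold GA M2
  rw [← integral_add i1 i2, ← integral_add (i1.fun_add i2) i3, ← integral_const_mul,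
    ← integral_const_mul, ← integral_add ((h.int p σ hσ).const_mul _)
      (((i1.fun_add i2).fun_add i3).const_mul _)]
  refine integral_mono (((h.int p σ hσ).const_mul _).add (((i1.add i2).add i3).const_mul _))
    (h.int p 1 one_pos) fun x => ?_
  have a1 : gk0 1 (x - p) =
      σ * gk0 σ (x - p) * Real.exp (‖x - p‖ ^ 2 * (1 - σ) / (4 * σ)) := by
    unfold gk0
    rw [inv_one, one_mul, ← mul_assoc, mul_inv_cancel₀ hσ.ne', one_mul, ← Real.exp_add]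
    congr 1
    field_simp; ring
  have a2 := mul_le_mul_of_nonneg_left (Real.add_one_le_exp (‖x - p‖ ^ 2 * (1 - σ) / (4 * σ)))
    (mul_pos hσ (gk0_pos hσ (x - p))).le
  have a3 : σ * gk0 σ (x - p) * (‖x - p‖ ^ 2 * (1 - σ) / (4 * σ) + 1) =
      σ * gk0 σ (x - p) + (1 - σ) / 4 * (‖x - p‖ ^ 2 * gk0 σ (x - p)) := by
    field_simp; ring
  simp only
  rw [a1, ← add_mul, ← add_mul, he]
  linarith

lemma pass (h : Ent m D) (h1 : 1 / 2 ≤ σ) (h2 : σ ≤ 1) (hp : ‖p‖ ≤ 1) {e : E3} (he : ‖e‖ = 1)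
    {S : ℝ} (hS : 0 < S) :
    GQ m 0 2 (-⟪e, p⟫) e ≤ Real.exp (S / 2) * M2 m p σ e + 14000 / S * D := by
  have hσ : 0 < σ := by linarith
  have i2 := (int2 h hσ p e).const_mul (Real.exp (S / 2))
  have i3 := (h.int p 12 (by norm_num)).const_mul (14000 / S)
  have key : GQ m 0 2 (-⟪e, p⟫) e ≤ ∫ x, (Real.exp (S / 2) * (⟪e, x - p⟫ ^ 2 * gk0 σ (x - p)) +
      14000 / S * gk0 12 (x - p)) ∂m := by
    refine integral_mono (h.int_GQ 0 two_pos _ _) (i2.add i3) fun x => ?_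
    have a0 : -⟪e, p⟫ + ⟪e, x - 0⟫ = ⟪e, x - p⟫ := by rw [sub_zero, inner_sub_right]; ring
    have a1 := gk0_pos hσ (x - p)
    have a2 := gk0_pos (by norm_num : (0 : ℝ) < 12) (x - p)
    simp only
    rw [a0, sub_zero]
    rcases le_total (‖x - p‖ ^ 2) S with hx | hx
    · have b1 : gk0 2 x ≤ Real.exp (S / 2) * gk0 σ (x - p) := by
        refine (gk0_le_inv two_pos x).trans ?_
        unfold gk0
        rw [mul_left_comm, ← Real.exp_add]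
        have b2 : 0 ≤ S / 2 + -‖x - p‖ ^ 2 / (4 * σ) := by
          have : ‖x - p‖ ^ 2 / (4 * σ) ≤ S / 2 :=
            div_le_div₀ hS.le hx (by norm_num) (by linarith)
          rw [neg_div]; linarith
        have b3 : 1 ≤ σ⁻¹ := (one_le_inv₀ hσ).2 h2
        have b4 := Real.one_le_exp b2
        nlinarith
      have b5 := mul_le_mul_of_nonneg_left b1 (sq_nonneg ⟪e, x - p⟫)
      have b6 : 0 ≤ 14000 / S * gk0 12 (x - p) := by positivity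
      nlinarith
    · have b1 : ⟪e, x - p⟫ ^ 2 ≤ ‖x - p‖ ^ 2 := by
        rw [← sq_abs]
        refine pow_le_pow_left₀ (abs_nonneg _) ?_ 2
        simpa [he] using abs_real_inner_le_norm e (x - p)
      have b2 : gk0 2 x ≤ 3 * gk0 3 (x - p) := by
        have c1 := gk0_shift (s := 2) (σ := 3) two_pos (by norm_num) (x - p) (-p)
        rw [sub_neg_eq_add, sub_add_cancel, norm_neg] at c1
        have c2 : ‖p‖ ^ 2 / (4 * (3 - 2)) ≤ 1 / 4 := by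
          have : ‖p‖ ^ 2 ≤ 1 := pow_le_one₀ (norm_nonneg _) hp
          linarith
        have c3 : Real.exp (‖p‖ ^ 2 / (4 * (3 - 2))) ≤ 2 := by
          refine (Real.exp_le_exp.2 c2).trans ?_
          have := (abs_le.1 (Real.abs_exp_sub_one_sub_id_le (x := 1 / 4) (by norm_num))).2
          linarith
        have c4 := gk0_pos (by norm_num : (0 : ℝ) < 3) (x - p)
        nlinarith
      have b3 := sq_gk0_le (by norm_num : (0 : ℝ) < 3) (x - p)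
      have b4 := gk0_double (by norm_num : (0 : ℝ) < 2 * 3) (x - p)
      have b5 : Real.exp (-‖x - p‖ ^ 2 / (8 * (2 * 3))) ≤ 48 / S := by
        have c1 : -‖x - p‖ ^ 2 / (8 * (2 * 3)) ≤ -(S / 48) := by linarith
        refine (Real.exp_le_exp.2 c1).trans ((exp_neg_le (by positivity)).trans (le_of_eq ?_))
        field_simp
      rw [show (2 : ℝ) * (2 * 3) = 12 by norm_num] at b4
      have b6 : ⟪e, x - p⟫ ^ 2 * gk0 2 x ≤ ‖x - p‖ ^ 2 * (3 * gk0 3 (x - p)) :=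
        mul_le_mul b1 b2 (gk0_pos two_pos x).le (sq_nonneg _)
      have b7 := mul_le_mul_of_nonneg_right b5 a2.le
      have b8 : 0 ≤ Real.exp (S / 2) * (⟪e, x - p⟫ ^ 2 * gk0 σ (x - p)) := by positivity
      have b9 : 0 ≤ S⁻¹ * gk0 12 (x - p) := by positivity
      rw [div_eq_mul_inv 48 S] at b7
      rw [div_eq_mul_inv 14000 S]
      rw [b4] at b3
      generalize Real.exp (-‖x - p‖ ^ 2 / (8 * (2 * 3))) = E at b3 b7
      nlinarith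
  rw [integral_add i2 i3, integral_const_mul, integral_const_mul] at key
  have a5 := mul_le_mul_of_nonneg_left (h.le p 12 (by norm_num)) (by positivity : 0 ≤ 14000 / S)
  unfold GA M2 at *
  linarith

/-! ### Consequences of the smallness of the density ratios -/

/-- the density ratios are at most `1 + κ⁴` -/
def Lw (m : Measure E3) (κ : ℝ) : Prop :=
  ∀ (y : E3) (σ : ℝ), ‖y‖ ≤ 3 → 1 / 2 ≤ σ → σ ≤ 1 → GA m y σ ≤ (1 + κ ^ 4) * om0

variable {κ : ℝ}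

lemma exp_small (h1 : 1 / 2 ≤ σ) (hκ : 0 < κ) (hκ1 : κ ≤ 1) :
    (1 + κ ^ 4) * Real.exp (κ ^ 2 / (4 * σ)) ≤ 1 + κ ^ 2 / (4 * σ) + 13 / 4 * κ ^ 4 := by
  have hσ : 0 < σ := by linarith
  have a1 : κ ^ 2 / (4 * σ) ≤ κ ^ 2 / 2 :=
    div_le_div_of_nonneg_left (by positivity) (by norm_num) (by linarith)
  have a2 : κ ^ 2 ≤ 1 := pow_le_one₀ hκ.le hκ1
  have a0 : 0 ≤ κ ^ 2 / (4 * σ) := by positivity
  generalize κ ^ 2 / (4 * σ) = τ at *
  have a3 := (abs_le.1 (Real.abs_exp_sub_one_sub_id_le (x := τ)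
    (by rw [abs_of_nonneg a0]; linarith))).2
  have a4 : τ ^ 2 ≤ (κ ^ 2 / 2) ^ 2 := pow_le_pow_left₀ a0 a1 2
  have a5 : Real.exp τ ≤ 3 := by nlinarith
  have a6 : 0 ≤ κ ^ 4 := by positivity
  nlinarith

lemma unit_smul {v : E3} (hv : v ≠ 0) (hκ : 0 < κ) : ‖(κ / ‖v‖) • v‖ = κ := by
  have := norm_pos_iff.2 hv
  rw [norm_smul, Real.norm_of_nonneg (by positivity)]
  field_simp

lemma M2_le (h : Ent m D) (hL : Lw m κ) (h1 : 1 / 2 ≤ σ) (h2 : σ ≤ 1) (hκ : 0 < κ) (hκ1 : κ ≤ 1)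
    (hp : ‖p‖ ≤ 1) (h0 : om0 ≤ GA m p σ) (v : E3) :
    M2 m p σ v ≤ (2 * σ + 26 * κ ^ 2) * om0 * ‖v‖ ^ 2 := by
  have hσ : 0 < σ := by linarith
  have ho := om0_pos
  rcases eq_or_ne v 0 with rfl | hv
  · simp [M2]
  have hn := norm_pos_iff.2 hv
  have hu := unit_smul hv hκ
  set u := (κ / ‖v‖) • v with hud
  have a1 := upper h hσ p u
  have a2 := hL (p + u) σ ((norm_add_le _ _).trans (by linarith)) h1 h2
  have a3 := hL (p + -u) σ ((norm_add_le _ _).trans (by rw [norm_neg]; linarith)) h1 h2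
  have a4 := mul_le_mul_of_nonneg_left (exp_small h1 hκ hκ1) ho.le
  rw [hu] at a1
  have a5 := mul_le_mul_of_nonneg_right (add_le_add a2 a3)
    (Real.exp_pos (κ ^ 2 / (4 * σ))).le
  have a6 : M2 m p σ u / (4 * σ ^ 2) ≤ 2 * om0 * (κ ^ 2 / (4 * σ) + 13 / 4 * κ ^ 4) := by
    nlinarith
  rw [div_le_iff₀ (by positivity), hud, M2_smul] at a6
  have a7 : 2 * om0 * (κ ^ 2 / (4 * σ) + 13 / 4 * κ ^ 4) * (4 * σ ^ 2) =
      κ ^ 2 * ((2 * σ + 26 * κ ^ 2 * σ ^ 2) * om0) := by field_simp; ring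
  rw [a7, div_pow, div_mul_eq_mul_div, div_le_iff₀ (by positivity), mul_assoc] at a6
  refine (le_of_mul_le_mul_left a6 (by positivity)).trans ?_
  have a8 : κ ^ 2 * σ ^ 2 ≤ κ ^ 2 := mul_le_of_le_one_right (by positivity) (pow_le_one₀ hσ.le h2)
  gcongr ?_ * _ * _
  linarith

lemma M1_le (h : Ent m D) (hL : Lw m κ) (h1 : 1 / 2 ≤ σ) (h2 : σ ≤ 1) (hκ : 0 < κ) (hκ1 : κ ≤ 1)
    (hp : ‖p‖ ≤ 1) (h0 : om0 ≤ GA m p σ) (v : E3) : M1 m p σ v ≤ 7 * κ * om0 * ‖v‖ := by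
  have hσ : 0 < σ := by linarith
  have ho := om0_pos
  rcases eq_or_ne v 0 with rfl | hv
  · simp [M1]
  have hn := norm_pos_iff.2 hv
  have hu := unit_smul hv hκ
  set u := (κ / ‖v‖) • v with hud
  have a1 := first h hσ p u
  have a2 := hL (p + u) σ ((norm_add_le _ _).trans (by linarith)) h1 h2
  have a4 := mul_le_mul_of_nonneg_left (exp_small h1 hκ hκ1) ho.le
  rw [hu] at a1
  have a5 := mul_le_mul_of_nonneg_right a2 (Real.exp_pos (κ ^ 2 / (4 * σ))).le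
  have a6 : M1 m p σ u / (2 * σ) ≤ om0 * (κ ^ 2 / (4 * σ) + 13 / 4 * κ ^ 4) := by
    nlinarith
  rw [div_le_iff₀ (by positivity), hud, M1_smul] at a6
  have a7 : om0 * (κ ^ 2 / (4 * σ) + 13 / 4 * κ ^ 4) * (2 * σ) =
      κ * ((1 / 2 + 13 / 2 * (κ ^ 2 * σ)) * κ * om0) := by field_simp; ring
  rw [a7, div_mul_eq_mul_div, div_le_iff₀ (by positivity), mul_assoc] at a6
  refine (le_of_mul_le_mul_left a6 (by positivity)).trans ?_
  have a8 : κ ^ 2 * σ ≤ 1 := mul_le_one₀ (pow_le_one₀ hκ.le hκ1) hσ.le h2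
  gcongr
  linarith

lemma M2_ge (h : Ent m D) (hL : Lw m κ) (h1 : 1 / 2 ≤ σ) (h2 : σ ≤ 1) (hκ : 0 < κ) (hκ1 : κ ≤ 1)
    (hp : ‖p‖ ≤ 1) (h0 : om0 ≤ GA m p σ) {v : E3} {b : ℝ} (hv : ‖v‖ ≤ b) (hb : b ≤ 1)
    (h3 : om0 ≤ GA m (p + v) σ) :
    (2 * σ + 26 * κ ^ 2) * om0 * ‖v‖ ^ 2 - M2 m p σ v ≤
      26 * κ ^ 2 * om0 * b ^ 2 + 8 * κ ^ 4 * om0 + 96 * Real.exp 8 * b ^ 3 * D +
        28 * κ * om0 * b := by
  have hσ : 0 < σ := by linarith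
  have ho := om0_pos
  have hD := h.nonneg
  have hn := norm_nonneg v
  have a1 := lower h h1 h2 p (hv.trans hb)
  have a2 := M1_le h hL h1 h2 hκ hκ1 hp h0 v
  have a3 := hL p σ (by linarith) h1 h2
  have a4 : om0 * (‖v‖ ^ 2 / (4 * σ) + 1) ≤ GA m (p + v) σ * Real.exp (‖v‖ ^ 2 / (4 * σ)) :=
    mul_le_mul h3 (Real.add_one_le_exp _) (by positivity) (ho.le.trans h3)
  have a5 : M1 m p σ v / (2 * σ) ≤ 7 * κ * om0 * b / (2 * σ) := by
    refine div_le_div_of_nonneg_right (a2.trans ?_) (by positivity)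
    gcongr
  have a6 : 12 * Real.exp 8 * ‖v‖ ^ 3 * D ≤ 12 * Real.exp 8 * b ^ 3 * D := by gcongr
  have a7 : om0 * (‖v‖ ^ 2 / (4 * σ)) - κ ^ 4 * om0 - 7 * κ * om0 * b / (2 * σ) -
      12 * Real.exp 8 * b ^ 3 * D ≤ M2 m p σ v / (8 * σ ^ 2) := by linarith
  rw [le_div_iff₀ (by positivity)] at a7
  have a8 : (om0 * (‖v‖ ^ 2 / (4 * σ)) - κ ^ 4 * om0 - 7 * κ * om0 * b / (2 * σ) -
      12 * Real.exp 8 * b ^ 3 * D) * (8 * σ ^ 2) = 2 * σ * om0 * ‖v‖ ^ 2 -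
      8 * κ ^ 4 * om0 * σ ^ 2 - 28 * κ * om0 * b * σ - 96 * Real.exp 8 * b ^ 3 * D * σ ^ 2 := by
    field_simp; ring
  have hb0 : 0 ≤ b := hn.trans hv
  have s2 : σ ^ 2 ≤ 1 := pow_le_one₀ hσ.le h2
  have b1 : 8 * κ ^ 4 * om0 * σ ^ 2 ≤ 8 * κ ^ 4 * om0 := mul_le_of_le_one_right (by positivity) s2
  have b2 : 28 * κ * om0 * b * σ ≤ 28 * κ * om0 * b := mul_le_of_le_one_right (by positivity) h2
  have b3 : 96 * Real.exp 8 * b ^ 3 * D * σ ^ 2 ≤ 96 * Real.exp 8 * b ^ 3 * D :=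
    mul_le_of_le_one_right (by positivity) s2
  have b4 : 26 * κ ^ 2 * om0 * ‖v‖ ^ 2 ≤ 26 * κ ^ 2 * om0 * b ^ 2 := by gcongr
  linarith

/-! ### Linear algebra -/

lemma exists_third {e₁ e₂ : E3} (h1 : ‖e₁‖ = 1) (h2 : ‖e₂‖ = 1) (h12 : ⟪e₁, e₂⟫ = 0) :
    ∃ e₃ : E3, ‖e₃‖ = 1 ∧ ∀ z : E3, ⟪e₁, z⟫ ^ 2 + ⟪e₂, z⟫ ^ 2 + ⟪e₃, z⟫ ^ 2 = ‖z‖ ^ 2 := by
  have hv : Orthonormal ℝ (({0, 1} : Set (Fin 3)).domRestrict ![e₁, e₂, 0]) := by
    constructor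
    · rintro ⟨i, rfl | rfl⟩
      · exact h1
      · exact h2
    · rintro ⟨i, rfl | rfl⟩ ⟨j, rfl | rfl⟩ hij
      · exact absurd rfl hij
      · exact h12
      · exact (real_inner_comm _ _).trans h12
      · exact absurd rfl hij
  obtain ⟨b, hb⟩ := hv.exists_orthonormalBasis_extension_of_card_eq (by simp)
  refine ⟨b 2, b.orthonormal.1 2, fun z => ?_⟩
  have h3 := b.sum_sq_inner_right z
  rw [Fin.sum_univ_three, hb 0 (by simp), hb 1 (by simp)] at h3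
  exact h3

lemma alg {Q : E3 → ℝ} (hs : ∀ (a : ℝ) (v : E3), Q (a • v) = a ^ 2 * Q v)
    (hp : ∀ v w, Q (v - w) + Q (v + w) = 2 * Q v + 2 * Q w) {c k b t : ℝ}
    (hU : ∀ v, Q v ≤ c * ‖v‖ ^ 2) {v₁ v₂ : E3} (hk : 0 < k) (h1 : c * ‖v₁‖ ^ 2 - Q v₁ ≤ t)
    (h2 : c * ‖v₂‖ ^ 2 - Q v₂ ≤ t) (h3 : k ≤ ‖v₁‖) (h4 : ‖v₂‖ ≤ b)
    (h5 : k ≤ ‖v₂ - ⟪(1 / ‖v₁‖) • v₁, v₂⟫ • (1 / ‖v₁‖) • v₁‖) :
    ∃ e₁ e₂ e₃ : E3, ‖e₃‖ = 1 ∧ (∀ z : E3, ⟪e₁, z⟫ ^ 2 + ⟪e₂, z⟫ ^ 2 + ⟪e₃, z⟫ ^ 2 = ‖z‖ ^ 2) ∧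
      2 * c - Q e₁ - Q e₂ ≤ 3 * t / k ^ 2 + 2 * b ^ 2 * t / k ^ 4 := by
  have ht : 0 ≤ t := (sub_nonneg.2 (hU v₁)).trans h1
  have key : ∀ (v : E3) (s : ℝ), k ≤ ‖v‖ → c * ‖v‖ ^ 2 - Q v ≤ s →
      c - Q ((1 / ‖v‖) • v) ≤ s / k ^ 2 := by
    intro v s a1 a2
    have a0 : 0 < ‖v‖ := hk.trans_le a1
    have a3 : c - Q ((1 / ‖v‖) • v) = (c * ‖v‖ ^ 2 - Q v) / ‖v‖ ^ 2 := by
      rw [hs]; field_simp
    rw [a3]
    exact div_le_div₀ ((sub_nonneg.2 (hU v)).trans a2) a2 (by positivity)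
      (pow_le_pow_left₀ hk.le a1 2)
  have n1 : ‖(1 / ‖v₁‖) • v₁‖ = 1 := unit_smul (norm_pos_iff.1 (hk.trans_le h3)) one_pos
  have k1 := key v₁ t h3 h1
  generalize (1 / ‖v₁‖) • v₁ = e₁ at *
  have ha : ⟪e₁, v₂⟫ ^ 2 ≤ b ^ 2 := by
    rw [← sq_abs]
    refine pow_le_pow_left₀ (abs_nonneg _) ((abs_real_inner_le_norm _ _).trans ?_) 2
    rwa [n1, one_mul]
  have ho : ⟪e₁, v₂ - ⟪e₁, v₂⟫ • e₁⟫ = 0 := by
    rw [inner_sub_right, real_inner_smul_right, real_inner_self_eq_norm_sq, n1]; ring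
  have hw : c * ‖v₂ - ⟪e₁, v₂⟫ • e₁‖ ^ 2 - Q (v₂ - ⟪e₁, v₂⟫ • e₁) ≤
      2 * t + 2 * b ^ 2 * (t / k ^ 2) := by
    have a1 := hp v₂ (⟪e₁, v₂⟫ • e₁)
    have a2 := parallelogram_law_with_norm ℝ v₂ (⟪e₁, v₂⟫ • e₁)
    have a3 := hU (v₂ + ⟪e₁, v₂⟫ • e₁)
    have a4 : ‖⟪e₁, v₂⟫ • e₁‖ ^ 2 = ⟪e₁, v₂⟫ ^ 2 := by
      rw [norm_smul, n1, mul_one, Real.norm_eq_abs, sq_abs]
    have a5 : 0 ≤ c - Q e₁ := by simpa [n1] using hU e₁
    have a6 : ⟪e₁, v₂⟫ ^ 2 * (c - Q e₁) ≤ b ^ 2 * (t / k ^ 2) :=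
      mul_le_mul ha k1 a5 (sq_nonneg _)
    have a7 : ‖v₂ - ⟪e₁, v₂⟫ • e₁‖ ^ 2 =
        2 * ‖v₂‖ ^ 2 + 2 * ⟪e₁, v₂⟫ ^ 2 - ‖v₂ + ⟪e₁, v₂⟫ • e₁‖ ^ 2 := by
      rw [← a4]; linarith
    rw [hs] at a1
    rw [a7]
    linarith
  have k2 := key _ _ h5 hw
  have n2 := unit_smul (norm_pos_iff.1 (hk.trans_le h5)) one_pos
  obtain ⟨e₃, n3, h6⟩ := exists_third n1 n2 (by rw [real_inner_smul_right, ho, mul_zero])
  refine ⟨_, _, e₃, n3, h6, ?_⟩
  have a8 : 3 * t / k ^ 2 + 2 * b ^ 2 * t / k ^ 4 =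
      t / k ^ 2 + (2 * t + 2 * b ^ 2 * (t / k ^ 2)) / k ^ 2 := by field_simp; ring
  linarith

/-! ### The support does not lie in a thin tube -/

lemma tube (D : ℝ) : ∃ L k : ℝ, 0 < L ∧ 0 < k ∧ ∀ (m : Measure E3) (S : Set E3) (r : ℝ) (p e : E3),
    Ent m D → (∀ᵐ x ∂m, x ∈ S) → 0 < r → om0 ≤ GA m 0 (r ^ 2) → ‖p‖ ≤ L * r → ‖e‖ = 1 →
    ∃ x ∈ S, ‖x‖ ≤ L * r ∧ k * r ≤ ‖x - p - ⟪e, x - p⟫ • e‖ := by
  have ho := om0_pos
  obtain ⟨L, hL1, hL2⟩ : ∃ L : ℝ, 1 ≤ L ∧ 64 * |D| / om0 ≤ L :=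
    ⟨max 1 (64 * |D| / om0), le_max_left _ _, le_max_right _ _⟩
  obtain ⟨N, hN⟩ := exists_nat_ge (max 1 (144 * L ^ 2 * |D| / om0))
  have hN1 : (1 : ℝ) ≤ N := (le_max_left _ _).trans hN
  have hN2 : 144 * L ^ 2 * |D| / om0 ≤ N := (le_max_right _ _).trans hN
  have hL : 0 < L := by linarith
  have hN0 : (0 : ℝ) < N := by linarith
  have hk : 0 < 2 * L / N := by positivity
  refine ⟨L, 2 * L / N, hL, hk, fun m S r p e h hS hr h0 hp he => ?_⟩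
  have hD := h.nonneg
  rw [abs_of_nonneg hD, div_le_iff₀ ho] at hL2 hN2
  have hkN : 2 * L / N * N = 2 * L := by field_simp
  generalize 2 * L / N = k at *
  by_contra hc
  push Not at hc
  have hkr : 0 < k * r := by positivity
  have i1 := (h.int 0 (2 * r ^ 2) (by positivity)).const_mul (16 / L ^ 2)
  have i2 : ∀ j ∈ Finset.Icc (-(N : ℤ)) N,
      Integrable (fun x => gk0 ((k * r) ^ 2) (x - (p + ((j : ℝ) * (k * r)) • e))) m :=
    fun j _ => h.int _ _ (by positivity)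
  have i3 := (integrable_finset_sum _ i2).const_mul (3 * k ^ 2)
  have key : GA m 0 (r ^ 2) ≤ ∫ x, (16 / L ^ 2 * gk0 (2 * r ^ 2) (x - 0) +
      3 * k ^ 2 * ∑ j ∈ Finset.Icc (-(N : ℤ)) N,
        gk0 ((k * r) ^ 2) (x - (p + ((j : ℝ) * (k * r)) • e))) ∂m := by
    refine integral_mono_ae (h.int 0 _ (by positivity)) (i1.add i3) ?_
    filter_upwards [hS] with x hx
    have a1 := gk0_pos (by positivity : 0 < 2 * r ^ 2) (x - 0)
    have a2 : ∀ j ∈ Finset.Icc (-(N : ℤ)) N,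
        0 ≤ gk0 ((k * r) ^ 2) (x - (p + ((j : ℝ) * (k * r)) • e)) :=
      fun j _ => (gk0_pos (by positivity) _).le
    rcases le_total ‖x‖ (L * r) with h1 | h1
    · have b1 := hc x hx h1
      have b2 : |⟪e, x - p⟫| ≤ N * (k * r) := by
        refine (abs_real_inner_le_norm _ _).trans ?_
        rw [he, one_mul]
        have := norm_sub_le x p
        nlinarith
      generalize ⟪e, x - p⟫ = a at *
      have b3 := Int.floor_le (a / (k * r))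
      have b4 := Int.lt_floor_add_one (a / (k * r))
      have b5 : ⌊a / (k * r)⌋ ∈ Finset.Icc (-(N : ℤ)) N := by
        rw [Finset.mem_Icc, Int.le_floor]
        constructor
        · push_cast
          rw [le_div_iff₀ hkr]; linarith [(abs_le.1 b2).1]
        · have : a / (k * r) ≤ N := by rw [div_le_iff₀ hkr]; exact (abs_le.1 b2).2
          exact_mod_cast b3.trans this
      have b6 := Finset.single_le_sum a2 b5
      rw [le_div_iff₀ hkr] at b3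
      rw [div_lt_iff₀ hkr] at b4
      generalize ((⌊a / (k * r)⌋ : ℤ) : ℝ) = j at *
      have b7 : ‖x - (p + (j * (k * r)) • e)‖ ≤ 2 * (k * r) := by
        have c1 : x - (p + (j * (k * r)) • e) = x - p - a • e + (a - j * (k * r)) • e := by
          rw [sub_smul]; abel
        rw [c1]
        refine (norm_add_le _ _).trans ?_
        rw [norm_smul, he, mul_one, Real.norm_of_nonneg (by linarith)]
        linarith
      have b8 : gk0 (r ^ 2) (x - 0) ≤ 3 * k ^ 2 * gk0 ((k * r) ^ 2) (x - (p + (j * (k * r)) • e)) := by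
        refine (gk0_le_inv (by positivity) _).trans ?_
        have c1 : -1 ≤ -‖x - (p + (j * (k * r)) • e)‖ ^ 2 / (4 * (k * r) ^ 2) := by
          rw [le_div_iff₀ (by positivity)]
          have := pow_le_pow_left₀ (norm_nonneg _) b7 2
          linarith
        have c2 : 1 ≤ 3 * Real.exp (-1) := by
          have := Real.exp_neg_one_gt_d9
          linarith
        have c3 := Real.exp_le_exp.2 c1
        unfold gk0
        have c4 : 3 * k ^ 2 * (((k * r) ^ 2)⁻¹ *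
            Real.exp (-‖x - (p + (j * (k * r)) • e)‖ ^ 2 / (4 * (k * r) ^ 2))) = (r ^ 2)⁻¹ *
            (3 * Real.exp (-‖x - (p + (j * (k * r)) • e)‖ ^ 2 / (4 * (k * r) ^ 2))) := by
          field_simp
        rw [c4]
        exact le_mul_of_one_le_right (by positivity) (by linarith)
      have b9 := mul_le_mul_of_nonneg_left b6 (by positivity : 0 ≤ 3 * k ^ 2)
      have b10 : 0 ≤ 16 / L ^ 2 * gk0 (2 * r ^ 2) (x - 0) := by positivity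
      linarith
    · have b1 : Real.exp (-‖x - 0‖ ^ 2 / (8 * r ^ 2)) ≤ 8 / L ^ 2 := by
        have c1 : -‖x - 0‖ ^ 2 / (8 * r ^ 2) ≤ -(L ^ 2 / 8) := by
          rw [div_le_iff₀ (by positivity), sub_zero]
          have := pow_le_pow_left₀ (by positivity) h1 2
          linarith
        refine (Real.exp_le_exp.2 c1).trans ((exp_neg_le (by positivity)).trans (le_of_eq ?_))
        field_simp
      have b2 := mul_le_mul_of_nonneg_right b1 a1.le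
      have b3 := mul_nonneg (by positivity : 0 ≤ 3 * k ^ 2) (Finset.sum_nonneg a2)
      rw [gk0_double (by positivity : 0 < r ^ 2)]
      have b4 : 16 / L ^ 2 = 2 * (8 / L ^ 2) := by ring
      rw [b4]
      linarith
  rw [integral_add i1 i3, integral_const_mul, integral_const_mul, integral_finset_sum _ i2] at key
  have a1 := mul_le_mul_of_nonneg_left (h.le 0 (2 * r ^ 2) (by positivity))
    (by positivity : 0 ≤ 16 / L ^ 2)
  have a2 : ∑ j ∈ Finset.Icc (-(N : ℤ)) N,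
      ∫ x, gk0 ((k * r) ^ 2) (x - (p + ((j : ℝ) * (k * r)) • e)) ∂m ≤ (2 * N + 1) * D := by
    refine (Finset.sum_le_card_nsmul _ _ D fun j _ => h.le _ _ (by positivity)).trans
      (le_of_eq ?_)
    rw [Int.card_Icc, show (N : ℤ) + 1 - -(N : ℤ) = ((2 * N + 1 : ℕ) : ℤ) by push_cast; ring,
      Int.toNat_natCast, nsmul_eq_mul]
    push_cast; ring
  have a3 := mul_le_mul_of_nonneg_left a2 (by positivity : 0 ≤ 3 * k ^ 2)
  have a4 : 16 / L ^ 2 * D ≤ om0 / 4 := by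
    rw [div_mul_eq_mul_div, div_le_iff₀ (by positivity)]
    have : L * om0 ≤ L * om0 * L := le_mul_of_one_le_right (by positivity) hL1
    nlinarith
  have a5 : 3 * k ^ 2 * ((2 * N + 1) * D) ≤ om0 / 4 := by
    have c1 : (2 * N + 1) * D ≤ 3 * N * D := by gcongr; linarith
    have c2 := mul_le_mul_of_nonneg_left c1 (by positivity : 0 ≤ 3 * k ^ 2)
    refine c2.trans (le_of_mul_le_mul_left ?_ hN0)
    have c3 : (N : ℝ) * (3 * k ^ 2 * (3 * N * D)) = 9 * (k * N) ^ 2 * D := by ring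
    rw [c3, hkN]
    linarith
  unfold GA at *
  linarith

/-! ### The estimate at unit scale -/

lemma unit (D δ : ℝ) (hδ : 0 < δ) : ∃ κ : ℝ, 0 < κ ∧ ∀ (μ : ℝ → Measure E3) (a : ℝ), GS μ a D →
    a ≤ -1 → Lw (μ (-1)) κ → (0 : E3) ∈ Spt μ 0 →
    ∃ (c : ℝ) (v : E3), ‖v‖ = 1 ∧ GQ (μ (-1)) 0 2 c v ≤ δ ^ 2 := by
  have ho := om0_pos
  obtain ⟨L, k, hL, hk, hT⟩ := tube D
  obtain ⟨S, hS, hS2⟩ : ∃ S : ℝ, 0 < S ∧ 14000 / S * |D| ≤ δ ^ 2 / 2 := by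
    refine ⟨28000 * (|D| + 1) / δ ^ 2, by positivity, ?_⟩
    have : 14000 / (28000 * (|D| + 1) / δ ^ 2) * |D| = δ ^ 2 / 2 * (|D| / (|D| + 1)) := by
      field_simp; ring
    rw [this]
    exact mul_le_of_le_one_right (by positivity)
      ((div_le_one (by positivity)).2 (by linarith))
  obtain ⟨C₀, hC₀, e0⟩ : ∃ C₀ : ℝ, 0 < C₀ ∧
      C₀ = 104 * om0 * L ^ 2 + 8 * om0 + 768 * Real.exp 8 * L ^ 3 * |D| + 56 * om0 * L :=
    ⟨_, by positivity, rfl⟩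
  obtain ⟨C₁, hC₁, e1⟩ : ∃ C₁ : ℝ, 0 < C₁ ∧
      C₁ = 8 * om0 + 3 * C₀ / k ^ 2 + 8 * L ^ 2 * C₀ / k ^ 4 := ⟨_, by positivity, rfl⟩
  obtain ⟨η, hη, η1, η2, η3⟩ : ∃ η : ℝ, 0 < η ∧ η ≤ 1 / 2 ∧ η ≤ 1 / (2 * L) ∧
      η ≤ δ ^ 2 / (2 * Real.exp (S / 2) * C₁) :=
    ⟨min (1 / 2) (min (1 / (2 * L)) (δ ^ 2 / (2 * Real.exp (S / 2) * C₁))), by positivity,
      min_le_left _ _, (min_le_right _ _).trans (min_le_left _ _),
      (min_le_right _ _).trans (min_le_right _ _)⟩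
  rw [le_div_iff₀ (by positivity)] at η2 η3
  refine ⟨η ^ 2, by positivity, fun μ a h ha hL' h0 => ?_⟩
  have hE := h.ent _ ha
  have hD := hE.nonneg
  rw [abs_of_nonneg hD] at hS2 e0
  have η4 : η ^ 2 ≤ 1 / 4 := by nlinarith
  have hη2 : 0 < η ^ 2 := by positivity
  have hT' := fun p e => hT (μ (-η ^ 2)) (Spt μ (-η ^ 2)) η p e (h.ent _ (by linarith))
    (h.supp _ (by linarith)) hη (by simpa using h.low h0 (s := -η ^ 2) (by linarith) (by linarith))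
  have hlow : ∀ x ∈ Spt μ (-η ^ 2), om0 ≤ GA (μ (-1)) x (1 - η ^ 2) := fun x hx => by
    have := h.low hx ha (by linarith)
    rwa [show -η ^ 2 - -1 = 1 - η ^ 2 by ring] at this
  have he0 : ‖(EuclideanSpace.single 0 1 : E3)‖ = 1 := by simp
  obtain ⟨p, p1, p2, -⟩ := hT' 0 _ (by rw [norm_zero]; positivity) he0
  obtain ⟨q, q1, q2, q3⟩ := hT' p _ p2 he0
  have q4 : k * η ≤ ‖q - p‖ := q3.trans (P218FT.norm_pt_le he0 (q - p))
  have hkη : 0 < k * η := by positivity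
  obtain ⟨u, u1, u2, u3⟩ := hT' p _ p2 (unit_smul (norm_pos_iff.1 (hkη.trans_le q4)) one_pos)
  have s1 : 1 / 2 ≤ 1 - η ^ 2 := by linarith
  have s2 : 1 - η ^ 2 ≤ 1 := by linarith
  have s0 : 0 < 1 - η ^ 2 := by linarith
  have k1 : η ^ 2 ≤ 1 := by linarith
  have hp : ‖p‖ ≤ 1 := by linarith
  have hA : ∀ x ∈ Spt μ (-η ^ 2), ‖x‖ ≤ L * η →
      (2 * (1 - η ^ 2) + 26 * (η ^ 2) ^ 2) * om0 * ‖x - p‖ ^ 2 -
        M2 (μ (-1)) p (1 - η ^ 2) (x - p) ≤ C₀ * η ^ 3 := by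
    intro x x1 x2
    refine (M2_ge hE hL' s1 s2 hη2 k1 hp (hlow p p1) (b := 2 * L * η)
      ((norm_sub_le _ _).trans (by linarith)) (by linarith)
      (by rw [add_sub_cancel]; exact hlow x x1)).trans ?_
    have b1 : η ^ 6 ≤ η ^ 3 := pow_le_pow_of_le_one hη.le (by linarith) (by norm_num)
    have b2 : η ^ 8 ≤ η ^ 3 := pow_le_pow_of_le_one hη.le (by linarith) (by norm_num)
    have b3 := mul_le_mul_of_nonneg_left b1 (by positivity : 0 ≤ 104 * om0 * L ^ 2)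
    have b4 := mul_le_mul_of_nonneg_left b2 (by positivity : 0 ≤ 8 * om0)
    rw [e0]
    linarith
  obtain ⟨e₁, e₂, e₃, n3, hP, hQ⟩ := alg (Q := M2 (μ (-1)) p (1 - η ^ 2)) M2_smul (M2_par hE s0)
    (M2_le hE hL' s1 s2 hη2 k1 hp (hlow p p1)) hkη (hA q q1 q2) (hA u u1 u2) q4
    (b := 2 * L * η) ((norm_sub_le _ _).trans (by linarith)) u3
  refine ⟨_, e₃, n3, (pass hE s1 s2 hp n3 hS).trans ?_⟩
  have t1 := trace hE s0 s2 p hP
  have t2 := hL' p 1 (by linarith) (by norm_num) le_rfl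
  have t3 := mul_le_mul_of_nonneg_left (hlow p p1) s0.le
  have t4 : M2 (μ (-1)) p (1 - η ^ 2) e₁ + M2 (μ (-1)) p (1 - η ^ 2) e₂ +
      M2 (μ (-1)) p (1 - η ^ 2) e₃ ≤ 4 * om0 + 4 * om0 * η ^ 6 := by
    refine le_of_mul_le_mul_left ?_ (by positivity : 0 < η ^ 2 / 4)
    linarith
  have t5 : 3 * (C₀ * η ^ 3) / (k * η) ^ 2 + 2 * (2 * L * η) ^ 2 * (C₀ * η ^ 3) / (k * η) ^ 4 =
      (3 * C₀ / k ^ 2 + 8 * L ^ 2 * C₀ / k ^ 4) * η := by field_simp; ring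
  have b1 : η ^ 6 ≤ η := pow_le_of_le_one hη.le (by linarith) (by norm_num)
  have b2 : η ^ 2 ≤ η := pow_le_of_le_one hη.le (by linarith) (by norm_num)
  have b3 := mul_le_mul_of_nonneg_left b1 ho.le
  have b4 := mul_le_mul_of_nonneg_left b2 ho.le
  have b5 : 0 ≤ (η ^ 2) ^ 2 * om0 := by positivity
  have t6 : M2 (μ (-1)) p (1 - η ^ 2) e₃ ≤ C₁ * η := by
    rw [e1]; linarith
  have t7 := mul_le_mul_of_nonneg_left t6 (Real.exp_pos (S / 2)).le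
  linarith

end F0

lemma GQ_smul (m : Measure E3) (y : E3) (σ a c : ℝ) (v : E3) :
    GQ m y σ (a * c) (a • v) = a ^ 2 * GQ m y σ c v := by
  unfold GQ
  rw [← integral_const_mul]
  congr 1; ext x
  rw [real_inner_smul_left]; ring

theorem flat0_proof : Flat0Stmt := by
  intro D δ hδ
  obtain ⟨κ, hκ, H⟩ := F0.unit D δ hδ
  refine ⟨κ ^ 4, by positivity, fun μ a x₀ t₀ ρ hρ h ha hL h0 => ?_⟩
  have hi := inv_pos.2 hρ
  have h1 := low_unit hρ hL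
  obtain ⟨c, v, hv, hc⟩ := H _ _ (h.scale hi x₀ t₀)
    (by rw [inv_pow, ← div_eq_mul_inv, div_le_iff₀ (by positivity)]; linarith)
    (fun y σ hy a1 a2 => by
      simpa using h1 y σ (by simpa using hy) (by simpa using a1) (by simpa using a2))
    (by
      rw [spt_rescaled hi]
      change x₀ + ρ⁻¹⁻¹ • (0 : E3) ∈ Spt μ (t₀ + 0 / ρ⁻¹ ^ 2)
      simpa using h0)
  refine ⟨ρ * c, v, hv, ?_⟩
  have h2 := HH_unit μ x₀ t₀ hρ 1 c v
  rw [one_mul] at h2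
  have h3 : HH μ x₀ t₀ ρ (ρ * c) v = ρ ^ 2 * HH μ x₀ t₀ ρ c (ρ⁻¹ • v) := by
    unfold HH
    rw [← GQ_smul, smul_inv_smul₀ hρ.ne']
  have h4 : HH (rescaled 2 μ x₀ t₀ ρ⁻¹) 0 0 1 c v ≤ δ ^ 2 := by simpa [HH] using hc
  rw [h3, ← h2, mul_comm]
  gcongr

end Vale.Agent.P218G.Rg
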