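import Vale.Agent.P218G.Lit2
import Vale.Agent.P218G.RegSpec

/-! The last blocks of the theorem on weak flows. -/

open MeasureTheory Set Filter Topology Metric

namespace Vale.Agent.P218G.Rg

open Vale.Agent.P218 Vale.Agent.P218G.Lit
open Vale.Agent.P218FT (E3 IsSurf IsMCF IsShr AreaRatio LGB)
open Vale.Agent.P218F.Dyn (hm)

/-- **FING**: finite genus gives the local Gauss-Bonnet estimate -/
def FinGenusStmt : Prop :=
  ∀ (S : Set E3) (D : ℝ), IsSurf S → AreaRatio D S → HasFiniteGenus S → ∃ G : ℝ, LGB G S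

/-- **GCONST**: the genus is constant along a smooth flow of closed surfaces -/
def GenusConstStmt : Prop :=
  ∀ (M : ℝ → Set E3) (a b R : ℝ), IsMCF M (Ioo a b) → (∀ t ∈ Ioo a b, M t ⊆ closedBall 0 R) →
    ∀ s ∈ Ioo a b, ∀ t ∈ Ioo a b, totalGenus (M s) = totalGenus (M t)

/-- **MONO0**: Huisken's monotonicity formula from time zero -/
def Mono0Stmt : Prop :=
  ∀ μ : ℝ → Measure E3, IsIntegralBrakkeFlow 2 μ → μ 0 univ < ⊤ → ∀ (y : E3) (t s s' : ℝ),
    0 ≤ s → s ≤ s' → s' < t → GA (μ s') y (t - s') ≤ GA (μ s) y (t - s)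

/-- **GC**: at a point of density less than two of a cyclic flow some tangent flow is a smooth
shrinker of bounded geometry -/
def GCStmt : Prop :=
  ∀ μ : ℝ → Measure E3, IsIntegralBrakkeFlow 2 μ → μ 0 univ < ⊤ → IsUnitRegular μ → IsCyclic μ →
    ∀ (x₀ : E3) (t₀ : ℝ), 0 < t₀ → ∀ s : ℝ, 0 < s → s < t₀ → GA (μ s) x₀ (t₀ - s) < 2 * om0 →
      ∃ S : Set E3, IsShr S ∧ BddGeom S ∧ hm S ∈ tangentSlices 2 μ x₀ t₀

end Vale.Agent.P218G.Rg
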