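import Vale.Agent.P218G.RegC
import Vale.Agent.P218G.FinSpec

/-! Huisken's monotonicity formula from time zero. -/

namespace Vale.Agent.P218G.Rg

theorem mono0_proof : Mono0Stmt := by
  intro μ hμ h0 y t s s' hs hss ht
  obtain ⟨T, H, hB⟩ := P218.H552.exists_BF hμ
  exact RC.mono_GA hB h0 y hs hss ht

end Vale.Agent.P218G.Rg
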