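import Vale.Agent.P218G.RegA

/-! Decay of the height and the parabolic Lipschitz bound for Gaussian systems. -/

open MeasureTheory Set Filter Topology Metric
open scoped ENNReal NNReal RealInnerProductSpace ContDiff

namespace Vale.Agent.P218G.Rg

open Vale.Agent.P218 Vale.Agent.P218.H313 Vale.Agent.P218G.Lit
open Vale.Agent.P218FT (E3)

lemma sq_le_of_quad {A B C : ℝ} (h : ∀ α : ℝ, 0 ≤ A * α ^ 2 + 2 * B * α + C) : B ^ 2 ≤ A * C := by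
  have := discrim_le_zero (a := A) (b := 2 * B) (c := C) fun α => by have := h α; nlinarith
  rw [discrim] at this
  nlinarith

lemma int3 {m : Measure E3} {f g k : E3 → ℝ} (hf : Integrable f m) (hg : Integrable g m)
    (hk : Integrable k m) (a b c : ℝ) : ∫ x, (a * f x + b * g x + c * k x) ∂m =
      a * ∫ x, f x ∂m + b * ∫ x, g x ∂m + c * ∫ x, k x ∂m := by
  have h1 : Integrable (fun x => a * f x + b * g x) m := (hf.const_mul a).add (hg.const_mul b)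
  rw [integral_add h1 (hk.const_mul c), integral_add (hf.const_mul a) (hg.const_mul b),
    integral_const_mul, integral_const_mul, integral_const_mul]

lemma Ent.GQ_shift {m : Measure E3} {D : ℝ} (h : Ent m D) {s σ : ℝ} (hs : 0 < s) (hσ : s < σ)
    (x y : E3) (c : ℝ) (v : E3) : GQ m y s (c + ⟪v, y - x⟫) v ≤
      σ / s * Real.exp (‖y - x‖ ^ 2 / (4 * (σ - s))) * GQ m x σ c v := by
  unfold GQ
  rw [← integral_const_mul]
  refine integral_mono (h.int_GQ y hs _ v) ((h.int_GQ x (hs.trans hσ) c v).const_mul _) fun z => ?_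
  have h1 := gk0_shift hs hσ (z - x) (y - x)
  rw [sub_sub_sub_cancel_right] at h1
  have h2 : c + ⟪v, y - x⟫ + ⟪v, z - y⟫ = c + ⟪v, z - x⟫ := by
    rw [add_assoc, ← inner_add_right]; congr 2; abel
  simp only [h2]
  have := mul_le_mul_of_nonneg_left h1 (sq_nonneg (c + ⟪v, z - x⟫))
  linarith

lemma Ent.quad {m : Measure E3} {D : ℝ} (h : Ent m D) (y : E3) {σ : ℝ} (hσ : 0 < σ) (c : ℝ)
    (v : E3) (α : ℝ) : GQ m y σ (α + c) v = GA m y σ * α ^ 2 +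
      2 * (∫ x, (c + ⟪v, x - y⟫) * gk0 σ (x - y) ∂m) * α + GQ m y σ c v := by
  have h1 := int3 (h.int y σ hσ) (h.int_aff y hσ c v) (h.int_GQ y hσ c v) (α ^ 2) (2 * α) 1
  have h2 : GQ m y σ (α + c) v = _ := Eq.trans (by unfold GQ; congr 1; ext x; ring) h1
  rw [h2, GA, GQ]; ring

/-- the mean value inequality -/
lemma GS.mean {μ : ℝ → Measure E3} {a D : ℝ} (h : GS μ a D) {t s : ℝ} {x : E3} (hx : x ∈ Spt μ t)
    (hs : a ≤ s) (ht : s < t) (c : ℝ) (v : E3) :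
    ((∫ y, (c + ⟪v, y - x⟫) * gk0 (t - s) (y - x) ∂(μ s)) - om0 * c) ^ 2 ≤
      (GA (μ s) x (t - s) - om0) * GQ (μ s) x (t - s) c v := by
  have hσ := sub_pos.2 ht
  have h1 := sq_le_of_quad (A := GA (μ s) x (t - s) - om0)
    (B := (∫ y, (c + ⟪v, y - x⟫) * gk0 (t - s) (y - x) ∂(μ s)) - om0 * c)
    (C := GQ (μ s) x (t - s) c v - om0 * c ^ 2) fun α => by
      have h2 := h.submean hx hs ht (α + c) v
      rw [(h.ent s hs).quad x hσ] at h2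
      nlinarith
  refine h1.trans (mul_le_mul_of_nonneg_left ?_ (sub_nonneg.2 (h.low hx hs ht)))
  have := mul_nonneg om0_pos.le (sq_nonneg c)
  linarith

/-- Cauchy-Schwarz -/
lemma Ent.abs_sq_le {m : Measure E3} {D : ℝ} (h : Ent m D) (y : E3) {σ : ℝ} (hσ : 0 < σ) (c : ℝ)
    (v : E3) : (∫ x, |c + ⟪v, x - y⟫| * gk0 σ (x - y) ∂m) ^ 2 ≤ D * GQ m y σ c v := by
  have i1 : Integrable (fun x => |c + ⟪v, x - y⟫| * gk0 σ (x - y)) m :=
    (h.int_aff y hσ c v).abs.congr (Eventually.of_forall fun x => by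
      simp only [abs_mul, abs_of_pos (gk0_pos hσ _)])
  refine (sq_le_of_quad (A := GA m y σ) fun α => ?_).trans
    (mul_le_mul_of_nonneg_right (h.le y σ hσ) (GQ_nonneg _ _ hσ.le _ _))
  have h1 := int3 (h.int y σ hσ) i1 (h.int_GQ y hσ c v) (α ^ 2) (2 * α) 1
  refine le_trans (integral_nonneg fun x => ?_) (h1.trans (by rw [GA, GQ]; ring)).le
  have h2 := mul_nonneg (sq_nonneg (α + |c + ⟪v, x - y⟫|)) (gk0_pos hσ (x - y)).le
  simp only [Pi.zero_apply]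
  rw [← sq_abs (c + _)]
  linarith

lemma exp_rem (w : ℝ) : |Real.exp w - 1 - w| ≤ w ^ 2 * Real.exp |w| := by
  have h1 := Real.add_one_le_exp w
  have h2 := Real.add_one_le_exp (-w)
  have h3 : Real.exp w * Real.exp (-w) = 1 := by rw [← Real.exp_add]; simp
  have h4 := Real.exp_pos w
  rw [abs_of_nonneg (by linarith)]
  rcases le_total 0 w with h | h
  · rw [abs_of_nonneg h]
    have h5 : Real.exp w - 1 ≤ w * Real.exp w := by nlinarith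
    nlinarith
  · have h5 : 1 ≤ Real.exp |w| := Real.one_le_exp (abs_nonneg w)
    have h6 : Real.exp w * (1 - w) ≤ 1 := by nlinarith
    have h7 : Real.exp w - 1 - w ≤ w ^ 2 := by
      by_contra hc
      push Not at hc
      have h8 : (1 + w + w ^ 2) * (1 - w) < Real.exp w * (1 - w) :=
        mul_lt_mul_of_pos_right (by linarith) (by linarith)
      have h9 : 0 ≤ (-w) ^ 3 := pow_nonneg (by linarith) 3
      nlinarith
    nlinarith [sq_nonneg w]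

lemma gk0_le_two {σ : ℝ} (h1 : 1 / 2 ≤ σ) (h2 : σ ≤ 1) (y : E3) :
    gk0 σ y ≤ 4 * Real.exp (-‖y‖ ^ 2 / 8) * gk0 2 y := by
  have h0 : 0 < σ := by linarith
  unfold gk0
  have h3 : σ⁻¹ ≤ 2 := by rw [inv_le_comm₀ h0 two_pos]; linarith
  have h4 : -‖y‖ ^ 2 / (4 * σ) ≤ -‖y‖ ^ 2 / 8 + -‖y‖ ^ 2 / (4 * 2) := by
    have : ‖y‖ ^ 2 / 4 ≤ ‖y‖ ^ 2 / (4 * σ) :=
      div_le_div_of_nonneg_left (sq_nonneg _) (by positivity) (by linarith)
    simp only [neg_div]; linarith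
  calc σ⁻¹ * Real.exp (-‖y‖ ^ 2 / (4 * σ))
      ≤ 2 * Real.exp (-‖y‖ ^ 2 / 8 + -‖y‖ ^ 2 / (4 * 2)) := by gcongr
    _ = _ := by rw [Real.exp_add]; ring

lemma exp_lin_le (r : ℝ) : Real.exp (3 * r + 1) * Real.exp (-r ^ 2 / 8) ≤ Real.exp 19 := by
  rw [← Real.exp_add]
  exact Real.exp_le_exp.2 (by nlinarith [sq_nonneg (r - 12)])

/-- Taylor expansion of the kernel -/
lemma kernel_taylor {σ : ℝ} (h1 : 1 / 2 ≤ σ) (h2 : σ ≤ 1) {x : E3} (hx : ‖x‖ ≤ 1) (y : E3) :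
    |gk0 σ (y - x) - gk0 σ y - gk0 σ y * (⟪y, x⟫ / (2 * σ))| ≤
      8 * Real.exp 19 * ‖x‖ ^ 2 * gk0 2 y := by
  have h0 : 0 < σ := by linarith
  set w : ℝ := (2 * ⟪y, x⟫ - ‖x‖ ^ 2) / (4 * σ) with hw
  have e1 : gk0 σ (y - x) = gk0 σ y * Real.exp w := by
    unfold gk0
    rw [mul_assoc, ← Real.exp_add, norm_sub_sq_real, hw]
    congr 2; ring
  have e2 : gk0 σ (y - x) - gk0 σ y - gk0 σ y * (⟪y, x⟫ / (2 * σ)) =
      gk0 σ y * ((Real.exp w - 1 - w) - ‖x‖ ^ 2 / (4 * σ)) := by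
    rw [e1, hw]; field_simp; ring
  have hy := norm_nonneg y
  have hx0 := norm_nonneg x
  have h3 : |w| ≤ ‖x‖ * (‖y‖ + 1) := by
    have h4 := abs_real_inner_le_norm y x
    have h5 : |2 * ⟪y, x⟫ - ‖x‖ ^ 2| ≤ 2 * (‖x‖ * (‖y‖ + 1)) := by
      rw [abs_le] at h4 ⊢
      constructor <;> nlinarith [h4.1, h4.2]
    rw [hw, abs_div, abs_of_pos (by positivity : 0 < 4 * σ), div_le_iff₀ (by positivity)]
    have : 0 ≤ ‖x‖ * (‖y‖ + 1) := by positivity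
    nlinarith
  have h4 : ‖y‖ + 1 ≤ Real.exp ‖y‖ := Real.add_one_le_exp _
  have h5 : w ^ 2 * Real.exp |w| ≤ ‖x‖ ^ 2 * Real.exp (3 * ‖y‖ + 1) := by
    have h6 : w ^ 2 ≤ (‖x‖ * Real.exp ‖y‖) ^ 2 := by
      rw [← sq_abs]
      exact pow_le_pow_left₀ (abs_nonneg _) (h3.trans (by gcongr)) 2
    have h7 : Real.exp |w| ≤ Real.exp (‖y‖ + 1) := Real.exp_le_exp.2 (by nlinarith)
    calc w ^ 2 * Real.exp |w| ≤ (‖x‖ * Real.exp ‖y‖) ^ 2 * Real.exp (‖y‖ + 1) := by gcongr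
      _ = _ := by
        rw [mul_pow, mul_assoc, ← Real.exp_nat_mul, ← Real.exp_add]; congr 2; push_cast; ring
  have h6 : ‖x‖ ^ 2 / (4 * σ) ≤ ‖x‖ ^ 2 * Real.exp (3 * ‖y‖ + 1) := by
    have h7 : 1 ≤ Real.exp (3 * ‖y‖ + 1) := Real.one_le_exp (by positivity)
    rw [div_le_iff₀ (by positivity)]
    nlinarith [sq_nonneg ‖x‖, mul_nonneg (sq_nonneg ‖x‖) (sub_nonneg.2 h7)]
  have h7 : |(Real.exp w - 1 - w) - ‖x‖ ^ 2 / (4 * σ)| ≤
      2 * (‖x‖ ^ 2 * Real.exp (3 * ‖y‖ + 1)) := by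
    refine (abs_sub _ _).trans ?_
    rw [abs_of_nonneg (by positivity : 0 ≤ ‖x‖ ^ 2 / (4 * σ))]
    linarith [exp_rem w]
  have h8 := gk0_pos two_pos y
  rw [e2, abs_mul, abs_of_pos (gk0_pos h0 y)]
  calc _ ≤ 4 * Real.exp (-‖y‖ ^ 2 / 8) * gk0 2 y * (2 * (‖x‖ ^ 2 * Real.exp (3 * ‖y‖ + 1))) :=
        mul_le_mul (gk0_le_two h1 h2 y) h7 (abs_nonneg _) (by positivity)
    _ = 8 * (Real.exp (3 * ‖y‖ + 1) * Real.exp (-‖y‖ ^ 2 / 8)) * ‖x‖ ^ 2 * gk0 2 y := by ring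
    _ ≤ _ := by gcongr; exact exp_lin_le _

lemma kernel_lin {σ : ℝ} (h1 : 1 / 2 ≤ σ) (h2 : σ ≤ 1) (y : E3) :
    gk0 σ y ≤ 8 * Real.exp 19 * gk0 2 y ∧
      gk0 σ y * (‖y‖ / (2 * σ)) ≤ 8 * Real.exp 19 * gk0 2 y := by
  have h0 : 0 < σ := by linarith
  have hy := norm_nonneg y
  have h3 := exp_lin_le ‖y‖
  have h4 := Real.add_one_le_exp (3 * ‖y‖ + 1)
  have h5 := Real.exp_pos (-‖y‖ ^ 2 / 8)
  have h6 := gk0_le_two h1 h2 y
  have h8 := gk0_pos two_pos y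
  have h9 : ∀ u : ℝ, 0 ≤ u → u ≤ ‖y‖ + 1 → gk0 σ y * u ≤ 8 * Real.exp 19 * gk0 2 y := by
    intro u hu0 hu
    calc gk0 σ y * u ≤ 4 * Real.exp (-‖y‖ ^ 2 / 8) * gk0 2 y * Real.exp (3 * ‖y‖ + 1) :=
          mul_le_mul h6 (by linarith) hu0 (by positivity)
      _ = 4 * (Real.exp (3 * ‖y‖ + 1) * Real.exp (-‖y‖ ^ 2 / 8)) * gk0 2 y := by ring
      _ ≤ 4 * Real.exp 19 * gk0 2 y := by gcongr
      _ ≤ _ := by have := Real.exp_pos 19; gcongr; norm_num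
  refine ⟨by simpa using h9 1 zero_le_one (by linarith), h9 _ (by positivity) ?_⟩
  rw [div_le_iff₀ (by positivity)]
  nlinarith

lemma sq_exp_neg_le {w : ℝ} (hw : 0 ≤ w) : w ^ 2 * Real.exp (-w) ≤ 2 := by
  have h1 := Real.quadratic_le_exp_of_nonneg hw
  have h2 := Real.exp_pos (-w)
  have h3 : Real.exp w * Real.exp (-w) = 1 := by rw [← Real.exp_add]; simp
  nlinarith

/-- the linear approximation of the Gaussian mean of an affine function -/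
lemma Ent.exists_lin {m : Measure E3} {D : ℝ} (h : Ent m D) {σ : ℝ} (h1 : 1 / 2 ≤ σ) (h2 : σ ≤ 1)
    (c : ℝ) (v : E3) : ∃ (g₀ : ℝ) (g₁ : E3) (B : ℝ), 0 ≤ B ∧
      B ^ 2 ≤ (8 * Real.exp 19) ^ 2 * D * GQ m 0 2 c v ∧ |g₀| ≤ B ∧ ‖g₁‖ ≤ B ∧ ∀ x : E3, ‖x‖ ≤ 1 →
        |(∫ y, (c + ⟪v, x⟫ + ⟪v, y - x⟫) * gk0 σ (y - x) ∂m) - g₀ - ⟪g₁, x⟫| ≤ B * ‖x‖ ^ 2 := by
  have h0 : 0 < σ := by linarith
  set K : ℝ := 8 * Real.exp 19 with hK
  have hK0 : 0 ≤ K := by positivity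
  have i0 : Integrable (fun y => (c + ⟪v, y⟫) * gk0 2 y) m := by
    simpa using h.int_aff 0 two_pos c v
  have i1 : Integrable (fun y => |c + ⟪v, y⟫| * gk0 2 y) m :=
    i0.abs.congr (Eventually.of_forall fun x => by
      simp only [abs_mul, abs_of_pos (gk0_pos two_pos _)])
  have hB := h.abs_sq_le 0 two_pos c v
  simp only [sub_zero] at hB
  set B₀ := ∫ y, |c + ⟪v, y⟫| * gk0 2 y ∂m with hB₀
  have hB0 : 0 ≤ B₀ := integral_nonneg fun y => mul_nonneg (abs_nonneg _) (gk0_pos two_pos _).le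
  have key : ∀ {F : Type} [NormedAddCommGroup F] [NormedSpace ℝ F] (k : E3 → F) (κ : ℝ),
      (∀ y, ‖k y‖ ≤ κ * gk0 2 y) → ‖∫ y, (c + ⟪v, y⟫) • k y ∂m‖ ≤ κ * B₀ := by
    intro F _ _ k κ hk
    rw [hB₀, ← integral_const_mul]
    refine norm_integral_le_of_norm_le (i1.const_mul κ) (Eventually.of_forall fun y => ?_)
    rw [norm_smul, Real.norm_eq_abs]
    have := mul_le_mul_of_nonneg_left (hk y) (abs_nonneg (c + ⟪v, y⟫))
    linarith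
  have b1 : ∀ y : E3, ‖(gk0 σ y / (2 * σ)) • y‖ ≤ K * gk0 2 y := fun y => by
    rw [norm_smul, Real.norm_of_nonneg (div_pos (gk0_pos h0 y) (by positivity)).le]
    refine le_trans (le_of_eq ?_) (kernel_lin h1 h2 y).2
    ring
  have i2 : Integrable (fun y => (c + ⟪v, y⟫) • (gk0 σ y / (2 * σ)) • y) m := by
    refine (i1.const_mul K).mono' (Continuous.aestronglyMeasurable ?_)
      (Eventually.of_forall fun y => ?_)
    · exact (by fun_prop : Continuous fun y : E3 => c + ⟪v, y⟫).smul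
        (((continuous_gk0 σ).div_const _).smul continuous_id)
    · rw [norm_smul, Real.norm_eq_abs]
      have := mul_le_mul_of_nonneg_left (b1 y) (abs_nonneg (c + ⟪v, y⟫))
      linarith
  have i3 : Integrable (fun y => (c + ⟪v, y⟫) * gk0 σ y) m := by
    simpa using h.int_aff 0 h0 c v
  refine ⟨∫ y, (c + ⟪v, y⟫) * gk0 σ y ∂m, ∫ y, (c + ⟪v, y⟫) • (gk0 σ y / (2 * σ)) • y ∂m, K * B₀,
    by positivity, ?_, ?_, key _ K b1, fun x hx => ?_⟩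
  · rw [mul_pow, mul_assoc]; gcongr
  · exact key (gk0 σ) K fun y => by
      rw [Real.norm_of_nonneg (gk0_pos h0 y).le]; exact (kernel_lin h1 h2 y).1
  · have e1 : ∀ y, c + ⟪v, x⟫ + ⟪v, y - x⟫ = c + ⟪v, y⟫ := fun y => by
      rw [inner_sub_right]; ring
    have i4 := h.int_aff x h0 (c + ⟪v, x⟫) v
    simp only [e1] at i4 ⊢
    have h3 := key (fun y => gk0 σ (y - x) - gk0 σ y - gk0 σ y * (⟪y, x⟫ / (2 * σ)))
      (K * ‖x‖ ^ 2) fun y => kernel_taylor h1 h2 hx y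
    have h4 := int3 i4 i3 (i2.const_inner x) 1 (-1) (-1)
    rw [integral_inner i2, real_inner_comm] at h4
    refine le_trans (le_of_eq ?_) (h3.trans (le_of_eq (by ring)))
    rw [Real.norm_eq_abs]
    congr 1
    refine Eq.trans (by ring) (h4.symm.trans ?_)
    congr 1
    ext y
    simp only [real_inner_smul_right, smul_eq_mul, real_inner_comm x y]
    ring

lemma exp_half_le : Real.exp (1 / 2) ≤ 2 := by
  have h8 := Real.add_one_le_exp (-(1 / 2) : ℝ)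
  have h9 : Real.exp (1 / 2) * Real.exp (-(1 / 2)) = 1 := by rw [← Real.exp_add]; simp
  nlinarith [Real.exp_pos (1 / 2 : ℝ)]

lemma inner_arith {o ε θ P H B G f g n : ℝ} (hω : 0 < o) (hε : 0 ≤ ε) (hθ : 0 < θ) (hP : 0 ≤ P)
    (hH : 0 ≤ H) (hBP : (B / o) ^ 2 ≤ P * H) (h6 : (G - o * f) ^ 2 ≤ ε * o * (8 * H))
    (h4 : |G - g| ≤ B * n ^ 2) :
    (f - g / o) ^ 2 * (2 * Real.exp (-(n ^ 2 / (8 * (2 * θ ^ 2))))) ≤
      (32 * ε / o + (8 / o + 16 * P) * 4096 * θ ^ 4) * H := by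
  set w := n ^ 2 / (8 * (2 * θ ^ 2)) with hw
  have hw0 : 0 ≤ w := by positivity
  have hew := Real.exp_pos (-w)
  have h7 : (G - g) ^ 2 ≤ (B * n ^ 2) ^ 2 := by
    rw [← sq_abs]; exact pow_le_pow_left₀ (abs_nonneg _) h4 2
  have h8 : (f - g / o) ^ 2 ≤ 16 * ε / o * H + 2 * (P * H) * n ^ 4 := by
    have h9 : f - g / o = ((G - g) - (G - o * f)) / o := by field_simp; ring
    have h10 : ((G - g) - (G - o * f)) ^ 2 ≤ 2 * (ε * o * (8 * H)) + 2 * (B * n ^ 2) ^ 2 := by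
      linarith [sq_nonneg ((G - g) + (G - o * f))]
    have h11 := mul_le_mul_of_nonneg_right hBP (by positivity : 0 ≤ 2 * n ^ 4)
    rw [h9, div_pow]
    refine (div_le_div_of_nonneg_right h10 (by positivity)).trans ?_
    have h12 : (2 * (ε * o * (8 * H)) + 2 * (B * n ^ 2) ^ 2) / o ^ 2 =
        16 * ε / o * H + (B / o) ^ 2 * (2 * n ^ 4) := by field_simp; ring
    rw [h12]; linarith
  have h9 : n ^ 4 * Real.exp (-w) ≤ 512 * θ ^ 4 := by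
    have h10 : n ^ 4 = 256 * θ ^ 4 * w ^ 2 := by rw [hw]; field_simp; ring
    have h11 := mul_le_mul_of_nonneg_left (sq_exp_neg_le hw0) (by positivity : 0 ≤ 256 * θ ^ 4)
    rw [h10]; linarith
  have h10 : Real.exp (-w) ≤ 1 := Real.exp_le_one_iff.2 (by linarith)
  have h11 := mul_le_mul_of_nonneg_left h9 (by positivity : 0 ≤ 4 * (P * H))
  have h12 := mul_le_mul_of_nonneg_left h10 (by positivity : 0 ≤ 32 * ε / o * H)
  have h13 := mul_le_mul_of_nonneg_right h8 (by positivity : 0 ≤ 2 * Real.exp (-w))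
  have h14 : 0 ≤ 8 / o * θ ^ 4 * H := by positivity
  have h15 : 0 ≤ P * θ ^ 4 * H := by positivity
  have h16 : (16 * ε / o * H + 2 * (P * H) * n ^ 4) * (2 * Real.exp (-w)) =
    32 * ε / o * H * Real.exp (-w) + 4 * (P * H) * (n ^ 4 * Real.exp (-w)) := by ring
  linarith

lemma outer_arith {o ε θ P H B f g n : ℝ} (hω : 0 < o) (hε : 0 ≤ ε) (hθ : 0 < θ)
    (ht2 : θ ^ 2 ≤ 1 / 16) (hP : 0 ≤ P) (hH : 0 ≤ H) (hBP : (B / o) ^ 2 ≤ P * H) (hn : 1 ≤ n)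
    (h2 : o * f ^ 2 ≤ 4 * Real.exp (n ^ 2 / 4) * H) (h5 : |g| ≤ B * (2 * n)) :
    (f - g / o) ^ 2 * (2 * Real.exp (-(n ^ 2 / (8 * (2 * θ ^ 2))))) ≤
      (32 * ε / o + (8 / o + 16 * P) * 4096 * θ ^ 4) * H := by
  set w := n ^ 2 / (8 * (2 * θ ^ 2)) with hw
  have hew := Real.exp_pos (-w)
  have h3 : f ^ 2 ≤ 8 / o / 2 * Real.exp (n ^ 2 / 4) * H := by
    rw [← le_div_iff₀' hω] at h2
    refine h2.trans (le_of_eq ?_); ring
  have hx2 : 1 ≤ n ^ 2 := one_le_pow₀ hn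
  have h4 : (g / o) ^ 2 ≤ 8 * (P * H) * Real.exp (n ^ 2 / 4) := by
    have h6 : (g / o) ^ 2 ≤ (B / o) ^ 2 * (4 * n ^ 2) := by
      rw [div_pow, div_pow, ← sq_abs, div_mul_eq_mul_div]
      refine div_le_div_of_nonneg_right ((pow_le_pow_left₀ (abs_nonneg _) h5 2).trans
        (le_of_eq (by ring))) (by positivity)
    have h7 : n ^ 2 ≤ 2 * Real.exp (n ^ 2 / 4) := by
      have h8 := Real.quadratic_le_exp_of_nonneg (by positivity : 0 ≤ n ^ 2 / 4)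
      linarith [sq_nonneg (n ^ 2 / 4 - 1)]
    refine h6.trans ((mul_le_mul hBP (by linarith : 4 * n ^ 2 ≤ 8 * Real.exp (n ^ 2 / 4))
      (by positivity) (by positivity)).trans (le_of_eq (by ring)))
  have h5 : (f - g / o) ^ 2 ≤ (8 / o + 16 * P) * H * Real.exp (n ^ 2 / 4) := by
    linarith [sq_nonneg (f + g / o)]
  have h6 : Real.exp (n ^ 2 / 4) * Real.exp (-w) ≤ 2048 * θ ^ 4 := by
    have h7 : n ^ 2 / 4 + -w ≤ -(1 / (32 * θ ^ 2)) := by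
      have h8 : w = n ^ 2 * (2 * (1 / (32 * θ ^ 2))) := by rw [hw]; field_simp; ring
      have h9 : 1 / 2 ≤ 1 / (32 * θ ^ 2) := one_div_le_one_div_of_le (by positivity) (by linarith)
      rw [h8]; nlinarith
    have h8 := sq_exp_neg_le (by positivity : 0 ≤ 1 / (32 * θ ^ 2))
    rw [← Real.exp_add]
    refine (Real.exp_le_exp.2 h7).trans ?_
    have h9 : Real.exp (-(1 / (32 * θ ^ 2))) = 1024 * θ ^ 4 *
        ((1 / (32 * θ ^ 2)) ^ 2 * Real.exp (-(1 / (32 * θ ^ 2)))) := by field_simp; norm_num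
    rw [h9]
    have := mul_le_mul_of_nonneg_left h8 (by positivity : 0 ≤ 1024 * θ ^ 4)
    linarith
  have h7 := mul_le_mul_of_nonneg_right h5 (by positivity : 0 ≤ 2 * Real.exp (-w))
  have h8 := mul_le_mul_of_nonneg_left h6 (by positivity : 0 ≤ 2 * ((8 / o + 16 * P) * H))
  have h9 : 0 ≤ 32 * ε / o * H := by positivity
  linarith

/-- **One step**, at unit scale -/
theorem step_unit (D : ℝ) : ∃ ε θ K : ℝ, 0 < ε ∧ 0 < θ ∧ θ ≤ 1 / 2 ∧ 0 < K ∧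
    ∀ (μ : ℝ → Measure E3) (a : ℝ), GS μ a D → a ≤ -1 → Low μ 0 0 1 ε → ∀ (c : ℝ) (v : E3),
      ∃ (c' : ℝ) (v' : E3), ‖v' - v‖ ^ 2 ≤ K ^ 2 * HH μ 0 0 1 c v ∧
        HH μ 0 0 θ c' v' ≤ θ ^ 2 / 4 * HH μ 0 0 1 c v := by
  have hω := om0_pos
  obtain ⟨P, hP0, hP⟩ : ∃ P : ℝ, 0 < P ∧ (8 * Real.exp 19) ^ 2 * D / om0 ^ 2 ≤ P :=
    ⟨max 1 _, by positivity, le_max_right _ _⟩
  obtain ⟨Q, hQ0, hQ⟩ : ∃ Q : ℝ, 0 < Q ∧ (8 / om0 + 16 * P) * 4096 * max D 1 ≤ Q :=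
    ⟨_, by positivity, le_rfl⟩
  obtain ⟨θ, hθ0, hθ1, hθ⟩ : ∃ θ : ℝ, 0 < θ ∧ θ ≤ 1 / 4 ∧ Q * θ ^ 2 ≤ 1 / 8 := by
    refine ⟨min (1 / 4) (1 / (8 * Q)), by positivity, min_le_left _ _, ?_⟩
    have h1 : min (1 / 4) (1 / (8 * Q)) ≤ 1 / (8 * Q) := min_le_right _ _
    have h2 : min (1 / 4) (1 / (8 * Q)) ≤ 1 := (min_le_left _ _).trans (by norm_num)
    have h3 : 0 < min (1 / 4) (1 / (8 * Q)) := by positivity
    rw [le_div_iff₀ (by positivity)] at h1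
    nlinarith
  have hD1 : 0 < max D 1 := by positivity
  refine ⟨θ ^ 2 * om0 / (256 * max D 1), θ, √P, by positivity, hθ0, by linarith,
    Real.sqrt_pos.2 hP0, fun μ a h ha hL c v => ?_⟩
  set ε := θ ^ 2 * om0 / (256 * max D 1) with hε
  have hε0 : 0 < ε := by positivity
  have ht2 : θ ^ 2 ≤ 1 / 16 := by nlinarith
  have ht0 : 0 < θ ^ 2 := by positivity
  have hE := h.ent (-1) ha
  have hE' := h.ent (-θ ^ 2) (by linarith)
  have e0 : HH μ 0 0 1 c v = GQ (μ (-1)) 0 2 c v := by simp [HH]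
  rw [e0]
  set H := GQ (μ (-1)) 0 2 c v with hH
  have hH0 : 0 ≤ H := GQ_nonneg _ _ zero_le_two _ _
  have hσ : -θ ^ 2 - -1 = 1 - θ ^ 2 := by ring
  obtain ⟨g₀, g₁, B, hB0, hB, hg0, hg1, hT⟩ :=
    hE.exists_lin (σ := 1 - θ ^ 2) (by linarith) (by linarith) c v
  have hBP : (B / om0) ^ 2 ≤ P * H := by
    rw [div_pow]
    refine (div_le_div_of_nonneg_right hB (by positivity)).trans ?_
    rw [mul_div_right_comm]
    exact mul_le_mul_of_nonneg_right hP hH0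
  refine ⟨c - g₀ / om0, v - om0⁻¹ • g₁, ?_, ?_⟩
  · rw [sub_sub_cancel_left, norm_neg, norm_smul, norm_inv, Real.norm_of_nonneg hω.le,
      Real.sq_sqrt hP0.le]
    refine le_trans (pow_le_pow_left₀ (by positivity) ?_ 2) hBP
    rw [inv_mul_eq_div]; gcongr
  have e1 : HH μ 0 0 θ (c - g₀ / om0) (v - om0⁻¹ • g₁) =
      GQ (μ (-θ ^ 2)) 0 (2 * θ ^ 2) (c - g₀ / om0) (v - om0⁻¹ • g₁) := by simp [HH]
  set η : ℝ := 32 * ε / om0 + (8 / om0 + 16 * P) * 4096 * θ ^ 4 with hη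
  have hfin : η * H * D ≤ θ ^ 2 / 4 * H := by
    have h1 : η * D ≤ η * max D 1 := mul_le_mul_of_nonneg_left (le_max_left _ _) (by positivity)
    have h2 : 32 * ε / om0 * max D 1 = θ ^ 2 / 8 := by rw [hε]; field_simp; norm_num
    have h3 := mul_le_mul_of_nonneg_right hQ (by positivity : 0 ≤ θ ^ 4)
    have h4 := mul_le_mul_of_nonneg_right hθ ht0.le
    have h5 : η * D ≤ θ ^ 2 / 4 := by rw [hη] at h1 ⊢; linarith only [h1, h2, h3, h4]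
    linarith only [mul_le_mul_of_nonneg_right h5 hH0]
  rw [e1]
  refine le_trans (hE'.integral_le (hE'.int_GQ 0 (by positivity) _ _) (by positivity)
    (by positivity : 0 < 2 * (2 * θ ^ 2)) (y := 0) ?_) hfin
  filter_upwards [h.supp (-θ ^ 2) (by linarith)] with x hx
  rw [sub_zero, gk0_double (by positivity : 0 < 2 * θ ^ 2), ← mul_assoc]
  refine mul_le_mul_of_nonneg_right ?_ (gk0_pos (by positivity) _).le
  have e2 : c - g₀ / om0 + ⟪v - om0⁻¹ • g₁, x⟫ = c + ⟪v, x⟫ - (g₀ + ⟪g₁, x⟫) / om0 := by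
    rw [inner_sub_left, real_inner_smul_left]; field_simp; ring
  rw [e2]
  have h1 : GQ (μ (-1)) x (1 - θ ^ 2) (c + ⟪v, x⟫) v ≤ 4 * Real.exp (‖x‖ ^ 2 / 4) * H := by
    have h2 := hE.GQ_shift (s := 1 - θ ^ 2) (σ := 2) (by linarith) (by linarith) 0 x c v
    rw [sub_zero] at h2
    refine h2.trans ?_
    have h3 : 2 / (1 - θ ^ 2) ≤ 4 := by rw [div_le_iff₀ (by linarith)]; linarith
    have h4 : ‖x‖ ^ 2 / (4 * (2 - (1 - θ ^ 2))) ≤ ‖x‖ ^ 2 / 4 :=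
      div_le_div_of_nonneg_left (sq_nonneg _) (by norm_num) (by linarith)
    gcongr
  set f := c + ⟪v, x⟫ with hf
  rw [neg_div]
  rcases le_total ‖x‖ 1 with hx1 | hx1
  · have h2 := h.mean hx ha (by linarith only [ht2]) f v
    rw [hσ] at h2
    have h3 := hL x (1 - θ ^ 2) (by rw [sub_zero]; linarith only [hx1]) (by linarith only [ht2])
      (by linarith only [ht0])
    rw [show (0 : ℝ) - 1 ^ 2 = -1 by norm_num] at h3
    have h4 := hT x hx1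
    rw [sub_sub] at h4
    have h5 : Real.exp (‖x‖ ^ 2 / 4) ≤ 2 := (Real.exp_le_exp.2 (by
      linarith only [pow_le_one₀ (n := 2) (norm_nonneg x) hx1])).trans exp_half_le
    refine inner_arith hω hε0.le hθ0 hP0.le hH0 hBP (h2.trans (mul_le_mul (by linarith only [h3])
      (h1.trans ?_) (GQ_nonneg _ _ (by linarith only [ht2]) _ _) (by positivity))) h4
    linarith only [mul_le_mul_of_nonneg_right h5 hH0]
  · have h2 := (h.submean hx ha (by linarith only [ht2]) f v)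
    rw [hσ] at h2
    refine outer_arith hω hε0.le hθ0 ht2 hP0.le hH0 hBP hx1 (h2.trans h1) ?_
    have h6 := (abs_real_inner_le_norm g₁ x).trans
      (mul_le_mul_of_nonneg_right hg1 (norm_nonneg x))
    linarith only [abs_add_le g₀ ⟪g₁, x⟫, h6, hg0, mul_le_mul_of_nonneg_left hx1 hB0]

/-- **One step** -/
theorem step (D : ℝ) : ∃ ε θ K : ℝ, 0 < ε ∧ 0 < θ ∧ θ ≤ 1 / 2 ∧ 0 < K ∧
    ∀ (μ : ℝ → Measure E3) (a : ℝ) (x₀ : E3) (t₀ ρ : ℝ), 0 < ρ → GS μ a D → a ≤ t₀ - ρ ^ 2 →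
      Low μ x₀ t₀ ρ ε → ∀ (c : ℝ) (v : E3) (δ : ℝ), 0 ≤ δ → HH μ x₀ t₀ ρ c v ≤ δ ^ 2 * ρ ^ 2 →
      ∃ (c' : ℝ) (v' : E3), ‖v' - v‖ ≤ K * δ ∧
        HH μ x₀ t₀ (θ * ρ) c' v' ≤ (δ / 2) ^ 2 * (θ * ρ) ^ 2 := by
  obtain ⟨ε, θ, K, hε, hθ, hθ1, hK, H⟩ := step_unit D
  refine ⟨ε, θ, K, hε, hθ, hθ1, hK, fun μ a x₀ t₀ ρ hρ h ha hL c v δ hδ hH => ?_⟩
  have h2 : 0 < ρ ^ 2 := by positivity
  obtain ⟨c', v', h3, h4⟩ := H _ _ (h.scale (inv_pos.2 hρ) x₀ t₀)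
    (by rw [inv_pow, ← div_eq_mul_inv, div_le_iff₀ h2]; linarith) (low_unit hρ hL) c (ρ • v)
  rw [HH_unit μ x₀ t₀ hρ, one_mul, inv_smul_smul₀ hρ.ne'] at h3
  rw [HH_unit μ x₀ t₀ hρ, HH_unit μ x₀ t₀ hρ, one_mul, inv_smul_smul₀ hρ.ne'] at h4
  refine ⟨c', ρ⁻¹ • v', ?_, h4.trans ?_⟩
  · have h5 : ‖v' - ρ • v‖ ≤ K * δ * ρ := by
      refine le_of_sq_le_sq (h3.trans ?_) (by positivity)
      have := mul_le_mul_of_nonneg_left hH (sq_nonneg K)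
      linarith
    have h6 : ρ⁻¹ • v' - v = ρ⁻¹ • (v' - ρ • v) := by rw [smul_sub, inv_smul_smul₀ hρ.ne']
    rw [h6, norm_smul, norm_inv, Real.norm_of_nonneg hρ.le, inv_mul_le_iff₀ hρ]
    linarith
  · have := mul_le_mul_of_nonneg_left hH (by positivity : 0 ≤ θ ^ 2 / 4)
    linarith

/-- pointwise bound by the height -/
lemma GS.pointwise {μ : ℝ → Measure E3} {a D : ℝ} (h : GS μ a D) {x y : E3} {t s r : ℝ}
    (hr : 0 < r) (ha : a ≤ t - r ^ 2) (hy : y ∈ Spt μ s) (h1 : t - r ^ 2 / 4 ≤ s) (h2 : s ≤ t)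
    (h3 : ‖y - x‖ ≤ r) (c : ℝ) (v : E3) : om0 * (c + ⟪v, y - x⟫) ^ 2 ≤ 6 * HH μ x t r c v := by
  have h0 : 0 < r ^ 2 := by positivity
  refine (h.submean hy ha (by linarith) _ v).trans (((h.ent _ ha).GQ_shift (σ := 2 * r ^ 2)
    (by linarith) (by linarith) x y c v).trans ?_)
  have h4 : 2 * r ^ 2 / (s - (t - r ^ 2)) ≤ 3 := by rw [div_le_iff₀ (by linarith)]; linarith
  have h5 : Real.exp (‖y - x‖ ^ 2 / (4 * (2 * r ^ 2 - (s - (t - r ^ 2))))) ≤ 2 := by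
    have h6 : ‖y - x‖ ^ 2 ≤ r ^ 2 := pow_le_pow_left₀ (norm_nonneg _) h3 2
    have h7 : ‖y - x‖ ^ 2 / (4 * (2 * r ^ 2 - (s - (t - r ^ 2)))) ≤ 1 / 2 := by
      rw [div_le_iff₀ (by linarith)]; linarith
    exact (Real.exp_le_exp.2 h7).trans exp_half_le
  refine mul_le_mul_of_nonneg_right ?_ (GQ_nonneg _ _ (by positivity) _ _)
  calc _ ≤ (3 : ℝ) * 2 := mul_le_mul h4 h5 (Real.exp_pos _).le (by norm_num)
    _ = 6 := by norm_num

theorem decay (D : ℝ) : ∃ ε θ K : ℝ, 0 < ε ∧ 0 < θ ∧ θ ≤ 1 / 2 ∧ 0 < K ∧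
    ∀ (μ : ℝ → Measure E3) (a : ℝ) (x₀ : E3) (t₀ ρ : ℝ), 0 < ρ → GS μ a D →
      a ≤ t₀ - ρ ^ 2 → Low μ x₀ t₀ ρ ε → ∀ (c : ℝ) (v : E3) (δ : ℝ), 0 ≤ δ →
      HH μ x₀ t₀ ρ c v ≤ δ ^ 2 * ρ ^ 2 → ∀ k : ℕ, ∃ (c' : ℝ) (v' : E3), ‖v' - v‖ ≤ K * δ ∧
        HH μ x₀ t₀ (θ ^ k * ρ) c' v' ≤ (δ / 2 ^ k) ^ 2 * (θ ^ k * ρ) ^ 2 := by
  obtain ⟨ε, θ, K, hε, hθ, hθ1, hK, H⟩ := step D
  refine ⟨ε, θ, 2 * K, hε, hθ, hθ1, by positivity,
    fun μ a x₀ t₀ ρ hρ h ha hL c v δ hδ hH k => ?_⟩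
  have key : a ≤ t₀ - (θ ^ k * ρ) ^ 2 ∧ Low μ x₀ t₀ (θ ^ k * ρ) ε ∧ ∃ (c' : ℝ) (v' : E3),
      ‖v' - v‖ ≤ 2 * K * (δ - δ / 2 ^ k) ∧
      HH μ x₀ t₀ (θ ^ k * ρ) c' v' ≤ (δ / 2 ^ k) ^ 2 * (θ ^ k * ρ) ^ 2 := by
    induction k with
    | zero => exact ⟨by simpa using ha, by simpa using hL, c, v, by simp, by simpa using hH⟩
    | succ k ih =>
      obtain ⟨h1, h2, c', v', h3, h4⟩ := ih
      have h0 : 0 < θ ^ k * ρ := by positivity
      obtain ⟨c'', v'', h5, h6⟩ := H μ a x₀ t₀ _ h0 h h1 h2 c' v' _ (by positivity) h4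
      have e : θ ^ (k + 1) * ρ = θ * (θ ^ k * ρ) := by ring
      have h7 : θ * (θ ^ k * ρ) ≤ θ ^ k * ρ / 2 := by nlinarith
      rw [e]
      refine ⟨h1.trans (sub_le_sub_left (pow_le_pow_left₀ (by positivity) (by linarith) 2) _),
        h.low_sub h2 h1 (by positivity) h7 (by simpa using h0.le)
          (sub_le_self _ (by positivity)) le_rfl, c'', v'', ?_, ?_⟩
      · refine (norm_sub_le_norm_sub_add_norm_sub v'' v' v).trans ?_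
        have : δ / 2 ^ (k + 1) = δ / 2 ^ k / 2 := by ring
        rw [this]; linarith
      · rwa [div_div, ← pow_succ] at h6
  obtain ⟨-, -, c', v', h3, h4⟩ := key
  refine ⟨c', v', h3.trans ?_, h4⟩
  have : 0 ≤ δ / 2 ^ k := by positivity
  nlinarith

/-- change of centre for the height -/
lemma GS.HH_move {μ : ℝ → Measure E3} {a D : ℝ} (h : GS μ a D) {x₀ x : E3} {t₀ t ρ : ℝ}
    (hρ : 0 < ρ) (ha : a ≤ t₀ - ρ ^ 2) (hx0 : ‖x - x₀‖ ≤ ρ) (hs : t₀ - ρ ^ 2 / 4 ≤ t) (ht : t ≤ t₀)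
    (c : ℝ) (v : E3) : HH μ x t (ρ / 2) (c + ⟪v, x - x₀⟫) v ≤ 9 * HH μ x₀ t₀ ρ c v := by
  have h2 : 0 < ρ ^ 2 := by positivity
  have e : (ρ / 2) ^ 2 = ρ ^ 2 / 4 := by ring
  have h3 := h.mono x₀ (t₀ + ρ ^ 2) c v (t₀ - ρ ^ 2) (t - ρ ^ 2 / 4) ha (by linarith) (by linarith)
  rw [show t₀ + ρ ^ 2 - (t₀ - ρ ^ 2) = 2 * ρ ^ 2 by ring] at h3
  rw [HH, e]
  refine ((h.ent _ (by linarith)).GQ_shift (σ := t₀ + ρ ^ 2 - (t - ρ ^ 2 / 4)) (by positivity)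
    (by linarith) x₀ x c v).trans ?_
  have h4 : (t₀ + ρ ^ 2 - (t - ρ ^ 2 / 4)) / (2 * (ρ ^ 2 / 4)) ≤ 3 := by
    rw [div_le_iff₀ (by positivity)]; linarith
  have h5 : ‖x - x₀‖ ^ 2 / (4 * (t₀ + ρ ^ 2 - (t - ρ ^ 2 / 4) - 2 * (ρ ^ 2 / 4))) ≤ 1 := by
    have h6 : ‖x - x₀‖ ^ 2 ≤ ρ ^ 2 := pow_le_pow_left₀ (norm_nonneg _) hx0 2
    rw [div_le_iff₀ (by linarith)]; linarith
  have h6 := mul_le_mul h4 ((Real.exp_le_exp.2 h5).trans Real.exp_one_lt_three.le)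
    (Real.exp_pos _).le (by norm_num)
  exact mul_le_mul (h6.trans (by norm_num)) h3 (GQ_nonneg _ _ (by linarith) _ _) (by norm_num)

theorem iter_proof : IterStmt := by
  intro D
  obtain ⟨ε, θ, K, hε, hθ, hθ1, hK, dec⟩ := decay D
  have hω := om0_pos
  obtain ⟨A, hA0, hA⟩ : ∃ A : ℝ, 0 < A ∧ 6 ≤ om0 * A ^ 2 :=
    ⟨√(6 / om0), by positivity, by rw [Real.sq_sqrt (by positivity), mul_div_cancel₀ _ hω.ne']⟩
  refine ⟨ε, θ, 6 * K + 24 * A / θ, hε, hθ, hθ1, by positivity,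
    fun μ a x₀ t₀ ρ hρ h ha hL c v δ hδ hH => ⟨fun k => ?_, ?_⟩⟩
  · obtain ⟨c', v', h1, h2⟩ := dec μ a x₀ t₀ ρ hρ h ha hL c v δ hδ hH k
    refine ⟨c', v', h1.trans (mul_le_mul_of_nonneg_right ?_ hδ), h2⟩
    have : 0 ≤ 24 * A / θ := by positivity
    linarith
  intro s t hs hst ht x hx y hy hx0 hy0 d₀ hd₀ hyx hts
  have h2 : 0 < ρ ^ 2 := by positivity
  have e1 : (ρ / 10) ^ 2 = ρ ^ 2 / 100 := by ring
  have e2 : (ρ / 2) ^ 2 = ρ ^ 2 / 4 := by ring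
  rw [e1] at hs
  obtain ⟨d, hd0, hdd, hdρ, hyx, hts⟩ : ∃ d, 0 ≤ d ∧ d ≤ d₀ ∧ d ≤ ρ / 5 ∧ ‖y - x‖ ≤ d ∧
      t - s ≤ d ^ 2 := by
    rcases le_total d₀ (ρ / 5) with h1 | h1
    · exact ⟨d₀, hd₀, le_rfl, h1, hyx, hts⟩
    · refine ⟨ρ / 5, by positivity, h1, le_rfl, ?_, by linarith⟩
      linarith [norm_sub_le_norm_sub_add_norm_sub y x₀ x, norm_sub_rev x x₀]
  refine le_trans ?_ (mul_le_mul_of_nonneg_left hdd (by positivity))
  rcases hd0.eq_or_lt with rfl | hd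
  · rw [norm_le_zero_iff.1 hyx]; simp
  have ha1 : a ≤ t - (ρ / 2) ^ 2 := by linarith
  have hH1 : HH μ x t (ρ / 2) (c + ⟪v, x - x₀⟫) v ≤ (6 * δ) ^ 2 * (ρ / 2) ^ 2 := by
    have := h.HH_move hρ ha (x := x) (t := t) (by linarith) (by linarith) ht c v
    linarith
  obtain ⟨k, hk1, hk2⟩ := exists_nat_pow_near_of_lt_one (x := 4 * d / ρ) (y := θ) (by positivity)
    (by rw [div_le_one hρ]; linarith) hθ (by linarith)
  rw [lt_div_iff₀ hρ] at hk1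
  rw [div_le_iff₀ hρ] at hk2
  obtain ⟨c', v', h3, h4⟩ := dec μ a x t (ρ / 2) (by positivity) h ha1
    (h.low_sub hL ha (by positivity) le_rfl (by linarith) (by linarith) ht) _ v (6 * δ)
    (by positivity) hH1 k
  obtain ⟨r, hr⟩ : ∃ r, r = θ ^ k * (ρ / 2) := ⟨_, rfl⟩
  rw [← hr] at h4
  have hr0 : 0 < r := by rw [hr]; positivity
  have hr1 : 2 * d ≤ r := by rw [hr]; linarith only [hk2]
  have hr2 : r ≤ 2 * d / θ := by
    rw [le_div_iff₀ hθ, hr]; rw [pow_succ] at hk1; linarith only [hk1]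
  have hr3 : r ≤ ρ / 2 :=
    hr ▸ mul_le_of_le_one_left (by positivity) (pow_le_one₀ hθ.le (by linarith only [hθ1]))
  have ha2 : a ≤ t - r ^ 2 := ha1.trans (sub_le_sub_left (pow_le_pow_left₀ hr0.le hr3 2) _)
  have h5 : HH μ x t r c' v' ≤ (6 * δ * r) ^ 2 := by
    refine h4.trans ?_
    rw [mul_pow (6 * δ)]
    refine mul_le_mul_of_nonneg_right (pow_le_pow_left₀ (by positivity) ?_ 2) (sq_nonneg _)
    exact div_le_self (by positivity) (one_le_pow₀ one_le_two)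
  have pt : ∀ z u, z ∈ Spt μ u → t - r ^ 2 / 4 ≤ u → u ≤ t → ‖z - x‖ ≤ r →
      |c' + ⟪v', z - x⟫| ≤ A * (6 * δ * r) := by
    intro z u hz h6 h7 h8
    have h9 := h.pointwise hr0 ha2 hz h6 h7 h8 c' v'
    refine abs_le.2 (abs_le_of_sq_le_sq' (le_of_mul_le_mul_left (h9.trans ?_) hω) (by positivity))
    linarith only [mul_le_mul_of_nonneg_right hA (sq_nonneg (6 * δ * r)), h5]
  have h6 := pt y s hy (by linarith only [hts, pow_le_pow_left₀ (by positivity) hr1 2]) hst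
    (by linarith only [hyx, hr1, hd])
  have h7 := pt x t hx (sub_le_self _ (by positivity)) le_rfl (by simpa using hr0.le)
  rw [sub_self, inner_zero_right, add_zero] at h7
  have h8 : |⟪v' - v, y - x⟫| ≤ K * (6 * δ) * d :=
    (abs_real_inner_le_norm _ _).trans (mul_le_mul h3 hyx (norm_nonneg _) (by positivity))
  have h9 : A * (6 * δ * r) ≤ A * (6 * δ * (2 * d / θ)) := by gcongr
  have h10 : ⟪v, y - x⟫ = (c' + ⟪v', y - x⟫) - c' - ⟪v' - v, y - x⟫ := by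
    rw [inner_sub_left]; ring
  have h11 : (6 * K + 24 * A / θ) * δ * d =
      2 * (A * (6 * δ * (2 * d / θ))) + K * (6 * δ) * d := by ring
  rw [h10, h11]
  rw [abs_le] at h6 h7 h8 ⊢
  constructor <;> linarith only [h6.1, h6.2, h7.1, h7.2, h8.1, h8.2, h9]

end Vale.Agent.P218G.Rg
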