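import Vale.Agent.P218G.RegA

/-! The gap theorem and White's local regularity theorem for unit-regular integral Brakke flows. -/

open MeasureTheory Set Filter Topology Metric
open scoped ENNReal NNReal RealInnerProductSpace ContDiff

namespace Vale.Agent.P218G.Rg

open Vale.Agent.P218 Vale.Agent.P218.H313 Vale.Agent.P218G.Lit
open Vale.Agent.P214 (IntegralVarifold IsApproxTangent weightOf)
open Vale.Agent.P218FT (E3 TwoPt)

lemma integral_gk0_plane {T : Submodule ℝ E3} (hT : Module.finrank ℝ T = 2) {σ : ℝ} (h : 0 < σ) :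
    IntegrableOn (gk0 σ) (T : Set E3) μH[2] ∧ ∫ z in (T : Set E3), gk0 σ z ∂μH[2] = om0 := by
  have h1 := lintegral_gk0_plane hT h
  have h2 : 0 ≤ᵐ[(μH[2] : Measure E3).restrict (T : Set E3)] gk0 σ :=
    Eventually.of_forall fun z => (gk0_pos h z).le
  refine ⟨⟨(continuous_gk0 σ).aestronglyMeasurable, ?_⟩, ?_⟩
  · rw [hasFiniteIntegral_iff_ofReal h2, h1]; exact ENNReal.ofReal_lt_top
  · rw [integral_eq_lintegral_of_nonneg_ae h2 (continuous_gk0 σ).aestronglyMeasurable, h1,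
      ENNReal.toReal_ofReal om0_pos.le]

/-- the multiplicity is bounded by the density ratios -/
lemma Ent.mult_le {m : Measure E3} {D : ℝ} (h : Ent m D) {x : E3} {q : ℕ} {T : Submodule ℝ E3}
    (hT : IsApproxTangent 2 m x q T) {B : ℝ} (hB : ∀ᶠ σ in 𝓝[>] (0 : ℝ), GA m x σ ≤ B) :
    q * om0 ≤ B := by
  obtain ⟨h1, h2⟩ := integral_gk0_plane hT.1 one_pos
  set f : ℕ → E3 → ℝ := fun n z => max 0 (min 1 ((n : ℝ) - ‖z‖)) * gk0 1 z with hf
  have fc : ∀ n, Continuous (f n) := fun n =>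
    (by fun_prop : Continuous fun z : E3 => max 0 (min 1 ((n : ℝ) - ‖z‖))).mul (continuous_gk0 1)
  have f0 : ∀ n z, 0 ≤ f n z := fun n z => mul_nonneg (le_max_left _ _) (gk0_pos one_pos z).le
  have f1 : ∀ n z, f n z ≤ gk0 1 z := fun n z =>
    mul_le_of_le_one_left (gk0_pos one_pos z).le (max_le zero_le_one (min_le_left _ _))
  have fs : ∀ n, HasCompactSupport (f n) := fun n =>
    HasCompactSupport.intro (isCompact_closedBall (0 : E3) n) fun z hz => by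
      have : (n : ℝ) < ‖z‖ := by simpa using hz
      simp only [hf]
      rw [max_eq_left ((min_le_right _ _).trans (by linarith)), zero_mul]
  have hlim : Tendsto (fun n => ∫ z in (T : Set E3), f n z ∂μH[2]) atTop (𝓝 om0) := by
    rw [← h2]
    refine tendsto_integral_of_dominated_convergence (gk0 1)
      (fun n => (fc n).aestronglyMeasurable) h1
      (fun n => Eventually.of_forall fun z => by rw [Real.norm_of_nonneg (f0 n z)]; exact f1 n z)
      (Eventually.of_forall fun z => tendsto_const_nhds.congr' ?_)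
    filter_upwards [tendsto_natCast_atTop_atTop.eventually_ge_atTop (‖z‖ + 1)] with n hn
    simp only [hf]
    rw [min_eq_left (by linarith), max_eq_right zero_le_one, one_mul]
  refine le_of_tendsto' (hlim.const_mul (q : ℝ)) fun n => le_of_tendsto (hT.2 _ (fc n) (fs n)) ?_
  have hsq : Tendsto (fun r : ℝ => r ^ 2) (𝓝[>] 0) (𝓝[>] 0) := by
    refine tendsto_nhdsWithin_iff.2 ⟨?_, ?_⟩
    · exact ((by fun_prop : Continuous fun r : ℝ => r ^ 2).tendsto' 0 0 (by simp)).mono_left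
        nhdsWithin_le_nhds
    · filter_upwards [self_mem_nhdsWithin] with r hr using pow_pos (mem_Ioi.1 hr) 2
  filter_upwards [hsq.eventually hB, self_mem_nhdsWithin] with r h3 hr
  have hr : 0 < r := hr
  refine le_trans ?_ h3
  rw [div_eq_inv_mul, ← integral_const_mul, GA]
  refine integral_mono_of_nonneg
    (Eventually.of_forall fun y => mul_nonneg (by positivity) (f0 _ _))
    (h.int x _ (by positivity)) (Eventually.of_forall fun y => ?_)
  have h4 := gk0_smul (inv_pos.2 hr) 1 (y - x)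
  rw [inv_pow, div_inv_eq_mul, one_mul] at h4
  simp only
  rw [← h4]
  exact mul_le_mul_of_nonneg_left (f1 _ _) (by positivity)

/-- a varifold of multiplicity one in `B` which is carried by `A` is bounded by `H² ⌞ A` -/
lemma lintegral_le_of_mult (V : IntegralVarifold 2 (univ : Set E3)) {A B : Set E3}
    (hA : MeasurableSet A) (hB : MeasurableSet B)
    (h : ∀ᵐ x ∂V.weight, x ∈ B → V.mult x ≤ 1 ∧ x ∈ A) {f : E3 → ℝ≥0∞} (hf : Measurable f) :
    ∫⁻ x in B, f x ∂V.weight ≤ ∫⁻ x in A ∩ B, f x ∂μH[2] := by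
  have hm : AEMeasurable (fun x => (V.mult x : ℝ≥0∞))
      ((μH[((2 : ℕ) : ℝ)] : Measure E3).restrict V.carrier) :=
    (measurable_from_top (f := fun n : ℕ => (n : ℝ≥0∞))).comp_aemeasurable V.mult_meas
  unfold IntegralVarifold.weight weightOf at h ⊢
  rw [ae_withDensity_iff' hm] at h
  rw [← lintegral_indicator hB, lintegral_withDensity_eq_lintegral_mul₀ hm
    (hf.indicator hB).aemeasurable, ← lintegral_indicator (hA.inter hB)]
  refine le_trans (lintegral_mono_ae (g := (A ∩ B).indicator f) ?_)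
    (lintegral_mono' (Measure.restrict_le_self.trans (le_of_eq (by norm_num))) le_rfl)
  filter_upwards [h] with x hx
  by_cases hxB : x ∈ B
  · by_cases h0 : (V.mult x : ℝ≥0∞) = 0
    · simp [h0]
    · obtain ⟨h1, h2⟩ := hx h0 hxB
      rw [Pi.mul_apply, indicator_of_mem hxB, indicator_of_mem (mem_inter h2 hxB)]
      exact mul_le_of_le_one_left' (by exact_mod_cast h1)
  · simp [hxB]

lemma Low.mono {μ : ℝ → Measure E3} {x₀ : E3} {t₀ ρ ε ε' : ℝ} (h : Low μ x₀ t₀ ρ ε)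
    (he : ε ≤ ε') : Low μ x₀ t₀ ρ ε' := fun y σ h1 h2 h3 =>
  (h y σ h1 h2 h3).trans (mul_le_mul_of_nonneg_right (by linarith) om0_pos.le)

lemma densityRatio_eq (μ : ℝ → Measure E3) (x : E3) (t : ℝ) (r : ℝ) :
    densityRatio 2 μ x t r = GA (μ (t - r ^ 2)) x (r ^ 2) / (4 * Real.pi) := by
  unfold densityRatio GA gk0
  rw [integral_const_mul, mul_pow, Real.sq_sqrt (by positivity)]
  field_simp

/-- at almost every time the density ratios of a Lipschitz graph of low density are small -/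
lemma GS.slice_le {μ : ℝ → Measure E3} {a D : ℝ} (h : GS μ a D) {x₀ : E3} {t₀ ρ : ℝ}
    (hρ : 0 < ρ) (ha : a ≤ t₀ - ρ ^ 2) (hL : Low μ x₀ t₀ ρ (1 / 2)) {s : ℝ}
    (hs : t₀ - ρ ^ 2 / 2 ≤ s) (hs' : s < t₀) (V : IntegralVarifold 2 (univ : Set E3))
    (hV : V.weight = μ s) {e : E3} (he : ‖e‖ = 1) {L r : ℝ} (hL0 : 0 ≤ L) (hL1 : L < 1)
    (hr : 0 ≤ r) (hrρ : r ≤ ρ)
    (hlip : ∀ y ∈ Spt μ s ∩ ball x₀ r, ∀ y' ∈ Spt μ s ∩ ball x₀ r,
      |⟪e, y - y'⟫| ≤ L * ‖y - y'‖) {σ : ℝ} (hσ : 0 < σ) :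
    GA (μ s) x₀ σ ≤ om0 / (1 - L ^ 2) + 2 * Real.exp (-r ^ 2 / (8 * σ)) * D := by
  have hρ2 : 0 < ρ ^ 2 := by positivity
  have has : a < s := by linarith
  have hE := h.ent s has.le
  refine (hE.GA_le_ball x₀ hr hσ).trans (add_le_add_left ?_ _)
  have h1 : ∀ᵐ x ∂V.weight, x ∈ ball x₀ r → V.mult x ≤ 1 ∧ x ∈ Spt μ s := by
    have h2 : ∀ᵐ x ∂V.weight, x ∈ Spt μ s := hV ▸ h.supp s has
    filter_upwards [V.tangent_spec, h2] with x h3 h4 hx
    refine ⟨?_, h4⟩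
    have h5 : IsApproxTangent 2 (μ s) x (V.mult x) (V.tangent x) := hV ▸ h3
    have h6 : (V.mult x : ℝ) * om0 ≤ (1 + 1 / 2) * om0 := by
      refine hE.mult_le h5 ?_
      filter_upwards [Ioo_mem_nhdsGT (sub_pos.2 hs')] with τ hτ
      have h7 := h.mono1 x (t := s + τ) ha (by linarith : t₀ - ρ ^ 2 ≤ s) (by linarith [hτ.1])
      rw [add_sub_cancel_left] at h7
      refine h7.trans (hL x _ ?_ (by linarith [hτ.1]) (by linarith [hτ.2]))
      rw [mem_ball, dist_eq_norm] at hx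
      linarith
    have h7 : (V.mult x : ℝ) < 2 := by
      have := le_of_mul_le_mul_right h6 om0_pos
      linarith
    have h8 : V.mult x < 2 := by exact_mod_cast h7
    omega
  have h2 := (lintegral_le_of_mult V (h.isClosed_spt has).measurableSet measurableSet_ball h1
    (f := fun y => ENNReal.ofReal (gk0 σ (y - x₀)))
    (continuous_gk0' σ x₀).measurable.ennreal_ofReal).trans (lip_bound he hL0 hL1 hlip x₀ hσ)
  rw [hV] at h2
  rw [integral_eq_lintegral_of_nonneg_ae (Eventually.of_forall fun y => (gk0_pos hσ _).le)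
    (continuous_gk0' σ x₀).aestronglyMeasurable]
  refine ENNReal.toReal_le_of_le_ofReal ?_ h2
  have : 0 < 1 - L ^ 2 := by nlinarith
  have := om0_pos
  positivity

/-- the support is asymptotically flat at every point of low density -/
lemma flat_small (hF : Flat0Stmt) (hI : IterStmt) (D : ℝ) : ∃ ε : ℝ, 0 < ε ∧
    ∀ (μ : ℝ → Measure E3) (a : ℝ) (x₀ : E3) (t₀ ρ : ℝ), 0 < ρ → GS μ a D → a ≤ t₀ - ρ ^ 2 →
      Low μ x₀ t₀ ρ ε → x₀ ∈ Spt μ t₀ → ∀ L : ℝ, 0 < L → ∃ (r : ℝ) (e : E3), 0 < r ∧ r ≤ ρ / 2 ∧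
        ‖e‖ = 1 ∧ PLip (Spt μ) e L x₀ t₀ r := by
  obtain ⟨ε₁, θ, K, hε₁, hθ, hθ2, hK, hI⟩ := hI D
  obtain ⟨ε₀, hε₀, hF⟩ := hF D (1 / (2 * K)) (by positivity)
  refine ⟨min ε₀ ε₁, lt_min hε₀ hε₁, fun μ a x₀ t₀ ρ hρ h ha hL hx L hL0 => ?_⟩
  obtain ⟨c, v, hv, hH⟩ := hF μ a x₀ t₀ ρ hρ h ha (hL.mono (min_le_left _ _)) hx
  have hL1 := hL.mono (min_le_right ε₀ ε₁)
  obtain ⟨k, hk⟩ := pow_unbounded_of_one_lt L⁻¹ (by norm_num : (1 : ℝ) < 2)
  obtain ⟨c', v', hv', hH'⟩ := (hI μ a x₀ t₀ ρ hρ h ha hL1 c v _ (by positivity) hH).1 (k + 1)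
  have h1 : θ ^ (k + 1) ≤ 1 / 2 := by
    rw [pow_succ]
    exact (mul_le_of_le_one_left hθ.le (pow_le_one₀ hθ.le (by linarith))).trans hθ2
  have hρ' : 0 < θ ^ (k + 1) * ρ := by positivity
  have h2 : θ ^ (k + 1) * ρ ≤ ρ / 2 := by nlinarith
  have h3 : (θ ^ (k + 1) * ρ) ^ 2 ≤ ρ ^ 2 := pow_le_pow_left₀ hρ'.le (by linarith) 2
  have hP := (hI μ a x₀ t₀ _ hρ' h (by linarith)
    (h.low_sub hL1 ha hρ' h2 (by simp [hρ.le]) (by nlinarith) le_rfl) c' v' _ (by positivity) hH').2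
  have h4 : 1 / 2 ≤ ‖v'‖ := by
    have h5 : K * (1 / (2 * K)) = 1 / 2 := by field_simp
    have h6 := norm_sub_norm_le v v'
    rw [norm_sub_rev] at h6
    linarith
  refine ⟨θ ^ (k + 1) * ρ / 10, ‖v'‖⁻¹ • v', by positivity, by linarith, ?_, ?_⟩
  · rw [norm_smul, norm_inv, norm_norm, inv_mul_cancel₀ (by linarith)]
  intro s t h5 h6 h7 x hx y hy h8 h9 d hd h10 h11
  have h12 := hP s t h5 h6 h7 x hx y hy h8 h9 d hd h10 h11
  rw [real_inner_smul_left, abs_mul, abs_of_nonneg (by positivity), inv_mul_le_iff₀ (by linarith)]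
  refine h12.trans ?_
  rw [← mul_assoc]
  refine mul_le_mul_of_nonneg_right ?_ hd
  have h13 : K * (1 / (2 * K) / 2 ^ (k + 1)) = 1 / 4 * (2 ^ k)⁻¹ := by field_simp; ring
  have h14 : ((2 : ℝ) ^ k)⁻¹ ≤ L := inv_le_of_inv_le₀ hL0 hk.le
  rw [h13]
  nlinarith

lemma tendsto_tail {r : ℝ} (hr : 0 < r) (D : ℝ) :
    Tendsto (fun σ : ℝ => 2 * Real.exp (-r ^ 2 / (8 * σ)) * D) (𝓝[>] 0) (𝓝 0) := by
  have h1 : Tendsto (fun σ : ℝ => -r ^ 2 / (8 * σ)) (𝓝[>] 0) atBot := by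
    have h2 := (tendsto_inv_nhdsGT_zero (𝕜 := ℝ)).const_mul_atTop_of_neg
      (by nlinarith : -r ^ 2 / 8 < 0)
    refine h2.congr fun σ => by ring
  simpa using ((Real.tendsto_exp_atBot.comp h1).const_mul 2).mul_const D

theorem dens1_of (hF : Flat0Stmt) (hI : IterStmt) : Dens1Stmt := by
  intro D
  obtain ⟨ε, hε, hF⟩ := flat_small hF hI D
  refine ⟨min ε (1 / 2), lt_min hε (by norm_num), fun μ hμ a x₀ t₀ ρ hρ ha0 h ha hL hx => ?_⟩
  obtain ⟨V, H, hV, -, -⟩ := hμ.ineq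
  have hω := om0_pos
  have hρ2 : 0 < ρ ^ 2 := by positivity
  have key : ∀ η : ℝ, 0 < η → ∃ s, a ≤ s ∧ s < t₀ ∧ GA (μ s) x₀ (t₀ - s) ≤ om0 + η := by
    intro η hη
    obtain ⟨L, hL0, hL1, hLη⟩ : ∃ L : ℝ, 0 < L ∧ L < 1 ∧ om0 / (1 - L ^ 2) < om0 + η / 2 := by
      have h1 : ContinuousAt (fun L : ℝ => om0 / (1 - L ^ 2)) 0 := by
        fun_prop (disch := norm_num)
      have h2 := (h1.tendsto.mono_left (nhdsWithin_le_nhds (s := Ioi 0))).eventually
        (gt_mem_nhds (show om0 / (1 - (0 : ℝ) ^ 2) < om0 + η / 2 by norm_num; linarith))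
      obtain ⟨L, h3, h4⟩ := (h2.and (Ioo_mem_nhdsGT one_pos)).exists
      exact ⟨L, h4.1, h4.2, h3⟩
    obtain ⟨r, e, hr, hrρ, he, hP⟩ := hF μ a x₀ t₀ ρ hρ h ha (hL.mono (min_le_left _ _)) hx L hL0
    have h1 := ((tendsto_tail hr D).eventually (gt_mem_nhds (half_pos hη))).and
      (Ioo_mem_nhdsGT (by positivity : 0 < r ^ 2))
    obtain ⟨u, hu, h2⟩ := mem_nhdsGT_iff_exists_Ioo_subset.1 h1
    have hu : 0 < u := hu
    have h3 : (volume : Measure ℝ) (Ioo (t₀ - u) t₀) ≠ 0 := by simp [hu]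
    obtain ⟨s, hs, h4⟩ := Measure.exists_mem_of_measure_ne_zero_of_ae h3 (ae_restrict_of_ae hV)
    obtain ⟨h5, h6⟩ := h2 (show t₀ - s ∈ Ioo 0 u from ⟨by linarith [hs.2], by linarith [hs.1]⟩)
    have h7 : r ^ 2 ≤ (ρ / 2) ^ 2 := pow_le_pow_left₀ hr.le hrρ 2
    have h8 : t₀ - ρ ^ 2 / 2 ≤ s := by linarith [h6.2]
    refine ⟨s, by linarith, hs.2, ?_⟩
    have h9 := h.slice_le hρ ha (hL.mono (min_le_right _ _)) h8 hs.2 (V s) (h4 (by linarith)).1 he
      hL0.le hL1 hr.le (by linarith) (fun y hy y' hy' => hP s s (by linarith [h6.2]) le_rfl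
        hs.2.le y' hy'.1 y hy.1 (by simpa [dist_eq_norm] using (mem_ball.1 hy'.2).le)
        (by simpa [dist_eq_norm] using (mem_ball.1 hy.2).le) _ (norm_nonneg _) le_rfl
        (by rw [sub_self]; positivity)) h6.1
    linarith
  unfold HasDensity
  simp only [densityRatio_eq, one_mul]
  refine Tendsto.div_const (tendsto_order.2 ⟨fun b hb => ?_, fun b hb => ?_⟩) _
  · filter_upwards [Ioo_mem_nhdsGT hρ] with r hr
    have h1 : r ^ 2 ≤ ρ ^ 2 := pow_le_pow_left₀ hr.1.le hr.2.le 2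
    have h2 := h.low hx (by linarith : a ≤ t₀ - r ^ 2) (by nlinarith [hr.1])
    rw [sub_sub_cancel] at h2
    linarith
  · obtain ⟨s, h1, h2, h3⟩ := key ((b - om0) / 2) (by linarith)
    filter_upwards [Ioo_mem_nhdsGT (Real.sqrt_pos.2 (sub_pos.2 h2))] with r hr
    have h4 : r ^ 2 ≤ t₀ - s := by
      rw [← Real.sq_sqrt (sub_pos.2 h2).le]; exact pow_le_pow_left₀ hr.1.le hr.2.le 2
    have h5 := h.mono1 x₀ (t := t₀) h1 (by linarith : s ≤ t₀ - r ^ 2) (by nlinarith [hr.1])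
    rw [sub_sub_cancel] at h5
    linarith

theorem weakWhite_of (hF : Flat0Stmt) (hI : IterStmt) (hS : GSStmt) (hG : GlueStmt)
    (hW : LocWhiteStmt) : WeakWhiteStmt := by
  intro D
  obtain ⟨τ, r, C, hτ, hr, hr1, hC, hW⟩ := hW
  obtain ⟨ε₂, hε₂, hD⟩ := dens1_of hF hI D
  obtain ⟨ε₁, θ, K, hε₁, -, -, hK, hI⟩ := hI D
  obtain ⟨ε₀, hε₀, hF⟩ := hF D (τ / K) (by positivity)
  refine ⟨min ε₀ (min ε₁ ε₂), r / 20, 20 * C, lt_min hε₀ (lt_min hε₁ hε₂), by positivity,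
    by linarith, by positivity, fun μ hμ h0 hU a x₀ t₀ ρ hρ ha0 h ha hL => ?_⟩
  obtain ⟨hM, -, hN⟩ := hG μ fun b hb => ⟨_, hS μ hμ h0 b hb⟩
  have hρ2 : 0 < ρ ^ 2 := by positivity
  have hρ' : 0 < ρ / 2 := by positivity
  have hlow : ∀ (t : ℝ) (x : E3), t₀ - ρ ^ 2 / 4 ≤ t → t ≤ t₀ → ‖x - x₀‖ ≤ ρ →
      Low μ x t (ρ / 2) (min ε₀ (min ε₁ ε₂)) := fun t x h1 h2 h3 =>
    h.low_sub hL ha hρ' le_rfl h3 h1 h2
  have hreg : ∀ (t : ℝ) (x : E3), t₀ - ρ ^ 2 / 4 ≤ t → t ≤ t₀ → ‖x - x₀‖ ≤ ρ →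
      (t, x) ∈ RegS μ := by
    intro t x h1 h2 h3
    have ht : 0 < t := by linarith
    by_cases hx : x ∈ Spt μ t
    · exact ⟨ht, hU x t ht (hD μ hμ a x t _ hρ' ha0 h (by linarith)
        ((hlow t x h1 h2 h3).mono ((min_le_right _ _).trans (min_le_right _ _))) hx)⟩
    · exact hN t x ht hx
  intro t ht x hx
  have h1 : r / 20 * ρ ≤ ρ / 20 := by nlinarith
  have h2 : (r / 20 * ρ) ^ 2 ≤ (ρ / 20) ^ 2 := pow_le_pow_left₀ (by positivity) h1 2
  have h3 : t₀ - ρ ^ 2 / 400 ≤ t := by linarith [ht.1]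
  refine ⟨hreg t x (by linarith) ht.2 (by linarith), fun hxs => ?_⟩
  have hL' := hlow t x (by linarith) ht.2 (by linarith)
  have ha' : a ≤ t - (ρ / 2) ^ 2 := by linarith
  obtain ⟨c, v, hv, hH⟩ := hF μ a x t _ hρ' h ha' (hL'.mono (min_le_left _ _)) hxs
  have hP := (hI μ a x t _ hρ' h ha' (hL'.mono ((min_le_right _ _).trans (min_le_left _ _))) c v _
    (by positivity) hH).2
  rw [mul_div_cancel₀ _ hK.ne'] at hP
  have h4 := hW (Spt μ) (RegS μ) hM x t (ρ / 2 / 10) v (by positivity) hv (fun p hp => by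
    have h5 : ‖p.2 - x‖ ≤ ρ / 2 / 10 := by simpa [dist_eq_norm] using hp.2
    have h6 := norm_sub_le_norm_sub_add_norm_sub p.2 x x₀
    exact hreg p.1 p.2 (by linarith [hp.1.1]) (hp.1.2.trans ht.2) (by linarith)) hP t
    ⟨by linarith [sq_nonneg (r * (ρ / 2 / 10))], le_rfl⟩ x hxs (by rw [sub_self, norm_zero]; positivity)
  convert h4 using 1
  · ring
  · field_simp; norm_num

end Vale.Agent.P218G.Rg
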