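import Vale.Agent.P218G.Spec
import Vale.Agent.P218G.En

/-! The support of a weak flow is a viscosity solution; the energy estimate. -/

open MeasureTheory Set Filter Topology Metric
open scoped ENNReal NNReal RealInnerProductSpace ContDiff

namespace Vale.Agent.P218G

open P218FT

namespace En

lemma dT_eq_dt : dT = dt := rfl

lemma gS_eq_gr : gS = gr := rfl

lemma hS_eq_hs : hS = hs := rfl

lemma heat_of_super {Q : ℝ × E3 → ℝ} {p : ℝ × E3} {e : ℝ} (h : Super Q p e) {n : E3}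
    (hn : ‖n‖ = 1) : e ≤ heat Q p n := by
  have := h n hn
  rw [heat, dT_eq_dt, hS_eq_hs]
  linarith

lemma dT_eq {Q : ℝ × E3 → ℝ} {p : ℝ × E3} (hQ : DifferentiableAt ℝ Q p) {c : ℝ}
    (h : HasDerivAt (fun s => Q (s, p.2)) c p.1) : dT Q p = c := by
  have h2 : HasDerivAt (fun s : ℝ => (s, p.2)) ((1 : ℝ), (0 : E3)) p.1 :=
    (hasDerivAt_id p.1).prodMk (hasDerivAt_const p.1 p.2)
  exact (hQ.hasFDerivAt.comp_hasDerivAt p.1 h2).unique h

/-- the parabolic polynomial with coefficients `a, g, S` -/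
noncomputable def poly (t₀ : ℝ) (y₀ : E3) (a : ℝ) (g : E3) (S : E3 →L[ℝ] E3) (q : ℝ × E3) : ℝ :=
  a * (q.1 - t₀) + ⟪g, q.2 - y₀⟫ + ⟪S (q.2 - y₀), q.2 - y₀⟫ / 2

section poly

variable (t₀ : ℝ) (y₀ : E3) (a : ℝ) (g : E3) {S : E3 →L[ℝ] E3}

lemma contDiff_poly (S : E3 →L[ℝ] E3) : ContDiff ℝ 2 (poly t₀ y₀ a g S) := by
  have h : ContDiff ℝ 2 fun q : ℝ × E3 => q.2 - y₀ := contDiff_snd.sub contDiff_const
  exact ((contDiff_const.mul (contDiff_fst.sub contDiff_const)).add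
    (contDiff_const.inner ℝ h)).add (((S.contDiff.comp h).inner ℝ h).div_const 2)

lemma dT_poly (S : E3 →L[ℝ] E3) (p : ℝ × E3) : dT (poly t₀ y₀ a g S) p = a := by
  refine dT_eq ((contDiff_poly t₀ y₀ a g S).differentiable (by norm_num) p) ?_
  have := ((((hasDerivAt_id p.1).sub_const t₀).const_mul a).add_const ⟪g, p.2 - y₀⟫).add_const
    (⟪S (p.2 - y₀), p.2 - y₀⟫ / 2)
  rw [mul_one] at this
  exact this

lemma grad_poly (hS : ∀ u v, ⟪S u, v⟫ = ⟪u, S v⟫) (t : ℝ) :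
    gradient (sl (poly t₀ y₀ a g S) t) = fun y => g + S (y - y₀) := by
  funext y
  refine ext_inner_right ℝ fun v => ?_
  have h1 : HasFDerivAt (fun y : E3 => y - y₀) (ContinuousLinearMap.id ℝ E3) y :=
    (hasFDerivAt_id y).sub_const y₀
  have h2 := ((((innerSL ℝ g).hasFDerivAt.comp y h1).const_add (a * (t - t₀))).add
    (((S.hasFDerivAt.comp y h1).inner ℝ h1).mul_const (1 / 2 : ℝ)))
  have h3 : HasFDerivAt (sl (poly t₀ y₀ a g S) t) _ y := h2.congr_of_eventuallyEq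
    (Eventually.of_forall fun z => by simp [sl, poly, div_eq_mul_inv])
  rw [inner_grad, h3.fderiv]
  simp only [add_apply, smul_apply, ContinuousLinearMap.comp_apply, ContinuousLinearMap.id_apply,
    innerSL_apply_apply, fderivInnerCLM_apply, ContinuousLinearMap.prod_apply, Function.comp,
    smul_eq_mul, inner_add_left]
  rw [hS v, real_inner_comm (S (y - y₀)) v]
  ring

lemma gS_poly (hS : ∀ u v, ⟪S u, v⟫ = ⟪u, S v⟫) (p : ℝ × E3) :
    gS (poly t₀ y₀ a g S) p = g + S (p.2 - y₀) := by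
  rw [gS, grad_poly t₀ y₀ a g hS]

lemma hS_poly (hS : ∀ u v, ⟪S u, v⟫ = ⟪u, S v⟫) (p : ℝ × E3) : En.hS (poly t₀ y₀ a g S) p = S := by
  rw [En.hS, grad_poly t₀ y₀ a g hS]
  exact ((S.hasFDerivAt.comp p.2 ((hasFDerivAt_id p.2).sub_const y₀)).const_add g).fderiv

end poly

lemma tr_id : tr (ContinuousLinearMap.id ℝ E3) = 3 := by
  obtain ⟨a, b, h⟩ := exists_triple (n := EuclideanSpace.single (0 : Fin 3) (1 : ℝ)) (by simp)
  rw [h.tr_eq]
  simp only [ContinuousLinearMap.id_apply, real_inner_self_eq_norm_sq, h.na, h.nb, h.nc]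
  norm_num

/-- a strict inequality on the normals parallel to `g` extends to all normals with a penalty -/
lemma exists_penalty {a : ℝ} {g : E3} {S : E3 →L[ℝ] E3}
    (H : ∀ n : E3, ‖n‖ = 1 → g = ‖g‖ • n → tr S - ⟪S n, n⟫ < a) :
    ∃ Λ ε : ℝ, 0 ≤ Λ ∧ 0 < ε ∧ ∀ n : E3, ‖n‖ = 1 →
      tr S - ⟪S n, n⟫ - Λ * ‖pt n g‖ ^ 2 + ε < a := by
  have cp : Continuous fun n : E3 => pt n g := continuous_pt.clm_apply continuous_const
  refine ((isCompact_sphere (0 : E3) 1).elim_directed_cover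
    (fun k : ℕ => {n : E3 | tr S - ⟪S n, n⟫ - k * ‖pt n g‖ ^ 2 + 1 / ((k : ℝ) + 1) < a})
    (fun k => isOpen_lt (by fun_prop) continuous_const) (fun n hn => ?_)
    (Monotone.directed_le fun i j hij n hn => ?_)).elim fun k hk =>
      ⟨k, 1 / ((k : ℝ) + 1), k.cast_nonneg, by positivity, fun n hn =>
        hk (mem_sphere_zero_iff_norm.2 hn)⟩
  · rw [mem_sphere_zero_iff_norm] at hn
    by_cases h0 : pt n g = 0
    · have h1 : tr S - ⟪S n, n⟫ < a := by
        rw [pt_apply, sub_eq_zero] at h0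
        have h2 : ‖g‖ = |⟪n, g⟫| := by
          conv_lhs => rw [h0, norm_smul, hn, mul_one, Real.norm_eq_abs]
        rcases le_total 0 ⟪n, g⟫ with h3 | h3
        · exact H n hn (by rw [h2, abs_of_nonneg h3]; exact h0)
        · have := H (-n) (by rwa [norm_neg]) (by
            rw [h2, abs_of_nonpos h3, neg_smul_neg]; exact h0)
          rwa [map_neg, inner_neg_neg] at this
      obtain ⟨k, hk⟩ := exists_nat_one_div_lt (sub_pos.2 h1)
      refine mem_iUnion.2 ⟨k, ?_⟩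
      simp only [mem_ofPred_eq, h0, norm_zero]
      linarith
    · have h1 : 0 < ‖pt n g‖ ^ 2 := by positivity
      obtain ⟨k, hk⟩ := exists_nat_gt ((tr S - ⟪S n, n⟫ + 1 - a) / ‖pt n g‖ ^ 2)
      rw [div_lt_iff₀ h1] at hk
      have h2 : 1 / ((k : ℝ) + 1) ≤ 1 := by
        rw [div_le_one (by positivity)]; linarith [k.cast_nonneg (α := ℝ)]
      exact mem_iUnion.2 ⟨k, by simp only [mem_ofPred_eq]; linarith⟩
  · have h1 : (i : ℝ) ≤ j := by exact_mod_cast hij
    have h2 : 1 / ((j : ℝ) + 1) ≤ 1 / ((i : ℝ) + 1) := by gcongr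
    have h3 := mul_le_mul_of_nonneg_right h1 (sq_nonneg ‖pt n g‖)
    simp only [mem_ofPred_eq] at hn ⊢
    linarith

variable {D : ℝ} {μ : ℝ → Measure E3} {M : ℝ → Set E3} {J I : Set ℝ}

/-- no strict backward minimum for a function which is a supersolution up to a penalty -/
theorem no_min (h : WF D μ M J I) {t₀ : ℝ} (ht₀ : t₀ ∈ I) {y₀ : E3} (hy₀ : y₀ ∈ M t₀)
    {ψ : ℝ × E3 → ℝ} (hψ : ContDiff ℝ 2 ψ) (h0 : ψ (t₀, y₀) = 0) {ε Λ : ℝ} (hε : 0 < ε)
    (hΛ : 0 ≤ Λ) (h1 : ∀ᶠ q : ℝ × E3 in 𝓝 (t₀, y₀), (q.1 ≤ t₀ → q.2 ∈ M q.1 →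
      ε * (‖q.2 - y₀‖ ^ 2 + (t₀ - q.1)) ≤ ψ q) ∧
      ∀ n : E3, ‖n‖ = 1 → 0 ≤ heat ψ q n + Λ * ‖pt n (gS ψ q)‖ ^ 2) : False := by
  have cψ := hψ.continuous
  have h2 : ∀ᶠ q : ℝ × E3 in 𝓝 (t₀, y₀), -(1 / (Λ + 1)) < ψ q :=
    cψ.continuousAt.eventually (lt_mem_nhds (by rw [h0, neg_lt_zero]; positivity))
  have h3 : ∀ᶠ q : ℝ × E3 in 𝓝 (t₀, y₀), q.1 ∈ I :=
    continuous_fst.continuousAt.eventually (h.isOpen.mem_nhds ht₀)
  obtain ⟨δ, hδ, hb⟩ := Metric.eventually_nhds_iff.1 ((h1.and h2).and h3)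
  have hb' : ∀ t x, |t - t₀| < δ → ‖x - y₀‖ < δ → dist (t, x) (t₀, y₀) < δ := fun t x a b => by
    rw [Prod.dist_eq, Real.dist_eq, dist_eq_norm]; exact max_lt a b
  set ρ := δ / 4 with hρ
  have hρ0 : 0 < ρ := by positivity
  -- the annulus
  have hK : IsCompact (closedBall y₀ (2 * ρ) \ ball y₀ ρ) :=
    (isCompact_closedBall _ _).diff isOpen_ball
  have h4 : ∀ᶠ t in 𝓝 t₀, ∀ x ∈ closedBall y₀ (2 * ρ) \ ball y₀ ρ, x ∈ M t →
      ε * ρ ^ 2 / 2 < ψ (t, x) := by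
    refine hK.eventually_forall_of_forall_eventually
      (P := fun t x => x ∈ M t → ε * ρ ^ 2 / 2 < ψ (t, x)) fun x hx => ?_
    by_cases hM : x ∈ M t₀
    · have a1 : ‖x - y₀‖ ≤ 2 * ρ := mem_closedBall_iff_norm.1 hx.1
      have a2 : ρ ≤ ‖x - y₀‖ := not_lt.1 fun a => hx.2 (mem_ball_iff_norm.2 a)
      have a3 := (hb (hb' t₀ x (by simpa using hδ) (by linarith))).1.1.1 le_rfl hM
      have a4 : ε * ρ ^ 2 ≤ ε * (‖x - y₀‖ ^ 2 + (t₀ - t₀)) := by
        rw [sub_self, add_zero]; gcongr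
      have a5 : ε * ρ ^ 2 / 2 < ψ (t₀, x) := by
        have : 0 < ε * ρ ^ 2 := by positivity
        linarith
      filter_upwards [cψ.continuousAt.eventually (lt_mem_nhds a5)] with q hq _ using hq
    · filter_upwards [h.closed t₀ ht₀ x hM] with q hq hq' using absurd hq' hq
  obtain ⟨τ, hτ, h5⟩ := Metric.eventually_nhds_iff.1 (h4.and (ball_mem_nhds t₀ hδ))
  have h6 : ∀ t, |t - t₀| < τ → |t - t₀| < δ := fun t ht => (h5 ht).2
  let χ : ContDiffBump y₀ := ⟨ρ, 2 * ρ, hρ0, by linarith⟩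
  set Q : ℝ × E3 → ℝ := fun q => χ q.2 * ψ q + (1 - χ q.2) with hQ
  have cQ : ContDiff ℝ 2 Q := ((χ.contDiff.comp contDiff_snd).mul hψ).add
    (contDiff_const.sub (χ.contDiff.comp contDiff_snd))
  have eQ : ∀ t x, ‖x - y₀‖ < ρ → Q =ᶠ[𝓝 (t, x)] ψ := fun t x hx => by
    filter_upwards [(continuous_snd.tendsto (t, x)).eventually
      (χ.eventuallyEq_one_of_mem_ball (mem_ball_iff_norm.2 hx))] with q hq
    simp only [hQ, hq, Pi.one_apply, one_mul, sub_self, add_zero]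
  obtain ⟨k, k0, k1, k2, k3, k4⟩ : ∃ k : ℝ, 0 < k ∧ k ≤ 1 ∧ k ≤ ε * ρ ^ 2 / 2 ∧ k ≤ ε * (τ / 2) ∧
      k ≤ 1 / (Λ + 1) := ⟨min (min 1 (ε * ρ ^ 2 / 2)) (min (ε * (τ / 2)) (1 / (Λ + 1))),
    by positivity, (min_le_left _ _).trans (min_le_left _ _),
    (min_le_left _ _).trans (min_le_right _ _), (min_le_right _ _).trans (min_le_left _ _),
    (min_le_right _ _).trans (min_le_right _ _)⟩
  have far : ∀ t x, 2 * ρ ≤ ‖x - y₀‖ → k ≤ Q (t, x) := fun t x hx => by
    have : χ x = 0 := χ.zero_of_le_dist (by rwa [dist_eq_norm])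
    simp only [hQ, this, zero_mul, sub_zero, zero_add, k1]
  have conv : ∀ t x, k ≤ ψ (t, x) → k ≤ Q (t, x) := fun t x hx => by
    have a1 : 0 ≤ χ x := χ.nonneg
    have a2 : χ x ≤ 1 := χ.le_one
    simp only [hQ]
    nlinarith
  have inn : ∀ t x, |t - t₀| < τ → x ∈ M t → Q (t, x) < k → ‖x - y₀‖ < ρ := fun t x ht hx hk => by
    by_contra a1
    rcases le_total (2 * ρ) ‖x - y₀‖ with a2 | a2
    · exact absurd (far t x a2) (not_le.2 hk)
    · have := (h5 ht).1 x ⟨mem_closedBall_iff_norm.2 a2, fun a => a1 (mem_ball_iff_norm.1 a)⟩ hx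
      exact absurd (conv t x (by linarith)) (not_le.2 hk)
  -- the final time
  have h7 : ∀ᶠ q : ℝ × E3 in 𝓝 (t₀, y₀), Q q < k ∧ |q.1 - t₀| < τ / 2 := by
    refine (cQ.continuous.continuousAt.eventually (gt_mem_nhds ?_)).and
      ((Continuous.continuousAt (by fun_prop)).eventually (gt_mem_nhds (by simpa using hτ)))
    rw [(eQ t₀ y₀ (by simpa using hρ0)).self_of_nhds, h0]
    exact k0
  obtain ⟨⟨b, y⟩, ⟨b1, b2⟩, bJ, by'⟩ :=
    mem_closure_iff_nhds.1 (h.dense (a := (t₀, y₀)) ⟨ht₀, hy₀⟩) _ h7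
  simp only at b1 b2 bJ by'
  have b3 := abs_lt.1 b2
  have hab : t₀ - τ / 2 ≤ b := by linarith
  have hin : ∀ t ∈ Icc (t₀ - τ / 2) b, |t - t₀| < τ := fun t ht =>
    abs_lt.2 ⟨by linarith [ht.1], by linarith [ht.2]⟩
  have hI : Icc (t₀ - τ / 2) b ⊆ I := fun t ht =>
    (hb (hb' t y₀ (h6 t (hin t ht)) (by simpa using hδ))).2
  have key := brakke_cube h cQ (c := y₀) (k := k) (R := 2 * ρ) (fun t _ x hx => far t x hx) hab hI
    (g := fun _ _ => 0) fun t ht hJ x hx => ⟨fun _ => rfl, fun hk => ⟨0, le_rfl, zero_le, ?_⟩⟩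
  · have a0 := left_mem_Icc.2 hab
    have e0 : ∫ x, cube k (Q (t₀ - τ / 2, x)) ∂(μ (t₀ - τ / 2)) = 0 := by
      refine integral_eq_zero_of_ae ?_
      filter_upwards [show ∀ᵐ x ∂(μ (t₀ - τ / 2)), x ∈ M (t₀ - τ / 2) from h.supp _ (hI a0)]
        with x hx
      have : k ≤ Q (t₀ - τ / 2, x) := by
        by_contra a1
        have a2 := inn _ x (hin _ a0) hx (not_le.1 a1)
        have a3 := (hb (hb' _ x (h6 _ (hin _ a0)) (by linarith))).1.1.1 (by linarith) hx
        have a4 : ε * (τ / 2) ≤ ε * (‖x - y₀‖ ^ 2 + (t₀ - (t₀ - τ / 2))) := by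
          gcongr; linarith [sq_nonneg ‖x - y₀‖]
        exact a1 (conv _ x (by linarith))
      simp [cube, max_eq_right (sub_nonpos.2 this)]
    have cc : Continuous fun x => cube k (Q (b, x)) := by
      have := cQ.continuous
      unfold cube
      fun_prop
    have := (h.ratio b (h.sub bJ))
    have hf : IsLocallyFiniteMeasure (μ b) := by
      rw [h.eq b bJ]; exact Chart.locFin_proof _ (h.mcf.isSurf bJ)
    have i1 : Integrable (fun x => cube k (Q (b, x))) (μ b) :=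
      cc.integrable_of_hasCompactSupport (HasCompactSupport.intro (isCompact_closedBall y₀ (2 * ρ))
        fun x hx => by
          rw [mem_closedBall, dist_eq_norm, not_le] at hx
          simp [cube, max_eq_right (sub_nonpos.2 (far b x hx.le))])
    have pos : 0 < ∫ x, cube k (Q (b, x)) ∂(μ b) := by
      rw [integral_pos_iff_support_of_nonneg (fun x => cube_nonneg _ _) i1]
      have a1 : Function.support (fun x => cube k (Q (b, x))) ∈ 𝓝 y :=
        cc.isOpen_support.mem_nhds (by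
          simp only [Function.mem_support, cube, max_eq_left (sub_pos.2 b1).le]
          exact (pow_pos (sub_pos.2 b1) 3).ne')
      obtain ⟨r, hr, a2⟩ := Metric.mem_nhds_iff.1 a1
      obtain ⟨r', a3, a4⟩ := ((Chart.lower_proof _ (h.mcf.isSurf bJ) y by').and
        (Ioo_mem_nhdsGT hr)).exists
      rw [h.eq b bJ]
      exact ((ENNReal.ofReal_pos.2 (pow_pos a4.1 2)).trans_le a3).trans_le
        (measure_mono ((ball_subset_ball a4.2.le).trans a2))
    rw [e0, ENNReal.ofReal_zero] at key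
    exact absurd (ENNReal.ofReal_eq_zero.1 (le_zero_iff.1 (le_self_add.trans key))) (not_le.2 pos)
  · have a2 := inn t x (hin t ht) hx hk
    have a3 := hb (hb' t x (h6 t (hin t ht)) (by linarith))
    have a4 := a3.1.1.2 _ ((h.mcf.isSurf hJ).norm_nu hx)
    have a5 := a3.1.2
    rw [heat_congr (eQ t x a2), gS_congr (eQ t x a2)]
    rw [(eQ t x a2).self_of_nhds] at hk ⊢
    have a6 : (k - ψ (t, x)) * Λ ≤ 2 := by
      have a7 : k - ψ (t, x) ≤ 2 / (Λ + 1) := by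
        have : 2 / (Λ + 1) = 2 * (1 / (Λ + 1)) := by ring
        linarith
      rw [le_div_iff₀ (by positivity)] at a7
      nlinarith
    have a7 := sub_pos.2 hk
    generalize k - ψ (t, x) = s at *
    have a8 := mul_nonneg a7.le (mul_nonneg a7.le a4)
    have a9 := mul_nonneg a7.le (mul_nonneg (sub_nonneg.2 a6)
      (sq_nonneg ‖pt (nu (M t) x) (gS ψ (t, x))‖))
    nlinarith

end En

open En

/-- **The support is a viscosity solution.** -/
theorem visc_proof : ViscW := by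
  intro D μ M J I h t₀ ht₀ y₀ hy₀ a g S hS H
  by_contra hc
  obtain ⟨Λ, ε, hΛ, hε, hp⟩ := exists_penalty (a := a) (g := g) (S := S) fun n h1 h2 =>
    not_le.1 fun h3 => hc ⟨n, h1, h2, h3⟩
  set η := ε / 11 with hη
  have hη0 : 0 < η := by positivity
  set S' := S + (4 * η) • ContinuousLinearMap.id ℝ E3 with hS'
  have sym : ∀ u v, ⟪S' u, v⟫ = ⟪u, S' v⟫ := fun u v => by
    simp only [hS', add_apply, smul_apply, ContinuousLinearMap.id_apply, inner_add_left,
      inner_add_right, real_inner_smul_left, real_inner_smul_right, hS]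
  have q1 : ∀ v, ⟪S' v, v⟫ = ⟪S v, v⟫ + 4 * η * ‖v‖ ^ 2 := fun v => by
    simp only [hS', add_apply, smul_apply, ContinuousLinearMap.id_apply, inner_add_left,
      real_inner_smul_left, real_inner_self_eq_norm_sq]
  have q2 : tr S' = tr S + 4 * η * 3 := by rw [hS', tr_add, tr_smul, tr_id]
  refine no_min h ht₀ hy₀ (contDiff_poly t₀ y₀ (a - 2 * η) g S') (by simp [poly]) hη0
    (Λ := 2 * Λ) (by positivity) ?_
  have h2 : ∀ᶠ q : ℝ × E3 in 𝓝 (t₀, y₀), 2 * Λ * ‖S' (q.2 - y₀)‖ ^ 2 < η :=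
    (Continuous.continuousAt (by fun_prop)).eventually (gt_mem_nhds (by simpa using hη0))
  filter_upwards [H η hη0, h2] with q h1 h2
  refine ⟨fun a1 a2 => ?_, fun n hn => ?_⟩
  · have := h1 a1 a2
    rw [poly, q1]
    linarith
  · rw [heat, dT_poly, hS_poly _ _ _ _ sym, gS_poly _ _ _ _ sym, q1, q2, hn]
    have a1 := hp n hn
    have a2 : ‖pt n g‖ ≤ ‖pt n (g + S' (q.2 - y₀))‖ + ‖S' (q.2 - y₀)‖ := by
      have : pt n g = pt n (g + S' (q.2 - y₀)) - pt n (S' (q.2 - y₀)) := by rw [map_add]; abel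
      rw [this]
      exact (norm_sub_le _ _).trans (by gcongr; exact norm_pt_le hn _)
    have a3 : ‖pt n g‖ ^ 2 ≤ 2 * ‖pt n (g + S' (q.2 - y₀))‖ ^ 2 + 2 * ‖S' (q.2 - y₀)‖ ^ 2 := by
      nlinarith [norm_nonneg (pt n g), norm_nonneg (pt n (g + S' (q.2 - y₀))),
        norm_nonneg (S' (q.2 - y₀)), sq_nonneg (‖pt n (g + S' (q.2 - y₀))‖ - ‖S' (q.2 - y₀)‖)]
    have a4 := mul_le_mul_of_nonneg_left a3 hΛ
    nlinarith

/-- **The energy estimate.** -/
theorem energy_proof : EnergyW := by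
  intro D hD μ M J I h Q a b c R hQ hab hI hR H
  have key := brakke_cube h hQ (c := c) (k := 2) (R := R) (fun t ht x hx => (H t ht x).2.1 hx)
    hab hI (g := fun t x => ENNReal.ofReal 6 * ENNReal.ofReal (max (2 - Q (t, x)) 0 *
      ‖pt (nu (M t) x) (gr Q (t, x))‖ ^ 2)) fun t ht hJ x hx => ⟨fun h1 => ?_, fun h1 => ?_⟩
  · have h2 : ENNReal.ofReal (∫ x, cube 2 (Q (a, x)) ∂(μ a)) ≤
        ENNReal.ofReal 6 * ENNReal.ofReal (2 * (D * R ^ 2)) := by
      refine ((Real.ofReal_le_enorm _).trans (enorm_integral_le_lintegral_enorm _)).trans ?_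
      have h1 : ∀ x, ‖cube 2 (Q (a, x))‖ₑ ≤
          (ball c R).indicator (fun _ => ENNReal.ofReal 12) x := by
        intro x
        have h3 := H a (left_mem_Icc.2 hab) x
        by_cases hx : x ∈ ball c R
        · rw [indicator_of_mem hx, Real.enorm_eq_ofReal (cube_nonneg _ _)]
          refine ENNReal.ofReal_le_ofReal ?_
          have : max (2 - Q (a, x)) 0 ≤ 2 := max_le (by linarith [h3.1]) (by norm_num)
          exact (pow_le_pow_left₀ (le_max_right _ _) this 3).trans (by norm_num)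
        · rw [indicator_of_notMem hx]
          rw [mem_ball, dist_eq_norm, not_lt] at hx
          simp [cube, max_eq_right (sub_nonpos.2 (h3.2.1 hx))]
      refine (lintegral_mono h1).trans ?_
      rw [lintegral_indicator_const measurableSet_ball, ← ENNReal.ofReal_mul (by norm_num),
        ← mul_assoc, ENNReal.ofReal_mul (p := 6 * 2) (by norm_num)]
      exact mul_le_mul' (ENNReal.ofReal_le_ofReal (by norm_num))
        (h.ratio a (hI (left_mem_Icc.2 hab)) c R hR)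
    have h3 := (le_add_self.trans key).trans h2
    simp only [lintegral_const_mul' _ _ ENNReal.ofReal_ne_top] at h3
    exact (ENNReal.mul_le_mul_iff_right (by simp) ENNReal.ofReal_ne_top).1 h3
  · simp [max_eq_right (sub_nonpos.2 h1)]
  · have h2 := mul_nonneg (sq_nonneg (2 - Q (t, x)))
      (heat_of_super (H t ht x).2.2 ((h.mcf.isSurf hJ).norm_nu hx))
    have h3 := mul_nonneg (sub_pos.2 h1).le (sq_nonneg ‖pt (nu (M t) x) (gr Q (t, x))‖)
    rw [max_eq_left (sub_pos.2 h1).le, ← ENNReal.ofReal_mul (by norm_num), gS_eq_gr]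
    exact ⟨_, by linarith, le_rfl, by linarith⟩

end Vale.Agent.P218G
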