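import Vale.Agent.P218G.SrcRamp
import Vale.Agent.P218G.Visc
import Mathlib.Analysis.SpecialFunctions.SmoothTransition

/-! Barriers with a smooth activation. -/

open MeasureTheory Set Filter Topology Metric
open scoped ENNReal NNReal RealInnerProductSpace ContDiff

namespace Vale.Agent.P218G

open P218FT Sr

lemma ramp_one (s : Src) (ha : 0 ≤ s.a) (hτ : s.τ < s.τ') : ∃ (B : ℝ × E3 → ℝ) (s' : Src),
    ContDiff ℝ 2 B ∧ (∀ p, Super B p 0) ∧ s'.a = s.a ∧ s'.τ < s'.τ' ∧ s'.τ' ≤ s.τ' ∧
    ∀ p : ℝ × E3, s.val p.1 p.2 ≤ B p ∧ B p ≤ s'.val p.1 p.2 := by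
  set τ₂ := (s.τ + s.τ') / 2 with hτ₂
  have h1 : s.τ < τ₂ := by linarith
  have h2 : 0 < s.τ' - τ₂ := by linarith
  set χ : ℝ → ℝ := fun t => Real.smoothTransition ((t - τ₂) / (s.τ' - τ₂)) with hχ
  have c : ContDiff ℝ 2 χ := Real.smoothTransition.contDiff.comp
    ((contDiff_id.sub contDiff_const).div_const _)
  have z : ∀ t ≤ τ₂, χ t = 0 := fun t ht => Real.smoothTransition.zero_of_nonpos
    (div_nonpos_of_nonpos_of_nonneg (by linarith) h2.le)
  have n : ∀ t, 0 ≤ χ t := fun t => Real.smoothTransition.nonneg _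
  have m : Monotone χ := fun t t' h => Real.smoothTransition.monotone (by gcongr)
  refine ⟨rv s.a χ s.τ s.c, ⟨s.a, s.c, s.τ, τ₂⟩, contDiff_rv c h1 z, fun p => ?_, rfl, h1,
    by linarith, fun p => ⟨?_, (rv_le ha h1 z n (fun t => Real.smoothTransition.le_one _) p).2⟩⟩
  · by_cases hp : p.1 < τ₂
    · exact super_of_eventually_zero (rv_zero z hp)
    · exact super_mono (super_rv ha c h1 z n p) (mul_nonneg (mul_nonneg ha m.deriv_nonneg)
        (gk_pos (by linarith) _).le)
  · by_cases hp : s.τ' < p.1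
    · have : χ p.1 = 1 := Real.smoothTransition.one_of_one_le (by
        rw [le_div_iff₀ h2]; linarith)
      simp only [Src.val, if_pos hp, rv, this, mul_one, le_refl]
    · simp only [Src.val, if_neg hp]
      exact (rv_le ha h1 z n (fun t => Real.smoothTransition.le_one _) p).1

lemma super_quad (c : E3) (R t₁ e : ℝ) (p : ℝ × E3) :
    Super (fun q => (‖q.2 - c‖ ^ 2 + 4 * (q.1 - t₁)) / R ^ 2 + e * (q.1 - t₁)) p e := by
  have h : (fun q : ℝ × E3 => (‖q.2 - c‖ ^ 2 + 4 * (q.1 - t₁)) / R ^ 2 + e * (q.1 - t₁)) =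
      En.poly t₁ c (4 / R ^ 2 + e) 0 ((2 / R ^ 2) • ContinuousLinearMap.id ℝ E3) := by
    funext q
    simp only [En.poly, inner_zero_left, smul_apply, ContinuousLinearMap.id_apply,
      real_inner_smul_left, real_inner_self_eq_norm_sq]
    ring
  intro n hn
  rw [h, ← En.dT_eq_dt, ← En.hS_eq_hs, En.dT_poly, En.hS_poly _ _ _ _ (fun u v => by
    simp only [smul_apply, ContinuousLinearMap.id_apply, real_inner_smul_left,
      real_inner_smul_right]), tr_smul, En.tr_id]
  simp only [smul_apply, ContinuousLinearMap.id_apply, real_inner_smul_left,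
    real_inner_self_eq_norm_sq, hn]
  apply le_of_eq
  ring

/-- **Barriers with a smooth activation.** -/
theorem ramp_proof : RampW := by
  refine ⟨fun l => ?_, fun Q Q' p e e' hQ hQ' h h' => super_add hQ hQ' h h', super_quad⟩
  induction l using Multiset.induction_on with
  | empty =>
    exact fun hl => ⟨fun _ => 0, 0, contDiff_const,
      fun p => super_of_eventually_zero EventuallyEq.rfl, hl, rfl, by simp, by simp [bar]⟩
  | cons s l ih =>
    intro hl
    obtain ⟨B, l', h1, h2, h3, h4, h5, h6⟩ := ih fun u hu => hl u (Multiset.mem_cons_of_mem hu)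
    have hs := hl s (Multiset.mem_cons_self s l)
    obtain ⟨B', s', k1, k2, k3, k4, k5, k6⟩ := ramp_one s hs.1 hs.2
    refine ⟨fun p => B' p + B p, s' ::ₘ l', k1.add h1,
      fun p => by simpa using super_add k1 h1 (k2 p) (h2 p), fun u hu => ?_, ?_, fun u hu => ?_,
      fun p => ?_⟩
    · rcases Multiset.mem_cons.1 hu with rfl | hu
      · exact ⟨k3 ▸ hs.1, k4⟩
      · exact h3 u hu
    · simp only [mass, Multiset.map_cons, Multiset.sum_cons, k3] at h4 ⊢
      rw [h4]
    · rcases Multiset.mem_cons.1 hu with rfl | hu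
      · exact ⟨s, Multiset.mem_cons_self _ _, k5⟩
      · obtain ⟨v, hv, hv'⟩ := h5 u hu
        exact ⟨v, Multiset.mem_cons_of_mem hv, hv'⟩
    · have a := h6 p
      have b := k6 p
      simp only [bar, Multiset.map_cons, Multiset.sum_cons] at a ⊢
      exact ⟨add_le_add b.1 a.1, add_le_add b.2 a.2⟩

end Vale.Agent.P218G
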