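import Vale.Agent.P218G.SI3
import Vale.Agent.P218G.Spec
import Vale.Agent.P218F.EndsOrient
import Mathlib.MeasureTheory.Integral.Bochner.VitaliCaratheodory

/-! The static inequality for the separation, part 4: assembly. -/

open MeasureTheory Set Filter Topology Metric Asymptotics
open scoped ENNReal NNReal RealInnerProductSpace ContDiff

namespace Vale.Agent.P218G.SI

open Vale.Agent.P218FT

variable {N K : Set E3} {w : E3 → ℝ} {δ m : ℝ} {x y z : E3}

/-- Rademacher's theorem on the surface -/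
lemma rademacher (hN : IsSurf N) (hK : K ⊆ N) {f : E3 → ℝ}
    (hf : ∀ x ∈ K, ∃ r > 0, L1 f (ball x r)) : ∀ᵐ x ∂(area N), x ∈ K → ∀ v, ⟪nu N x, v⟫ = 0 →
      ∃ c : ℝ → E3, c 0 = x ∧ HasDerivAt c v 0 ∧ DifferentiableAt ℝ (fun t => f (c t)) 0 := by
  rw [ae_iff]
  refine measure_null_of_locally_null _ fun x₀ hx₀ => ?_
  have hx₀K : x₀ ∈ K := (Classical.not_imp.1 hx₀).1
  obtain ⟨J, pr, h, U, hU, C, -⟩ := Chart.exists_chart_tangent hN (hK hx₀K)
  obtain ⟨r, hr, h1⟩ := hf x₀ hx₀K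
  set n := nu N x₀
  obtain ⟨L, t, ht, h2⟩ := ((Chart.contDiff_gr (n := n) (J := J)
    (C.smooth.of_le one_le_inf)).contDiffAt (x := pr x₀)).exists_lipschitzOnWith
  have h3 : Chart.gr n J h ⁻¹' ball x₀ r ∈ 𝓝 (pr x₀) :=
    C.continuous_gr.continuousAt.preimage_mem_nhds (by
      rw [C.gr_pr (hK hx₀K) hU]; exact ball_mem_nhds x₀ hr)
  set s := interior (t ∩ Chart.gr n J h ⁻¹' ball x₀ r) with hs
  have h4 : LipschitzOnWith (1 * L) (f ∘ Chart.gr n J h) s :=
    h1.lip.comp (h2.mono fun u hu => (interior_subset hu).1) fun u hu => (interior_subset hu).2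
  obtain ⟨T, hT, hTm, hT0⟩ := exists_measurable_superset_of_null
    (ae_iff.1 (h4.ae_differentiableWithinAt_of_mem (μ := volume)))
  have hm : MeasurableSet (N ∩ U ∩ pr ⁻¹' T) :=
    (hN.1.measurableSet.inter C.isOpen.measurableSet).inter (pr.continuous.measurable hTm)
  refine ⟨N ∩ U ∩ pr ⁻¹' T, mem_nhdsWithin_iff_exists_mem_nhds_inter.2
    ⟨U ∩ pr ⁻¹' s, inter_mem (C.isOpen.mem_nhds hU) (pr.continuous.continuousAt.preimage_mem_nhds
      (interior_mem_nhds.2 (inter_mem ht h3))), fun x ⟨⟨a1, a2⟩, a3⟩ => ?_⟩, ?_⟩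
  · obtain ⟨a4, a5⟩ := Classical.not_imp.1 a3
    refine ⟨⟨hK a4, a1⟩, hT fun a6 => a5 fun v hv => ?_⟩
    have a7 := (a6 a2).differentiableAt (isOpen_interior.mem_nhds a2)
    have l1 : HasDerivAt (fun τ : ℝ => pr x + τ • pr v) (pr v) 0 := by
      simpa using ((hasDerivAt_id (0 : ℝ)).smul_const (pr v)).const_add (pr x)
    have l2 := HasFDerivAt.comp_hasDerivAt_of_eq (0 : ℝ) (Chart.hasFDerivAt_gr (n := n) (J := J)
      (C.smooth.differentiable (by simp) (pr x))) l1 (by simp)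
    obtain ⟨σ, hσ, e⟩ := C.nu_eq hN (hK a4) a1
    have e1 : ⟪n, v⟫ = fderiv ℝ h (pr x) (pr v) := by
      have b1 : σ * (Chart.jac h (pr x))⁻¹ ≠ 0 :=
        mul_ne_zero (by rcases hσ with rfl | rfl <;> simp) (inv_pos.2 (Chart.jac_pos _ _)).ne'
      rw [e, real_inner_smul_left, mul_eq_zero, or_iff_right b1, inner_sub_left, sub_eq_zero,
        real_inner_comm v (J _), C.frame.adj, real_inner_comm (gradient _ _),
        Chart.inner_gradient] at hv
      exact hv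
    refine ⟨fun τ => Chart.gr n J h (pr x + τ • pr v), by simpa using C.gr_pr (hK a4) a1, ?_, ?_⟩
    · rw [add_apply, ContinuousLinearMap.smulRight_apply, ← e1, C.frame.decomp] at l2
      exact l2
    · exact (HasFDerivAt.comp_hasDerivAt_of_eq (0 : ℝ) a7.hasFDerivAt l1 (by simp)).differentiableAt
  · rw [C.measure_eq inter_subset_left hm]
    refine setLIntegral_measure_zero _ _ (measure_mono_null ?_ hT0)
    rintro _ ⟨a, ha, rfl⟩
    exact ha.2

/-- gradients of semiconcave approximations at a point of differentiability along a curve -/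
lemma lower {F : ℕ → E3 → ℝ} {f : E3 → ℝ} {κ D : ℝ} {B : Set E3} (hB : B ∈ 𝓝 x)
    (h1 : ∀ j, SC (F j) κ B) (h2 : ∀ j, DifferentiableAt ℝ (F j) x)
    (h3 : ∀ j, ‖gradient (F j) x‖ ≤ 1) (h4 : ∀ z ∈ B, Tendsto (fun j => F j z) atTop (𝓝 (f z)))
    {c : ℝ → E3} {v : E3} (hc0 : c 0 = x) (hc : HasDerivAt c v 0)
    (hD : HasDerivAt (fun t => f (c t)) D 0) {a : ℝ} (ha : a < D) :
    ∀ᶠ j in atTop, a < ⟪gradient (F j) x, v⟫ := by
  have d1 : HasDerivAt (fun t => ‖c t - x‖ ^ 2) 0 0 := by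
    simpa [hc0] using (hc.sub_const x).norm_sq
  have d2 : HasDerivAt (fun t : ℝ => ‖c t - x - t • v‖) 0 0 := by
    rw [hasDerivAt_iff_isLittleO] at hc ⊢
    simpa [hc0] using hc.norm_left
  have d3 := ((hD.sub (d1.const_mul (κ / 2))).sub d2).tendsto_slope_zero_right
  have l1 : Tendsto c (𝓝[>] 0) (𝓝 x) := hc0 ▸ hc.continuousAt.tendsto.mono_left nhdsWithin_le_nhds
  obtain ⟨t, ⟨a1, a2⟩, a3⟩ := (((d3.eventually (lt_mem_nhds (show a < D - κ / 2 * 0 - 0 by
    linarith))).and (l1.eventually_mem hB)).and self_mem_nhdsWithin).exists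
  have a4 : 0 < t := a3
  simp only [zero_add, Pi.sub_apply, hc0, sub_self, norm_zero, zero_smul, smul_eq_mul] at a1
  rw [← div_eq_inv_mul, lt_div_iff₀ a4] at a1
  filter_upwards [((h4 _ a2).sub (h4 x (mem_of_mem_nhds hB))).eventually (lt_mem_nhds
    (show a * t + κ / 2 * ‖c t - x‖ ^ 2 + ‖c t - x - t • v‖ < f (c t) - f x by linarith))]
    with j b1
  have b2 := (h1 j).grad (mem_of_mem_nhds hB) a2 (h2 j)
  have b3 := real_inner_le_norm (gradient (F j) x) (c t - x - t • v)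
  rw [inner_sub_right, real_inner_smul_right] at b3
  have b4 := mul_le_mul_of_nonneg_right (h3 j) (norm_nonneg (c t - x - t • v))
  refine lt_of_mul_lt_mul_left ?_ a4.le
  linarith

/-- the separation function, cut off where it is not continuous -/
noncomputable def fr (N : Set E3) (w : E3 → ℝ) (δ m : ℝ) : E3 → ℝ :=
  (interior {z | ContinuousAt (rho N w δ m) z}).indicator (rho N w δ m)

lemma fr_eq {S : Set E3} (hS : IsOpen S) (h : L1 (rho N w δ m) S) :
    EqOn (rho N w δ m) (fr N w δ m) S := fun _ hz =>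
  (indicator_of_mem (interior_maximal (fun _ hz' => h.lip.continuousOn.continuousAt
    (hS.mem_nhds hz')) hS hz) _).symm

lemma measurable_nuw (hw : ContDiff ℝ ∞ w) : Measurable (nuw w) :=
  (contDiff_grad hw).continuous.norm.measurable.inv.smul (contDiff_grad hw).continuous.measurable

namespace Ctx

variable (C : Ctx N w K δ m)
include C

lemma locInt : LocallyIntegrable (fr N w δ m) volume := by
  refine (locallyIntegrable_const m).mono
    ((aestronglyMeasurable_indicator_iff isOpen_interior.measurableSet).2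
      (ContinuousOn.aestronglyMeasurable (fun z hz => (interior_subset hz).continuousWithinAt)
        isOpen_interior.measurableSet)) (ae_of_all _ fun z => ?_)
  refine (norm_indicator_le_norm_self _ _).trans ?_
  rw [Real.norm_of_nonneg (C.δpos.le.trans C.le_rho'),
    Real.norm_of_nonneg (C.δpos.le.trans C.δm)]
  exact rho_le_m

lemma unif {S : Set E3} (hS : ∀ x ∈ K, closedBall x m ⊆ S) (hf : area N S ≠ ⊤) {ε : ℝ≥0∞}
    (hε : ε ≠ 0) : ∃ (g : E3 → ℝ≥0∞) (r : ℝ), 0 < r ∧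
      ∫⁻ x, g x ∂(area N) ≤ 512 * ∫⁻ y in S, ENNReal.ofReal (a2 N y) ∂(area N) + ε ∧
      ∀ x ∈ K, ∃ κ : ℝ, 0 ≤ κ ∧ ENNReal.ofReal (κ ^ 2) ≤ g x ∧
        SC (fr N w δ m) κ (ball x (2 * r)) ∧ L1 (fr N w δ m) (ball x (2 * r)) ∧
        EqOn (rho N w δ m) (fr N w δ m) (ball x (2 * r)) ∧
        ∀ y, Mn N w δ m x y → ∀ z ∈ ball x (2 * r), rho N w δ m z ≤ ‖y - z‖ := by
  have := Chart.locFin_proof N C.surf
  obtain ⟨k, k1, k2, k3⟩ := C.l2 hS hf (ENNReal.half_pos hε).ne'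
  have hk : ∀ x, ((min (k x) (ENNReal.ofReal (δ⁻¹ ^ 2))).toNNReal : ℝ≥0∞)
      = min (k x) (ENNReal.ofReal (δ⁻¹ ^ 2)) := fun x =>
    ENNReal.coe_toNNReal ((min_le_right _ _).trans_lt ENNReal.ofReal_lt_top).ne
  obtain ⟨g, g1, g2, g3⟩ := exists_lt_lowerSemicontinuous_lintegral_ge (area N)
    (fun x => (min (k x) (ENNReal.ofReal (δ⁻¹ ^ 2))).toNNReal)
    (k1.min measurable_const).ennreal_toNNReal (ENNReal.half_pos hε).ne'
  simp only [hk] at g1 g3
  have h1 : ∀ x : K, ∃ r > 0, ∃ κ : ℝ, 0 ≤ κ ∧ SC (rho N w δ m) κ (ball x r) ∧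
      L1 (rho N w δ m) (ball x r) ∧ ∀ z ∈ ball (x : E3) r, ENNReal.ofReal (κ ^ 2) ≤ g z ∧
        ∀ y, Mn N w δ m z y → ∀ z' ∈ ball (x : E3) r, rho N w δ m z' ≤ ‖y - z'‖ := by
    intro ⟨x, hx⟩
    obtain ⟨a, a1, a2⟩ := ENNReal.lt_iff_exists_real_btwn.1 (g1 x)
    have a3 : 0 < a := ENNReal.ofReal_pos.1 (zero_le.trans_lt a2.1)
    obtain ⟨r, hr, b1, b2, b3⟩ := C.sc hx (Real.sqrt_pos.2 a3) fun y hy => by
      rw [Real.lt_sqrt kf_nonneg, ← ENNReal.ofReal_lt_ofReal_iff a3]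
      refine lt_of_le_of_lt (le_min (k2 x hx y hy) (ENNReal.ofReal_le_ofReal ?_)) a2.1
      exact pow_le_pow_left₀ kf_nonneg ((min_le_right _ _).trans (inv_anti₀ C.δpos hy.1.2.1)) 2
    obtain ⟨r', hr', b4⟩ := Metric.eventually_nhds_iff_ball.1 (g2 x _ a2.2)
    have s1 : ball x (min r r') ⊆ ball x r := ball_subset_ball (min_le_left _ _)
    refine ⟨min r r', lt_min hr hr', √a, Real.sqrt_nonneg _, b1.mono s1, b2.mono s1,
      fun z hz => ⟨?_, fun y hy z' hz' => (b3 z (s1 hz) y hy).2.1 z' (s1 hz')⟩⟩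
    rw [Real.sq_sqrt a1]
    exact (b4 z (ball_subset_ball (min_le_right _ _) hz)).le
  choose r hr κ h2 h3 h4 h5 using h1
  obtain ⟨ρ, hρ, h6⟩ := lebesgue_number_lemma_of_metric C.cpt
    (c := fun x : K => ball (x : E3) (r x)) (fun _ => isOpen_ball)
    fun x hx => mem_iUnion.2 ⟨⟨x, hx⟩, mem_ball_self (hr _)⟩
  refine ⟨g, ρ / 2, half_pos hρ, g3.trans ?_, fun x hx => ?_⟩
  · refine (add_le_add ((lintegral_mono fun x => min_le_left _ _).trans k3) le_rfl).trans_eq ?_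
    rw [add_assoc, ENNReal.add_halves]
  · obtain ⟨i, hi⟩ := h6 x hx
    rw [mul_div_cancel₀ _ two_ne_zero]
    have e := fr_eq isOpen_ball ((h4 i).mono hi)
    have hx' := hi (mem_ball_self hρ)
    exact ⟨κ i, h2 i, (h5 i x hx').1, ((h3 i).mono hi).congr (convex_ball _ _) e,
      ((h4 i).mono hi).congr e, e, fun y hy z hz => (h5 i x hx').2 y hy z (hi hz)⟩

end Ctx

/-- the lower limit of the integrands -/
lemma le_lim {F : ℕ → E3 → ℝ} {f : E3 → ℝ} {κ a : ℝ} {B : Set E3} {n : E3} (hn : ‖n‖ = 1)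
    (hB : B ∈ 𝓝 x) (h1 : ∀ j, SC (F j) κ B) (h2 : ∀ j, DifferentiableAt ℝ (F j) x)
    (h3 : ∀ j, ‖gradient (F j) x‖ ≤ 1) (h4 : ∀ z ∈ B, Tendsto (fun j => F j z) atTop (𝓝 (f z)))
    (hy : y ≠ x) (h5 : f x = ‖y - x‖) (h6 : ∀ z ∈ B, 0 ≤ f z ∧ f z ≤ ‖y - z‖)
    (h7 : ∀ v, ⟪n, v⟫ = 0 →
      ∃ c : ℝ → E3, c 0 = x ∧ HasDerivAt c v 0 ∧ DifferentiableAt ℝ (fun t => f (c t)) 0) :
    ENNReal.ofReal (a ^ 4 * ‖pt n (y - x)‖ ^ 4 / ‖y - x‖ ^ 6) ≤ liminf (fun j => ENNReal.ofReal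
      (a ^ 4 * (‖pt n (gradient (F j) x)‖ ^ 2) ^ 2 / F j x ^ 2)) atTop := by
  have hr : 0 < ‖y - x‖ := norm_sub_pos_iff.2 hy
  set v := pt n (x - y) with hv
  have e0 : ‖pt n (y - x)‖ = ‖v‖ := by rw [hv, ← neg_sub x y, map_neg, norm_neg]
  obtain ⟨c, c0, c1, c2⟩ := h7 v (inner_pt_nrm hn _)
  have c3 := c2.hasDerivAt
  set D := deriv (fun t => f (c t)) 0
  have c4 : IsLocalMin (fun t => ‖c t - y‖ ^ 2 - f (c t) ^ 2) 0 := by
    filter_upwards [(c0 ▸ c1.continuousAt.tendsto : Tendsto c (𝓝 0) (𝓝 x)).eventually_mem hB]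
      with t ht
    have := pow_le_pow_left₀ (h6 _ ht).1 (h6 _ ht).2 2
    rw [c0, h5, norm_sub_rev x, norm_sub_rev (c t)]
    linarith
  have c5 := c4.hasDerivAt_eq_zero ((c1.sub_const y).norm_sq.sub (c3.pow 2))
  have c6 : D * ‖y - x‖ = ‖v‖ ^ 2 := by
    have : ⟪x - y, v⟫ = ‖v‖ ^ 2 := by
      rw [← real_inner_self_eq_norm_sq]
      conv_rhs => rw [hv, inner_pt_left, pt_pt hn]
    simp only [c0, h5, this] at c5
    norm_num at c5
    linarith
  have l1 : Tendsto (fun j => min ‖pt n (gradient (F j) x)‖ (‖v‖ / ‖y - x‖)) atTop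
      (𝓝 (‖v‖ / ‖y - x‖)) := by
    refine tendsto_order.2 ⟨fun b hb => ?_, fun b hb =>
      Eventually.of_forall fun j => (min_le_right _ _).trans_lt hb⟩
    rcases (norm_nonneg v).eq_or_lt with h0 | h0
    · refine Eventually.of_forall fun j => lt_min ?_ hb
      rw [← h0, zero_div] at hb
      exact hb.trans_le (norm_nonneg _)
    · filter_upwards [lower hB h1 h2 h3 h4 c0 c1 c3 (a := b * ‖v‖) (by
        rw [lt_div_iff₀ hr] at hb
        refine lt_of_mul_lt_mul_right ?_ hr.le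
        nlinarith)] with j hj
      refine lt_min (lt_of_mul_lt_mul_right (hj.trans_le ?_) h0.le) hb
      conv_lhs => rw [hv, ← pt_pt hn, ← inner_pt_left]
      exact real_inner_le_norm _ _
  have l2 := ENNReal.tendsto_ofReal ((((l1.pow 2).pow 2).const_mul (a ^ 4)).div
    ((h4 x (mem_of_mem_nhds hB)).pow 2) (by rw [h5]; positivity))
  have e1 : a ^ 4 * ‖pt n (y - x)‖ ^ 4 / ‖y - x‖ ^ 6
      = a ^ 4 * ((‖v‖ / ‖y - x‖) ^ 2) ^ 2 / f x ^ 2 := by
    rw [e0, h5]; field_simp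
  rw [e1, ← l2.liminf_eq]
  refine liminf_le_liminf (Eventually.of_forall fun j => ENNReal.ofReal_le_ofReal ?_)
  have : 0 ≤ min ‖pt n (gradient (F j) x)‖ (‖v‖ / ‖y - x‖) := by positivity
  simp only [Pi.div_apply]
  gcongr
  exact min_le_left _ _

/-- **The static inequality.** -/
theorem si_proof : SIStmt := by
  intro _
  refine ⟨48 * 513, by norm_num, fun N hN _ ζ c R m hm hζ hR hz hnb G hG => ?_⟩
  have := Chart.locFin_proof N hN
  obtain ⟨w, w1, w2, w3⟩ := P218F.Ends.Or.orient N hN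
  have hw : ∀ x ∈ N, IsEqn N x w := fun x hx => ⟨w1, w3 x hx, Eventually.of_forall w2⟩
  have hs : tsupport ζ ⊆ closedBall c R := closure_minimal (fun x hx =>
    mem_closedBall_iff_norm.2 (not_le.1 fun h => hx (hR x h)).le) isClosed_closedBall
  have hc : HasCompactSupport ζ := (isCompact_closedBall c R).of_isClosed_subset
    (isClosed_tsupport ζ) hs
  have hK : IsCompact (N ∩ tsupport ζ) := hc.isCompact.inter_left hN.1
  obtain ⟨d, hd, hsep⟩ := exists_sep hw hK inter_subset_left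
  have C : Ctx N w (N ∩ tsupport ζ) (min (d / 2) m) m :=
    ⟨hN, hw, inter_subset_left, hK, by positivity, min_le_right _ _,
      fun x hx y hy => by linarith [hsep x hx y hy, min_le_left (d / 2) m],
      fun x hx => hnb x hx.1 hx.2⟩
  set δ := min (d / 2) m
  have hS : ∀ x ∈ N ∩ tsupport ζ, closedBall x m ⊆ ball c (R + 2 * m) := fun x hx =>
    closedBall_subset_ball' (by linarith [mem_closedBall.1 (hs hx.2)])
  set A := ∫⁻ x in ball c (R + 2 * m), ENNReal.ofReal (a2 N x) ∂(area N)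
  set B := ∫⁻ x, ENNReal.ofReal (‖pt (nu N x) (gradient ζ x)‖ ^ 2) ∂(area N)
  refine ENNReal.le_of_forall_pos_le_add fun ε hε _ => ?_
  obtain ⟨g, r, hr, g1, g2⟩ := C.unif hS measure_ball_lt_top.ne (ε := (ε : ℝ≥0∞) / 48)
    (by simp [hε.ne'])
  have hδ := C.δpos
  obtain ⟨e, -, e1, e2⟩ := exists_seq_strictAnti_tendsto' (lt_min hr hδ)
  set F := fun j => moll (e1 j).1 (fr N w δ m) with hF
  have F1 : ∀ j, ContDiff ℝ ∞ (F j) := fun j => contDiff_moll C.locInt
  have e3 : ∀ j, e j ≤ r := fun j => ((e1 j).2.trans_le (min_le_left _ _)).le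
  have key : ∀ j, ∫⁻ x, ENNReal.ofReal (ζ x ^ 4 * (‖pt (nu N x) (gradient (F j) x)‖ ^ 2) ^ 2
      / F j x ^ 2) ∂(area N) ≤ ENNReal.ofReal (48 * 513) * (A + B) + ε := fun j => by
    refine (bernis hN hw (F1 j) hζ hc (fun x => abs_le.2 ⟨by linarith [(hz x).1], (hz x).2⟩)
      (k := g) fun x hx hx' => ?_).trans ?_
    · obtain ⟨κ, a1, a2, a3, a4, a5, -⟩ := g2 x ⟨hx, hx'⟩
      refine ⟨?_, (a4.moll C.locInt (e3 j)).grad (ball_mem_nhds x hr), κ, a1, a2,
        (a3.moll C.locInt (e3 j)).hess (ball_mem_nhds x hr) ((F1 j).of_le two_le_inf)⟩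
      have b1 := (abs_le.1 (a4.moll_close (hε := (e1 j).1) C.locInt (e3 j) (mem_ball_self hr))).1
      rw [← a5 (mem_ball_self (by positivity))] at b1
      linarith [C.le_rho' (z := x), (e1 j).2.trans_le (min_le_right _ _)]
    · have b1 : ∫⁻ x in tsupport ζ, ENNReal.ofReal (a2 N x) ∂(area N) ≤ A :=
        lintegral_mono_set (hs.trans (closedBall_subset_ball (by linarith)))
      have b2 := (setLIntegral_le_lintegral (tsupport ζ) g).trans g1
      calc _ ≤ 48 * (512 * A + ε / 48 + A + 513 * B) := by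
            gcongr
            exact le_mul_of_one_le_left' (by norm_num)
        _ = 48 * 513 * (A + B) + 48 * (ε / 48) := by ring
        _ = _ := by
            rw [ENNReal.mul_div_cancel (by norm_num) (by norm_num),
              ENNReal.ofReal_mul (by norm_num), ENNReal.ofReal_ofNat, ENNReal.ofReal_ofNat]
  have hNa : ∀ᵐ x ∂(area N), x ∈ N := ae_restrict_mem hN.1.measurableSet
  refine le_trans (lintegral_mono_ae ?_) ((lintegral_liminf_le' (u := atTop) fun j => ?_).trans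
    (liminf_le_of_frequently_le' (Eventually.of_forall key).frequently))
  · filter_upwards [hNa, rademacher hN (K := N ∩ tsupport ζ) inter_subset_left
      (f := fr N w δ m) fun x hx => ⟨2 * r, by positivity, (g2 x hx).choose_spec.2.2.2.1⟩]
      with x hx h1
    rcases hG x hx with h2 | ⟨y, b1, b2, b3, b4⟩
    · rw [ENNReal.ofReal_of_nonpos h2]; exact zero_le
    refine (ENNReal.ofReal_le_ofReal b4).trans ?_
    by_cases h3 : ζ x = 0
    · simp [h3]
    have hxK : x ∈ N ∩ tsupport ζ := ⟨hx, subset_tsupport _ h3⟩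
    obtain ⟨κ, -, -, a3, a4, a5, a6⟩ := g2 x hxK
    have hM := (C.mn_iff hxK).2 ⟨b1, b2, by linarith⟩
    have s1 : ball x r ⊆ ball x (2 * r) := ball_subset_ball (by linarith)
    refine le_lim (hN.norm_nu hx) (ball_mem_nhds x hr) (fun j => a3.moll C.locInt (e3 j))
      (fun j => (F1 j).differentiable (by simp) x)
      (fun j => (a4.moll C.locInt (e3 j)).grad (ball_mem_nhds x hr)) (fun z hz => ?_) b1.2.1
      ?_ (fun z hz => ?_) (h1 hxK)
    · exact tendsto_iff_norm_sub_tendsto_zero.2 (squeeze_zero (fun _ => norm_nonneg _)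
        (fun j => a4.moll_close C.locInt (e3 j) hz) e2)
    · rw [← a5 (mem_ball_self (by positivity))]
      exact le_antisymm hM.1.rho_le hM.2
    · rw [← a5 (s1 hz)]
      exact ⟨hδ.le.trans C.le_rho', a6 y hM z (s1 hz)⟩
  · have m1 : Measurable fun x => pt (nuw w x) (gradient (F j) x) := by
      have := measurable_nuw w1
      have := (contDiff_grad (F1 j)).continuous.measurable
      simp only [pt_apply]
      fun_prop
    have m2 := hζ.continuous.measurable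
    have m3 := (F1 j).continuous.measurable
    refine (((m2.pow_const 4).mul ((m1.norm.pow_const 2).pow_const 2)).div
      (m3.pow_const 2)).ennreal_ofReal.aemeasurable.congr ?_
    filter_upwards [hNa] with x hx
    simp only [(hw x hx).pt_eq hx, Pi.div_apply, Pi.mul_apply]

end Vale.Agent.P218G.SI
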