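import Vale.Agent.P218G.SrcRamp
import Vale.Agent.P218G.HuB
import Vale.Agent.P218FT.Step
import Mathlib.Analysis.SpecialFunctions.SmoothTransition

/-! A barrier with a prescribed source. -/

open MeasureTheory Set Filter Topology Metric
open scoped ENNReal NNReal RealInnerProductSpace ContDiff

namespace Vale.Agent.P218G.Sr

open P218FT

/-! ### The activation -/

/-- a smooth nondecreasing function which vanishes before `τ'` -/
noncomputable def act (τ' κ t : ℝ) : ℝ := expNegInvGlue ((t - τ') / κ)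

lemma act_contDiff (τ' κ : ℝ) : ContDiff ℝ 2 (act τ' κ) :=
  (expNegInvGlue.contDiff (n := 2)).comp ((contDiff_id.sub contDiff_const).div_const κ)

lemma act_zero {τ' κ : ℝ} (hκ : 0 < κ) (t : ℝ) (ht : t ≤ τ') : act τ' κ t = 0 :=
  expNegInvGlue.zero_of_nonpos (div_nonpos_of_nonpos_of_nonneg (by linarith) hκ.le)

lemma act_nonneg (τ' κ t : ℝ) : 0 ≤ act τ' κ t := expNegInvGlue.nonneg _

lemma act_le_one (τ' κ t : ℝ) : act τ' κ t ≤ 1 := by
  unfold act expNegInvGlue
  split_ifs with h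
  · exact zero_le_one
  · exact Real.exp_le_one_iff.2 (neg_nonpos.2 (inv_nonneg.2 (not_le.1 h).le))

lemma deriv_act (τ' κ t : ℝ) :
    deriv (act τ' κ) t = ((t - τ') / κ)⁻¹ ^ 2 * act τ' κ t * κ⁻¹ := by
  have h1 := expNegInvGlue.hasDerivAt_polynomial_eval_inv_mul 1 ((t - τ') / κ)
  simp only [Polynomial.eval_one, one_mul, Polynomial.derivative_one, sub_zero, mul_one,
    Polynomial.eval_pow, Polynomial.eval_X] at h1
  have h2 : HasDerivAt (fun s : ℝ => (s - τ') / κ) (1 / κ) t :=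
    ((hasDerivAt_id t).sub_const τ').div_const κ
  exact ((h1.comp t h2).congr_deriv (by rw [one_div]; rfl)).deriv

lemma deriv_act_nonneg (τ' : ℝ) {κ : ℝ} (hκ : 0 < κ) (t : ℝ) : 0 ≤ deriv (act τ' κ) t := by
  rw [deriv_act]
  have := act_nonneg τ' κ t
  positivity

lemma le_deriv_act {τ' κ t : ℝ} (hκ : 0 < κ) (h1 : τ' + κ ≤ t) (h2 : t ≤ τ' + 5 * κ) :
    (75 * κ)⁻¹ ≤ deriv (act τ' κ) t := by
  rw [deriv_act]
  set u := (t - τ') / κ with hu
  have u1 : 1 ≤ u := by rw [hu, le_div_iff₀ hκ]; linarith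
  have u2 : u ≤ 5 := by rw [hu, div_le_iff₀ hκ]; linarith
  have e1 : (5 : ℝ)⁻¹ ≤ u⁻¹ := inv_anti₀ (by linarith) u2
  have e2 : (3 : ℝ)⁻¹ ≤ act τ' κ t := by
    unfold act expNegInvGlue
    rw [← hu, if_neg (by linarith)]
    have e3 : u⁻¹ ≤ 1 := inv_le_one_of_one_le₀ u1
    refine le_trans ?_ (Real.exp_le_exp.2 (neg_le_neg e3))
    rw [Real.exp_neg]
    exact inv_anti₀ (Real.exp_pos _) (Real.exp_one_lt_d9.le.trans (by norm_num))
  calc (75 * κ)⁻¹ = (5 : ℝ)⁻¹ ^ 2 * (3 : ℝ)⁻¹ * κ⁻¹ := by field_simp; norm_num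
    _ ≤ _ := by gcongr

/-! ### The Lipschitz envelopes -/

/-- the envelope of `f` over `K` -/
noncomputable def env (K : Set (ℝ × E3)) (f : ℝ × E3 → ℝ) (n : ℕ) (q : ℝ × E3) : ℝ :=
  ⨆ p : K, max (f p - max (n * dist q p - 1) 0) 0

section Env

variable {K : Set (ℝ × E3)} {f : ℝ × E3 → ℝ} {A : ℝ}

lemma env_nonneg (n : ℕ) (q : ℝ × E3) : 0 ≤ env K f n q :=
  Real.iSup_nonneg fun _ => le_max_right _ _

lemma env_le {n : ℕ} {q : ℝ × E3} {c : ℝ} (hc : 0 ≤ c)
    (h : ∀ p ∈ K, f p - max (n * dist q p - 1) 0 ≤ c) : env K f n q ≤ c :=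
  Real.iSup_le (fun p => max_le (h p p.2) hc) hc

lemma le_env (hA : ∀ p ∈ K, f p ≤ A) (n : ℕ) (q : ℝ × E3) {p : ℝ × E3} (hp : p ∈ K) :
    f p - max (n * dist q p - 1) 0 ≤ env K f n q := by
  refine (le_max_left _ 0).trans (le_ciSup
    (f := fun p : K => max (f p - max (n * dist q p - 1) 0) 0) ⟨max A 0, ?_⟩ ⟨p, hp⟩)
  rintro _ ⟨p, rfl⟩
  exact max_le_max (by linarith [hA p p.2, le_max_right (n * dist q p - 1) 0]) le_rfl

lemma env_le_top (hA : ∀ p ∈ K, f p ≤ A) (hA0 : 0 ≤ A) (n : ℕ) (q : ℝ × E3) : env K f n q ≤ A :=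
  env_le hA0 fun p hp => by linarith [hA p hp, le_max_right (n * dist q p - 1) 0]

lemma env_anti (hA : ∀ p ∈ K, f p ≤ A) (q : ℝ × E3) : Antitone fun n => env K f n q := by
  intro n m hnm
  refine env_le (env_nonneg _ _) fun p hp => le_trans ?_ (le_env hA n q hp)
  have h1 : (n : ℝ) * dist q p ≤ m * dist q p :=
    mul_le_mul_of_nonneg_right (Nat.cast_le.2 hnm) dist_nonneg
  linarith [max_le_max (sub_le_sub_right h1 1) (le_refl (0 : ℝ))]

lemma env_continuous (hA : ∀ p ∈ K, f p ≤ A) (n : ℕ) : Continuous (env K f n) := by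
  refine (LipschitzWith.of_le_add_mul n fun q q' => ?_).continuous
  have h0 : 0 ≤ (n : ℝ) * dist q q' := by positivity
  refine env_le (add_nonneg (env_nonneg _ _) h0) fun p hp => ?_
  have h1 := le_env hA n q' hp
  have h2 : (n : ℝ) * dist q' p ≤ n * dist q p + n * dist q q' := by
    rw [← mul_add]
    exact mul_le_mul_of_nonneg_left (by linarith [dist_triangle_left q' p q]) (Nat.cast_nonneg n)
  have h3 : max (n * dist q' p - 1) 0 ≤ max (n * dist q p - 1) 0 + n * dist q q' :=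
    max_le (by linarith [le_max_left (n * dist q p - 1) 0])
      (add_nonneg (le_max_right _ _) h0)
  simp only [NNReal.coe_natCast]
  linarith

lemma env_small (hA : ∀ p ∈ K, f p ≤ A) {q : ℝ × E3} {c δ : ℝ} (hc : 0 ≤ c) {n : ℕ}
    (hn : A + 1 ≤ n * δ) (h : ∀ p ∈ K, dist q p < δ → f p ≤ c) : env K f n q ≤ c := by
  refine env_le hc fun p hp => ?_
  rcases lt_or_ge (dist q p) δ with h1 | h1
  · linarith [h p hp h1, le_max_right (n * dist q p - 1) 0]
  · have h2 : (n : ℝ) * δ ≤ n * dist q p := mul_le_mul_of_nonneg_left h1 (Nat.cast_nonneg n)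
    linarith [hA p hp, le_max_left (n * dist q p - 1) 0]

lemma iInf_env_le (hK : IsClosed K) (hA : ∀ p ∈ K, 0 ≤ f p ∧ f p ≤ A) {q : ℝ × E3}
    (hq : q ∈ K → UpperSemicontinuousWithinAt f K q) :
    ⨅ n : ℕ, ENNReal.ofReal (env K f (n + 1) q) ≤
      K.indicator (fun p => ENNReal.ofReal (f p)) q := by
  have key : ∀ c δ : ℝ, 0 ≤ c → 0 < δ → (∀ p ∈ K, dist q p < δ → f p ≤ c) →
      ⨅ n : ℕ, ENNReal.ofReal (env K f (n + 1) q) ≤ ENNReal.ofReal c := by
    intro c δ hc hδ h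
    obtain ⟨n, hn⟩ := exists_nat_ge ((A + 1) / δ)
    refine (iInf_le _ n).trans (ENNReal.ofReal_le_ofReal
      (env_small (fun p hp => (hA p hp).2) hc ?_ h))
    rw [div_le_iff₀ hδ] at hn
    push_cast
    nlinarith
  by_cases hqK : q ∈ K
  · rw [indicator_of_mem hqK]
    refine ENNReal.le_of_forall_pos_le_add fun ε hε _ => ?_
    have h1 := hq hqK (f q + ε) (by simpa using hε)
    obtain ⟨δ, hδ, h2⟩ := Metric.mem_nhdsWithin_iff.1 h1
    refine (key (f q + ε) δ (add_nonneg (hA q hqK).1 ε.coe_nonneg) hδ fun p hp h3 =>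
      le_of_lt (h2 ⟨mem_ball'.2 h3, hp⟩)).trans ?_
    rw [ENNReal.ofReal_add (hA q hqK).1 ε.coe_nonneg, ENNReal.ofReal_coe_nnreal]
  · rw [indicator_of_notMem hqK]
    obtain ⟨δ, hδ, h2⟩ := Metric.mem_nhds_iff.1 (hK.isOpen_compl.mem_nhds hqK)
    simpa using key 0 δ le_rfl hδ fun p hp h3 => absurd hp (h2 (mem_ball'.2 h3))

end Env

variable {D : ℝ} {μ : ℝ → Measure E3} {M : ℝ → Set E3} {J I : Set ℝ}

/-- the integral of some envelope is less than `β` -/
lemma exists_env (h : WF D μ M J I) {a' a b A : ℝ} {β : ℝ≥0∞} {K : Set (ℝ × E3)} {f : ℝ × E3 → ℝ}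
    (hI : Icc a' b ⊆ I) (hK : IsCompact K) (hKs : K ⊆ track M (Icc a b)) (hA0 : 0 ≤ A)
    (hA : ∀ p ∈ K, 0 ≤ f p ∧ f p ≤ A) (hu : ∀ p ∈ K, p.1 ∈ J → UpperSemicontinuousWithinAt f K p)
    (hβ : ∫⁻ t in Icc a b, ∫⁻ x, K.indicator (fun p => ENNReal.ofReal (f p)) (t, x)
      ∂(area (M t)) < β) :
    ∃ n : ℕ, ∫⁻ t in Icc a' b, ∫⁻ x, ENNReal.ofReal (env K f (n + 1) (t, x)) ∂(area (M t)) < β := by
  have hA' : ∀ p ∈ K, f p ≤ A := fun p hp => (hA p hp).2
  obtain ⟨R₀, hR₀, hR⟩ := (hK.image continuous_snd).isBounded.subset_ball_lt 0 0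
  set R := R₀ + (A + 1) with hRd
  have hz : ∀ (n : ℕ) (q : ℝ × E3), R ≤ ‖q.2‖ → env K f (n + 1) q = 0 := by
    intro n q hq
    refine le_antisymm (env_small hA' le_rfl (δ := A + 1) ?_ fun p hp h1 => ?_) (env_nonneg _ _)
    · push_cast
      nlinarith [Nat.cast_nonneg (α := ℝ) n]
    · have h2 := mem_ball_zero_iff.1 (hR (mem_image_of_mem _ hp))
      have h3 : dist q.2 p.2 ≤ dist q p := le_max_right _ _
      rw [dist_eq_norm] at h3
      linarith [norm_le_norm_add_norm_sub' q.2 p.2]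
  have hbd : ∀ n : ℕ, ∀ t ∈ J, ∫⁻ x, ENNReal.ofReal (env K f (n + 1) (t, x)) ∂(area (M t)) ≤
      ENNReal.ofReal A * ENNReal.ofReal (D * R ^ 2) := by
    intro n t ht
    calc _ ≤ ∫⁻ x, (ball (0 : E3) R).indicator (fun _ => ENNReal.ofReal A) x ∂(area (M t)) := by
          refine lintegral_mono fun x => ?_
          by_cases hx : x ∈ ball (0 : E3) R
          · rw [indicator_of_mem hx]
            exact ENNReal.ofReal_le_ofReal (env_le_top hA' hA0 _ _)
          · rw [hz n (t, x) (by simpa using hx)]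
            simp
      _ = ENNReal.ofReal A * area (M t) (ball 0 R) := lintegral_indicator_const measurableSet_ball _
      _ ≤ _ := mul_le_mul_right (h.areaRatio ht 0 R (by linarith)) _
  have hfin : ENNReal.ofReal A * ENNReal.ofReal (D * R ^ 2) ≠ ⊤ :=
    ENNReal.mul_ne_top ENNReal.ofReal_ne_top ENNReal.ofReal_ne_top
  have hc : ∀ (n : ℕ) (t : ℝ), Continuous fun x => env K f (n + 1) (t, x) := fun n t =>
    (env_continuous hA' _).comp (Continuous.prodMk_right t)
  have hmeas : ∀ n : ℕ, AEMeasurable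
      (fun t => ∫⁻ x, ENNReal.ofReal (env K f (n + 1) (t, x)) ∂(area (M t)))
      (volume.restrict (Icc a' b)) := by
    intro n
    have h1 := cont_proof M J h.mcf _ R (env_continuous hA' (n + 1)).continuousOn (hz n)
    have h2 := (h.aemeasurable measurableSet_Icc hI isOpen_univ (subset_univ _)
      (h1.mono inter_subset_left)).aemeasurable.ennreal_ofReal
    refine h2.congr ?_
    filter_upwards [h.ae_Icc hI] with t ht
    refine ofReal_integral_eq_lintegral_ofReal ⟨(hc n t).aestronglyMeasurable, ?_⟩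
      (Eventually.of_forall fun x => env_nonneg _ _)
    rw [hasFiniteIntegral_iff_ofReal (Eventually.of_forall fun x => env_nonneg _ _)]
    exact (hbd n t ht).trans_lt hfin.lt_top
  have hanti : ∀ (t : ℝ) (x : E3), Antitone fun n : ℕ => ENNReal.ofReal (env K f (n + 1) (t, x)) :=
    fun t x n m hnm => ENNReal.ofReal_le_ofReal (env_anti hA' _ (Nat.succ_le_succ hnm))
  rw [← iInf_lt_iff, ← lintegral_iInf' hmeas
    (Eventually.of_forall fun t n m hnm => lintegral_mono fun x => hanti t x hnm)]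
  · refine lt_of_le_of_lt ?_ hβ
    rw [setLIntegral_eq_of_support_subset (s := Icc a b)]
    · refine le_trans (lintegral_mono_ae ?_) (setLIntegral_le_lintegral (Icc a' b) _)
      filter_upwards [h.ae_Icc hI] with t ht
      rw [← lintegral_iInf' (fun n => (hc n t).measurable.ennreal_ofReal.aemeasurable)
        (Eventually.of_forall (hanti t)) ((hbd 0 t ht).trans_lt hfin.lt_top).ne]
      exact lintegral_mono fun x => iInf_env_le hK.isClosed hA fun hq => hu _ hq ht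
    · intro t ht
      by_contra h1
      refine ht ?_
      have : ∀ x, K.indicator (fun p => ENNReal.ofReal (f p)) (t, x) = 0 := fun x =>
        indicator_of_notMem (fun h2 => h1 (hKs h2).1) _
      simp [this]
  · refine ne_top_of_le_ne_top ?_ (lintegral_mono_ae ((h.ae_Icc hI).mono (hbd 0)))
    rw [lintegral_const, Measure.restrict_apply_univ, Real.volume_Icc]
    exact ENNReal.mul_ne_top hfin ENNReal.ofReal_ne_top

/-- a lower bound for the mass near the points of the track -/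
lemma low_mass (hO : OneLeW) (D : ℝ) : ∃ ρ : ℝ, 1 ≤ ρ ∧
    ∀ (μ : ℝ → Measure E3) (M : ℝ → Set E3) (J I : Set ℝ), WF D μ M J I →
      ∀ (t s k : ℝ) (x : E3), 0 < k → x ∈ M t → Icc (t - 2 * k ^ 2) t ⊆ I →
      s ∈ Icc (t - 2 * k ^ 2) (t - k ^ 2) → ENNReal.ofReal (6 * k ^ 2) ≤ μ s (ball x (ρ * k)) := by
  obtain ⟨C₀, -, hG⟩ := gaussM
  obtain ⟨ρ, hρ, hG⟩ := (hG (max D 0) (le_max_right _ _)).2 (1 / 2) (by norm_num)
  refine ⟨max (2 * ρ) 1, le_max_right _ _, fun μ M J I h t s k x hk hx hI hs => ?_⟩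
  have hk2 : 0 < k ^ 2 := by positivity
  have hts : 0 < t - s := by linarith [hs.2]
  set r := √(t - s) with hr
  have hr0 : 0 < r := Real.sqrt_pos.2 hts
  have hr2 : r ^ 2 = t - s := Real.sq_sqrt hts.le
  have hrk : r ≤ 2 * k := by
    refine le_of_sq_le_sq (by nlinarith [hs.1]) (by positivity)
  have hsI : s ∈ I := hI ⟨hs.1, by linarith⟩
  have h1 := hO D μ M J I h t r hr0 ((Icc_subset_Icc_left (by linarith [hs.1])).trans hI) x hx
  have hm := (h.ratio s hsI).mono (le_max_left D 0)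
  have h2 := hG (μ s) hm x r hr0
  have h3 := hm.integrable_gk x (σ := r ^ 2) (by positivity)
  have h4 := integral_add_compl (measurableSet_ball (x := x) (ε := ρ * r)) h3
  have h5 : densM μ x t r = ∫ y, gk (r ^ 2) (y - x) ∂(μ s) := by
    unfold densM gM
    rw [hr2, sub_sub_cancel]
  have hπ := Real.pi_gt_three
  have h6 : ∫ y in ball x (ρ * r), gk (r ^ 2) (y - x) ∂(μ s) ≤
      (μ s).real (ball x (ρ * r)) * (4 * Real.pi * r ^ 2)⁻¹ := by
    have := setIntegral_mono_on h3.integrableOn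
      (integrableOn_const (hm.ball_lt_top x (ρ * r)).ne) measurableSet_ball
      fun y _ => gk_le (σ := r ^ 2) (by positivity) (y - x)
    simpa using this
  have h7 : 1 / 2 ≤ (μ s).real (ball x (ρ * r)) * (4 * Real.pi * r ^ 2)⁻¹ := by linarith
  rw [← div_eq_mul_inv, le_div_iff₀ (by positivity)] at h7
  have h8 : 6 * k ^ 2 ≤ (μ s).real (ball x (ρ * r)) := by nlinarith [hs.2]
  refine (ENNReal.ofReal_le_of_le_toReal h8).trans (measure_mono (ball_subset_ball ?_))
  calc ρ * r ≤ ρ * (2 * k) := by gcongr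
    _ = 2 * ρ * k := by ring
    _ ≤ _ := by gcongr; exact le_max_left _ _

lemma gk_low {σ k L : ℝ} {z : E3} (hk : 0 < k) (h1 : 2 * k ^ 2 ≤ σ) (h2 : σ ≤ 6 * k ^ 2)
    (h3 : ‖z‖ ≤ L * k) : (96 * k ^ 2)⁻¹ * Real.exp (-L ^ 2) ≤ gk σ z := by
  have hk2 : 0 < k ^ 2 := by positivity
  have hσ : 0 < σ := by linarith
  have hp := Real.pi_pos
  have hp4 := Real.pi_le_four
  have hz : ‖z‖ ^ 2 ≤ (L * k) ^ 2 := by gcongr
  have e1 : -L ^ 2 ≤ -‖z‖ ^ 2 / (4 * σ) := by
    rw [le_div_iff₀ (by positivity)]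
    nlinarith [mul_nonneg (sq_nonneg L) (sub_nonneg.2 h1), mul_nonneg (sq_nonneg L) hk2.le]
  have e3 : (96 * k ^ 2)⁻¹ ≤ (4 * Real.pi * σ)⁻¹ := by
    apply inv_anti₀ (by positivity); nlinarith
  unfold gk
  gcongr

end Vale.Agent.P218G.Sr

namespace Vale.Agent.P218G

open P218FT Sr

/-- **A barrier with a prescribed source.** -/
theorem srcW_of (hO : OneLeW) : SrcW := by
  classical
  intro D
  obtain ⟨ρ, hρ, hlow⟩ := low_mass hO D
  set C₀ := 1200 * Real.exp ((3 * ρ) ^ 2) with hC₀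
  have hC : 0 < C₀ := by positivity
  refine ⟨C₀, hC, fun μ M J I h a b A β K f hI hK hKs hA hu hβ => ?_⟩
  have hβ0 : 0 < β := ENNReal.ofReal_pos.1 (lt_of_le_of_lt zero_le hβ)
  rcases K.eq_empty_or_nonempty with rfl | ⟨p₀, hp₀⟩
  · refine ⟨fun _ => 0, 0, contDiff_const, fun p => super_of_eventually_zero EventuallyEq.rfl,
      fun p hp => hp.elim, fun s hs => absurd hs (Multiset.notMem_zero s), ?_, fun p => ?_⟩
    · simp only [mass, Multiset.map_zero, Multiset.sum_zero]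
      positivity
    · simp [bar]
  have hA0 : 0 ≤ A := (hA p₀ hp₀).1.trans (hA p₀ hp₀).2
  have hA' : ∀ p ∈ K, f p ≤ A := fun p hp => (hA p hp).2
  have hab : a ≤ b := (hKs hp₀).1.1.trans (hKs hp₀).1.2
  obtain ⟨ε, hε, hεI⟩ := Metric.mem_nhds_iff.1 (h.isOpen.mem_nhds (hI ⟨le_rfl, hab⟩))
  have hI' : Icc (a - ε / 2) b ⊆ I := by
    intro t ht
    rcases le_total a t with h1 | h1
    · exact hI ⟨h1, ht.2⟩
    · exact hεI (by rw [mem_ball, Real.dist_eq, abs_lt]; constructor <;> linarith [ht.1])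
  obtain ⟨n, hn⟩ := exists_env h hI' hK hKs hA0 hA hu hβ
  set F := env K f (n + 1) with hF
  obtain ⟨k, hk, hk1, hk2, hk3⟩ : ∃ k : ℝ, 0 < k ∧ k ≤ 1 ∧ 2 * k ≤ ε / 2 ∧
      ((n + 1 : ℕ) : ℝ) * (4 * ρ * k) ≤ 1 := by
    refine ⟨min 1 (min (ε / 4) (1 / (((n + 1 : ℕ) : ℝ) * (4 * ρ)))), by positivity,
      min_le_left _ _, by linarith [(min_le_right _ _).trans (min_le_left (ε / 4)
        (1 / (((n + 1 : ℕ) : ℝ) * (4 * ρ)))) (a := min 1 _)], ?_⟩
    rw [← mul_assoc, ← le_div_iff₀' (by positivity)]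
    exact (min_le_right _ _).trans (min_le_right _ _)
  have hk0 : 0 < k ^ 2 := by positivity
  have hkk : k ^ 2 ≤ k := by nlinarith
  have hρk : k ≤ ρ * k := le_mul_of_one_le_left hk.le hρ
  obtain ⟨v, hvK, hvf, hvc⟩ := finite_cover_balls_of_compact hK hk0
  obtain ⟨u, huv, hud, hcov⟩ := Vitali.exists_disjoint_subfamily_covering_enlargement
    (fun p : ℝ × E3 => Icc (p.1 - 2 * k ^ 2) (p.1 - k ^ 2) ×ˢ ball p.2 (ρ * k)) v (fun _ => 1) 2
    (by norm_num) (fun _ _ => zero_le_one) 1 (fun _ _ => le_rfl)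
    (fun p _ => ⟨(p.1 - k ^ 2, p.2), ⟨by linarith, le_rfl⟩, mem_ball_self (by linarith)⟩)
  have huf : u.Finite := hvf.subset huv
  set w : ℝ × E3 → ℝ≥0∞ := fun p => ∫⁻ s in Icc (p.1 - 2 * k ^ 2) (p.1 - k ^ 2),
    ∫⁻ y in ball p.2 (ρ * k), ENNReal.ofReal (F (s, y)) ∂(area (M s)) with hw
  have hsub : ∀ p ∈ K, Icc (p.1 - 2 * k ^ 2) p.1 ⊆ Icc (a - ε / 2) b := fun p hp =>
    Icc_subset_Icc (by linarith [(hKs hp).1.1]) (hKs hp).1.2
  have huK : ∀ p ∈ huf.toFinset, p ∈ K := fun p hp => hvK (huv (huf.mem_toFinset.1 hp))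
  have hsum : ∑ p ∈ huf.toFinset, w p < ENNReal.ofReal β := by
    refine lt_of_le_of_lt ?_ hn
    have := Step.sum_cyl_le (fun s => area (M s)) (fun s y => ENNReal.ofReal (F (s, y)))
      huf.toFinset (fun p => Icc (p.1 - 2 * k ^ 2) (p.1 - k ^ 2)) (fun p => ball p.2 (ρ * k))
      (fun _ => measurableSet_Icc) (fun _ => measurableSet_ball) (by simpa using hud)
      (Icc (a - ε / 2) b) univ
      (fun p hp => (Icc_subset_Icc_right (by linarith)).trans (hsub p (huK p hp)))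
      (fun _ _ => subset_univ _)
    simpa only [Measure.restrict_univ] using this
  have hwf : ∀ p ∈ huf.toFinset, w p ≠ ⊤ := fun p hp =>
    ((Finset.single_le_sum (f := w) (fun _ _ => zero_le) hp).trans_lt
      (hsum.trans ENNReal.ofReal_lt_top)).ne
  set m : ℝ × E3 → ℝ := fun p => C₀ * (w p).toReal with hm
  have hm0 : ∀ p, 0 ≤ m p := fun p => by positivity
  set S : ℝ × E3 → ℝ × E3 → ℝ := fun p =>
    rv (m p) (act (p.1 - 3 * k ^ 2) (k ^ 2)) (p.1 - 4 * k ^ 2) p.2 with hS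
  have hτ : ∀ p : ℝ × E3, p.1 - 4 * k ^ 2 < p.1 - 3 * k ^ 2 := fun p => by linarith
  have hS2 : ∀ p, ContDiff ℝ 2 (S p) := fun p =>
    contDiff_rv (act_contDiff _ _) (hτ p) (act_zero hk0)
  set e : ℝ × E3 → ℝ × E3 → ℝ := fun p q => m p * deriv (act (p.1 - 3 * k ^ 2) (k ^ 2)) q.1 *
    gk (q.1 - (p.1 - 4 * k ^ 2)) (q.2 - p.2) with he
  have hSe : ∀ q, Super (fun q => ∑ p ∈ huf.toFinset, S p q) q (∑ p ∈ huf.toFinset, e p q) :=
    fun q => super_sum _ (fun p _ => hS2 p) fun p _ =>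
      super_rv (hm0 p) (act_contDiff _ _) (hτ p) (act_zero hk0) (act_nonneg _ _) q
  have he0 : ∀ p q, 0 ≤ e p q := by
    intro p q
    by_cases h1 : q.1 ≤ p.1 - 3 * k ^ 2
    · simp only [he]
      rw [deriv_act, act_zero hk0 _ h1]
      simp
    · exact mul_nonneg (mul_nonneg (hm0 p) (deriv_act_nonneg _ hk0 _))
        (gk_pos (by linarith [not_le.1 h1]) _).le
  have hrv := fun p q => rv_le (c := p.2) (hm0 p) (hτ p) (act_zero hk0) (act_nonneg _ _)
    (act_le_one _ _) q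
  refine ⟨fun q => ∑ p ∈ huf.toFinset, S p q, huf.toFinset.val.map fun p =>
    ⟨m p, p.2, p.1 - 4 * k ^ 2, p.1 - 3 * k ^ 2⟩, ContDiff.sum fun p _ => hS2 p,
    fun q => super_mono (hSe q) (Finset.sum_nonneg fun p _ => he0 p q), fun q hq => ?_,
    Step.valid_finset _ _ fun p _ => ⟨hm0 p, hτ p⟩, ?_, fun q => ?_⟩
  · refine super_mono (hSe q) ?_
    obtain ⟨p', hp', hqp⟩ : ∃ p' ∈ v, q ∈ ball p' (k ^ 2) := by simpa using hvc hq
    obtain ⟨p, hp, ⟨⟨s₀, y₀⟩, ⟨b1, b2⟩, ⟨b3, b4⟩⟩, -⟩ := hcov p' hp'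
    simp only [mem_Icc, mem_ball, dist_eq_norm] at b1 b2 b3 b4
    have hp1 := huf.mem_toFinset.2 hp
    have hpK := huK p hp1
    refine le_trans ?_ (Finset.single_le_sum (f := fun p => e p q) (fun p _ => he0 p q) hp1)
    have c1 : dist q.1 p'.1 < k ^ 2 := lt_of_le_of_lt (le_max_left _ _) (mem_ball.1 hqp)
    have c2 : dist q.2 p'.2 < k ^ 2 := lt_of_le_of_lt (le_max_right _ _) (mem_ball.1 hqp)
    rw [Real.dist_eq, abs_lt] at c1
    rw [dist_eq_norm] at c2
    have c3 : ‖q.2 - p.2‖ ≤ 3 * ρ * k := by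
      have d1 := norm_sub_le_norm_sub_add_norm_sub q.2 p'.2 p.2
      have d2 := norm_sub_le_norm_sub_add_norm_sub p'.2 y₀ p.2
      rw [norm_sub_rev p'.2 y₀] at d2
      linarith
    have c4 : ENNReal.ofReal (f q * (6 * k ^ 2) * k ^ 2) ≤ w p := by
      have hI2 : Icc (p.1 - 2 * k ^ 2) (p.1 - k ^ 2) ⊆ I :=
        (Icc_subset_Icc_right (by linarith)).trans ((hsub p hpK).trans hI')
      calc _ = ∫⁻ _ in Icc (p.1 - 2 * k ^ 2) (p.1 - k ^ 2), ENNReal.ofReal (f q * (6 * k ^ 2)) := by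
            rw [setLIntegral_const, Real.volume_Icc,
              ← ENNReal.ofReal_mul (mul_nonneg (hA q hq).1 (by positivity))]
            congr 2
            ring
        _ ≤ _ := by
            refine lintegral_mono_ae ?_
            filter_upwards [h.ae_Icc hI2, ae_restrict_mem measurableSet_Icc] with s hs hs2
            have d1 := hlow μ M J I h p.1 s k p.2 hk (hKs hpK).2 ((hsub p hpK).trans hI') hs2
            rw [h.eq s hs] at d1
            calc _ = ENNReal.ofReal (f q) * ENNReal.ofReal (6 * k ^ 2) :=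
                  ENNReal.ofReal_mul (hA q hq).1
              _ ≤ ENNReal.ofReal (f q) * area (M s) (ball p.2 (ρ * k)) := mul_le_mul_right d1 _
              _ = ∫⁻ _ in ball p.2 (ρ * k), ENNReal.ofReal (f q) ∂(area (M s)) :=
                  (setLIntegral_const _ _).symm
              _ ≤ _ := by
                  refine setLIntegral_mono' measurableSet_ball fun y hy =>
                    ENNReal.ofReal_le_ofReal ?_
                  have d2 := le_env hA' (n + 1) (s, y) hq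
                  have d3 : dist (s, y) q ≤ 4 * ρ * k := by
                    refine max_le ?_ ?_
                    · rw [Real.dist_eq, abs_le]
                      constructor <;> simp only <;> linarith [hs2.1, hs2.2]
                    · rw [mem_ball, dist_eq_norm] at hy
                      have d4 := norm_sub_le_norm_sub_add_norm_sub y p.2 q.2
                      rw [norm_sub_rev p.2 q.2] at d4
                      rw [dist_eq_norm]
                      simp only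
                      linarith
                  have d5 : ((n + 1 : ℕ) : ℝ) * dist (s, y) q ≤ 1 :=
                    (mul_le_mul_of_nonneg_left d3 (Nat.cast_nonneg _)).trans hk3
                  rw [max_eq_right (by linarith), sub_zero] at d2
                  exact d2
    have c5 : f q * (6 * k ^ 2) * k ^ 2 ≤ (w p).toReal :=
      (ENNReal.ofReal_le_iff_le_toReal (hwf p hp1)).1 c4
    have c6 := le_deriv_act (τ' := p.1 - 3 * k ^ 2) (t := q.1) hk0 (by linarith) (by linarith)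
    have c7 := gk_low (σ := q.1 - (p.1 - 4 * k ^ 2)) hk (by linarith) (by linarith) c3
    have c8 : Real.exp ((3 * ρ) ^ 2) * Real.exp (-(3 * ρ) ^ 2) = 1 := by
      rw [← Real.exp_add]; simp
    have c9 := (hA q hq).1
    calc f q = C₀ * (f q * (6 * k ^ 2) * k ^ 2) * (75 * k ^ 2)⁻¹ *
          ((96 * k ^ 2)⁻¹ * Real.exp (-(3 * ρ) ^ 2)) := by
          have : C₀ * (f q * (6 * k ^ 2) * k ^ 2) * (75 * k ^ 2)⁻¹ *
              ((96 * k ^ 2)⁻¹ * Real.exp (-(3 * ρ) ^ 2)) =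
              f q * (Real.exp ((3 * ρ) ^ 2) * Real.exp (-(3 * ρ) ^ 2)) := by
            rw [hC₀]
            field_simp
            ring
          rw [this, c8, mul_one]
      _ ≤ _ := by
          simp only [he, hm]
          have := deriv_act_nonneg (p.1 - 3 * k ^ 2) hk0 q.1
          gcongr
  · rw [Step.mass_finset]
    simp only [hm]
    rw [← Finset.mul_sum, ← ENNReal.toReal_sum hwf]
    exact mul_le_mul_of_nonneg_left (ENNReal.toReal_le_of_le_ofReal hβ0.le hsum.le) hC.le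
  · rw [Step.bar_finset]
    exact ⟨Finset.sum_nonneg fun p _ => (hrv p q).1, Finset.sum_le_sum fun p _ => (hrv p q).2⟩

end Vale.Agent.P218G
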