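import Vale.Agent.P218G.Drop
import Vale.Agent.P218G.WLoc
import Vale.Agent.P218FT.Step

/-! The step lemma in the weak class: from a barrier at the time `t₁` to a barrier of small mass
at the time `t₂`. -/

open MeasureTheory Set Filter Topology Metric
open scoped ENNReal NNReal RealInnerProductSpace ContDiff

namespace Vale.Agent.P218G
namespace StW

open P218FT P218FT.Step

variable {D : ℝ} {μ : ℝ → Measure E3} {M : ℝ → Set E3} {J I : Set ℝ}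

/-- the flow at the smooth times -/
def cut (M : ℝ → Set E3) (J : Set ℝ) (s : ℝ) : Set E3 := {x | s ∈ J ∧ x ∈ M s}

lemma cut_of_mem {s : ℝ} (hs : s ∈ J) : cut M J s = M s := by
  ext x; simp [cut, hs]

lemma area_cut {s : ℝ} (hs : s ∉ J) : area (cut M J s) = 0 := by
  have : cut M J s = ∅ := by ext x; simp [cut, hs]
  rw [this, area, Measure.restrict_empty]

lemma cut_congr (h : WF D μ M J I) {S : Set ℝ} (hS : MeasurableSet S) (hI : S ⊆ I)
    (F : ℝ → Set E3 → ℝ≥0∞) : ∫⁻ s in S, F s (cut M J s) = ∫⁻ s in S, F s (M s) := by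
  apply lintegral_congr_ae
  filter_upwards [h.ae_restrict hS hI] with s hs
  rw [cut_of_mem hs]

lemma diss_cut (h : WF D μ M J I) {a b : ℝ} (hI : Icc a b ⊆ I) (Λ : ℝ) (c : E3) (r : ℝ) :
    diss (cut M J) Λ c r a b = diss M Λ c r a b :=
  cut_congr h measurableSet_Icc hI fun _ N =>
    ∫⁻ x in ball c r, ENNReal.ofReal (‖Hv N x‖ ^ 2 - Λ) ∂(area N)

lemma ratio_cut (h : WF D μ M J I) (s : ℝ) : AreaRatio D (cut M J s) := by
  by_cases hs : s ∈ J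
  · rw [cut_of_mem hs]; exact h.areaRatio hs
  · intro p r _; rw [area_cut hs]; simp

lemma lgb_cut {G : ℝ} (h : ∀ t ∈ J, LGB G (M t)) (s : ℝ) : LGB G (cut M J s) := by
  by_cases hs : s ∈ J
  · rw [cut_of_mem hs]; exact h s hs
  · intro p r _; rw [area_cut hs]; simp

/-- the regular part of the track -/
lemma mcfOn (h : WF D μ M J I) : WL.MCFOn M {p | p.1 ∈ I ∧ Reg M p} :=
  ⟨(h.isOpen.preimage continuous_fst).inter isOpen_setOfPred_eventually_nhds,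
    fun p hp => h.closed p.1 hp.1 p.2, fun _ hp hx => hp.2.self_of_nhds hx⟩

/-- inactive sources may be dropped -/
lemma covW_of {t : ℝ} {c : E3} {R m η : ℝ} {l : Multiset Src} (hl : Valid l) (hm : mass l ≤ η)
    (h : ∀ x ∈ M t, ‖x - c‖ ≤ R → (Reg M (t, x) → ¬ SepGE (M t) x m) → 1 ≤ bar l t x) :
    CovW M t c R m η := by
  classical
  have hsplit := Multiset.filter_add_not (fun s : Src => s.τ' < t) l
  refine ⟨l.filter fun s => s.τ' < t, fun s hs => hl s (Multiset.mem_of_mem_filter hs),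
    fun s hs => (Multiset.mem_filter.1 hs).2, ?_, fun x hx h1 h2 => ?_⟩
  · refine le_trans ?_ hm
    conv_rhs => rw [← hsplit, mass_add]
    have : 0 ≤ mass (l.filter fun s => ¬ s.τ' < t) := by
      apply Multiset.sum_nonneg
      intro a ha
      obtain ⟨s, hs, rfl⟩ := Multiset.mem_map.1 ha
      exact (hl s (Multiset.mem_of_mem_filter hs)).1
    linarith
  · have h3 := h x hx h1 h2
    rw [← hsplit, bar_add] at h3
    have : bar (l.filter fun s => ¬ s.τ' < t) t x = 0 := by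
      apply Multiset.sum_eq_zero
      intro a ha
      obtain ⟨s, hs, rfl⟩ := Multiset.mem_map.1 ha
      exact if_neg (Multiset.mem_filter.1 hs).2
    linarith

/-- the parabolic cylinder with top centre `(p.2.1, p.1)` and radius `p.2.2` -/
def cyl (p : E3 × ℝ × ℝ) : Set (ℝ × E3) := Icc (p.2.1 - p.2.2 ^ 2) p.2.1 ×ˢ ball p.1 p.2.2

/-- a barrier for a family of cylinders whose disjoint subfamilies have a bounded total area -/
lemma H_abs {A q₀ θ : ℝ} (hq₀ : 0 < q₀) (S : Set (E3 × ℝ × ℝ))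
    (hS : ∀ p ∈ S, q₀ ≤ p.2.2 ∧ p.2.2 ≤ θ)
    (hsum : ∀ v : Finset (E3 × ℝ × ℝ), (v : Set _) ⊆ S → (v : Set _).PairwiseDisjoint cyl →
      ∑ p ∈ v, p.2.2 ^ 2 ≤ A) :
    ∃ l : Multiset Src, Valid l ∧ mass l ≤ 1008 * A ∧ ∀ p ∈ S, 1 ≤ bar l p.2.1 p.1 := by
  classical
  have h0 : ∀ p ∈ S, 0 < p.2.2 := fun p hp => hq₀.trans_le (hS p hp).1
  obtain ⟨u, huS, hud, hcov⟩ := Vitali.exists_disjoint_subfamily_covering_enlargement cyl S
    (fun p => p.2.2) 2 (by norm_num) (fun p hp => (h0 p hp).le) θ (fun p hp => (hS p hp).2)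
    (fun p hp => ⟨(p.2.1, p.1), ⟨by nlinarith [sq_nonneg p.2.2], le_rfl⟩, mem_ball_self (h0 p hp)⟩)
  have hsum' : ∀ v : Finset (E3 × ℝ × ℝ), (v : Set _) ⊆ u → ∑ p ∈ v, p.2.2 ^ 2 ≤ A :=
    fun v hv => hsum v (hv.trans huS) (hud.subset hv)
  have hfin : u.Finite := by
    by_contra hinf
    obtain ⟨n, hn⟩ := exists_nat_gt (A / q₀ ^ 2)
    obtain ⟨v, hv, hcard⟩ := Set.Infinite.exists_subset_card_eq hinf n
    have h1 := hsum' v hv
    have h2 : ∑ _p ∈ v, q₀ ^ 2 ≤ ∑ p ∈ v, p.2.2 ^ 2 := by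
      apply Finset.sum_le_sum
      intro p hp
      have := (hS p (huS (hv hp))).1
      gcongr
    rw [Finset.sum_const, hcard, nsmul_eq_mul] at h2
    rw [div_lt_iff₀ (by positivity)] at hn
    linarith
  refine ⟨hfin.toFinset.val.map fun p => ⟨1008 * p.2.2 ^ 2, p.1, p.2.1 - 3 * p.2.2 ^ 2,
    p.2.1 - 2 * p.2.2 ^ 2⟩, ?_, ?_, ?_⟩
  · apply valid_finset
    intro p hp
    have h3 := h0 p (huS (hfin.mem_toFinset.1 hp))
    have : 0 < p.2.2 ^ 2 := by positivity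
    exact ⟨by positivity, by simp only; linarith⟩
  · rw [mass_finset]
    simp only
    rw [← Finset.mul_sum]
    have := hsum' hfin.toFinset (by simp)
    linarith
  · rintro ⟨x, t, q⟩ hq
    obtain ⟨p, hp, ⟨⟨s, y⟩, ⟨b1, b2⟩, ⟨b3, b4⟩⟩, b5⟩ := hcov (x, t, q) hq
    simp only [mem_Icc, mem_ball, dist_eq_norm] at b1 b2 b3 b4 b5
    have a3 : 0 < q := h0 _ hq
    have h3 := h0 p (huS hp)
    have h4 : 0 < p.2.2 ^ 2 := by positivity
    have h5 : q ^ 2 ≤ (2 * p.2.2) ^ 2 := by gcongr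
    rw [bar_finset]
    refine le_trans ?_ (Finset.single_le_sum (f := fun p : E3 × ℝ × ℝ =>
      (⟨1008 * p.2.2 ^ 2, p.1, p.2.1 - 3 * p.2.2 ^ 2, p.2.1 - 2 * p.2.2 ^ 2⟩ : Src).val t x)
      (fun p hp => ?_) (hfin.mem_toFinset.2 hp))
    · simp only [Src.val]
      rw [if_pos (by linarith [b1.2, b3.1])]
      apply gk_lower h3 (by linarith [b1.2, b3.1]) (by nlinarith [b1.1, b3.2])
      calc ‖x - p.1‖ = ‖(y - p.1) - (y - x)‖ := by congr 1; abel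
        _ ≤ ‖y - p.1‖ + ‖y - x‖ := norm_sub_le _ _
        _ ≤ _ := by linarith
    · have h3 := h0 p (huS (hfin.mem_toFinset.1 hp))
      have : 0 < p.2.2 ^ 2 := by positivity
      exact val_nonneg ⟨by positivity, by simp only; linarith⟩ t x

/-- a barrier which is at least one where there is a definite dissipation or loss -/
lemma H_part (h : WF D μ M J I) (hD : 0 < D) (c : E3) {R₁ R₂ T₀ t₁ t₂ θ κ d Λ q₀ : ℝ}
    (hI : Icc T₀ t₂ ⊆ I) (hκ : 0 < κ) (hd : 0 ≤ d) (hΛ : 0 ≤ Λ) (hq₀ : 0 < q₀) (hR : R₁ + θ ≤ R₂)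
    (hT : T₀ + θ ^ 2 ≤ t₁) (hθ : Λ * (D * θ ^ 2) ≤ κ / 2)
    (hdiss : dis2 M Λ c R₂ T₀ t₂ ≤ ENNReal.ofReal d) :
    ∃ l : Multiset Src, Valid l ∧ mass l ≤ 2016 * (d / κ) ∧
      ∀ (x : E3) (t q : ℝ), ‖x - c‖ ≤ R₁ → t ∈ Icc t₁ t₂ → q₀ ≤ q → q ≤ θ →
      ENNReal.ofReal (κ * q ^ 2) ≤ dis2 M 0 x q (t - q ^ 2) t → 1 ≤ bar l t x := by
  obtain ⟨l, hl, hm, hc⟩ := H_abs (A := d / (κ / 2)) (θ := θ) hq₀
    {p | ‖p.1 - c‖ ≤ R₁ ∧ p.2.1 ∈ Icc t₁ t₂ ∧ q₀ ≤ p.2.2 ∧ p.2.2 ≤ θ ∧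
      ENNReal.ofReal (κ / 2 * p.2.2 ^ 2) ≤ dis2 M Λ p.1 p.2.2 (p.2.1 - p.2.2 ^ 2) p.2.1}
    (fun p hp => ⟨hp.2.2.1, hp.2.2.2.1⟩) (by
      intro v hv hdj
      have k1 : ∀ p ∈ v, Icc (p.2.1 - p.2.2 ^ 2) p.2.1 ⊆ Icc T₀ t₂ := fun p hp =>
        Icc_sub hT (hv hp).2.1 (hq₀.trans_le (hv hp).2.2.1) (hv hp).2.2.2.1
      have k2 : ∀ p ∈ v, ball p.1 p.2.2 ⊆ ball c R₂ := fun p hp => by
        obtain ⟨h1, -, -, h4, -⟩ := hv hp
        apply ball_subset_ball'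
        rw [dist_eq_norm]; linarith
      have h1 := sum_cyl_le (fun s => area (M s))
        (fun s y => ENNReal.ofReal (‖Hv (M s) y‖ ^ 2 - Λ)) v
        (fun p => Icc (p.2.1 - p.2.2 ^ 2) p.2.1) (fun p => ball p.1 p.2.2)
        (fun _ => measurableSet_Icc) (fun _ => measurableSet_ball) hdj (Icc T₀ t₂)
        (ball c R₂) k1 k2
      have h2 := h.drop_finset_le v
        (U := fun p => Ioo (p.2.1 - p.2.2 ^ 2) p.2.1 ×ˢ ball p.1 p.2.2)
        (V := Ioo T₀ t₂ ×ˢ ball c R₂) (fun p hp => prod_mono (fun s hs =>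
          ⟨(k1 p hp ⟨le_rfl, hs.1.le.trans hs.2.le⟩).1.trans_lt hs.1,
            hs.2.trans_le (k1 p hp ⟨hs.1.le.trans hs.2.le, le_rfl⟩).2⟩) (k2 p hp))
        (prod_mono (Ioo_subset_Icc_self.trans hI) (subset_univ _))
        (hdj.mono fun p => prod_mono Ioo_subset_Icc_self Subset.rfl)
      have h3 : ∑ p ∈ v, ENNReal.ofReal (κ / 2 * p.2.2 ^ 2) ≤ ENNReal.ofReal d := by
        refine (Finset.sum_le_sum fun p hp => (hv hp).2.2.2.2).trans (le_trans ?_ hdiss)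
        simp only [dis2]
        rw [Finset.sum_add_distrib]
        exact add_le_add h1 h2
      rw [← ENNReal.ofReal_sum_of_nonneg (fun p _ => by positivity),
        ENNReal.ofReal_le_ofReal_iff hd, ← Finset.mul_sum] at h3
      rw [le_div_iff₀ (half_pos hκ)]; linarith)
  refine ⟨l, hl, hm.trans (le_of_eq (by field_simp; ring)), ?_⟩
  intro x t q h1 h2 h3 h4 h5
  have h3' : 0 < q := hq₀.trans_le h3
  have hw := (Icc_sub hT h2 h3' h4).trans hI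
  have h6 := diss_split (M := cut M J) (a := t - q ^ 2) (b := t) hD.le hΛ h3'
    (fun s _ => ratio_cut h s) x
  rw [diss_cut h hw, diss_cut h hw] at h6
  have h7 : Λ * (D * q ^ 2) * (t - (t - q ^ 2)) ≤ κ / 2 * q ^ 2 := by
    rw [sub_sub_cancel]
    refine mul_le_mul_of_nonneg_right (le_trans ?_ hθ) (by positivity)
    gcongr
  have h8 : ENNReal.ofReal (κ * q ^ 2) ≤
      dis2 M Λ x q (t - q ^ 2) t + ENNReal.ofReal (κ / 2 * q ^ 2) := by
    refine h5.trans ?_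
    simp only [dis2]
    rw [add_right_comm]
    exact add_le_add (h6.trans (add_le_add le_rfl (ENNReal.ofReal_le_ofReal h7))) le_rfl
  rw [show κ * q ^ 2 = κ / 2 * q ^ 2 + κ / 2 * q ^ 2 by ring,
    ENNReal.ofReal_add (by positivity) (by positivity),
    ENNReal.add_le_add_iff_right ENNReal.ofReal_ne_top] at h8
  exact hc (x, t, q) ⟨h1, h2, h3, h4, h8⟩

/-- a barrier which dominates the potential of the curvature with a definite delay -/
lemma A_part (h : WF D μ M J I) (c : E3) {R₁ R₂ T₀ t₁ t₂ θ P r : ℝ} (hI : Icc T₀ t₂ ⊆ I)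
    (hP : 0 ≤ P) (hr : 0 < r) (hR : R₁ + θ + r ≤ R₂) (hT : T₀ + θ ^ 2 ≤ t₁)
    (htot : ∫⁻ s in Icc T₀ t₂, ∫⁻ y in ball c R₂, ENNReal.ofReal (max (a2 (cut M J s) y) 0)
      ∂(area (cut M J s)) ≤ ENNReal.ofReal P) :
    ∃ l : Multiset Src, Valid l ∧ mass l ≤ 9 * P ∧
      ∀ (x : E3) (t q ρ L : ℝ), ‖x - c‖ ≤ R₁ → t ∈ Icc t₁ t₂ → 0 < q → q ≤ θ → r ≤ ρ →
      ENNReal.ofReal L ≤ potA M x t q (t - q ^ 2) (t - ρ ^ 2) → L ≤ bar l t x := by
  have hmax : ContinuousOn (fun p : ℝ × E3 => max (a2 (M p.1) p.2) 0) (track M J) :=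
    continuous_max.comp_continuousOn (h.mcf.continuousOn_a2.prodMk continuousOn_const)
  have hms : ∀ s ∈ Icc T₀ t₂, AEMeasurable (fun y => max (a2 (cut M J s) y) 0)
      (area (cut M J s)) := by
    intro s hs
    by_cases hJ : s ∈ J
    · rw [cut_of_mem hJ]
      have h4 : ContinuousOn (fun y => max (a2 (M s) y) 0) (M s) :=
        hmax.comp (f := fun y => (s, y)) (Continuous.prodMk_right s).continuousOn
          fun y hy => ⟨hJ, hy⟩
      exact h4.aemeasurable (h.isClosed (hI hs)).measurableSet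
    · rw [area_cut hJ]; exact aemeasurable_zero_measure
  obtain ⟨l, hl, hm, hc⟩ := A_barrier (fun s => area (cut M J s))
    (fun s y => max (a2 (cut M J s) y) 0) c (R₁ := R₁ + θ) (R₂ := R₂) (T₀ := T₀)
    (t₂ := t₂) (P := P) hr hR hP (fun _ _ => le_max_right _ _) hms (fun ψ h1 h2 h3 => by
      have k := EV.cont_full (EV.isFam_of_mcf h.mcf) (R := R₂ + ‖c‖)
        (g := fun p => ψ p.2 * max (a2 (M p.1) p.2) 0)
        ((h1.comp continuous_snd).continuousOn.mul hmax) (fun p hp => by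
          have : ‖p.2‖ ≤ ‖p.2 - c‖ + ‖c‖ := by simpa using norm_add_le (p.2 - c) c
          simp only [h3 p.2 (by linarith), zero_mul])
      refine (h.aemeasurable measurableSet_Icc hI isOpen_univ (subset_univ _)
        (k.2.mono inter_subset_left)).aemeasurable.ennreal_ofReal.congr ?_
      filter_upwards [h.ae_Icc hI] with s hs
      rw [cut_of_mem hs]
      exact ofReal_integral_eq_lintegral_ofReal (k.1 s hs)
        (Eventually.of_forall fun y => mul_nonneg (h2 y) (le_max_right _ _))) htot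
  refine ⟨l, hl, hm, ?_⟩
  intro x t q ρ L h1 h2 h3 h4 h5 h6
  have hw := Icc_sub hT h2 h3 h4
  have hρ2 : r ^ 2 ≤ ρ ^ 2 := by gcongr
  have hr2 : 0 < r ^ 2 := by positivity
  have hsub : Icc (t - q ^ 2) (t - ρ ^ 2) ⊆ Icc T₀ t₂ ∩ Iic (t - r ^ 2) := fun s hs =>
    ⟨hw ⟨hs.1, by linarith [hs.2]⟩, by rw [mem_Iic]; linarith [hs.2]⟩
  have hfar : ∫⁻ s in Icc T₀ t₂ ∩ Iic (t - r ^ 2), ∫⁻ y in ball x q,
      ENNReal.ofReal (a2 (cut M J s) y * gk (t - s) (x - y)) ∂(area (cut M J s)) ≤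
      ENNReal.ofReal (bar l t x) := by
    refine le_trans (setLIntegral_mono' (measurableSet_Icc.inter measurableSet_Iic)
      fun s hs => ?_) (hc x t)
    refine le_trans (lintegral_mono fun y => ?_) (lintegral_mono_set fun y hy =>
      mem_closedBall_iff_norm.2 (norm_le_of_ball h1 h4 hy))
    have h1 : s ≤ t - r ^ 2 := hs.2
    exact ENNReal.ofReal_le_ofReal (mul_le_mul_of_nonneg_right (le_max_left _ _)
      (Step.gk_pos (by linarith) _).le)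
  rw [cut_congr h (measurableSet_Icc.inter measurableSet_Iic) (inter_subset_left.trans hI)
    fun s N => ∫⁻ y in ball x q, ENNReal.ofReal (a2 N y * gk (t - s) (x - y)) ∂(area N)] at hfar
  exact (ENNReal.ofReal_le_ofReal_iff (bar_nonneg hl t x)).1
    (h6.trans ((lintegral_mono_set hsub).trans hfar))

/-- the conclusion from the barrier lemma -/
lemma final {c : E3} {t₁ t₂ R lam m η : ℝ} (hR : 16 ≤ R) (hlam : 0 < lam) (hm : 0 < m)
    (hη : 0 < η) (ht1 : lam ^ 2 / 2 ≤ t₂ - t₁) (ht2 : t₂ - t₁ ≤ lam ^ 2)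
    (hB : ∀ γ : ℝ, 0 < γ → ∃ l : Multiset Src, Valid l ∧ mass l ≤ η / 8 + γ ∧
      ∀ x ∈ M t₂, ‖x - c‖ ≤ R * lam → ∀ d : ℝ,
        (Reg M (t₂, x) → ∃ y, InCone (M t₂) x y ∧ ‖y - x‖ ≤ d) →
        1 - γ ≤ √(d / (m * lam)) + lam ^ 2 / 2 * (4 * Real.pi * (t₂ - t₁))⁻¹ + bar l t₂ x +
          (‖x - c‖ ^ 2 + 4 * (t₂ - t₁)) / (R * lam) ^ 2) :
    CovW M t₂ c (R * lam / 4) (m * lam / 4) η := by
  obtain ⟨l, hl, hmass, hbar⟩ := hB (min (1 / 16) (η / 8)) (by positivity)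
  have hl2 : 0 < lam ^ 2 := by positivity
  have hRl : 16 * lam ≤ R * lam := by gcongr
  have g1 := min_le_left (1 / 16) (η / 8)
  have g2 := min_le_right (1 / 16) (η / 8)
  refine covW_of (l := scale 4 l) (valid_scale (by norm_num) hl)
    (by rw [Step.mass_scale]; linarith) ?_
  intro x hx hxc hsep
  have h1 := hbar x hx (by linarith) (m * lam / 4) fun hreg => by
    have := hsep hreg
    simp only [SepGE, not_forall, not_le] at this
    obtain ⟨y, hy, hyx⟩ := this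
    exact ⟨y, hy, hyx.le⟩
  rw [Step.bar_scale]
  have h2 : √(m * lam / 4 / (m * lam)) ≤ 1 / 2 := by
    rw [Real.sqrt_le_left (by norm_num), div_le_iff₀ (by positivity)]
    linarith
  have h3 : lam ^ 2 / 2 * (4 * Real.pi * (t₂ - t₁))⁻¹ ≤ 1 / 12 := by
    have hp := Real.pi_gt_three
    calc _ ≤ lam ^ 2 / 2 * (4 * Real.pi * (lam ^ 2 / 2))⁻¹ := by gcongr
      _ = (4 * Real.pi)⁻¹ := by field_simp
      _ ≤ (12 : ℝ)⁻¹ := inv_anti₀ (by norm_num) (by linarith)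
      _ = _ := by norm_num
  have h4 : (‖x - c‖ ^ 2 + 4 * (t₂ - t₁)) / (R * lam) ^ 2 ≤ 5 / 64 := by
    have h7 : 0 < R * lam := by linarith
    rw [div_le_iff₀ (by positivity)]
    have h5 : ‖x - c‖ ^ 2 ≤ (R * lam / 4) ^ 2 := by gcongr
    have h6 : (16 * lam) ^ 2 ≤ (R * lam) ^ 2 := by gcongr
    nlinarith
  linarith

end StW

open P218FT P218FT.Step StW in
theorem stepW_of (hB : BarrierW) (hBad : BadW) (hGap : GapW) : StepW := by
  intro D G ε r C R Λ η hε hε1 hr hC hR hη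
  obtain ⟨D', hD1, hD2⟩ : ∃ D' : ℝ, D ≤ D' ∧ 0 < D' :=
    ⟨max D 1, le_max_left _ _, lt_max_of_lt_right one_pos⟩
  obtain ⟨G', hG1, hG2⟩ : ∃ G' : ℝ, G ≤ G' ∧ 0 < G' :=
    ⟨max G 1, le_max_left _ _, lt_max_of_lt_right one_pos⟩
  obtain ⟨Λ', hΛ1, hΛ2⟩ : ∃ Λ' : ℝ, Λ ≤ Λ' ∧ 0 < Λ' :=
    ⟨max Λ 1, le_max_left _ _, lt_max_of_lt_right one_pos⟩
  obtain ⟨P, hP⟩ : ∃ P : ℝ, P = G' * (3 + 32 * Λ' * D' * R ^ 2) := ⟨_, rfl⟩
  have hP0 : 0 < P := by rw [hP]; positivity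
  obtain ⟨L, hL⟩ : ∃ L : ℝ, L = 288 * P / η := ⟨_, rfl⟩
  have hL0 : 0 < L := by rw [hL]; positivity
  obtain ⟨σ, Γ, κ, hσ, hΓ, hκ, hBad⟩ := hBad D' ε r C L hε hε1 hr hC
  obtain ⟨θ, hθ0, hθ1, hθ2⟩ : ∃ θ : ℝ, 0 < θ ∧ θ ≤ 1 ∧ Λ' * D' * θ ≤ κ / 2 := by
    refine ⟨min 1 (κ / 2 / (Λ' * D')), by positivity, min_le_left _ _, ?_⟩
    rw [mul_comm, ← le_div_iff₀ (by positivity)]
    exact min_le_right _ _
  obtain ⟨δ, hδ0, hδ1, hδ2⟩ : ∃ δ : ℝ, 0 < δ ∧ δ ≤ 1 ∧ δ ≤ η * κ / 64512 :=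
    ⟨min 1 (η * κ / 64512), by positivity, min_le_left _ _, min_le_right _ _⟩
  refine ⟨θ / Γ, δ, by positivity, hδ0, ?_⟩
  intro μ M J I hM c t₁ t₂ lam m hlam hm hmm hI ht1 ht2 hdiss hcov
  have hl2 : 0 < lam ^ 2 := by positivity
  have h := hM.wf.mono_D hD1
  have hlgb : ∀ t ∈ J, LGB G' (M t) := fun t ht p r hr =>
    (hM.lgb t ht p r hr).trans (by gcongr)
  replace hdiss : dis2 M (Λ' / lam ^ 2) c (4 * R * lam) (t₁ - lam ^ 2) t₂ ≤
      ENNReal.ofReal (δ * lam ^ 2) :=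
    (dis2_mono (by gcongr) Subset.rfl le_rfl le_rfl).trans hdiss
  have hRl : 16 * lam ≤ R * lam := by gcongr
  have hθl : θ * lam ≤ lam := mul_le_of_le_one_left hlam.le hθ1
  have hθl2 : t₁ - lam ^ 2 + (θ * lam) ^ 2 ≤ t₁ := by
    have : (θ * lam) ^ 2 ≤ lam ^ 2 := by gcongr
    linarith
  have hd0 := total_diss_le (M := cut M J) (c := c) (T₀ := t₁ - lam ^ 2) (t₂ := t₂) hD2.le hΛ2.le
    (show 0 < R by linarith) hlam hδ0.le hδ1 (by linarith) (by linarith) (fun s _ => ratio_cut h s)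
    (by rw [diss_cut h hI]; exact diss_le_dis2.trans hdiss)
  have htot := total_a2_le hG2.le (by linarith) (by linarith) (by positivity)
    (fun s _ => lgb_cut hlgb s) c hd0
  have hPl : G' * (t₂ - (t₁ - lam ^ 2) + (1 + 32 * Λ' * D' * R ^ 2) * lam ^ 2) ≤ P * lam ^ 2 := by
    rw [hP, mul_assoc G']
    exact mul_le_mul_of_nonneg_left (by linarith) hG2.le
  replace htot := htot.trans (ENNReal.ofReal_le_ofReal hPl)
  have hI' : Icc t₁ t₂ ⊆ I := (Icc_subset_Icc_left (by linarith)).trans hI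
  have hΓm : ∀ s, s ≤ m * lam → Γ * s ≤ θ * lam := by
    intro s hs
    have h1 : Γ * m ≤ θ := by rwa [le_div_iff₀' (by linarith)] at hmm
    calc Γ * s ≤ Γ * (m * lam) := by gcongr
      _ = Γ * m * lam := by ring
      _ ≤ _ := by gcongr
  refine final hR hlam hm (by positivity) ht1 ht2 (hB D' μ M J I h t₁ t₂ c (R * lam) (m * lam)
    (lam ^ 2 / 2) (η * lam ^ 2 / 8) (by linarith) hI' (by linarith) (by positivity) ?_ hcov ?_)
  · refine lt_of_le_of_lt ?_ (htot.trans_lt ENNReal.ofReal_lt_top)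
    rw [← cut_congr h measurableSet_Icc hI' fun _ N =>
      ∫⁻ x in ball c (2 * (R * lam)), ENNReal.ofReal (a2 N x) ∂(area N), ← mul_assoc]
    refine le_trans (lintegral_mono fun s => lintegral_mono fun y => ?_)
      (lintegral_mono_set (Icc_subset_Icc_left (by linarith)))
    exact ENNReal.ofReal_le_ofReal (le_max_left _ _)
  intro τ hτ hτm
  obtain ⟨-, hG2', hG3⟩ := hGap D' ε r C μ M J I hε h hM.white
  have hτσ : τ / σ ≤ θ * lam := by
    have h1 : τ / σ ≤ τ := div_le_self hτ.le hσ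
    have h2 : τ ≤ Γ * τ := le_mul_of_one_le_left hτ.le hΓ
    linarith [hΓm τ hτm]
  obtain ⟨K₀, hK₀, hK₀s, hK₀r, hK₀d⟩ := hG2'
    (track M (Icc t₁ t₂) ∩ Icc t₁ t₂ ×ˢ closedBall c (3 * (R * lam) / 2)) (τ / σ)
    ((isCompact_Icc.prod (isCompact_closedBall _ _)).inter_left
      (h.isClosed_track isClosed_Icc hI')) (by positivity)
    (fun p hp => ⟨hp.1.2, (Icc_sub hθl2 hp.1.1 (by positivity) hτσ).trans hI⟩)
  refine ⟨K₀, hK₀, hK₀s.trans inter_subset_left, hK₀r, fun K hK hKs hKr => ?_⟩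
  obtain ⟨ρ₀, hρ₀, hG3⟩ := hG3 K hK (fun p hp => ⟨hI' (hKs hp).1, (hKs hp).2⟩)
    fun p hp => (hKr p hp).1
  obtain ⟨r₀, C₀, hr₀, hC₀, hT⟩ := (mcfOn h).exists_twoPt_compact hK
    fun p hp => ⟨hI' (hKs hp).1, (hKr p hp).1⟩
  obtain ⟨ρ₁, hρ₁, k1, k2, k3, k4⟩ : ∃ ρ₁ : ℝ, 0 < ρ₁ ∧ ρ₁ ≤ min r₀ (1 / (2 * C₀)) / σ ∧
      ρ₁ ≤ τ / σ ∧ ρ₁ ≤ ρ₀ / 2 ∧ ρ₁ ≤ lam :=
    ⟨min (min r₀ (1 / (2 * C₀)) / σ) (min (τ / σ) (ρ₀ / 2)), by positivity, min_le_left _ _,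
      (min_le_right _ _).trans (min_le_left _ _), (min_le_right _ _).trans (min_le_right _ _),
      ((min_le_right _ _).trans (min_le_left _ _)).trans (hτσ.trans hθl)⟩
  obtain ⟨lH, hlH, hmH, hcH⟩ := StW.H_part h hD2 c (R₁ := 3 * (R * lam) / 2) (t₁ := t₁)
    (θ := θ * lam) hI hκ (by positivity) (by positivity) hρ₁ (by linarith) hθl2 (by
      calc Λ' / lam ^ 2 * (D' * (θ * lam) ^ 2) = Λ' * D' * θ * θ := by field_simp
        _ ≤ Λ' * D' * θ := mul_le_of_le_one_right (by positivity) hθ1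
        _ ≤ _ := hθ2) hdiss
  obtain ⟨lA, hlA, hmA, hcA⟩ := StW.A_part h c (R₁ := 3 * (R * lam) / 2) (t₁ := t₁) (θ := θ * lam)
    (P := P * lam ^ 2) hI (by positivity) hρ₁ (by linarith) hθl2 htot
  refine ⟨scale (2 / L) lA + scale 2 lH,
    valid_add (valid_scale (by positivity) hlA) (valid_scale (by norm_num) hlH), ?_, ?_⟩
  · rw [mass_add, Step.mass_scale, Step.mass_scale]
    have h1 : 2 / L * mass lA ≤ η * lam ^ 2 / 16 := by
      calc _ ≤ 2 / L * (9 * (P * lam ^ 2)) := by gcongr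
        _ = _ := by rw [hL]; field_simp; norm_num
    have h2 : mass lH ≤ η * lam ^ 2 / 32 := by
      calc _ ≤ 2016 * (δ * lam ^ 2 / κ) := hmH
        _ ≤ 2016 * (η * κ / 64512 * lam ^ 2 / κ) := by gcongr
        _ = _ := by field_simp; norm_num
    linarith
  rintro ⟨t, x⟩ hp hcase
  obtain ⟨ht, hx⟩ := hKs hp
  obtain ⟨hreg, hxc⟩ := hKr _ hp
  simp only at ht hx hxc hcase ⊢
  obtain ⟨s, hs0, hsm, hs1, hsep, hs2⟩ : ∃ s, 0 < s ∧ s ≤ m * lam ∧ ρ₁ ≤ s / σ ∧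
      SepGE (M t) x s ∧ (Bad (M t) x s ∨ 1 + ε / 2 < densM μ x t (s / σ)) := by
    rcases hcase with ⟨s, hs, hb⟩ | ⟨h1, h2⟩
    · obtain ⟨y, hy, hne, h2, h3⟩ := hb.2
      have h4 := (hT _ hp hx).le_of_cone hC₀ hy hne (by rw [h2, h3])
      rw [h2] at h4
      refine ⟨s, lt_of_lt_of_le (by positivity) h4, hs, k1.trans (by gcongr), hb.1, Or.inl hb⟩
    · exact ⟨τ, hτ, hτm, k2, h2, Or.inr (not_le.1 fun h3 =>
        h1 (hK₀d _ ⟨⟨ht, hx⟩, ht, mem_closedBall_iff_norm.2 hxc⟩ h3))⟩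
  have hΓs := hΓm s hsm
  obtain ⟨ρ, hρ0, hρs, hρl, hρ⟩ := hBad μ M J I h hM.white t x s hs0 hx hreg hsep hs2
    ((Icc_sub hθl2 ht (by positivity) hΓs).trans hI)
  have hρ1 : ρ₁ ≤ ρ := by
    rcases hρl with h1 | h1
    · rwa [h1]
    · have : ¬ 2 * ρ ≤ ρ₀ := fun h2 => not_le.2 h1 (hG3 _ hp (2 * ρ) (by positivity) h2)
      linarith [not_le.1 this]
  have hq0 : 0 < Γ * ρ := by positivity
  have hq1 : Γ * ρ ≤ θ * lam := le_trans (by gcongr) hΓs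
  rw [bar_add, Step.bar_scale, Step.bar_scale]
  have hn1 := bar_nonneg hlA t x
  have hn2 := bar_nonneg hlH t x
  rcases hρ with hρ | hρ
  · have h1 := hcA x t _ ρ L hxc ht hq0 hq1 hρ1 hρ
    have h2 : 2 ≤ 2 / L * bar lA t x := by
      rw [div_mul_eq_mul_div, le_div_iff₀ hL0]; linarith
    linarith
  · have h4 := hcH x t _ hxc ht (hρ1.trans (le_mul_of_one_le_left hρ0.le hΓ)) hq1 hρ
    have h5 : 0 ≤ 2 / L * bar lA t x := by positivity
    linarith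

end Vale.Agent.P218G
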