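import Vale.Agent.P218G.ScaleW
import Vale.Agent.P218G.Drop
import Vale.Agent.P218FT.T1
import Vale.Agent.P218FT.Fin
import Vale.Agent.P218FT.NC
import Vale.Agent.P218FT.Trans

/-! Block T1 in the weak class: iteration of the step lemma towards the singular time, density
ratios close to one at a fixed small scale, and regularity by the local regularity theorem. -/

open MeasureTheory Set Filter Topology Metric
open scoped ENNReal NNReal RealInnerProductSpace ContDiff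

namespace Vale.Agent.P218G

open P218FT P218FT.TT

variable {D G ε r C : ℝ} {μ : ℝ → Measure E3} {M : ℝ → Set E3} {J I : Set ℝ}

/-- the singular points and the points of small separation are uniformly small along the rescaled
flow -/
def M1W : Prop :=
  ∀ (D G ε r C : ℝ) (μ : ℝ → Measure E3) (M : ℝ → Set E3) (J : Set ℝ) (a b : ℝ), 0 < ε → ε ≤ 1 →
    0 < r → 0 < C → a < b → InW D G ε r C μ M J (Ioo a b) →
    ∀ (x₀ : E3) (R η : ℝ), 0 < η → ∃ m : ℝ, 0 < m ∧ ∀ᶠ lam in 𝓝[>] (0 : ℝ),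
      CovW M (b - lam ^ 2) x₀ (R * lam) (m * lam) (η * lam ^ 2)

/-- density ratios at a small fixed scale are close to one along the rescaled flow -/
def T0W : Prop :=
  ∀ (D G ε r C : ℝ) (μ : ℝ → Measure E3) (M : ℝ → Set E3) (J : Set ℝ) (a b : ℝ), 0 < ε → ε ≤ 1 →
    0 < r → 0 < C → a < b → InW D G ε r C μ M J (Ioo a b) →
    ∀ (x₀ : E3) (R ε' : ℝ), 0 < ε' → ∃ r' : ℝ, 0 < r' ∧ r' ≤ 1 ∧ ∀ᶠ lam in 𝓝[>] (0 : ℝ),
      ∀ y : E3, ‖y - x₀‖ ≤ R * lam → densM μ y (b - lam ^ 2) (r' * lam) ≤ 1 + ε'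

namespace T1

theorem reg_of_mcf (h : IsMCF M J) {t : ℝ} (ht : t ∈ J) (x : E3) : Reg M (t, x) :=
  (continuous_fst.continuousAt.eventually (h.isOpen.mem_nhds ht)).mono fun q hq hm =>
    h.loc q.1 hq q.2 hm

theorem covW_mono {t : ℝ} {c c' : E3} {R R' m m' η η' : ℝ} (h : CovW M t c R m η)
    (hR : R' + ‖c' - c‖ ≤ R) (hm : m' ≤ m) (hη : η ≤ η') : CovW M t c' R' m' η' := by
  obtain ⟨l, h1, h2, h3, h4⟩ := h
  refine ⟨l, h1, h2, h3.trans hη, fun x hx hxc hs =>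
    h4 x hx ?_ fun hr h => hs hr (sep_mono h hm)⟩
  calc ‖x - c‖ = ‖(x - c') + (c' - c)‖ := by congr 1; abel
    _ ≤ ‖x - c'‖ + ‖c' - c‖ := norm_add_le _ _
    _ ≤ R := by linarith

theorem cov_of_covW {t : ℝ} {c : E3} {R m η : ℝ} (h : CovW M t c R m η) : Cov (M t) t c R m η := by
  obtain ⟨l, h1, h2, h3, h4⟩ := h
  exact ⟨l, h1, h2, h3, fun x hx hxc hs => h4 x hx hxc fun _ => hs⟩

theorem dis2_mono' {Λ Λ' : ℝ} {c c' : E3} {r r' a a' b b' : ℝ}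
    (hΛ : Λ' ≤ Λ) (hr : r + ‖c - c'‖ ≤ r') (ha : a' ≤ a) (hb : b ≤ b') :
    dis2 M Λ c r a b ≤ dis2 M Λ' c' r' a' b' :=
  dis2_mono hΛ (ball_subset_ball' (by rwa [dist_eq_norm])) ha hb

theorem inW_mono (h : InW D G ε r C μ M J I) {D' G' : ℝ} (hD : D ≤ D') (hG : G ≤ G') :
    InW D' G' ε r C μ M J I :=
  ⟨h.wf.mono_D hD, h.white, fun t ht p r hr => (h.lgb t ht p r hr).trans (by gcongr)⟩

theorem m1W_proof (hstep : StepW) (hdiss : DissW) : M1W := by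
  intro D G ε r C μ M J a b hε hε1 hr hC hab hM x₀ R η hη
  obtain ⟨R', hR16, hRR⟩ : ∃ R', 16 ≤ R' ∧ R ≤ R' := ⟨_, le_max_right R 16, le_max_left _ _⟩
  obtain ⟨η', hη0, hη1, hη2⟩ : ∃ η', 0 < η' ∧ η' ≤ 1 / 2 ∧ η' ≤ η :=
    ⟨min η (1 / 2), lt_min hη (by norm_num), min_le_right _ _, min_le_left _ _⟩
  obtain ⟨Λ, -, hΛ⟩ := hdiss D μ M J a b hab hM.wf x₀ (4 * R') (by linarith)
  obtain ⟨m₀, δ, hm₀, hδ, hS⟩ :=
    hstep D G ε r C R' Λ (η' / 4096) hε hε1 hr hC hR16 (by positivity)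
  obtain ⟨l₀, hl₀, hl⟩ := ev_pos ((hΛ δ hδ).and (ev_time hab 2))
  set P : ℝ → ℝ → Prop := fun l m =>
    CovW M (b - l ^ 2) x₀ (R' * l) (m * l) (η' * l ^ 2) with hP
  have Pmono : ∀ l m m', 0 < l → m' ≤ m → P l m → P l m' := fun l m m' h0 hm h =>
    covW_mono h (by simp) (by gcongr) le_rfl
  have step : ∀ l L m, 0 < l → 8 * l ≤ L → L ≤ 64 * l → L ≤ l₀ → 0 < m → m ≤ m₀ → P L m →
      P l (2 * m) := by
    intro l L m h0 h8 h64 h1 hm hmm h
    have hL : 0 < L := by linarith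
    obtain ⟨hd, ha⟩ := hl L hL h1
    have hl2 : 0 < l ^ 2 := by positivity
    have q1 : 64 * l ^ 2 ≤ L ^ 2 := by nlinarith
    have q2 : L ^ 2 ≤ 4096 * l ^ 2 := by nlinarith
    have := hS μ M J _ hM x₀ (b - L ^ 2) (b - l ^ 2) L m hL hm hmm
      (fun t ht => ⟨by linarith [ht.1], by linarith [ht.2]⟩) (by linarith) (by linarith)
      ((dis2_mono' le_rfl (by simp) (by linarith) (by linarith)).trans hd)
      (covW_mono h (by simp) le_rfl (by nlinarith))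
    refine covW_mono this ?_ (by nlinarith) (by nlinarith)
    simp only [sub_self, norm_zero, add_zero]
    nlinarith
  have ha₀ := (hl l₀ hl₀ le_rfl).2
  have hl₀2 : 0 < l₀ ^ 2 := by positivity
  obtain ⟨t₂, ⟨ht1, ht2⟩, htJ⟩ := hM.wf.exists_Ioo (a := b - l₀ ^ 2) (b := b) (by linarith)
    fun t ht => ⟨by linarith [ht.1], ht.2⟩
  obtain ⟨L, hL0, hLt⟩ : ∃ L, 0 < L ∧ b - L ^ 2 = t₂ :=
    ⟨√(b - t₂), Real.sqrt_pos.2 (by linarith), by rw [Real.sq_sqrt (by linarith)]; ring⟩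
  have hL1 : L ≤ l₀ := (sq_le_sq₀ hL0.le hl₀.le).mp (by linarith)
  obtain ⟨s, hs, hsep⟩ := sepPos_proof M _ hM.wf.mcf t₂ t₂ x₀ (R' * L)
    (fun t ht => by rwa [le_antisymm ht.2 ht.1])
  obtain ⟨m₁, hm₁0, hm₁m, hm₁s⟩ : ∃ m₁, 0 < m₁ ∧ m₁ ≤ m₀ ∧ m₁ * L ≤ s :=
    ⟨min m₀ (s / L), lt_min hm₀ (by positivity), min_le_left _ _,
      (le_div_iff₀ hL0).1 (min_le_right _ _)⟩
  have first : P L m₁ := by
    simp only [hP, hLt]
    refine ⟨0, fun s hs => by simp at hs, fun s hs => by simp at hs, ?_, fun x hx hxc hn => ?_⟩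
    · simp only [mass, Multiset.map_zero, Multiset.sum_zero]
      positivity
    · exact absurd (sep_mono (hsep _ ⟨le_rfl, le_rfl⟩ x hx hxc) hm₁s)
        (hn (reg_of_mcf hM.wf.mcf htJ x))
  obtain ⟨l₁, hl₁, rfl⟩ : ∃ l₁, 0 < l₁ ∧ L = 8 * l₁ := ⟨L / 8, by positivity, by ring⟩
  have start : ∀ l, l₁ / 8 ≤ l → l ≤ l₁ → P l m₁ := fun l h1 h2 =>
    Pmono l _ _ (by linarith) (by linarith)
      (step l _ m₁ (by linarith) (by linarith) (by linarith) hL1 hm₁0 hm₁m first)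
  have step' : ∀ l m, 0 < l → 8 * l ≤ l₁ → 0 < m → m ≤ m₀ → P (8 * l) m → P l (2 * m) :=
    fun l m h0 h1 => step l _ m h0 le_rfl (by linarith) (by linarith)
  have all1 : ∀ n : ℕ, ∀ l, l₁ / 8 ^ (n + 1) ≤ l → l ≤ l₁ → P l m₁ := by
    intro n
    induction n with
    | zero => intro l h1 h2; exact start l (by simpa using h1) h2
    | succ n ih =>
      intro l h1 h2
      have h0 : 0 < l := lt_of_lt_of_le (by positivity) h1
      by_cases h3 : l₁ / 8 ≤ l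
      · exact start l h3 h2
      · have h4 : 8 * l ≤ l₁ := by linarith
        refine Pmono l _ _ h0 (by linarith) (step' l m₁ h0 h4 hm₁0 hm₁m (ih _ ?_ h4))
        rw [div_le_iff₀ (by positivity)] at h1 ⊢
        calc l₁ ≤ l * 8 ^ (n + 1 + 1) := h1
          _ = 8 * l * 8 ^ (n + 1) := by ring
  have all2 : ∀ k : ℕ, ∀ l, 0 < l → 8 ^ k * l ≤ l₁ → P l (min (2 ^ k * m₁) m₀) := by
    intro k
    induction k with
    | zero =>
      intro l h0 h1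
      obtain ⟨n, hn⟩ := pow_unbounded_of_one_lt (l₁ / l) (show (1 : ℝ) < 8 by norm_num)
      refine Pmono l _ _ h0 (by simp) (all1 n l ?_ (by simpa using h1))
      rw [div_lt_iff₀ h0] at hn
      rw [div_le_iff₀ (by positivity), pow_succ]
      nlinarith [mul_pos h0 (show (0 : ℝ) < 8 ^ n by positivity)]
    | succ k ih =>
      intro l h0 h1
      have h8 : (1 : ℝ) ≤ 8 ^ k := one_le_pow₀ (by norm_num)
      have h2 : 8 ^ k * (8 * l) ≤ l₁ := by rw [pow_succ] at h1; linarith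
      have h3 := step' l _ h0 (by nlinarith) (lt_min (by positivity) hm₀) (min_le_right _ _)
        (ih (8 * l) (by positivity) h2)
      refine Pmono l _ _ h0 ?_ h3
      rcases le_total (2 ^ k * m₁) m₀ with h | h
      · rw [min_eq_left h, pow_succ]
        exact (min_le_left _ _).trans (le_of_eq (by ring))
      · rw [min_eq_right h]
        exact (min_le_right _ _).trans (by linarith)
  obtain ⟨K, hK⟩ := pow_unbounded_of_one_lt (m₀ / m₁) (show (1 : ℝ) < 2 by norm_num)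
  rw [div_lt_iff₀ hm₁0] at hK
  refine ⟨m₀, hm₀, ev_of (show 0 < l₁ / 8 ^ K by positivity) fun l h0 h1 => ?_⟩
  have := all2 K l h0 (by rw [le_div_iff₀ (by positivity)] at h1; linarith)
  rw [min_eq_right hK.le] at this
  refine covW_mono this ?_ le_rfl (by gcongr)
  simp only [sub_self, norm_zero, add_zero]
  gcongr

theorem drop_zoom {ρ : ℝ} (hρ : 0 < ρ) (h : WF D μ M J I) (x₀ : E3) {t₀ a b : ℝ}
    (hI : Ioo (t₀ + a * ρ ^ 2) (t₀ + b * ρ ^ 2) ⊆ I) (c : E3) (r : ℝ) :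
    drop (scaleFlow ρ⁻¹ x₀ t₀ M) (Ioo a b ×ˢ ball c r) = ENNReal.ofReal ((ρ ^ 2)⁻¹) *
      drop M (Ioo (t₀ + a * ρ ^ 2) (t₀ + b * ρ ^ 2) ×ˢ ball (x₀ + ρ • c) (r * ρ)) := by
  have hl := inv_pos.2 hρ
  rw [← preimage_up_cyl (x₀ := x₀) (t₀ := t₀) hl, Sc.tzoom, Sc.tzoom, inv_inv, div_inv_eq_mul,
    drop_scale hl fun p hp => h.measurableSet_slice (hI hp.1), inv_pow]

/-- `StaticW` at an arbitrary centre and scale -/
theorem static_zoom (h : WF D μ M J I) (hD : 0 ≤ D) {ζ : E3 → ℝ} {R K : ℝ} (hR : 0 < R)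
    (hζ : Test ζ 0 R K) (y : E3) {s a' a b b' α d d' : ℝ} (hs : 0 < s) (ha : a' < a) (hab : a ≤ b)
    (hb : b < b') (hI : Ioo a' b' ⊆ I) (hα : 0 < α) (hd : 0 ≤ d) (hd' : 0 ≤ d')
    (hdiss : diss M 0 y (R * s) a b ≤ ENNReal.ofReal d)
    (hdrop : drop M (Ioo a' b' ×ˢ ball y (2 * R * s)) ≤ ENNReal.ofReal d') :
    |∫ x, ζ (s⁻¹ • (x - y)) ∂(μ b) - ∫ x, ζ (s⁻¹ • (x - y)) ∂(μ a)|
      ≤ K * (α * (D * R ^ 2) * (b - a) + (1 + α⁻¹) * d + d') := by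
  have hl := inv_pos.2 hs
  have h2 : 0 < s ^ 2 := by positivity
  have e : ∀ a : ℝ, (0 : ℝ) + a / s ^ 2 * s ^ 2 = a := fun a => by field_simp; ring
  have e' : ∀ d : ℝ, ENNReal.ofReal (s ^ 2)⁻¹ * ENNReal.ofReal d = ENNReal.ofReal (d / s ^ 2) :=
    fun d => by rw [← ENNReal.ofReal_mul (by positivity), inv_mul_eq_div]
  have hI' : Icc a b ⊆ I := (Icc_subset_Ioo ha hb).trans hI
  have := (h.scale hl y 0).static hD (R' := 2 * R) (a' := a' / s ^ 2) (a := a / s ^ 2)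
    (b := b / s ^ 2) (b' := b' / s ^ 2) (d := d / s ^ 2) (d' := d' / s ^ 2) hR (by linarith) hζ
    (by gcongr) (by gcongr) (by gcongr) (fun t ht => hI (by
      rw [Sc.tzoom, zero_add]
      exact ⟨(div_lt_iff₀ h2).1 ht.1, (lt_div_iff₀ h2).1 ht.2⟩)) hα (by positivity) (by positivity)
    (by
      rw [h.diss_zoom hs (by rwa [e, e]), e, e, zero_div, smul_zero, add_zero, ← e']
      gcongr)
    (by
      rw [drop_zoom hs h y (by rwa [e, e]), e, e, smul_zero, add_zero, ← e']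
      gcongr)
  rw [integral_zoomM hs, integral_zoomM hs, e, e, smul_eq_mul, smul_eq_mul, ← mul_sub, abs_mul,
    abs_of_pos (inv_pos.2 h2), inv_mul_le_iff₀ h2] at this
  refine this.trans (le_of_eq ?_)
  field_simp

theorem exists_timeJ (h : WF D μ M J I) (g : ℝ → ℝ≥0∞) {a b c d : ℝ} (hI : Icc a b ⊆ I)
    (hc : 0 ≤ c) (hd : 0 ≤ d) (hdc : d < c * (b - a))
    (hg : ∫⁻ t in Icc a b, g t ≤ ENNReal.ofReal d) :
    ∃ t ∈ Icc a b, t ∈ J ∧ g t ≤ ENNReal.ofReal c := by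
  by_contra hn
  push Not at hn
  have h1 : ∫⁻ _t in Icc a b, ENNReal.ofReal c ≤ ∫⁻ t in Icc a b, g t := by
    refine lintegral_mono_ae ?_
    filter_upwards [h.ae_Icc hI, ae_restrict_mem measurableSet_Icc] with t h1 h2 using
      (hn t h2 h1).le
  rw [setLIntegral_const, Real.volume_Icc, ← ENNReal.ofReal_mul hc] at h1
  exact absurd ((ENNReal.ofReal_le_ofReal_iff hd).mp (h1.trans hg)) (not_le.mpr hdc)

theorem diss_levelW (h : WF D μ M J I) (hD : 0 ≤ D) {a b : ℝ} (hI : Icc a b ⊆ I) (y : E3)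
    {r Λ : ℝ} (hr : 0 < r) (hΛ : 0 ≤ Λ) :
    diss M 0 y r a b ≤ diss M Λ y r a b + ENNReal.ofReal (Λ * (D * r ^ 2) * (b - a)) := by
  unfold diss
  calc ∫⁻ t in Icc a b, ∫⁻ x in ball y r, ENNReal.ofReal (‖Hv (M t) x‖ ^ 2 - 0) ∂(area (M t))
      ≤ ∫⁻ t in Icc a b, (∫⁻ x in ball y r, ENNReal.ofReal (‖Hv (M t) x‖ ^ 2 - Λ) ∂(area (M t)) +
          ENNReal.ofReal (Λ * (D * r ^ 2))) := by
        refine lintegral_mono_ae ((h.ae_Icc hI).mono fun t ht => ?_)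
        simp only [sub_zero]
        exact lintegral_level _ _ _ hΛ (h.areaRatio ht y r hr)
    _ = _ := by
        rw [lintegral_add_right _ measurable_const, setLIntegral_const, Real.volume_Icc,
          ← ENNReal.ofReal_mul (by positivity)]

theorem cut_compareM {ζ : E3 → ℝ} {ρ K : ℝ} (hζ : Test ζ 0 (2 * ρ) K) (h0 : ∀ z, 0 ≤ ζ z)
    (h1 : ∀ z, ζ z ≤ gk 1 z) (h2 : ∀ z, ‖z‖ < ρ → ζ z = gk 1 z) {ν : Measure E3}
    (hN : MRatio D ν) (y : E3) {s : ℝ} (hs : 0 < s) :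
    (s ^ 2)⁻¹ * ∫ x, ζ (s⁻¹ • (x - y)) ∂ν ≤ gM ν y s ∧
      gM ν y s ≤ (s ^ 2)⁻¹ * ∫ x, ζ (s⁻¹ • (x - y)) ∂ν +
        ∫ x in (ball y (ρ * s))ᶜ, gk (s ^ 2) (x - y) ∂ν := by
  have hi := hN.integrable_gk y (show 0 < s ^ 2 by positivity)
  have hle : ∀ x, (s ^ 2)⁻¹ * ζ (s⁻¹ • (x - y)) ≤ gk (s ^ 2) (x - y) := fun x => by
    rw [gk_scale hs]; gcongr; exact h1 _
  have hc : Continuous fun x : E3 => (s ^ 2)⁻¹ * ζ (s⁻¹ • (x - y)) :=
    continuous_const.mul (hζ.continuous.comp (by fun_prop))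
  have hi2 : Integrable (fun x : E3 => (s ^ 2)⁻¹ * ζ (s⁻¹ • (x - y))) ν := by
    refine hi.mono' hc.aestronglyMeasurable (Eventually.of_forall fun x => ?_)
    rw [Real.norm_eq_abs, abs_of_nonneg (mul_nonneg (by positivity) (h0 _))]
    exact hle x
  rw [← integral_const_mul]
  refine ⟨integral_mono hi2 hi hle, ?_⟩
  rw [← integral_indicator measurableSet_ball.compl,
    ← integral_add hi2 (hi.indicator measurableSet_ball.compl)]
  refine integral_mono hi (hi2.add (hi.indicator measurableSet_ball.compl)) fun x => ?_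
  by_cases hx : x ∈ ball y (ρ * s)
  · have : ‖s⁻¹ • (x - y)‖ < ρ := by
      rw [norm_smul, norm_inv, Real.norm_eq_abs, abs_of_pos hs, inv_mul_lt_iff₀ hs, mul_comm]
      exact mem_ball_iff_norm.mp hx
    simp only [indicator_of_notMem (show x ∉ (ball y (ρ * s))ᶜ from fun h => h hx), add_zero]
    rw [h2 _ this, gk_scale hs]
  · simp only [indicator_of_mem (show x ∈ (ball y (ρ * s))ᶜ from hx)]
    have : 0 ≤ (s ^ 2)⁻¹ * ζ (s⁻¹ • (x - y)) := mul_nonneg (by positivity) (h0 _)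
    linarith

/-- iteration of the step lemma towards the point `(y, t)` -/
theorem chainW {y : E3} {t lam m η : ℝ} {n : ℕ} (hlam : 0 < lam) (hm : 0 < m)
    (hη : η ≤ 1 / 128)
    (hS : ∀ j ≤ n, ∀ t₂, (us j * lam) ^ 2 / 2 ≤ t₂ - (t - (us j * lam) ^ 2) → t₂ ≤ t →
      CovW M (t - (us j * lam) ^ 2) y (16 * (us j * lam))
        (m * (us j * lam)) ((us j * lam) ^ 2 / 2) →
      CovW M t₂ y (16 * (us j * lam) / 4) (m * (us j * lam) / 4) (η * (us j * lam) ^ 2))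
    (h0 : CovW M (t - (us 0 * lam) ^ 2) y (16 * (us 0 * lam))
        (m * (us 0 * lam)) ((us 0 * lam) ^ 2 / 2)) :
    ∀ j ≤ n, CovW M t y (us j * lam) (m / 4 * (us j * lam)) (η * (us j * lam) ^ 2) := by
  have key : ∀ j ≤ n, CovW M (t - (us j * lam) ^ 2) y (16 * (us j * lam))
      (m * (us j * lam)) ((us j * lam) ^ 2 / 2) := by
    intro j
    induction j with
    | zero => exact fun _ => h0
    | succ j ih =>
      intro hj
      have e : us (j + 1) * lam = us j * lam / 8 := by rw [us_add]; ring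
      have hl : 0 < us j * lam := mul_pos (us_pos j) hlam
      rw [e]
      set l := us j * lam
      have hl2 : 0 < l ^ 2 := by positivity
      refine covW_mono (hS j (by omega) (t - (l / 8) ^ 2) (by nlinarith) (by nlinarith)
        (ih (by omega))) ?_ (by nlinarith [mul_pos hm hl]) (by nlinarith)
      simp only [sub_self, norm_zero, add_zero]
      linarith
  intro j hj
  have hl : 0 < us j * lam := mul_pos (us_pos j) hlam
  set l := us j * lam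
  have hl2 : 0 < l ^ 2 := by positivity
  refine covW_mono (hS j hj t (by linarith) le_rfl (key j hj)) ?_ (le_of_eq (by ring)) le_rfl
  simp only [sub_self, norm_zero, add_zero]
  linarith

/-- transfer of a bound for the Gaussian mass to a slightly earlier time -/
theorem transferW {D Λ ε : ℝ} (hD : 0 < D) (hΛ : 0 ≤ Λ) (hε : 0 < ε) :
    ∃ L c ρ₁ : ℝ, 0 < L ∧ 0 < c ∧ 0 < ρ₁ ∧ ∀ (μ : ℝ → Measure E3) (M : ℝ → Set E3) (J I : Set ℝ),
      WF D μ M J I → ∀ (y : E3) (lam σ a' a b b' : ℝ), 0 < lam → 0 < σ →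
      σ ≤ ρ₁ * lam → a' < a → a ≤ b → b < b' → b - a ≤ σ ^ 2 → Ioo a' b' ⊆ I →
      dis2 M (Λ / lam ^ 2) y (L * σ) a' b' ≤ ENNReal.ofReal (c * σ ^ 2) →
      gM (μ a) y σ ≤ gM (μ b) y σ + ε := by
  obtain ⟨C₀, -, hG⟩ := gaussM
  obtain ⟨ρ, hρ, htail⟩ := (hG D hD.le).2 (ε / 2) (by positivity)
  obtain ⟨ζ, K, hζ, z0, z1, z2⟩ := TT.exists_cut hρ
  have hK := hζ.nonneg
  set α := ε / (6 * (K + 1) * (D * (2 * ρ) ^ 2)) with hα
  have hα0 : 0 < α := by positivity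
  set c := ε / (12 * (K + 1) * (1 + α⁻¹)) with hc
  have hc0 : 0 < c := by positivity
  obtain ⟨j, hj⟩ := (ev_small (f := fun u => Λ * (D * (2 * ρ) ^ 2) * u ^ 2) (by fun_prop) (by simp)
    hc0).exists
  refine ⟨2 * (2 * ρ), c, us j, by positivity, hc0, us_pos j,
    fun μ M J I hM y lam σ a' a b b' hlam hσ hσl ha hab hb hba hI hd => ?_⟩
  have hI' : Icc a b ⊆ I := (Icc_subset_Ioo ha hb).trans hI
  have hρσ : 0 < ρ * σ := by positivity
  have hd2 : diss M 0 y (2 * ρ * σ) a b ≤ ENNReal.ofReal (2 * c * σ ^ 2) := by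
    refine (diss_levelW hM hD.le hI' y (by positivity)
      (show 0 ≤ Λ / lam ^ 2 by positivity)).trans ?_
    rw [show 2 * c * σ ^ 2 = c * σ ^ 2 + c * σ ^ 2 by ring,
      ENNReal.ofReal_add (by positivity) (by positivity)]
    refine add_le_add (((P218G.diss_mono le_rfl (ball_subset_ball (by linarith)) ha.le hb.le).trans
      diss_le_dis2).trans hd) (ENNReal.ofReal_le_ofReal ?_)
    calc Λ / lam ^ 2 * (D * (2 * ρ * σ) ^ 2) * (b - a)
        ≤ Λ / lam ^ 2 * (D * (2 * ρ * (us j * lam)) ^ 2) * σ ^ 2 := by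
          have : 0 ≤ b - a := sub_nonneg.mpr hab
          gcongr
      _ = Λ * (D * (2 * ρ) ^ 2) * us j ^ 2 * σ ^ 2 := by field_simp
      _ ≤ c * σ ^ 2 := by gcongr
  have hs := static_zoom hM hD.le (by positivity) hζ y hσ ha hab hb hI hα0 (by positivity)
    (by positivity) hd2 (drop_le_dis2.trans hd)
  have hma := hM.ratio a (hI' ⟨le_rfl, hab⟩)
  have hmb := hM.ratio b (hI' ⟨hab, le_rfl⟩)
  have c1 := (cut_compareM hζ z0 z1 z2 hma y hσ).2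
  have c2 := (cut_compareM hζ z0 z1 z2 hmb y hσ).1
  have c3 := htail (μ a) hma y σ hσ
  have e1 : K * (α * (D * (2 * ρ) ^ 2) * (b - a) + (1 + α⁻¹) * (2 * c * σ ^ 2) + c * σ ^ 2) ≤
      ε / 2 * σ ^ 2 := by
    have f1 : (K + 1) * (α * (D * (2 * ρ) ^ 2)) = ε / 6 := by rw [hα]; field_simp
    have f2 : (K + 1) * ((1 + α⁻¹) * (2 * c)) = ε / 6 := by rw [hc]; field_simp; norm_num
    have f3 : c * σ ^ 2 ≤ (1 + α⁻¹) * (2 * c * σ ^ 2) := by
      have := mul_pos hc0 (pow_pos hσ 2)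
      nlinarith [mul_pos (inv_pos.2 hα0) this]
    have : 0 ≤ b - a := sub_nonneg.mpr hab
    calc K * (α * (D * (2 * ρ) ^ 2) * (b - a) + (1 + α⁻¹) * (2 * c * σ ^ 2) + c * σ ^ 2)
        ≤ (K + 1) * (α * (D * (2 * ρ) ^ 2) * σ ^ 2 + (1 + α⁻¹) * (2 * c * σ ^ 2) +
            (1 + α⁻¹) * (2 * c * σ ^ 2)) := by
          gcongr
          linarith
      _ = ((K + 1) * (α * (D * (2 * ρ) ^ 2)) + 2 * ((K + 1) * ((1 + α⁻¹) * (2 * c)))) * σ ^ 2 := by
          ring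
      _ ≤ ε / 2 * σ ^ 2 := by
          rw [f1, f2]
          gcongr
          linarith
  have e2 := (abs_le.mp (hs.trans e1)).1
  have e3 : (σ ^ 2)⁻¹ * ∫ x, ζ (σ⁻¹ • (x - y)) ∂(μ a) ≤
      (σ ^ 2)⁻¹ * (∫ x, ζ (σ⁻¹ • (x - y)) ∂(μ b) + ε / 2 * σ ^ 2) := by
    gcongr
    linarith
  rw [mul_add, show (σ ^ 2)⁻¹ * (ε / 2 * σ ^ 2) = ε / 2 by field_simp] at e3
  linarith

/-- the covering at all scales between `lam` and `us n * lam` -/
theorem cover_scalesW {Λ η m₀ δs δ m₁ m l₂ R lam T t : ℝ} {x₀ y : E3}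
    {n : ℕ} (hη : η ≤ 1 / 128) (hδs : 0 < δs) (hm : 0 < m) (hm₀ : m ≤ m₀) (hm₁ : m ≤ m₁)
    (hΛ : 0 ≤ Λ) (hR : 0 ≤ R) (hlam : 0 < lam) (hlam2 : 2 * lam ≤ l₂) (hδ : δ ≤ δs * us n ^ 2)
    (hS : ∀ (c : E3) (t₁ t₂ lam m : ℝ), 0 < lam → 0 < m →
      m ≤ m₀ → Icc (t₁ - lam ^ 2) t₂ ⊆ I → lam ^ 2 / 2 ≤ t₂ - t₁ → t₂ - t₁ ≤ lam ^ 2 →
      dis2 M (Λ / lam ^ 2) c (4 * 16 * lam) (t₁ - lam ^ 2) t₂ ≤ ENNReal.ofReal (δs * lam ^ 2) →
      CovW M t₁ c (16 * lam) (m * lam) (lam ^ 2 / 2) →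
      CovW M t₂ c (16 * lam / 4) (m * lam / 4) (η * lam ^ 2))
    (hcov : ∀ l, 0 < l → l ≤ l₂ → CovW M (T + lam ^ 2 - l ^ 2) x₀
      ((R + 8) * l) (m₁ * l) (1 / 16 * l ^ 2))
    (hy : ‖y - x₀‖ ≤ R * lam) (hI : ∀ t, T - lam ^ 2 ≤ t → t ≤ T + lam ^ 2 / 2 → t ∈ I)
    (hloc : ∀ Λ' ρ a' b', Λ / lam ^ 2 ≤ Λ' → ρ ≤ 64 * lam → T - lam ^ 2 ≤ a' →
      b' ≤ T + lam ^ 2 / 2 → dis2 M Λ' y ρ a' b' ≤ ENNReal.ofReal (δ * lam ^ 2))
    (ht1 : T - lam ^ 2 / 4 ≤ t) (ht2 : t ≤ T) :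
    ∀ j ≤ n, CovW M t y (us j * lam) (m / 4 * (us j * lam)) (η * (us j * lam) ^ 2) := by
  have hl2 : 0 < lam ^ 2 := by positivity
  refine chainW hlam hm hη ?_ ?_
  · intro j hj t₂ h1 h2 hcv
    have hu := us_pos j
    have hun := us_pos n
    have hu2 : us j * lam ≤ 1 / 2 * lam := by gcongr; exact us_le j
    have hu3 : (us j * lam) ^ 2 ≤ (1 / 2 * lam) ^ 2 := by gcongr
    have hu5 : (us j * lam) ^ 2 ≤ lam ^ 2 / 4 := hu3.trans (le_of_eq (by ring))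
    have hu4 : us n ^ 2 ≤ us j ^ 2 := by gcongr; exact us_anti hj
    refine hS y _ t₂ (us j * lam) m (by positivity) hm hm₀
      (fun s hs => hI s (by linarith [hs.1]) (by linarith [hs.2])) h1 (by linarith) ?_ hcv
    refine (hloc _ _ _ _ ?_ (by linarith) (by linarith) (by linarith)).trans
      (ENNReal.ofReal_le_ofReal ?_)
    · gcongr
      linarith
    · calc δ * lam ^ 2 ≤ δs * us j ^ 2 * lam ^ 2 := by
            gcongr
            exact hδ.trans (by gcongr)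
        _ = _ := by ring
  · rw [us_zero]
    have e0 : (1 / 2 * lam) ^ 2 = lam ^ 2 / 4 := by ring
    have hpos : 0 ≤ T + lam ^ 2 - (t - (1 / 2 * lam) ^ 2) := by linarith
    have hsq := Real.sq_sqrt hpos
    set l := √(T + lam ^ 2 - (t - (1 / 2 * lam) ^ 2)) with hldef
    have hl0 : 0 ≤ l := Real.sqrt_nonneg _
    have h1 : lam ≤ l := (sq_le_sq₀ hlam.le hl0).mp (by linarith)
    have h2 : l ≤ 2 * lam := (sq_le_sq₀ hl0 (by positivity)).mp (by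
      rw [show (2 * lam) ^ 2 = 4 * lam ^ 2 by ring]; linarith)
    have := hcov l (by linarith) (by linarith)
    rw [show T + lam ^ 2 - l ^ 2 = t - (1 / 2 * lam) ^ 2 by linarith] at this
    refine covW_mono this ?_ ?_ (by linarith)
    · have := mul_le_mul_of_nonneg_left h1 (show 0 ≤ R + 8 by linarith)
      linarith
    · exact mul_le_mul hm₁ (by linarith) (by positivity) (by linarith)

theorem finS : FinS :=
  finS_of (fin_proof (nc_proof fv_proof Chart.lower_proof) (trans_proof fv_proof) Chart.proj_proof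
    gauss_proof)

theorem t0_pos (hstep : StepW) (hdiss : DissW) (hH : MonoW) (hD : 0 < D) (hG : 0 < G)
    (hε' : 0 < ε) (hε1 : ε ≤ 1) (hr' : 0 < r) (hC' : 0 < C) {a b : ℝ} (hab : a < b)
    (hM : InW D G ε r C μ M J (Ioo a b)) (x₀ : E3) {R e : ℝ} (hR : 0 ≤ R) (hε : 0 < e) :
    ∃ r : ℝ, 0 < r ∧ r ≤ 1 ∧ ∀ᶠ lam in 𝓝[>] (0 : ℝ),
      ∀ y : E3, ‖y - x₀‖ ≤ R * lam → densM μ y (b - lam ^ 2) (r * lam) ≤ 1 + e := by
  have hC : 0 < ∑' k, gcoef k := summable_gcoef.tsum_pos (fun k => (gcoef_pos k).le) 0 (gcoef_pos 0)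
  obtain ⟨c₀, hc₀⟩ : ∃ c₀, c₀ = (∑' k, gcoef k) * D := ⟨_, rfl⟩
  have hc₀0 : 0 < c₀ := by rw [hc₀]; positivity
  obtain ⟨ηf, hηf, hF⟩ := finS D (e / 2) (by positivity)
  obtain ⟨Λ, hΛ0, hΛ⟩ := hdiss D μ M J a b hab hM.wf x₀ (R + 64) (by linarith)
  obtain ⟨ηs, hηs0, hηs1, hηs2⟩ : ∃ ηs : ℝ, 0 < ηs ∧ ηs ≤ 1 / 128 ∧ c₀ * ηs ≤ ηf := by
    refine ⟨min (1 / 128) (ηf / c₀), lt_min (by norm_num) (by positivity), min_le_left _ _, ?_⟩
    calc c₀ * min (1 / 128) (ηf / c₀) ≤ c₀ * (ηf / c₀) := by gcongr; exact min_le_right _ _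
      _ = ηf := by field_simp
  obtain ⟨m₀, δs, hm₀, hδs, hS⟩ := hstep D G ε r C 16 Λ ηs hε' hε1 hr' hC' le_rfl hηs0
  obtain ⟨m₁, hm₁, hM1'⟩ := m1W_proof hstep hdiss D G ε r C μ M J a b hε' hε1 hr' hC' hab hM x₀
    (R + 8) (1 / 16) (by norm_num)
  clear hε' hε1 hr' hC'
  obtain ⟨m, hm0, hmm₀, hmm₁⟩ : ∃ m : ℝ, 0 < m ∧ m ≤ m₀ ∧ m ≤ m₁ :=
    ⟨min m₀ m₁, lt_min hm₀ hm₁, min_le_left _ _, min_le_right _ _⟩
  obtain ⟨r, J', h, hr, hr1, hJ, hh, hF⟩ := hF (m / 4) (by positivity)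
  obtain ⟨p, Kn, hflat⟩ := flat_scale hD (show 0 < 2 * G by positivity) (show 0 < J' by linarith) hh
  obtain ⟨L, c, ρ₁, hL, hc, hρ₁, htr⟩ := transferW hD hΛ0 (show 0 < e / 2 by positivity)
  obtain ⟨p₀, q1, q2, q3, q4⟩ : ∃ p₀, Λ * (D * (2 * (J' * us p₀)) ^ 2) ≤ 1 / 2 ∧
      2 * (J' * us p₀) ≤ 64 ∧ L * us p₀ ≤ 64 ∧ us p₀ ≤ ρ₁ :=
    ((ev_small (f := fun u => Λ * (D * (2 * (J' * u)) ^ 2)) (by fun_prop) (by simp)
      (by norm_num)).and
      ((ev_small (f := fun u => 2 * (J' * u)) (by fun_prop) (by simp) (by norm_num)).and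
      ((ev_small (f := fun u => L * u) (by fun_prop) (by simp) (by norm_num)).and
      (ev_small (f := fun u => u) (by fun_prop) rfl hρ₁)))).exists
  obtain ⟨n, hn⟩ : ∃ n, n = p₀ + p * Kn := ⟨_, rfl⟩
  obtain ⟨r₀, hr₀⟩ : ∃ r₀, r₀ = r * us n := ⟨_, rfl⟩
  have hun := us_pos n
  have hr₀0 : 0 < r₀ := by rw [hr₀]; positivity
  have hr₀u : r₀ ≤ us n := by rw [hr₀]; exact mul_le_of_le_one_left hun.le hr1
  have hr₀h : r₀ ≤ 1 / 2 := hr₀u.trans (us_le n)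
  obtain ⟨δ, hδ0, hδ1, hδ2, hδ3⟩ : ∃ δ : ℝ, 0 < δ ∧ δ ≤ δs * us n ^ 2 ∧ δ ≤ r₀ ^ 2 / 4 ∧
      δ ≤ c * r₀ ^ 2 :=
    ⟨min (δs * us n ^ 2) (min (r₀ ^ 2 / 4) (c * r₀ ^ 2)),
      lt_min (by positivity) (lt_min (by positivity) (by positivity)), min_le_left _ _,
      (min_le_right _ _).trans (min_le_left _ _), (min_le_right _ _).trans (min_le_right _ _)⟩
  obtain ⟨l₁, hl₁, hl⟩ := ev_pos ((hΛ δ hδ0).and (ev_time hab 2))
  obtain ⟨l₂, hl₂, hcov⟩ := ev_pos hM1'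
  refine ⟨r₀, hr₀0, by linarith, ev_of (lt_min hl₁ (half_pos hl₂)) fun lam hlam hle y hy => ?_⟩
  obtain ⟨hd, ha⟩ := hl lam hlam (hle.trans (min_le_left _ _))
  have hlam2 : 2 * lam ≤ l₂ := by linarith only [hle.trans (min_le_right _ _)]
  have hl2 : 0 < lam ^ 2 := by positivity
  obtain ⟨T, hT⟩ : ∃ T, T = b - lam ^ 2 := ⟨_, rfl⟩
  rw [← hT]
  have hI : ∀ t, T - lam ^ 2 ≤ t → t ≤ T + lam ^ 2 / 2 → t ∈ Ioo a b := fun t h1 h2 =>
    ⟨by linarith only [h1, ha, hT], by linarith only [h2, hT, hl2]⟩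
  have hloc : ∀ Λ' ρ a' b', Λ / lam ^ 2 ≤ Λ' → ρ ≤ 64 * lam → T - lam ^ 2 ≤ a' →
      b' ≤ T + lam ^ 2 / 2 → dis2 M Λ' y ρ a' b' ≤ ENNReal.ofReal (δ * lam ^ 2) :=
    fun Λ' ρ a' b' h1 h2 h3 h4 =>
      (dis2_mono' h1 (by linarith only [h2, hy]) (by linarith only [h3, hT])
        (by linarith only [h4, hT, hl2])).trans hd
  have hr2 : (r₀ * lam) ^ 2 ≤ lam ^ 2 / 4 := by
    calc (r₀ * lam) ^ 2 ≤ (1 / 2 * lam) ^ 2 := by gcongr
      _ = _ := by ring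
  have hr3 : 0 < (r₀ * lam) ^ 2 := by positivity
  have hδ4 : δ * lam ^ 2 ≤ (r₀ * lam) ^ 2 / 4 := by
    calc δ * lam ^ 2 ≤ r₀ ^ 2 / 4 * lam ^ 2 := by gcongr
      _ = _ := by ring
  obtain ⟨t, ⟨ht1, ht2⟩, htJ, hgt⟩ := exists_timeJ hM.wf _
    (fun s hs => hI s (by linarith only [hs.1, hr2, hl2]) (by linarith only [hs.2, hl2]))
    (show (0 : ℝ) ≤ 1 / 2 by norm_num) (by positivity)
    (show δ * lam ^ 2 < 1 / 2 * (T - (T - (r₀ * lam) ^ 2)) by linarith only [hδ4, hr3])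
    (diss_le_dis2.trans (hloc _ (64 * lam) (T - (r₀ * lam) ^ 2) T le_rfl le_rfl
      (by linarith only [hr2, hl2]) (by linarith only [hl2])))
  have hAt := hM.wf.areaRatio htJ
  have hsurf := hM.wf.isSurf htJ
  have hch := cover_scalesW hηs1 hδs hm0 hmm₀ hmm₁ hΛ0 hR hlam hlam2 hδ1 (hS μ M J _ hM)
    (by rw [hT, sub_add_cancel]; exact hcov) hy hI hloc (by linarith only [ht1, hr2]) ht2
  have hu0 := us_pos p₀
  obtain ⟨j, hj1, hj2, hfl⟩ := hflat (M t) hAt y lam p₀ hlam (by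
    refine a2_bound hAt (hM.lgb t htJ) (by positivity) ?_ (by positivity) ?_ hgt
    · calc 2 * (J' * (us p₀ * lam)) = 2 * (J' * us p₀) * lam := by ring
        _ ≤ 64 * lam := by gcongr
    · refine le_trans (le_of_eq ?_) q1
      field_simp)
  rw [← hn] at hj2
  have huj := us_pos j
  have hg1 : gA (M t) y (r * (us j * lam)) ≤ 1 + e / 2 := by
    refine hF (M t) hsurf hAt y _ (by positivity) hfl
      ((cov_area hD.le hsurf.1 hAt (cov_of_covW (hch j hj2))).trans (ENNReal.ofReal_le_ofReal ?_))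
    rw [← mul_assoc, ← hc₀]
    gcongr
  obtain ⟨σ, hσ⟩ : ∃ σ, σ = r * (us j * lam) := ⟨_, rfl⟩
  rw [← hσ, ← gM_area, ← hM.wf.eq t htJ] at hg1
  have hσ0 : 0 < σ := by rw [hσ]; positivity
  have hσ1 : r₀ * lam ≤ σ := by
    rw [hr₀, mul_assoc, hσ]
    gcongr
    exact us_anti hj2
  have hσ2 : σ ≤ us p₀ * lam := by
    rw [hσ]
    refine (mul_le_of_le_one_left (by positivity) hr1).trans ?_
    gcongr
    exact us_anti hj1
  have hσ3 : σ ≤ 1 / 2 * lam := hσ2.trans (by gcongr; exact us_le p₀)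
  have hσ4 : (r₀ * lam) ^ 2 ≤ σ ^ 2 := by gcongr
  have hσ5 : σ ^ 2 ≤ lam ^ 2 / 4 := by
    calc σ ^ 2 ≤ (1 / 2 * lam) ^ 2 := by gcongr
      _ = _ := by ring
  have hσ6 : L * σ ≤ 64 * lam := by
    calc L * σ ≤ L * (us p₀ * lam) := by gcongr
      _ = L * us p₀ * lam := by ring
      _ ≤ 64 * lam := by gcongr
  have hσ7 : δ * lam ^ 2 ≤ c * σ ^ 2 := by
    calc δ * lam ^ 2 ≤ c * r₀ ^ 2 * lam ^ 2 := by gcongr
      _ = c * (r₀ * lam) ^ 2 := by ring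
      _ ≤ c * σ ^ 2 := by gcongr
  have hg2 := htr μ M J _ hM.wf y lam σ (T - lam ^ 2) (T - σ ^ 2) t (T + lam ^ 2 / 2) hlam hσ0
    (hσ2.trans (by gcongr)) (by linarith only [hσ5, hl2]) (by linarith only [hσ4, ht1])
    (by linarith only [ht2, hl2]) (by linarith only [ht2]) (fun s hs => hI s hs.1.le hs.2.le)
    ((hloc _ _ _ _ le_rfl hσ6 le_rfl le_rfl).trans (ENNReal.ofReal_le_ofReal hσ7))
  have hmono := hH D μ M J _ hM.wf y T _ _ (show 0 < r₀ * lam by positivity) hσ1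
    (fun s hs => hI s (by linarith only [hs.1, hσ5, hl2]) (by linarith only [hs.2, hr3, hl2]))
  refine hmono.trans ?_
  unfold densM
  linarith only [hg1, hg2]

theorem t0W_proof (hstep : StepW) (hdiss : DissW) (hH : MonoW) : T0W := by
  intro D G ε r C μ M J a b hε hε1 hr hC hab hM x₀ R e he
  obtain ⟨r, h1, h2, h3⟩ := t0_pos hstep hdiss hH (lt_max_of_lt_right one_pos)
    (lt_max_of_lt_right one_pos) hε hε1 hr hC hab
    (inW_mono hM (le_max_left D 1) (le_max_left G 1)) x₀ (le_max_right R 0) he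
  refine ⟨r, h1, h2, ?_⟩
  filter_upwards [h3, self_mem_nhdsWithin] with lam h hl y hy
  exact h y (hy.trans (mul_le_mul_of_nonneg_right (le_max_left _ _) (le_of_lt hl)))

theorem t1W_of (hT0 : T0W) (hH : MonoW) : T1W := by
  intro D G ε r C μ M J a b hε hε1 hr hC hab hM x₀ R
  obtain ⟨r₀, hr₀, hr₁, hT⟩ := hT0 D G ε r C μ M J a b hε hε1 hr hC hab hM x₀ (|R| + 3) ε hε
  obtain ⟨l₁, hl₁, hl⟩ := ev_pos (hT.and (ev_time hab 2))
  refine ⟨r * r₀, C / r₀, b - (l₁ / 3) ^ 2, by positivity, by positivity,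
    by nlinarith [sq_pos_of_pos (show 0 < l₁ / 3 by positivity)], fun t ht x hx hxR => ?_⟩
  have hbt : 0 < b - t := sub_pos.mpr ht.2
  have hsq := Real.sq_sqrt hbt.le
  set lam := √(b - t) with hlamdef
  have hlam : 0 < lam := Real.sqrt_pos.mpr hbt
  have hlam1 : lam ≤ l₁ / 3 := (sq_le_sq₀ hlam.le (by positivity)).mp (by linarith [ht.1])
  have hσ0 : 0 < r₀ * lam := by positivity
  have hσ1 : r₀ * lam ≤ lam := mul_le_of_le_one_left hlam.le hr₁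
  have hσ2 : (r₀ * lam) ^ 2 ≤ lam ^ 2 := by gcongr
  have ha := (hl (3 * lam) (by positivity) (by linarith)).2
  have hl2 : 0 < lam ^ 2 := by positivity
  have := hM.white x t (r₀ * lam) hσ0
    (fun s hs => ⟨by nlinarith [hs.1], by linarith [hs.2]⟩) (by
      intro y hy t' ht'
      have hpos : 0 ≤ b - t' := by linarith [ht'.2]
      have hsq' := Real.sq_sqrt hpos
      set l := √(b - t') with hldef
      have hl0 : 0 ≤ l := Real.sqrt_nonneg _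
      have h1 : lam ≤ l := (sq_le_sq₀ hlam.le hl0).mp (by linarith [ht'.2])
      have h2 : l ≤ 2 * lam := (sq_le_sq₀ hl0 (by positivity)).mp (by nlinarith [ht'.1])
      have h3 := (hl l (by linarith) (by linarith)).1 y (by
        have h4 := mem_ball_iff_norm.mp hy
        have h5 : ‖y - x₀‖ ≤ ‖y - x‖ + ‖x - x₀‖ := by
          rw [show y - x₀ = (y - x) + (x - x₀) by abel]
          exact norm_add_le _ _
        have h6 : R * lam ≤ |R| * l :=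
          mul_le_mul (le_abs_self R) h1 hlam.le (abs_nonneg R)
        nlinarith)
      rw [show b - l ^ 2 = t' by linarith] at h3
      have h7 : (r₀ * l) ^ 2 ≤ l ^ 2 := by
        gcongr
        exact mul_le_of_le_one_left hl0 hr₁
      have h8 : l ^ 2 ≤ (2 * lam) ^ 2 := by gcongr
      refine (hH D μ M J _ hM.wf y t' _ _ hσ0 (by gcongr) fun s hs => ⟨?_, ?_⟩).trans h3
      · nlinarith [hs.1]
      · nlinarith [hs.2, ht'.2, sq_pos_of_pos hσ0]) t ⟨by linarith [sq_nonneg (r₀ * lam)], le_rfl⟩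
    x hx (mem_ball_self hσ0)
  rwa [← mul_assoc, ← div_div] at this

end T1

/-- **Block G-T1** -/
theorem t1W_proof (hstep : StepW) (hdiss : DissW) (hH : MonoW) : T1W :=
  T1.t1W_of (T1.t0W_proof hstep hdiss hH) hH

end Vale.Agent.P218G
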