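import Vale.Agent.P218G.Two1

/-! The one-point and the two-point minimum principle for weak flows. -/

open MeasureTheory Set Filter Topology Metric Asymptotics
open scoped ENNReal NNReal RealInnerProductSpace ContDiff

namespace Vale.Agent.P218G

open P218FT

namespace Tw

/-- the parabolic distance squared -/
noncomputable def rho (t : ℝ) (y : E3) (q : ℝ × E3) : ℝ := ‖q.2 - y‖ ^ 2 + |q.1 - t|

lemma rho_tend (t : ℝ) (y : E3) : Tendsto (rho t y) (𝓝 (t, y)) (𝓝 0) :=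
  Continuous.tendsto' (by unfold rho; fun_prop) _ _ (by simp [rho])

lemma rho_time (t : ℝ) (y : E3) (l : Filter (ℝ × E3)) : (fun q => q.1 - t) =O[l] rho t y :=
  IsBigO.of_bound 1 (Eventually.of_forall fun q => by
    rw [one_mul, Real.norm_eq_abs, Real.norm_eq_abs, rho]
    exact (le_add_of_nonneg_left (by positivity)).trans (le_abs_self _))

lemma rho_space (t : ℝ) (y : E3) (l : Filter (ℝ × E3)) :
    (fun q => ‖q.2 - y‖ ^ 2) =O[l] rho t y :=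
  IsBigO.of_bound 1 (Eventually.of_forall fun q => by
    rw [one_mul, Real.norm_eq_abs, Real.norm_eq_abs, rho, abs_of_nonneg (by positivity)]
    exact (le_add_of_nonneg_right (by positivity)).trans (le_abs_self _))

variable {D : ℝ} {μ : ℝ → Measure E3} {M : ℝ → Set E3} {J I : Set ℝ}

lemma visc (h : WF D μ M J I) {t : ℝ} (ht : t ∈ I) {y : E3} (hy : y ∈ M t) {a : ℝ} {g : E3}
    {S : E3 →L[ℝ] E3} (hS : ∀ u v, ⟪S u, v⟫ = ⟪u, S v⟫) {E : ℝ × E3 → ℝ}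
    (hE : E =o[𝓝 (t, y)] rho t y) (H : ∀ᶠ q : ℝ × E3 in 𝓝 (t, y), q.1 ≤ t → q.2 ∈ M q.1 →
      0 ≤ a * (q.1 - t) + ⟪g, q.2 - y⟫ + ⟪S (q.2 - y), q.2 - y⟫ / 2 + E q) :
    ∃ n : E3, ‖n‖ = 1 ∧ g = ‖g‖ • n ∧ a ≤ tr S - ⟪S n, n⟫ := by
  refine visc_proof D μ M J I h t ht y hy a g S hS fun η hη => ?_
  filter_upwards [H, hE.def hη] with q h1 h2 a1 a2
  have h3 := h1 a1 a2
  rw [Real.norm_eq_abs, Real.norm_eq_abs, rho, abs_of_nonneg (a := _ + _) (by positivity),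
    abs_of_nonpos (sub_nonpos.2 a1), neg_sub] at h2
  linarith [le_abs_self (E q)]

/-- the expansion of the two-point function -/
lemma master {t : ℝ} {x y : E3} {w : ℝ × E3 → ℝ} (hw : IsEqnT M (t, x) w) (hx : x ∈ M t) {H : E3}
    (he : deriv (fun s => w (s, x)) t = -⟪gradient (sl w t) x, H⟫) {β : ℝ × E3 → ℝ}
    (hβ : ContDiff ℝ 2 β) {φ φ' : ℝ → ℝ} {F₁ F₂ : ℝ}
    (h1 : ∀ᶠ v in 𝓝 (‖y - x‖ ^ 2), HasDerivAt φ (φ' v) v) (h2 : HasDerivAt φ' F₂ (‖y - x‖ ^ 2))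
    (hF : φ' (‖y - x‖ ^ 2) = F₁)
    (hmin : ∀ᶠ q : ℝ × E3 × E3 in 𝓝 (t, x, y), q.1 ≤ t → q.2.1 ∈ M q.1 → q.2.2 ∈ M q.1 →
      φ (‖y - x‖ ^ 2) + β (t, x) ≤ φ (‖q.2.2 - q.2.1‖ ^ 2) + β (q.1, q.2.1))
    {V : E3} (hV : V = gr β (t, x) - (2 * F₁) • (y - x))
    {ι : Type*} {l : Filter ι} {ρ τ : ι → ℝ} {u z : ι → E3} (hρ : Tendsto ρ l (𝓝 0))
    (hτ : τ =O[l] ρ) (hu : (fun i => ‖u i‖ ^ 2) =O[l] ρ) (hz : (fun i => ‖z i‖ ^ 2) =O[l] ρ)
    (hn : ∀ i, ⟪nuw (sl w t) x, u i⟫ = 0) : ∃ E : ι → ℝ, E =o[l] ρ ∧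
      ∀ᶠ i in l, τ i ≤ 0 → y + z i ∈ M (t + τ i) → 0 ≤ (dt β (t, x) + ⟪V, H⟫) * τ i +
        2 * F₁ * ⟪y - x, z i⟫ + ⟪V, u i⟫ + (F₁ * ‖z i - u i‖ ^ 2 + 2 * F₂ * ⟪y - x, z i - u i⟫ ^ 2 +
          (⟪hs β (t, x) (u i), u i⟫ + ⟪V, nuw (sl w t) x⟫ * ⟪shw (sl w t) x (u i), u i⟫) / 2) +
            E i := by
  obtain ⟨k, kO, ko, kM⟩ := exists_near hw hx he hρ hτ hu hn
  set m := y - x with hm
  have hv : (fun i => ‖z i - u i‖ ^ 2) =O[l] ρ := by
    simpa only [sub_eq_add_neg] using sq_add_O hz (b := fun i => -u i) (by simpa using hu)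
  have e3 : (fun i => ‖k i‖ ^ 2 - 2 * ⟪z i - u i, k i⟫) =o[l] ρ :=
    (sq_of_O hρ kO).sub ((inn (tend_of_sq hρ hv) kO).const_mul_left 2)
  have e1 := sjet h1 h2 (α := fun i => 2 * ⟪m, z i - u i⟫)
    (κ := fun i => ‖z i - u i‖ ^ 2 - 2 * ⟪m, k i⟫ + (‖k i‖ ^ 2 - 2 * ⟪z i - u i, k i⟫)) hρ
    (((lin_sq_O m hv).const_mul_left 4).congr_left fun i => by ring)
    ((hv.sub ((((innerSL ℝ m).isBigO_comp k l).trans kO).const_mul_left 2)).add e3.isBigO)
  have e2 := pjet hβ t x hρ hτ hu kO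
  have e4 := ((innerSL ℝ V).isBigO_comp _ l).trans_isLittleO ko
  refine ⟨_, ((e1.add e2).add (e3.const_mul_left F₁)).add e4, ?_⟩
  have T : Tendsto (fun i => (t + τ i, x + (u i + k i), y + z i)) l (𝓝 (t, x, y)) := by
    simpa using ((hτ.trans_tendsto hρ).const_add t).prodMk_nhds
      ((((tend_of_sq hρ hu).add (kO.trans_tendsto hρ)).const_add x).prodMk_nhds
        ((tend_of_sq hρ hz).const_add y))
  filter_upwards [T.eventually hmin, kM] with i a1 a2 a3 a4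
  have a5 := a1 (by simpa using a3) a2 a4
  have a6 : ‖y + z i - (x + (u i + k i))‖ ^ 2 = ‖m‖ ^ 2 + (2 * ⟪m, z i - u i⟫ +
      (‖z i - u i‖ ^ 2 - 2 * ⟪m, k i⟫ + (‖k i‖ ^ 2 - 2 * ⟪z i - u i, k i⟫))) := by
    rw [show y + z i - (x + (u i + k i)) = m + (z i - u i - k i) by rw [hm]; abel,
      norm_add_sq_real, norm_sub_sq_real (z i - u i), inner_sub_right m (z i - u i)]
    ring
  simp only [a6] at a5
  have a7 : ∀ v, ⟪V, v⟫ = ⟪gr β (t, x), v⟫ - 2 * F₁ * ⟪m, v⟫ := fun v => by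
    rw [hV, inner_sub_left, real_inner_smul_left]
  have a8 := a7 (k i)
  have a9 := a7 (u i)
  have a10 : ⟪m, z i - u i⟫ = ⟪m, z i⟫ - ⟪m, u i⟫ := inner_sub_right _ _ _
  simp only [innerSL_apply_apply, inner_sub_right V, inner_add_right V, real_inner_smul_right, hF]
  linear_combination a5 - a8 - a9 + 2 * F₁ * a10

lemma exists_sym {T : E3 →L[ℝ] E3} (hT : ∀ u v, ⟪T u, v⟫ = ⟪u, T v⟫) (L : E3 →L[ℝ] E3) :
    ∃ S : E3 →L[ℝ] E3, (∀ u v, ⟪S u, v⟫ = ⟪u, S v⟫) ∧ ∀ z, ⟪S z, z⟫ = ⟪T (L z), L z⟫ :=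
  ⟨(ContinuousLinearMap.adjoint L).comp (T.comp L), fun u v => by
    simp only [ContinuousLinearMap.comp_apply, ContinuousLinearMap.adjoint_inner_left,
      ContinuousLinearMap.adjoint_inner_right, hT],
    fun z => by simp only [ContinuousLinearMap.comp_apply, ContinuousLinearMap.adjoint_inner_left]⟩

lemma coef_min {b c : ℝ} {E : ℝ → ℝ} (hE : E =o[𝓝 0] fun σ : ℝ => σ ^ 2)
    (h : ∀ᶠ σ in 𝓝 (0 : ℝ), 0 ≤ σ * b + σ ^ 2 / 2 * c + E σ) : b = 0 ∧ 0 ≤ c :=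
  Bar.Jet.min (f := fun σ => σ * b + σ ^ 2 / 2 * c + E σ) (a := 0)
    (hE.congr_left fun σ => by ring) h

end Tw

open Tw

/-- **The one-point and the two-point minimum principle.** -/
theorem two_proof : TwoW := by
  intro D μ M J I h t ht x hx β e hβ hS
  have Bs : ∀ u v, ⟪hs β (t, x) u, v⟫ = ⟪u, hs β (t, x) v⟫ := hess_symm (contDiff_sl hβ t) x
  refine ⟨fun hmin => ?_, fun y hy hR d c hd hc d0 c0 g g' g'' hg1 hg2 hcase hmin => ?_⟩
  · have e1 := pjet hβ t x (k := fun _ => 0) (rho_tend t x) (rho_time t x _) (rho_space t x _)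
      (isBigO_zero _ _)
    obtain ⟨n, hn, -, ha⟩ := visc h ht hx (a := dt β (t, x)) (g := gr β (t, x)) Bs e1 (by
      filter_upwards [hmin] with q a1 a2 a3
      have := a1 a2 a3
      simp only [add_sub_cancel, add_zero, inner_zero_right, Prod.mk.eta]
      linarith)
    linarith [hS n hn]
  obtain ⟨w, w1, w2, w3, w4⟩ := hR.self_of_nhds hx
  have hw : IsEqnT M (t, x) w := ⟨w1, w2, w3⟩
  have hE : IsEqn (M t) x (sl w t) := hw.isEqn
  have he : deriv (fun s => w (s, x)) t = -⟪gradient (sl w t) x, Hv (M t) x⟫ := w4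
  have hν : ‖nuw (sl w t) x‖ = 1 := norm_nuw hE.2.1
  rw [hE.abs_inner_eq hx] at hc
  have hH := hE.Hv_eq hx
  have As : ∀ u v, ⟪shw (sl w t) x u, v⟫ = ⟪u, shw (sl w t) x v⟫ := shw_symm hE.two x
  have Aν : shw (sl w t) x (nuw (sl w t) x) = 0 := shw_nuw hE.2.1
  have sq : √(‖y - x‖ ^ 2) = d := by rw [Real.sqrt_sq (norm_nonneg _), hd]
  have d2 : 0 < ‖y - x‖ ^ 2 := by rw [hd]; positivity
  have h1 : ∀ᶠ v in 𝓝 (‖y - x‖ ^ 2), HasDerivAt (fun v => g √v) (g' √v * (1 / (2 * √v))) v := by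
    filter_upwards [(Real.continuous_sqrt.tendsto' _ _ sq).eventually hg1, lt_mem_nhds d2]
      with v a1 a2 using a1.comp v (Real.hasDerivAt_sqrt a2.ne')
  have h2 : HasDerivAt (fun v => g' √v * (1 / (2 * √v))) (g'' / (4 * d ^ 2) - g' d / (4 * d ^ 3))
      (‖y - x‖ ^ 2) := by
    have a1 := Real.hasDerivAt_sqrt d2.ne'
    have a2 := ((sq ▸ hg2).comp _ a1).mul ((hasDerivAt_const _ (1 : ℝ)).div (a1.const_mul 2)
      (by rw [sq]; positivity))
    refine a2.congr_deriv ?_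
    simp only [Function.comp, Pi.div_apply, sq]
    field_simp
    ring
  have hS' : ∀ n : E3, ‖n‖ = 1 → tr (hs β (t, x)) - ⟪hs β (t, x) n, n⟫ + e ≤ dt β (t, x) := hS
  have key := fun {ι : Type} {l : Filter ι} {ρ τ : ι → ℝ} {u z : ι → E3} =>
    master hw hx he hβ (F₁ := g' d / (2 * d)) h1 h2 (by rw [sq]; ring)
      (by rw [← hd] at hmin; simpa only [Real.sqrt_sq (norm_nonneg _)] using hmin) rfl
      (ι := ι) (l := l) (ρ := ρ) (τ := τ) (u := u) (z := z)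
  generalize nuw (sl w t) x = ν at *
  generalize shw (sl w t) x = A at *
  generalize hs β (t, x) = B at *
  set F₁ := g' d / (2 * d) with hF₁
  set F₂ := g'' / (4 * d ^ 2) - g' d / (4 * d ^ 3) with hF₂
  set m := y - x with hm
  generalize gr β (t, x) - (2 * F₁) • m = V at *
  obtain ⟨e₁, e₂, hT⟩ := exists_triple hν
  have n1 : ⟪ν, e₁⟫ = 0 := by rw [real_inner_comm]; exact hT.ac
  have n2 : ⟪ν, e₂⟫ = 0 := by rw [real_inner_comm]; exact hT.bc
  have hVH : ⟪V, Hv (M t) x⟫ = ⟪V, ν⟫ * ⟪A e₁, e₁⟫ + ⟪V, ν⟫ * ⟪A e₂, e₂⟫ := by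
    rw [hH, real_inner_smul_right, hT.tr_eq, Aν, inner_zero_left]; ring
  have hsup : ⟪B e₁, e₁⟫ + ⟪B e₂, e₂⟫ + e ≤ dt β (t, x) := by
    have := hS' ν hν
    rw [hT.tr_eq] at this
    linarith
  -- variations of the first point
  have spat : ∀ a : E3, ⟪ν, a⟫ = 0 → ⟪V, a⟫ = 0 ∧
      0 ≤ 2 * F₁ * ‖a‖ ^ 2 + 4 * F₂ * ⟪m, a⟫ ^ 2 + (⟪B a, a⟫ + ⟪V, ν⟫ * ⟪A a, a⟫) := by
    intro a ha
    obtain ⟨E, E1, E2⟩ := key (l := 𝓝 (0 : ℝ)) (ρ := fun σ => σ ^ 2) (τ := fun _ => 0)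
      (u := fun σ => σ • a) (z := fun _ => 0)
      ((continuous_pow 2).tendsto' _ _ (by simp)) (isBigO_zero _ _)
      (((isBigO_refl _ _).const_mul_left (‖a‖ ^ 2)).congr_left fun σ => by
        rw [norm_smul, mul_pow, Real.norm_eq_abs, sq_abs, mul_comm])
      (by simpa using isBigO_zero _ _) (fun σ => by rw [real_inner_smul_right, ha, mul_zero])
    refine coef_min E1 (E2.mono fun σ a1 => ?_)
    have := a1 le_rfl (by simpa using hy)
    simp only [map_smul, real_inner_smul_left, real_inner_smul_right, zero_sub, norm_neg, norm_smul,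
      mul_pow, Real.norm_eq_abs, sq_abs, inner_neg_right, inner_zero_right] at this
    linear_combination this
  -- joint variations
  have joint : ∀ L : E3 →L[ℝ] E3, (∀ z, ⟪ν, L z⟫ = 0) → ∃ (S : E3 →L[ℝ] E3) (n : E3),
      (∀ z, ⟪S z, z⟫ = 2 * F₁ * ‖z - L z‖ ^ 2 + 4 * F₂ * ⟪m, z - L z⟫ ^ 2 +
        (⟪B (L z), L z⟫ + ⟪V, ν⟫ * ⟪A (L z), L z⟫)) ∧ ‖n‖ = 1 ∧
      (2 * F₁) • m = ‖(2 * F₁) • m‖ • n ∧ dt β (t, x) + ⟪V, Hv (M t) x⟫ ≤ tr S - ⟪S n, n⟫ := by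
    intro L hL
    obtain ⟨S₁, s1, s2⟩ := exists_sym (T := (2 * F₁) • ContinuousLinearMap.id ℝ E3 +
      (4 * F₂) • (innerSL ℝ m).smulRight m) (fun u v => by
        simp only [add_apply, smul_apply, ContinuousLinearMap.id_apply,
          ContinuousLinearMap.smulRight_apply, innerSL_apply_apply, inner_add_left, inner_add_right,
          real_inner_smul_left, real_inner_smul_right, real_inner_comm u m]
        ring) (ContinuousLinearMap.id ℝ E3 - L)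
    obtain ⟨S₂, s3, s4⟩ := exists_sym (T := B + ⟪V, ν⟫ • A) (fun u v => by
      simp only [add_apply, smul_apply, inner_add_left, inner_add_right, real_inner_smul_left,
        real_inner_smul_right, As, Bs]) L
    have hq : ∀ z, ⟪(S₁ + S₂) z, z⟫ = 2 * F₁ * ‖z - L z‖ ^ 2 + 4 * F₂ * ⟪m, z - L z⟫ ^ 2 +
        (⟪B (L z), L z⟫ + ⟪V, ν⟫ * ⟪A (L z), L z⟫) := fun z => by
      rw [add_apply, inner_add_left, s2, s4]
      simp only [add_apply, smul_apply, sub_apply, ContinuousLinearMap.id_apply,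
        ContinuousLinearMap.smulRight_apply, innerSL_apply_apply, inner_add_left,
        real_inner_smul_left, real_inner_self_eq_norm_sq]
      ring
    obtain ⟨E, E1, E2⟩ := key (rho_tend t y) (rho_time t y _) (sq_clm L (rho_space t y _))
      (rho_space t y _) fun q => hL _
    obtain ⟨n, a1, a2, a3⟩ := visc h ht hy (a := dt β (t, x) + ⟪V, Hv (M t) x⟫)
      (g := (2 * F₁) • m) (S := S₁ + S₂) (fun u v => by
        simp only [add_apply, inner_add_left, inner_add_right, s1, s3]) E1 (by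
      filter_upwards [E2] with q a1 a2 a3
      have := a1 (sub_nonpos.2 a2) (by simpa using a3)
      rw [(spat _ (hL _)).1] at this
      rw [hq, real_inner_smul_left]
      linear_combination this)
    exact ⟨_, n, hq, a1, a2, a3⟩
  rcases hcase with hpos | ⟨z1, z2⟩
  · set w' := d⁻¹ • m with hw'
    have w1 : ‖w'‖ = 1 := by
      rw [hw', norm_smul, norm_inv, hd, Real.norm_of_nonneg d0.le, inv_mul_cancel₀ d0.ne']
    have mw : m = d • w' := by rw [hw', smul_smul, mul_inv_cancel₀ d0.ne', one_smul]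
    clear_value w'
    obtain ⟨ν', hν', hcν⟩ : ∃ ν' : E3, (ν' = ν ∨ ν' = -ν) ∧ ⟪w', ν'⟫ = c := by
      rw [mw, real_inner_smul_left, abs_mul, abs_of_pos d0, mul_comm] at hc
      rcases (abs_eq c0.le).1 (mul_right_cancel₀ d0.ne' hc) with a | a
      · exact ⟨_, Or.inl rfl, a⟩
      · exact ⟨_, Or.inr rfl, by rw [inner_neg_right, a, neg_neg]⟩
    have hT' := Bar.triple_rot hT hν' w1 (hcν ▸ c0)
    rw [hcν] at hT'
    set b₁ := e₁ - (⟪e₁, w'⟫ / (1 + c)) • (w' + ν') with hb₁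
    set b₂ := e₂ - (⟪e₂, w'⟫ / (1 + c)) • (w' + ν') with hb₂
    obtain ⟨S, n, q1, q2, q3, q4⟩ := joint
      ((innerSL ℝ b₁).smulRight e₁ + (innerSL ℝ b₂).smulRight e₂) fun z => by
        simp only [add_apply, ContinuousLinearMap.smulRight_apply, inner_add_right,
          real_inner_smul_right, n1, n2, mul_zero, add_zero]
    have F0 : 0 < 2 * F₁ * d := by rw [hF₁]; positivity
    have nw : n = w' := by
      rw [mw, smul_smul, norm_smul, w1, mul_one, Real.norm_of_nonneg F0.le] at q3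
      exact (smul_right_injective E3 F0.ne' q3).symm
    have nν : ‖ν'‖ = 1 := by rcases hν' with a | a <;> simp [a, hν]
    have ww : ⟪w', w'⟫ = 1 := by rw [real_inner_self_eq_norm_sq, w1]; norm_num
    have hwν : ‖w' + ν'‖ ^ 2 = 2 + 2 * c := by rw [norm_add_sq_real, w1, nν, hcν]; ring
    have hsum : ⟪e₁, w'⟫ ^ 2 + ⟪e₂, w'⟫ ^ 2 = 1 - c ^ 2 := by
      have a1 := hT.norm_sq w'
      have a2 : ⟪ν, w'⟫ ^ 2 = c ^ 2 := by
        rw [← hcν]; rcases hν' with a | a <;> simp [a, real_inner_comm]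
      rw [w1, a2] at a1
      linarith
    have c1 : 1 + c ≠ 0 := by linarith
    have one : ∀ a : E3, 2 * F₁ * ‖a - (⟪a, w'⟫ / (1 + c)) • (w' + ν') - a‖ ^ 2 +
        4 * F₂ * ⟪m, a - (⟪a, w'⟫ / (1 + c)) • (w' + ν') - a⟫ ^ 2 =
        ⟪a, w'⟫ ^ 2 * (g' d / d * (2 / (1 + c)) + (g'' - g' d / d)) := fun a => by
      rw [sub_sub_cancel_left, norm_neg, norm_smul, mul_pow ‖_‖, hwν, inner_neg_right,
        real_inner_smul_right, mw, real_inner_smul_left, inner_add_right, ww, hcν,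
        Real.norm_eq_abs, sq_abs, hF₁, hF₂]
      field_simp
    have l1 : ((innerSL ℝ b₁).smulRight e₁ + (innerSL ℝ b₂).smulRight e₂) b₁ = e₁ := by
      simp [hT'.na, real_inner_comm b₁ b₂, hT'.ab]
    have l2 : ((innerSL ℝ b₁).smulRight e₁ + (innerSL ℝ b₂).smulRight e₂) b₂ = e₂ := by
      simp [hT'.nb, hT'.ab]
    rw [nw, hT'.tr_eq, q1 b₁, q1 b₂, l1, l2, hb₁, hb₂, one, one] at q4
    have fin : (1 - c ^ 2) * (g' d / d * (2 / (1 + c)) + (g'' - g' d / d)) =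
        g'' * (1 - c ^ 2) + g' d * (1 - c) ^ 2 / d := by
      field_simp
      ring
    rw [← fin, ← hsum]
    linarith
  · have f1 : F₁ = 0 := by rw [hF₁, z1, zero_div]
    have f2 : F₂ = 0 := by rw [hF₂, z1, z2]; simp
    obtain ⟨S, n, q1, q2, -, q4⟩ := joint 0 fun z => by simp
    obtain ⟨a, b, hT'⟩ := exists_triple q2
    rw [hT'.tr_eq, q1 a, q1 b] at q4
    have s1 := (spat e₁ n1).2
    have s2 := (spat e₂ n2).2
    simp only [f1, f2, z1, z2, zero_apply, map_zero, inner_zero_left, mul_zero, zero_mul,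
      zero_div, add_zero, zero_add] at q4 s1 s2 ⊢
    linarith

end Vale.Agent.P218G
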