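import Vale.Agent.P218G.BarW
import Vale.Agent.P218G.SI4
import Vale.Agent.P218G.Two
import Vale.Agent.P218G.Ramp
import Vale.Agent.P218G.Src
import Vale.Agent.P218G.StepW
import Vale.Agent.P218G.BadW
import Vale.Agent.P218G.T1W
import Vale.Agent.P218G.ConvW
import Vale.Agent.P218G.DensW
import Vale.Agent.P218G.AIW

/-! Assembly of block T in the weak class. -/

namespace Vale.Agent.P218G

theorem barrierW_all : BarrierW :=
  barrierW_of two_proof ramp_proof energy_proof (srcW_of oneLeW_proof) SI.si_proof

theorem stepW_all : StepW :=
  stepW_of barrierW_all (badW_proof oneLeW_proof aiW_proof densW_proof) gapW_proof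

/-- **Block T1** in the weak class -/
theorem t1W_all : T1W := t1W_proof stepW_all dissW_proof monoW_proof

/-- **Block T** in the weak class -/
theorem convW_all : ConvW := convW_proof t1W_all monoW_proof

end Vale.Agent.P218G
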