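import Vale.Agent.P218G.WCore
import Vale.Agent.P218G.RegSpec

/-! The curvature estimate for local smooth flows which are parabolic Lipschitz graphs. -/

open MeasureTheory Set Filter Topology Metric
open scoped ENNReal NNReal RealInnerProductSpace ContDiff

namespace Vale.Agent.P218G.WL

open Vale.Agent.P218FT Vale.Agent.P218FT.W Vale.Agent.P218G.Rg

theorem plip_scale {M : ℝ → Set E3} {e x₀ : E3} {τ t₀ ρ lam : ℝ} (hl : 0 < lam)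
    (h : PLip M e τ x₀ t₀ ρ) (x₁ : E3) (t₁ r : ℝ) (hx : ‖x₁ - x₀‖ + r / lam ≤ ρ) (h1 : t₁ ≤ t₀)
    (h2 : t₀ - ρ ^ 2 ≤ t₁ - r ^ 2 / lam ^ 2) : PLip (scaleFlow lam x₁ t₁ M) e τ 0 0 r := by
  intro s t hs hst ht x hxM y hyM hxr hyr d hd hyx hts
  have hi : 0 < lam⁻¹ := inv_pos.2 hl
  have hl2 : 0 < lam ^ 2 := by positivity
  have hup : ∀ z : E3, ‖z - 0‖ ≤ r → ‖x₁ + lam⁻¹ • z - x₀‖ ≤ ρ := by
    intro z hz
    rw [sub_zero] at hz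
    rw [add_sub_right_comm]
    refine (norm_add_le _ _).trans ?_
    rw [norm_smul, Real.norm_eq_abs, abs_of_pos hi]
    have : lam⁻¹ * ‖z‖ ≤ r / lam := by rw [div_eq_inv_mul]; gcongr
    linarith
  have k1 : -(r ^ 2 / lam ^ 2) ≤ s / lam ^ 2 := by
    rw [← neg_div]; gcongr; linarith
  have k2 : s / lam ^ 2 ≤ t / lam ^ 2 := by gcongr
  have k3 : t / lam ^ 2 ≤ 0 := div_nonpos_of_nonpos_of_nonneg ht hl2.le
  have := h (t₁ + s / lam ^ 2) (t₁ + t / lam ^ 2) (by linarith) (by linarith) (by linarith) _ hxM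
    _ hyM (hup x hxr) (hup y hyr) (d / lam) (by positivity)
    (by rw [Sc.norm_up_sub_up hl]; gcongr)
    (by rw [div_pow, add_sub_add_left_eq_sub, ← sub_div]; gcongr)
  rw [Sc.up_sub_up, real_inner_smul_right, abs_mul, abs_of_pos hi, ← mul_div_assoc,
    div_eq_inv_mul] at this
  exact le_of_mul_le_mul_left this hi

theorem height_of_plip {M : ℝ → Set E3} {e₀ : E3} {τ₀ c τ : ℝ} (he₀ : ‖e₀‖ = 1) (hc : 0 < c)
    (h0 : 0 ≤ τ₀) (hτ : 4 * τ₀ + 8 * τ₀ / c ≤ τ) (h : PLip M e₀ τ₀ 0 0 4) (hM : (0 : E3) ∈ M 0) :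
    HeightOK M c τ := by
  intro y₁ y₂ e h1 h2 n1 n2 he hn t ht y hy hy4
  have hy4' : ‖y‖ ≤ 4 := (mem_ball_zero_iff.1 hy4).le
  have k : ∀ s ∈ Icc (-1 : ℝ) 0, ∀ z ∈ M s, ∀ d : ℝ, 1 ≤ d → d ≤ 4 → ‖z‖ ≤ d →
      |⟪e₀, z⟫| ≤ τ₀ * d := by
    intro s hs z hz d hd hd4 hzd
    have := h s 0 (by linarith [hs.1]) hs.2 le_rfl 0 hM z hz (by simp) (by rw [sub_zero]; linarith)
      d (by linarith) (by rwa [sub_zero]) (by nlinarith [hs.1])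
    rwa [sub_zero] at this
  have t0 : (0 : ℝ) ∈ Icc (-1 : ℝ) 0 := ⟨by norm_num, le_rfl⟩
  have k1 := k 0 t0 y₁ h1 1 le_rfl (by norm_num) n1
  have k2 := k 0 t0 y₂ h2 1 le_rfl (by norm_num) n2
  have k3 := k t ht y hy 4 (by norm_num) le_rfl hy4'
  have k4 := hn e₀ he₀
  have k5 : ⟪y₁, e₀⟫ ^ 2 ≤ τ₀ ^ 2 := by
    rw [real_inner_comm, ← sq_abs]; exact pow_le_pow_left₀ (abs_nonneg _) (by linarith) 2
  have k6 : ⟪y₂, e₀⟫ ^ 2 ≤ τ₀ ^ 2 := by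
    rw [real_inner_comm, ← sq_abs]; exact pow_le_pow_left₀ (abs_nonneg _) (by linarith) 2
  have k7 : ‖pt e₀ e‖ ≤ 2 * τ₀ / c := by
    refine (sq_le_sq₀ (norm_nonneg _) (by positivity)).1 ?_
    rw [norm_pt_sq he₀, he, div_pow, le_div_iff₀ (by positivity)]
    nlinarith [sq_nonneg τ₀]
  have k8 : ⟪y, e⟫ = ⟪y, pt e₀ e⟫ + ⟪e₀, e⟫ * ⟪e₀, y⟫ := by
    rw [pt_apply, inner_sub_right, real_inner_smul_right, real_inner_comm e₀ y]; ring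
  have k9 : |⟪y, pt e₀ e⟫| ≤ 4 * (2 * τ₀ / c) :=
    (abs_real_inner_le_norm _ _).trans (mul_le_mul hy4' k7 (norm_nonneg _) (by norm_num))
  have hen : |⟪e₀, e⟫| ≤ 1 := by simpa [he, he₀] using abs_real_inner_le_norm e₀ e
  have k10 : |⟪e₀, e⟫ * ⟪e₀, y⟫| ≤ τ₀ * 4 := by
    rw [abs_mul]; exact (mul_le_of_le_one_left (abs_nonneg _) hen).trans k3
  have k11 : 4 * (2 * τ₀ / c) = 8 * τ₀ / c := by ring
  rw [k8]
  linarith [abs_add_le ⟪y, pt e₀ e⟫ (⟪e₀, e⟫ * ⟪e₀, y⟫)]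

/-- the two-point bound at scale `l`, from the height estimate at all smaller scales -/
theorem pick_scale : ∃ τ : ℝ, 0 < τ ∧ ∀ (M : ℝ → Set E3) (U : Set (ℝ × E3)) (x₀ : E3) (t₀ l : ℝ),
    0 < l → MCFOn M U → (∀ t ∈ Icc (t₀ - 2 * l ^ 2) t₀, ∀ x, ‖x - x₀‖ ≤ 2 * l → (t, x) ∈ U) →
    (∀ lam : ℝ, 10 < lam → ∀ t₁ ∈ Icc (-2 + 20 / lam) 0, ∀ x₁ ∈ scaleFlow l⁻¹ x₀ t₀ M t₁,
      ‖x₁‖ ≤ 2 - 20 / lam →
      HeightOK (scaleFlow lam x₁ t₁ (scaleFlow l⁻¹ x₀ t₀ M)) (1 / 100 / 2) τ) →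
    ∀ t ∈ Icc (t₀ - l ^ 2) t₀, ∀ x ∈ M t, x ∈ ball x₀ l → ∀ r : ℝ,
      TwoPt (M t) x (r * l) (20 / l) := by
  obtain ⟨τ, hτ, H⟩ := pick
  refine ⟨τ, hτ, fun M U x₀ t₀ l hl hM hU hH t ht x hx hb r => ?_⟩
  have hli := inv_pos.2 hl
  have h2 : 0 < l ^ 2 := by positivity
  have key := H _ _ 0 0 (hM.scale hli x₀ t₀) (fun s hs y hy => by
      change (t₀ + s / l⁻¹ ^ 2, x₀ + l⁻¹⁻¹ • y) ∈ U
      rw [Sc.tzoom, inv_inv]
      refine hU _ ⟨by nlinarith [hs.1], by nlinarith [hs.2]⟩ _ ?_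
      rw [sub_zero] at hy
      rw [add_sub_cancel_left, norm_smul, Real.norm_eq_abs, abs_of_pos hl]
      nlinarith)
    fun lam hlam t₁ ht₁ x₁ hx₁ hx₁' => hH lam hlam t₁ ⟨by linarith [ht₁.1], ht₁.2⟩ x₁ hx₁
      (by rwa [sub_zero] at hx₁')
  have e : x₀ + l • l⁻¹ • (x - x₀) = x := by rw [smul_inv_smul₀ hl.ne', add_sub_cancel]
  have et : t₀ + (t - t₀) / l ^ 2 * l ^ 2 = t := by field_simp; ring
  have h3 := key ((t - t₀) / l ^ 2) ⟨by rw [le_div_iff₀ h2]; linarith [ht.1],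
    by rw [div_le_iff₀ h2]; linarith [ht.2]⟩ (l⁻¹ • (x - x₀))
    (by rw [zoomFlow_apply, et, mem_zoom, e]; exact hx) (by
      rw [mem_ball_zero_iff, norm_smul, Real.norm_eq_abs, abs_of_pos hli, inv_mul_lt_iff₀ hl,
        mul_one]
      rwa [mem_ball, dist_eq_norm] at hb)
  have h4 : TwoPt (scaleFlow l⁻¹ x₀ t₀ M ((t - t₀) / l ^ 2)) (l⁻¹ • (x - x₀)) r 20 :=
    fun y hy _ => h3 y hy
  rwa [zoomFlow_apply, et, twoPt_zoom hl (by rwa [e]), e] at h4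

/-- **LOCW** -/
theorem locWhite_proof : LocWhiteStmt := by
  obtain ⟨τ, hτ, H⟩ := pick_scale
  refine ⟨τ / 2000, 1 / 4, 40, by positivity, by norm_num, by norm_num, by norm_num,
    fun M U hM x₀ t₀ ρ e hρ he hU hP t ht x hx hb => ?_⟩
  have hl : 0 < ρ / 2 := half_pos hρ
  have hP2 : PLip (scaleFlow (ρ / 2)⁻¹ x₀ t₀ M) e (τ / 2000) 0 0 2 :=
    plip_scale (inv_pos.2 hl) hP x₀ t₀ 2 (by rw [sub_self, norm_zero]; apply le_of_eq; field_simp; ring)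
      le_rfl (by apply le_of_eq; field_simp)
  have key := H M U x₀ t₀ (ρ / 2) hl ⟨hM.1, hM.2, hM.3⟩
    (fun s hs y hy => hU ⟨⟨by nlinarith [hs.1], hs.2⟩, by
      rw [mem_closedBall, dist_eq_norm]; linarith⟩)
    (fun lam hlam t₁ ht₁ x₁ hx₁ hx₁' => by
      have hl0 : 0 < lam := by linarith
      have k1 : 4 / lam ≤ 20 / lam := by gcongr; norm_num
      have k2 : 4 ^ 2 / lam ^ 2 ≤ 2 := by rw [div_le_iff₀ (by positivity)]; nlinarith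
      have k3 : 0 < 20 / lam := by positivity
      refine height_of_plip he (by norm_num) (by positivity) (by linarith)
        (plip_scale hl0 hP2 x₁ t₁ 4 (by rw [sub_zero]; linarith) ht₁.2 (by linarith [ht₁.1])) ?_
      simpa [mem_scaleFlow] using hx₁)
    t ⟨by nlinarith [ht.1], ht.2⟩ x hx (by rw [mem_ball, dist_eq_norm]; linarith) (1 / 2)
  have e1 : 1 / 2 * (ρ / 2) = 1 / 4 * ρ := by ring
  have e2 : 20 / (ρ / 2) = 40 / ρ := by field_simp; norm_num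
  rwa [e1, e2] at key

end Vale.Agent.P218G.WL
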