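import Vale.Agent.P218G.FinSpec
import Vale.Agent.P218G.CaseB
import Vale.Agent.P218G.AGen
import Vale.Agent.P218G.BGFin
import Vale.Agent.P218G.TAllW
import Vale.Agent.P218G.Flat0
import Vale.Agent.P218G.RegB
import Vale.Agent.P218G.Mono0
import Vale.Agent.P218G.FinG
import Vale.Agent.P218G.BGLgb
import Vale.Agent.P218G.RegD
import Vale.Agent.P218G.WFin

/-! Uniqueness of tangent flows for weak flows: the assembly. -/

open MeasureTheory Set Filter Topology Metric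
open scoped ENNReal NNReal RealInnerProductSpace

namespace Vale.Agent.P218G.Rg

open Vale.Agent.P218 Vale.Agent.P218G.Lit
open Vale.Agent.P218FT (E3 IsSurf IsMCF IsShr AreaRatio LGB InC ssFlow scaleSet relV)
open Vale.Agent.P218F.Dyn (hm)

lemma isShr_iff (S : Set E3) : IsSelfShrinker S ↔ IsShr S := by
  simp [IsSelfShrinker, IsShr, relV]

lemma ssFlow_eq (S : Set E3) {s : ℝ} (hs : s < 0) : ssFlow S s = (fun y => √(-s) • y) '' S := by
  have h : √(-s) ≠ 0 := (Real.sqrt_pos.2 (neg_pos.2 hs)).ne'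
  ext y
  simp only [ssFlow, scaleSet, zero_add, mem_ofPred_eq, mem_image]
  exact ⟨fun hy => ⟨_, hy, smul_inv_smul₀ h y⟩, fun ⟨z, hz, e⟩ => by
    rw [← e, inv_smul_smul₀ h]; exact hz⟩

lemma ConvTo.lit {μ : ℝ → Measure E3} {x₀ : E3} {t₀ : ℝ} {S : Set E3} (h : ConvTo μ x₀ t₀ S) :
    ConvergesTo μ x₀ t₀ S := fun s hs φ h1 h2 => by
  have h3 := h s hs φ h1 h2
  rwa [ssFlow_eq S hs] at h3

lemma Ent.ratio {S : Set E3} {D : ℝ} (hE : Ent (hm S) D) :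
    AreaRatio (cE * (Real.exp (1 / 4) * D)) S := fun p r hr => by
  have := hE.lf
  rw [← cE_hm, Measure.smul_apply, ENNReal.smul_def, smul_eq_mul, mul_assoc,
    ENNReal.ofReal_mul (NNReal.coe_nonneg _), ENNReal.ofReal_coe_nnreal]
  refine mul_le_mul_right ((measure_mono ball_subset_closedBall).trans ?_) _
  rw [← ofReal_measureReal measure_closedBall_lt_top.ne, mul_right_comm]
  exact ENNReal.ofReal_le_ofReal (hE.ball_le p hr)

theorem weakWhite_all : WeakWhiteStmt :=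
  weakWhite_of flat0_proof iter_proof gs_proof glue_proof WL.locWhite_proof

lemma subset_of_hm {N N' : Set E3} (hN : IsSurf N) (hN' : IsClosed N') (h : hm N = hm N') :
    N ⊆ N' := fun x hx => by
  by_contra hx'
  obtain ⟨w, hw⟩ := hN.2 x hx
  refine Gl.area_pos hw hx (hN'.isOpen_compl.mem_nhds hx') ?_
  have h1 : hm N N'ᶜ = hm N' N'ᶜ := by rw [h]
  rw [hm, hm, Measure.restrict_apply hN'.measurableSet.compl,
    Measure.restrict_apply hN'.measurableSet.compl, compl_inter_self, measure_empty] at h1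
  rwa [inter_comm]

/-- the conclusion -/
def Concl (μ : ℝ → Measure E3) (x₀ : E3) (t₀ : ℝ) : Prop :=
  TangentFlowUnique 2 μ x₀ t₀ ∧ ∃ S : Set E3, IsSelfShrinker S ∧ ConvergesTo μ x₀ t₀ S

section

variable (hSt : P218F.Dyn.StaticStmt) {μ : ℝ → Measure E3}
  (hμ : IsIntegralBrakkeFlow 2 μ) (hU : IsUnitRegular μ) {x₀ : E3} {t₀ : ℝ} (ht : 0 < t₀)
include hμ

lemma mass_lt {R : ℝ} (hR : μ 0 (closedBall 0 R)ᶜ = 0) : μ 0 univ < ⊤ := by
  have := hμ.radon 0 le_rfl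
  rw [← measure_add_measure_compl (measurableSet_closedBall (x := (0 : E3)) (ε := R)), hR, add_zero]
  exact measure_closedBall_lt_top

include hSt hU ht

theorem concl_lgb (h0 : μ 0 univ < ⊤) {S : Set E3} (hS : IsShr S)
    (hL : ∀ D, AreaRatio D S → ∃ G, LGB G S) (hκ : hm S ∈ tangentSlices 2 μ x₀ t₀) :
    Concl μ x₀ t₀ := by
  obtain ⟨T, H, hB⟩ := H552.exists_BF hμ
  obtain ⟨G, hL⟩ := hL _
    (ent_slice hB h0 ht (gs_proof μ hμ h0 _ (half_pos ht)) (half_lt_self ht) hκ).ratio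
  obtain ⟨h1, h2⟩ := caseA gs_proof glue_proof weakWhite_all hμ h0 hU ht hSt hS hL hκ
  exact ⟨h1, S, (isShr_iff S).2 hS, h2.lit⟩

theorem concl_model (h0 : μ 0 univ < ⊤) {S : Set E3}
    (hS : IsSelfShrinker S) (hg : HasFiniteGenus S ∨ BddGeom S)
    (hκ : (μH[2] : Measure E3).restrict S ∈ tangentSlices 2 μ x₀ t₀) : Concl μ x₀ t₀ :=
  concl_lgb hSt hμ hU ht h0 ((isShr_iff S).1 hS)
    (fun D hD => hg.elim (finGenus_proof S D hS.1 hD) (BG.lgbB_proof S D ((isShr_iff S).1 hS) hD)) hκ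

theorem concl_ar {R : ℝ} (hR : μ 0 (closedBall 0 R)ᶜ = 0) {a : ℝ} (ha : a < t₀)
    (h : IsAlmostRegularOn μ a t₀) : Concl μ x₀ t₀ := by
  obtain ⟨h1, g, h2⟩ := h
  have h0 := mass_lt hμ hR
  have h3 : Ioo (max a (t₀ / 2)) t₀ ⊆ Ioo a t₀ := Ioo_subset_Ioo_left (le_max_left _ _)
  obtain ⟨S, D, G, e1, e2, e3⟩ := exists_shr gs_proof bdd_proof weakWhite_all convW_all hμ h0 hR hU
    (a := max a (t₀ / 2)) (g := g) (lt_max_of_lt_right (half_pos ht))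
    (max_lt ha (half_lt_self ht)) (h1.mono fun t h h' => h (h3 h'))
    (fun t h => h2 t (h3 h)) x₀
  refine concl_lgb hSt hμ hU ht h0 e1 (fun _ _ => ⟨G, ?_⟩) e3
  simpa only [ss_one] using e2.lgb (-1) (by norm_num)

theorem concl_smooth (hC : GenusConstStmt) {R : ℝ}
    (hR : μ 0 (closedBall 0 R)ᶜ = 0) {a : ℝ} (ha : a < t₀)
    (h : ∀ t ∈ Ioo a t₀, IsRegularTime μ t) : Concl μ x₀ t₀ := by
  have h0 := mass_lt hμ hR
  set b := max a (t₀ / 2) with hb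
  have hb0 : 0 < b := lt_max_of_lt_right (half_pos ht)
  have hbt : b < t₀ := max_lt ha (half_lt_self ht)
  have h3 : Ioo b t₀ ⊆ Ioo a t₀ := Ioo_subset_Ioo_left (le_max_left _ _)
  have h4 : ∀ a : ℝ, 0 < a → ∃ D, GS μ a D := fun a ha => ⟨_, gs_proof μ hμ h0 a ha⟩
  have h5 : regT μ b t₀ = Ioo b t₀ := Set.ext fun t => ⟨fun h' => h'.1, fun h' => ⟨h', h t (h3 h')⟩⟩
  have h6 : IsMCF (Spt μ) (Ioo b t₀) := h5 ▸ Br.mcf h4 hb0.le (h5 ▸ isOpen_Ioo)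
  refine concl_ar hSt hμ hU ht hR hbt ⟨Eventually.of_forall fun t h' => h t (h3 h'),
    totalGenus (Spt μ ((b + t₀) / 2)), fun t h7 h8 N hN h9 => ?_⟩
  have h11 : hm N = hm (Spt μ t) := h9.symm.trans (Br.eq_hm h4 hb0.le ⟨h7, h8⟩)
  have h12 : IsSurf (Spt μ t) := h6.isSurf h7
  have h10 : N = Spt μ t := (subset_of_hm hN h12.1 h11).antisymm (subset_of_hm h12 hN.1 h11.symm)
  rw [h10]
  exact (hC _ b t₀ R h6 (fun t h' => bdd_proof μ hμ h0 R hR t (hb0.trans h'.1)) t h7 _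
    ⟨by linarith, by linarith⟩).le

theorem concl_cyclic (hC : GCStmt) (h0 : μ 0 univ < ⊤)
    (hc : IsCyclic μ) {r : ℝ} (hr : 0 < r) (hrt : r ^ 2 ≤ t₀)
    (hd : densityRatio 2 μ x₀ t₀ r < 2 * (om0 / (4 * Real.pi))) : Concl μ x₀ t₀ := by
  have h1 : 0 < r ^ 2 := by positivity
  rw [densityRatio_eq, ← mul_div_assoc, div_lt_div_iff_of_pos_right (by positivity)] at hd
  have h2 := mono0_proof μ hμ h0 x₀ t₀ (t₀ - r ^ 2) (t₀ - r ^ 2 / 2) (by linarith) (by linarith)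
    (by linarith)
  rw [sub_sub_cancel t₀ (r ^ 2)] at h2
  obtain ⟨S, e1, e2, e3⟩ := hC μ hμ h0 hU hc x₀ t₀ ht (t₀ - r ^ 2 / 2) (by linarith) (by linarith)
    (h2.trans_lt hd)
  exact concl_lgb hSt hμ hU ht h0 e1 (fun D hD => BG.lgbB_proof S D e1 hD e2) e3

end

/-- **The theorem**, from the remaining blocks -/
theorem final_of (hSt : P218F.Dyn.StaticStmt) (hK : GenusConstStmt)
    (hC : GCStmt) (μ : ℝ → Measure E3) (hμ : IsIntegralBrakkeFlow 2 μ) (hU : IsUnitRegular μ)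
    (hR : ∃ R : ℝ, μ 0 (closedBall 0 R)ᶜ = 0) (x₀ : E3) (t₀ : ℝ) (ht : 0 < t₀)
    (h : (∃ a < t₀, ∀ t ∈ Ioo a t₀, IsRegularTime μ t) ∨
      (∃ a < t₀, IsAlmostRegularOn μ a t₀) ∨
      (∃ S : Set E3, IsSelfShrinker S ∧ (HasFiniteGenus S ∨ BddGeom S) ∧
        (μH[2] : Measure E3).restrict S ∈ tangentSlices 2 μ x₀ t₀) ∨
      (IsCyclic μ ∧ ∃ r : ℝ, 0 < r ∧ r ^ 2 ≤ t₀ ∧
        densityRatio 2 μ x₀ t₀ r < 2 * (om0 / (4 * Real.pi)))) :
    TangentFlowUnique 2 μ x₀ t₀ ∧ ∃ S : Set E3, IsSelfShrinker S ∧ ConvergesTo μ x₀ t₀ S := by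
  obtain ⟨R, hR⟩ := hR
  rcases h with ⟨a, ha, h⟩ | ⟨a, ha, h⟩ | ⟨S, h1, h2, h3⟩ | ⟨h1, r, h2, h3, h4⟩
  · exact concl_smooth hSt hμ hU ht hK hR ha h
  · exact concl_ar hSt hμ hU ht hR ha h
  · exact concl_model hSt hμ hU ht (mass_lt hμ hR) h1 h2 h3
  · exact concl_cyclic hSt hμ hU ht hC (mass_lt hμ hR) h1 h2 h3 h4

end Vale.Agent.P218G.Rg
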