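import Vale.Agent.P218G.GRs

/-! A self-similar regular system is a smooth shrinker with multiplicity one. -/

open MeasureTheory Set Filter Topology Metric
open scoped ENNReal NNReal RealInnerProductSpace ContDiff

namespace Vale.Agent.P218G.GL

open Vale.Agent.P218 Vale.Agent.P218G.Lit Vale.Agent.P218G.Rg
open Vale.Agent.P218FT
open Vale.Agent.P218F.Dyn (hm)
open Vale.Agent.P218F.DynBridge (cE cE_pos area_eq locFin_hm)

variable {ν ν' : ℝ → Measure E3} {D ε : ℝ} {K : Set (ℝ × E3)}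

lemma spt_congr {t : ℝ} (h : ∀ s < t, ν s = ν' s) : Spt ν t = Spt ν' t := by
  ext x
  refine eventually_congr (mem_of_superset self_mem_nhdsWithin fun s hs => ?_)
  simp only [mem_ofPred_eq, h s hs]

/-- the support of a self-similar flow is self-similar -/
lemma SS.spt (h : SS ν) {s : ℝ} (hs : s < 0) : Spt ν s = ssFlow (Spt ν (-1)) s := by
  have h0 : 0 < -s := neg_pos.2 hs
  have h1 : 0 < √(-s) := Real.sqrt_pos.2 h0
  rw [spt_congr (ν' := rescaled 2 ν 0 0 √(-s)) fun u hu => by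
    rw [rescaled_eq_dil, zero_add, h _ h1 u (hu.trans hs)], spt_rescaled h1, scaleFlow, ssFlow,
    Real.sq_sqrt h0.le, zero_add, div_neg, div_self hs.ne]

/-- a self-similar mean curvature flow is generated by a shrinker -/
theorem shr_of_mcf {M : ℝ → Set E3} (hM : IsMCF M (Iio 0))
    (h : ∀ s < 0, M s = ssFlow (M (-1)) s) : IsShr (M (-1)) := by
  have m1 : (-1 : ℝ) ∈ Iio (0 : ℝ) := by norm_num
  refine ⟨hM.isSurf m1, fun x hx => ?_⟩
  obtain ⟨w, hw, h1⟩ := hM.exists_eqnT m1 hx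
  have h2 : HasDerivAt (fun s : ℝ => √(-s)) (-1 / 2) (-1) := by
    refine ((hasDerivAt_neg' (-1 : ℝ)).sqrt (by norm_num)).congr_deriv ?_
    simp
  have h3 : HasDerivAt (fun s : ℝ => ((s, √(-s) • x) : ℝ × E3)) (1, (-1 / 2 : ℝ) • x) (-1) :=
    (hasDerivAt_id _).prodMk (h2.smul_const x)
  have e : ((-1, √(-(-1 : ℝ)) • x) : ℝ × E3) = (-1, x) := by simp
  have h4 := (hw.1.differentiable (by simp) (-1, x)).hasFDerivAt.comp_hasDerivAt_of_eq (-1) h3
    e.symm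
  have h5 : (w ∘ fun s : ℝ => ((s, √(-s) • x) : ℝ × E3)) =ᶠ[𝓝 (-1)] fun _ => 0 := by
    filter_upwards [(e ▸ h3.continuousAt.tendsto).eventually hw.2.2, Iio_mem_nhds m1] with s a b
    refine a.1 ?_
    have b' : s < 0 := b
    rw [h s b', ssFlow, scaleSet, mem_ofPred_eq,
      inv_smul_smul₀ (Real.sqrt_pos.2 (neg_pos.2 b')).ne', zero_add]
    exact hx
  have h6 := h4.unique ((hasDerivAt_const (-1 : ℝ) (0 : ℝ)).congr_of_eventuallyEq h5)
  rw [fderiv_apply_prod hw.1, h1, one_mul] at h6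
  have hE := hw.isEqn
  obtain ⟨σ, hσ, h7, -⟩ := hE.nu_sh hx
  have h8 := sign_mul_self hσ
  have h9 := grad_eq_smul_nuw hE.2.1
  have h10 := norm_nuw hE.2.1
  have h11 := norm_ne_zero_iff.2 hE.2.1
  rw [relV, h7]
  rw [hE.Hv_eq hx] at h6 ⊢
  simp only at h6 h9 h10 h11 ⊢
  generalize nuw (sl w (-1)) x = n at *
  generalize tr (shw (sl w (-1)) x) = H at *
  rw [h9] at h6
  generalize ‖gradient (sl w (-1)) x‖ = g at *
  simp only [inner_smul_left, inner_smul_right, conj_trivial, real_inner_self_eq_norm_sq,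
    h10] at h6
  rw [smul_smul, ← add_smul, sub_zero, inner_smul_right, real_inner_comm]
  have h12 : H + (2 * 1)⁻¹ * (σ * ⟪n, x⟫) * σ = 0 := by
    refine mul_left_cancel₀ h11 ?_
    linear_combination (-1) * h6 + g * (2 * 1)⁻¹ * ⟪n, x⟫ * h8
  rw [h12, zero_smul]

lemma ratio_of_ent {S : Set E3} (hS : IsSurf S) (hE : Ent (hm S) D) :
    AreaRatio (cE * (Real.exp (1 / 4) * D)) S := fun p r hr => by
  have := locFin_hm hS
  rw [area_eq, Measure.smul_apply, ENNReal.smul_def, smul_eq_mul, mul_assoc,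
    ENNReal.ofReal_mul cE_pos.le, ENNReal.ofReal_coe_nnreal]
  refine mul_le_mul_right ((measure_mono ball_subset_closedBall).trans ?_) _
  rw [← ofReal_measureReal measure_closedBall_lt_top.ne, mul_right_comm]
  exact ENNReal.ofReal_le_ofReal (hE.ball_le p hr)

/-- **A self-similar system which is regular before the time zero is a smooth shrinker.** -/
theorem shr_of (h : ∀ a, RS ν a D ε K) (hs : SS ν) (hK : ∀ y : E3, ∀ t < 0, (t, y) ∈ K) :
    IsShr (Spt ν (-1)) ∧ (∀ s < 0, Spt ν s = ssFlow (Spt ν (-1)) s) ∧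
      (∀ s < 0, ν s = hm (ssFlow (Spt ν (-1)) s)) ∧ ν (-1) = hm (Spt ν (-1)) ∧
      ∃ D', AreaRatio D' (Spt ν (-1)) := by
  have h0 := h (-1)
  have h1 : IsShr (Spt ν (-1)) := shr_of_mcf ⟨isOpen_Iio,
    fun t ht x => h0.mcf.closed (t, x) (hK x t ht), fun t ht x => h0.mcf.loc (t, x) (hK x t ht)⟩
    fun _ => hs.spt
  have h2 : ∀ s < 0, ν s = hm (Spt ν s) := fun s a => by
    have b := h0.meas s
    rwa [eq_univ_of_forall (s := tsl K s) fun y => hK y s a, Measure.restrict_univ,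
      inter_univ] at b
  have h3 := h2 (-1) (by norm_num)
  exact ⟨h1, fun _ => hs.spt, fun s a => hs.spt a ▸ h2 s a, h3, _,
    ratio_of_ent h1.1 (h3 ▸ h0.gs.ent (-1) le_rfl)⟩

/-- limit flows of unit-regular flows are regular systems -/
theorem Lim.rs (D : ℝ) : ∃ ε₀ : ℝ, 0 < ε₀ ∧ ∀ ε ≤ ε₀, ∀ (μ : ℝ → Measure E3) (a : ℝ) (x₀ : E3)
    (t₀ : ℝ), IsIntegralBrakkeFlow 2 μ → μ 0 univ < ⊤ → IsUnitRegular μ → 0 ≤ a → GS μ a D →
    a < t₀ → ∀ ν, Lim μ x₀ t₀ ν → ∃ K, ∀ b, RS ν b D ε K := by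
  obtain ⟨ε₀, p0, h0⟩ := rs_ibf D
  obtain ⟨ε₁, p1, h1⟩ := rs_lim D
  refine ⟨min ε₀ ε₁, lt_min p0 p1, fun ε hε μ a x₀ t₀ hμ hf hU ha h ht ν hν => ?_⟩
  obtain ⟨ι, U, x, t, lam, hb⟩ := hν
  exact ⟨_, h1 ε (hε.trans (min_le_right _ _)) U _ _ ν (ev_rs ((h0 μ a hμ hf hU ha h).mono
    (hε.trans (min_le_left _ _))) hb.top x hb.ht ht) (hb.ent h ht) hb.lim⟩

end Vale.Agent.P218G.GL
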