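import Vale.Agent.P218G.GBdd
import Vale.Agent.P218G.GTop
import Vale.Agent.P218G.FinSpec

/-! Case C from the density bound for self-similar limit flows. -/

open MeasureTheory Set Filter Topology

namespace Vale.Agent.P218G.GL

open Vale.Agent.P218 Vale.Agent.P218G.Lit Vale.Agent.P218G.Rg
open Vale.Agent.P218FT (E3 IsShr)
open Vale.Agent.P218F.Dyn (hm)

theorem gc_of (hC : GC.CoreStmt) : Rg.GCStmt := by
  intro μ hμ h0 hU hcy x₀ t₀ ht s hs hst hlt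
  have h := gs_proof μ hμ h0 s hs
  obtain ⟨Θ, hd⟩ := exists_dens h x₀ hst
  have h1 := hd.le h (σ := t₀ - s) (by linarith) (sub_pos.2 hst)
  rw [sub_sub_cancel] at h1
  have c : GC.Ctx μ x₀ t₀ s _ Θ := ⟨hμ, h0, hU, hcy, hs, hst, h, hd, h1.trans_lt hlt⟩
  obtain ⟨ε, hg⟩ := exists_eps ((μ 0).real univ / s)
  obtain ⟨T, H, hBF⟩ := H552.exists_BF hμ
  obtain ⟨κ, ⟨S, a1, a2, rfl⟩, a3⟩ := Dyn.mem_tangentSlices (x₀ := x₀) hBF h0 ht
    (P := fun κ => ∃ S, IsShr S ∧ BddGeom S ∧ κ = hm S) fun U lam hl => by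
      obtain ⟨ν, hB⟩ := exists_blow U hl h x₀ hst
      have hs' := hB.ss h hst ((key_ibf hμ h0).later hs.le)
      obtain ⟨K, hK⟩ := hB.toLim.rsG hg (hg.ibf μ s hμ h0 hU hs.le h) hst
      obtain ⟨b1, -, -, b2, D', b3⟩ := shr_of hK hs' fun y t ht' =>
        (hK (t - 1)).memG hg (by linarith) (hC μ x₀ t₀ s _ Θ c ν hB.toLim hs' y t ht')
      exact ⟨ν (-1), ⟨_, b1, bdd_lim hμ h0 hU hs.le h hst hB.toLim hs' b1 b3 rfl
        fun ν' d1 d2 y => hC μ x₀ t₀ s _ Θ c ν' d1 d2 y (-1) (by norm_num), b2⟩, hB.lf _,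
        hB.lim (-1)⟩
  exact ⟨S, a1, a2, a3⟩

end Vale.Agent.P218G.GL
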