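import Vale.Agent.P218G.Int2
import Vale.Agent.P218G.Flat0

/-! A static cone which is invariant in two directions and has entropy below two has density at
most one. -/

open MeasureTheory Set Filter Topology Metric
open scoped ENNReal NNReal RealInnerProductSpace ContDiff

namespace Vale.Agent.P218G.Itg

open Vale.Agent.P218 Vale.Agent.P218.H313 Vale.Agent.P218.H313.A1 Vale.Agent.P218G.Lit
  Vale.Agent.P218G.Rg Vale.Agent.P218G.GL Vale.Agent.P218G.Rg.F0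
open Vale.Agent.P218FT (E3)

variable {κ : Measure E3} {D σ : ℝ}

lemma M2_ge_of_inv (h : Ent κ D) (h1 : 1 / 2 ≤ σ) (h2 : σ ≤ 1) {u : E3} (hu : ‖u‖ = 1)
    (hi : ∀ b : ℝ, GA κ (b • u) σ = GA κ 0 σ) : 2 * σ * GA κ 0 σ ≤ M2 κ 0 σ u := by
  have hD := h.nonneg
  have hσ : 0 < σ := by linarith
  have hG := GA_nonneg κ 0 hσ.le
  refine le_of_forall_pos_le_add fun η hη => ?_
  obtain ⟨b, hb, hb1, hbC⟩ := exists_small (96 * Real.exp 8 * D) hη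
  have k : ∀ c : ℝ, |c| = b → GA κ 0 σ * (1 + b ^ 2 / (4 * σ)) ≤ GA κ 0 σ +
      c * M1 κ 0 σ u / (2 * σ) + b ^ 2 * M2 κ 0 σ u / (8 * σ ^ 2) + 12 * Real.exp 8 * b ^ 3 * D :=
    fun c hc => by
      have e1 : ‖c • u‖ = b := by rw [norm_smul, hu, mul_one, Real.norm_eq_abs, hc]
      have h3 := lower h h1 h2 0 (v := c • u) (by rw [e1]; exact hb1)
      rw [zero_add, hi, e1, M1_smul, M2_smul, ← sq_abs c, hc] at h3
      refine le_trans (mul_le_mul_of_nonneg_left ?_ hG) h3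
      linarith [Real.add_one_le_exp (b ^ 2 / (4 * σ))]
  have k1 := k b (abs_of_pos hb)
  have k2 := k (-b) (by rw [abs_neg, abs_of_pos hb])
  have k3 : b ^ 2 / (4 * σ ^ 2) * (2 * σ * GA κ 0 σ) ≤
      b ^ 2 / (4 * σ ^ 2) * (M2 κ 0 σ u + σ ^ 2 * (b * (96 * Real.exp 8 * D))) := by
    have e1 : b ^ 2 / (4 * σ ^ 2) * (2 * σ * GA κ 0 σ) = 2 * (GA κ 0 σ * (b ^ 2 / (4 * σ))) := by
      field_simp
    have e2 : b ^ 2 / (4 * σ ^ 2) * (M2 κ 0 σ u + σ ^ 2 * (b * (96 * Real.exp 8 * D))) =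
        2 * (b ^ 2 * M2 κ 0 σ u / (8 * σ ^ 2)) + 2 * (12 * Real.exp 8 * b ^ 3 * D) := by
      field_simp; ring
    have e3 : -b * M1 κ 0 σ u / (2 * σ) = -(b * M1 κ 0 σ u / (2 * σ)) := by ring
    rw [e1, e2]
    rw [e3] at k2
    linarith
  have k4 := le_of_mul_le_mul_left k3 (by positivity)
  have k5 : σ ^ 2 * (b * (96 * Real.exp 8 * D)) ≤ 1 * η :=
    mul_le_mul (pow_le_one₀ hσ.le h2) hbC (by positivity) zero_le_one
  linarith

/-- a cone which is invariant in two directions is carried by a plane -/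
lemma flat_of_inv (h : Ent κ D) (hc : ∀ c : ℝ, 0 < c → A1.dil 2 c 0 κ = κ) {v w : E3} (hv : v ≠ 0)
    (hw : ∀ z : ℝ, w ≠ z • v) (iv : ∀ b : ℝ, A1.dil 2 1 (b • v) κ = κ)
    (iw : ∀ b : ℝ, A1.dil 2 1 (b • w) κ = κ) : ∃ e : E3, ‖e‖ = 1 ∧ GQ κ 0 2 0 e = 0 := by
  have i1 : ∀ a b σ : ℝ, GA κ (a • v + b • w) σ = GA κ 0 σ := fun a b σ => by
    conv_rhs => rw [← iw b, ← iv a, dil_dil one_pos one_pos, mul_one, GA_dil one_pos]
    simp
  have i2 : ∀ σ : ℝ, 0 < σ → GA κ 0 σ = GA κ 0 1 := fun σ hσ => by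
    rw [← GA_unit κ 0 hσ, hc _ (inv_pos.2 (Real.sqrt_pos.2 hσ))]
  have n1 : ‖‖v‖⁻¹ • v‖ = 1 := norm_smul_inv_norm hv
  set e₁ := ‖v‖⁻¹ • v with he₁
  set w' := w - ⟪e₁, w⟫ • e₁ with hw'
  have hw0 : w' ≠ 0 := fun h0 => hw (⟪e₁, w⟫ * ‖v‖⁻¹) (by rw [mul_smul]; exact sub_eq_zero.1 h0)
  have n2 : ‖‖w'‖⁻¹ • w'‖ = 1 := norm_smul_inv_norm hw0
  obtain ⟨e, he, hp⟩ := exists_third n1 n2 (by
    rw [real_inner_smul_right, hw', inner_sub_right, real_inner_smul_right,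
      real_inner_self_eq_norm_sq, n1]
    ring)
  refine ⟨e, he, le_antisymm (le_of_forall_pos_le_add fun η hη => ?_) (GQ_nonneg _ _ zero_le_two _ _)⟩
  have hG := GA_nonneg κ 0 zero_le_one
  obtain ⟨b, hb, hb1, hbC⟩ := exists_small (8 * GA κ 0 1) hη
  have hσ : 0 < 1 - b / 2 := by linarith
  have k1 := M2_ge_of_inv (σ := 1 - b / 2) h (by linarith) (by linarith) n1 fun c => by
    simpa [he₁, smul_smul] using i1 (c * ‖v‖⁻¹) 0 (1 - b / 2)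
  have k2 := M2_ge_of_inv (σ := 1 - b / 2) h (by linarith) (by linarith) n2 fun c => by
    rw [← i1 (-(c * ‖w'‖⁻¹ * ⟪e₁, w⟫ * ‖v‖⁻¹)) (c * ‖w'‖⁻¹)]
    congr 1
    generalize ‖w'‖⁻¹ = k
    rw [hw']
    generalize ⟪e₁, w⟫ = j
    rw [he₁]
    module
  have k3 := trace h hσ (by linarith) 0 hp
  rw [i2 _ hσ] at k1 k2 k3
  have k4 : M2 κ 0 (1 - b / 2) e ≤ 2 * b * GA κ 0 1 := by
    refine le_of_mul_le_mul_left ?_ (by positivity : 0 < b / 8)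
    nlinarith
  have hs : 0 < √(2 / (1 - b / 2)) := Real.sqrt_pos.2 (by positivity)
  have k5 : GQ κ 0 2 0 e = 2 / (1 - b / 2) * M2 κ 0 (1 - b / 2) e := by
    conv_lhs => rw [← hc _ hs, GQ_dil hs, Real.sq_sqrt (by positivity)]
    rw [smul_zero, add_zero, div_div_cancel₀ two_ne_zero, ← Real.sq_sqrt
      (by positivity : 0 ≤ 2 / (1 - b / 2)), ← M2_smul, Real.sqrt_sq hs.le]
    simp only [GQ, M2, zero_add]
  have k6 : 2 / (1 - b / 2) ≤ 4 := by rw [div_le_iff₀ hσ]; linarith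
  have k7 := mul_le_mul k6 k4 (by
    simpa only [GQ, M2, zero_add] using GQ_nonneg κ 0 hσ.le 0 e) (by norm_num)
  linarith

/-- **(P2)** -/
theorem p2 {μ ν : ℝ → Measure E3} {a t₀ θ : ℝ} {x₀ v w : E3} (hμ : IsIntegralBrakkeFlow 2 μ)
    (h0 : μ 0 univ < ⊤) (h : GS μ a D) (ht : a < t₀) (ht₀ : 0 < t₀) (hb : Lim μ x₀ t₀ ν)
    (hs : SS ν) (hst : Stat ν) (hv : v ≠ 0) (hw : ∀ z : ℝ, w ≠ z • v) (iv : Inv ν v)
    (iw : Inv ν w) (hE : Ent (ν (-1)) θ) (hθ : θ < 2 * om0) : GA (ν (-1)) 0 1 ≤ om0 := by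
  have e1 := hst (-2) (by norm_num)
  obtain ⟨e, he, hQ⟩ := flat_of_inv hE (fun c hc => hs.cone hst hc) hv hw
    (fun b => iv b _ (by norm_num)) fun b => iw b _ (by norm_num)
  refine int_lim hμ h0 h ht ht₀ hb he (e1 ▸ hQ) hθ (e1 ▸ hE.le) (le_of_eq ?_)
  simpa using hs.GA_eq 0 (τ := 1) two_pos

end Vale.Agent.P218G.Itg
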