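import Vale.Agent.P218G.L01
import Vale.Agent.P218G.P2
import Vale.Agent.P218G.GCEnd

/-! Federer's dimension reduction below density two. -/

open MeasureTheory Set Filter Topology Metric

namespace Vale.Agent.P218G.GC

open Vale.Agent.P218 Vale.Agent.P218.H552
open Vale.Agent.P218G.Lit Vale.Agent.P218G.Rg Vale.Agent.P218G.GL
open Vale.Agent.P218FT (E3)

variable {μ ν : ℝ → Measure E3} {x₀ : E3} {t₀ a D Θ : ℝ}

lemma dens_zero (st : Stat ν) {p : E3} {t θ : ℝ} (ht : t ≤ 0) (h : Dens ν p t θ) :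
    Dens ν p 0 θ := by
  refine Tendsto.congr' ?_ h
  filter_upwards [self_mem_nhdsWithin] with σ (hσ : 0 < σ)
  rw [st (t - σ) (by linarith), st (0 - σ) (by linarith)]

namespace Ctx

variable (h : Ctx μ x₀ t₀ a D Θ) (hb : Lim μ x₀ t₀ ν) (ss : SS ν)
include h hb

lemma ent (s : ℝ) : Ent (ν s) Θ := (hb.gs h.gs h.lt h.dens s).ent _ le_rfl

lemma lt_two : GA (ν (-1)) 0 1 < 2 * om0 := ((h.ent hb _).le 0 1 one_pos).trans_lt h.two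

lemma tangent (y : E3) (t : ℝ) {θ : ℝ} (hθ : Dens ν y t θ) : ∃ ν', Lim μ x₀ t₀ ν' ∧ SS ν' ∧
    GA (ν' (-1)) 0 1 = θ ∧ (t ≤ 0 → Stat ν → Stat ν') ∧ (t ≤ 0 → ∀ v, Inv ν v → Inv ν' v) ∧
    (t < 0 → SS ν → Stat ν') ∧ (t = 0 → SS ν → Inv ν' y) :=
  let ⟨ν', _, a1, a2, a3, _, a4⟩ :=
    hb.exists_tangent h.gs ((key_ibf h.ibf h.fin).later h.pos.le) h.lt y t hθ
  ⟨ν', a1, a2, a3 1 one_pos, a4⟩

include ss

lemma c2 (st : Stat ν) {v p : E3} (hv : ‖v‖ = 1) (iv : Inv ν v) (hp : p ∉ Par.axis v) :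
    DL ν p (-1) := fun θ hθ => by
  obtain ⟨ν', a1, a2, a3, a4, a5, -, a6⟩ := h.tangent hb p 0 (dens_zero st (by norm_num) hθ)
  exact a3 ▸ Itg.p2 h.ibf h.fin h.gs h.lt (h.pos.trans h.lt) a1 a2 (a4 le_rfl st)
    (fun c => by simp [c] at hv) (fun z c => hp ⟨z, c.symm⟩) (a5 le_rfl v iv) (a6 rfl ss)
    (h.ent a1 _) h.two

lemma c1 (st : Stat ν) {p : E3} (hp : p ≠ 0) : DL ν p (-1) := fun θ hθ => by
  obtain ⟨ν', a1, a2, a3, a4, -, -, a6⟩ := h.tangent hb p 0 (dens_zero st (by norm_num) hθ)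
  have iv : Inv ν' (‖p‖⁻¹ • p) := fun b s hs => by rw [smul_smul]; exact a6 rfl ss _ s hs
  exact a3 ▸ l0_lim h.ibf h.fin h.ur h.cyc h.gs h.pos.le h.lt a1 a2 (a4 le_rfl st)
    (norm_smul_inv_norm hp) iv (h.lt_two a1) fun q hq =>
      h.c2 a1 a2 (a4 le_rfl st) (norm_smul_inv_norm hp) iv hq

lemma c0 (y : E3) {t : ℝ} (ht : t < 0) : DL ν y t := fun θ hθ => by
  obtain ⟨ν', a1, a2, a3, -, -, a5, -⟩ := h.tangent hb y t hθ
  exact a3 ▸ l1_lim h.ibf h.fin h.ur h.gs h.pos.le h.lt a1 a2 (a5 ht ss) (h.lt_two a1)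
    fun q hq => h.c1 a1 a2 (a5 ht ss) hq

end Ctx

theorem core_proof : CoreStmt := fun _ _ _ _ _ _ h _ hb ss y _ ht => h.c0 hb ss y ht

/-- **self-similar limit flows have density at most one before the time zero** -/
theorem chain (μ : ℝ → Measure E3) (hμ : IsIntegralBrakkeFlow 2 μ) (h0 : μ 0 univ < ⊤)
    (hU : IsUnitRegular μ) (hc : Lit.IsCyclic μ) (x₀ : E3) (t₀ : ℝ) (ht : 0 < t₀) (Θ : ℝ)
    (hd : Dens μ x₀ t₀ Θ) (h2 : Θ < 2 * om0) (ν : ℝ → Measure E3) (hb : Lim μ x₀ t₀ ν)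
    (ss : SS ν) (p : E3) (θ : ℝ) (hθ : Dens ν p (-1) θ) : θ ≤ om0 :=
  Ctx.c0 ⟨hμ, h0, hU, hc, half_pos ht, half_lt_self ht, gs_proof μ hμ h0 _ (half_pos ht), hd, h2⟩
    hb ss p (by norm_num) θ hθ

/-- **Case C** -/
theorem gc_proof : Rg.GCStmt := gc_of core_proof

end Vale.Agent.P218G.GC
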