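import Vale.Agent.P218FT.Defs
import Mathlib.Analysis.Calculus.InverseFunctionTheorem.FDeriv
import Mathlib.Analysis.Calculus.ContDiff.RCLike
import Mathlib.Topology.LocallyConstant.Basic
import Mathlib.Analysis.Convex.Topology

/-! The number of connected components is constant along a smooth flow of closed surfaces. -/

open Set Filter Topology Metric
open scoped RealInnerProductSpace ContDiff

namespace Vale.Agent.P218G.GC0

open Vale.Agent.P218FT

section abs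

variable {X ι : Type*} [TopologicalSpace X] {A B : Set X}

theorem mk_eq {C : Set X} (hC : IsPreconnected C) (hA : C ⊆ A) {x y : A} (hx : x.1 ∈ C)
    (hy : y.1 ∈ C) : (x : ConnectedComponents A) = (y : ConnectedComponents A) := by
  have h : IsPreconnected ((↑) ⁻¹' C : Set A) := by
    rw [← IsInducing.subtypeVal.isPreconnected_image, Subtype.image_preimage_coe,
      inter_eq_right.2 hA]
    exact hC
  exact ConnectedComponents.coe_eq_coe'.2 (h.subset_connectedComponent hy hx)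

theorem exists_map {W : ι → Set X} (hW : ∀ i, IsOpen (W i)) (hA : ∀ x ∈ A, ∃ i, x ∈ W i)
    (b : ι → ConnectedComponents B) (h : ∀ i j, ∀ x ∈ A, x ∈ W i → x ∈ W j → b i = b j) :
    ∃ f : ConnectedComponents A → ConnectedComponents B, ∀ (i) (x : A), x.1 ∈ W i → f x = b i := by
  choose k hk using hA
  have e : ∀ (i) (x : A), x.1 ∈ W i → b (k x.1 x.2) = b i := fun i x hx =>
    h _ _ x.1 x.2 (hk _ _) hx
  have hc : IsLocallyConstant fun x : A => b (k x.1 x.2) := by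
    refine (IsLocallyConstant.iff_eventually_eq _).2 fun x => ?_
    filter_upwards [continuous_subtype_val.continuousAt.eventually
      ((hW _).mem_nhds (hk x.1 x.2))] with y hy
    exact e _ y hy
  exact ⟨hc.continuous.connectedComponentsLift, fun i x hx => e i x hx⟩

theorem card_eq {W W' : ι → Set X} (hW : ∀ i, IsOpen (W i)) (hW' : ∀ i, IsOpen (W' i))
    (hA : ∀ x ∈ A, ∃ i, x ∈ W i) (hB : ∀ x ∈ B, ∃ i, x ∈ W' i)
    (cA : ∀ i, IsPreconnected (A ∩ W i)) (cB : ∀ i, IsPreconnected (B ∩ W' i)) (a : ι → A)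
    (b : ι → B) (ha : ∀ i, (a i).1 ∈ W i) (hb : ∀ i, (b i).1 ∈ W' i)
    (h1 : ∀ i j, ∀ x ∈ A, x ∈ W i → x ∈ W j →
      (b i : ConnectedComponents B) = (b j : ConnectedComponents B))
    (h2 : ∀ i j, ∀ x ∈ B, x ∈ W' i → x ∈ W' j →
      (a i : ConnectedComponents A) = (a j : ConnectedComponents A)) :
    Nat.card (ConnectedComponents A) = Nat.card (ConnectedComponents B) := by
  obtain ⟨f, hf⟩ := exists_map hW hA (fun i => (b i : ConnectedComponents B)) h1
  obtain ⟨g, hg⟩ := exists_map hW' hB (fun i => (a i : ConnectedComponents A)) h2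
  refine Nat.card_congr ⟨f, g, fun c => ?_, fun c => ?_⟩
  · obtain ⟨x, rfl⟩ := ConnectedComponents.surjective_coe c
    obtain ⟨i, hi⟩ := hA x.1 x.2
    rw [hf i x hi, hg i _ (hb i)]
    exact mk_eq (cA i) inter_subset_left ⟨(a i).2, ha i⟩ ⟨x.2, hi⟩
  · obtain ⟨x, rfl⟩ := ConnectedComponents.surjective_coe c
    obtain ⟨i, hi⟩ := hB x.1 x.2
    rw [hg i x hi, hf i _ (ha i)]
    exact mk_eq (cB i) inter_subset_left ⟨(b i).2, hb i⟩ ⟨x.2, hi⟩

end abs

variable {M : ℝ → Set E3} {I : Set ℝ} {s R : ℝ}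

/-- the time slice of a space-time set -/
def sl (U : Set (ℝ × E3)) (t : ℝ) : Set E3 := {y | (t, y) ∈ U}

theorem isOpen_sl {U : Set (ℝ × E3)} (h : IsOpen U) (t : ℝ) : IsOpen (sl U t) :=
  h.preimage (Continuous.prodMk_right t)

/-- small space-time neighbourhoods with connected slices -/
theorem exists_nbhd (h : IsMCF M I) (hs : s ∈ I) {x : E3} (hx : x ∈ M s) {N : Set (ℝ × E3)}
    (hN : N ∈ 𝓝 (s, x)) : ∃ U, IsOpen U ∧ (s, x) ∈ U ∧ U ⊆ N ∧
      ∀ᶠ t in 𝓝 s, IsConnected (M t ∩ sl U t) := by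
  obtain ⟨w, hw, hg, hM, -⟩ := h.loc s hs x hx
  set g := gradient (fun y => w (s, y)) x with hgd
  obtain ⟨m, hm⟩ : ∃ m : E3, ⟪g, m⟫ = 1 := ⟨(‖g‖ ^ 2)⁻¹ • g, by
    rw [real_inner_smul_right, real_inner_self_eq_norm_sq]
    exact inv_mul_cancel₀ (pow_pos (norm_pos_iff.2 hg) 2).ne'⟩
  have h1 : HasStrictFDerivAt w (fderiv ℝ w (s, x)) (s, x) :=
    hw.contDiffAt.hasStrictFDerivAt (by simp)
  have h2 : ∀ v, fderiv ℝ w (s, x) (0, v) = ⟪g, v⟫ := fun v => by
    have e := h1.hasFDerivAt.comp x ((hasFDerivAt_const s x).prodMk (hasFDerivAt_id x))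
    rw [hgd, gradient, InnerProductSpace.toDual_symm_apply,
      show (fun y => w (s, y)) = w ∘ Prod.mk s from rfl, e.fderiv]
    rfl
  let Φ : ℝ × E3 → ℝ × E3 := fun p => (p.1, p.2 + (w p - ⟪g, p.2⟫) • m)
  let L : (ℝ × E3) ≃L[ℝ] (ℝ × E3) := (ContinuousLinearEquiv.refl ℝ ℝ).skewProd
    (ContinuousLinearEquiv.refl ℝ E3)
    (ContinuousLinearMap.toSpanSingleton ℝ (fderiv ℝ w (s, x) (1, 0) • m))
  have h3 : HasStrictFDerivAt Φ (L : (ℝ × E3) →L[ℝ] (ℝ × E3)) (s, x) := by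
    have e := (hasStrictFDerivAt_fst (𝕜 := ℝ) (p := (s, x))).prodMk
      ((hasStrictFDerivAt_snd (𝕜 := ℝ) (p := (s, x))).add ((h1.sub
        (((innerSL ℝ g).comp (ContinuousLinearMap.snd ℝ ℝ E3)).hasStrictFDerivAt)).smul_const m))
    refine e.congr_fderiv (ContinuousLinearMap.ext fun p => ?_)
    have e2 : fderiv ℝ w (s, x) p = p.1 * fderiv ℝ w (s, x) (1, 0) + ⟪g, p.2⟫ := by
      rw [← h2, ← smul_eq_mul, ← map_smul, ← map_add]
      simp
    simp [L, e2, smul_smul]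
  have h4 : ∀ p, ⟪g, (Φ p).2⟫ = w p := fun p => by
    simp only [Φ, inner_add_right, real_inner_smul_right, hm]
    ring
  obtain ⟨e, he, hxe⟩ : ∃ e : OpenPartialHomeomorph (ℝ × E3) (ℝ × E3), (e : _ → _) = Φ ∧
      (s, x) ∈ e.source := ⟨h3.toOpenPartialHomeomorph Φ, rfl,
    h3.mem_toOpenPartialHomeomorph_source⟩
  have h5 : ∀ᶠ q in 𝓝 (e (s, x)), q ∈ e.target ∧ e.symm q ∈ N ∧
      ((e.symm q).2 ∈ M (e.symm q).1 ↔ w (e.symm q) = 0) :=
    Filter.Eventually.and (e.open_target.mem_nhds (e.map_source hxe))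
      ((e.tendsto_symm hxe).eventually (Filter.Eventually.and hN hM))
  obtain ⟨ρ, hρ, h6⟩ := Metric.eventually_nhds_iff_ball.1 h5
  have h7 : ∀ p ∈ e.source, e p ∈ ball (e (s, x)) ρ → p ∈ N ∧ (p.2 ∈ M p.1 ↔ w p = 0) :=
    fun p hp hb => by simpa only [e.left_inv hp] using (h6 _ hb).2
  refine ⟨e.source ∩ e ⁻¹' ball (e (s, x)) ρ, e.isOpen_inter_preimage isOpen_ball,
    ⟨hxe, mem_ball_self hρ⟩, fun p hp => (h7 p hp.1 hp.2).1, ?_⟩
  filter_upwards [ball_mem_nhds s hρ] with t ht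
  have hb : ∀ u, u ∈ ball (e (s, x)).2 ρ → (t, u) ∈ ball (e (s, x)) ρ := fun u hu => by
    rw [mem_ball, Prod.dist_eq, max_lt_iff]
    exact ⟨by rw [he]; exact ht, hu⟩
  have e1 : M t ∩ sl (e.source ∩ e ⁻¹' ball (e (s, x)) ρ) t =
      (fun u => (e.symm (t, u)).2) '' (ball (e (s, x)).2 ρ ∩ {u | ⟪g, u⟫ = 0}) := by
    ext y
    constructor
    · rintro ⟨hy, hy1, hy2⟩
      refine ⟨(e (t, y)).2, ⟨?_, ?_⟩, ?_⟩
      · have h8 := mem_ball.1 hy2
        rw [Prod.dist_eq] at h8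
        exact (le_max_right _ _).trans_lt h8
      · change ⟪g, (e (t, y)).2⟫ = 0
        rw [he, h4]
        exact (h7 _ hy1 hy2).2.1 hy
      · have : (t, (e (t, y)).2) = e (t, y) := by rw [he]
        simp only [this, e.left_inv hy1]
    · rintro ⟨u, ⟨hu, hu0⟩, rfl⟩
      obtain ⟨a1, -, a3⟩ := h6 _ (hb u hu)
      have a4 := e.right_inv a1
      have a5 : (e.symm (t, u)).1 = t := by
        have := congrArg Prod.fst a4
        rwa [he] at this
      have a6 : (t, (e.symm (t, u)).2) = e.symm (t, u) := Prod.ext a5.symm rfl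
      refine ⟨?_, ?_⟩
      · rw [a5] at a3
        refine a3.2 ?_
        rw [← h4, ← he, a4]
        exact hu0
      · change (t, (e.symm (t, u)).2) ∈ e.source ∩ e ⁻¹' ball (e (s, x)) ρ
        rw [a6]
        exact ⟨e.map_target a1, by rw [mem_preimage, a4]; exact hb u hu⟩
  rw [e1]
  have hc : IsConnected (ball (e (s, x)).2 ρ ∩ {u | ⟪g, u⟫ = 0}) := by
    refine ⟨⟨(e (s, x)).2, mem_ball_self hρ, ?_⟩, ((convex_ball _ _).inter
      (convex_hyperplane (innerSL ℝ g).toLinearMap.isLinear 0)).isPreconnected⟩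
    change ⟪g, (e (s, x)).2⟫ = 0
    rw [he, h4]
    exact hM.self_of_nhds.1 hx
  exact hc.image _ (continuous_snd.comp_continuousOn (e.continuousOn_symm.comp
    (Continuous.prodMk_right t).continuousOn fun u hu => (h6 _ (hb u hu.1)).1))

/-- upper semicontinuity -/
theorem ev_subset (h : IsMCF M I) (hR : ∀ t ∈ I, M t ⊆ closedBall 0 R) (hs : s ∈ I)
    {O : Set (ℝ × E3)} (hO : IsOpen O) (h1 : ∀ y ∈ M s, (s, y) ∈ O) :
    ∀ᶠ t in 𝓝 s, ∀ y ∈ M t, (t, y) ∈ O := by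
  have h2 := (isCompact_closedBall (0 : E3) R).eventually_forall_of_forall_eventually (x₀ := s)
    (P := fun t y => y ∈ M t → (t, y) ∈ O) fun y _ => by
      by_cases hy : y ∈ M s
      · filter_upwards [hO.mem_nhds (h1 y hy)] with p hp _ using hp
      · filter_upwards [h.closed s hs y hy] with p hp hp' using (hp hp').elim
  filter_upwards [h2, h.isOpen.mem_nhds hs] with t h3 ht y hy using h3 y (hR t ht hy) hy

theorem isCompact_slice (h : IsMCF M I) (hR : ∀ t ∈ I, M t ⊆ closedBall 0 R) (hs : s ∈ I) :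
    IsCompact (M s) :=
  (isCompact_closedBall 0 R).of_isClosed_subset (isOpen_compl_iff.1 (isOpen_iff_mem_nhds.2
    fun y hy => (Continuous.prodMk_right s).continuousAt.eventually (h.closed s hs y hy))) (hR s hs)

theorem ev_card (h : IsMCF M I) (hR : ∀ t ∈ I, M t ⊆ closedBall 0 R) (hs : s ∈ I) :
    ∀ᶠ t in 𝓝 s, Nat.card (ConnectedComponents (M s)) = Nat.card (ConnectedComponents (M t)) := by
  have h0 : ∀ x : M s, ∃ U U' : Set (ℝ × E3), IsOpen U ∧ (s, x.1) ∈ U ∧ closure U ⊆ U' ∧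
      IsPreconnected (M s ∩ sl U' s) ∧ ∀ᶠ t in 𝓝 s, IsConnected (M t ∩ sl U t) := fun x => by
    obtain ⟨U', a1, a2, -, a3⟩ := exists_nbhd h hs x.2 univ_mem
    obtain ⟨K, b1, b2, b3⟩ := exists_mem_nhds_isClosed_subset (a1.mem_nhds a2)
    obtain ⟨U, c1, c2, c3, c4⟩ := exists_nbhd h hs x.2 b1
    exact ⟨U, U', c1, c2, (closure_minimal c3 b2).trans b3, a3.self_of_nhds.2, c4⟩
  choose U U' u1 u2 u3 u4 u5 using h0
  obtain ⟨F, hF⟩ := (isCompact_slice h hR hs).elim_finite_subcover (fun x => sl (U x) s)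
    (fun x => isOpen_sl (u1 x) s) fun y hy => mem_iUnion.2 ⟨⟨y, hy⟩, u2 _⟩
  have hA : ∀ y ∈ M s, ∃ i : F, y ∈ sl (U i) s := fun y hy => by
    obtain ⟨i, hi, h1⟩ := mem_iUnion₂.1 (hF hy)
    exact ⟨⟨i, hi⟩, h1⟩
  have e1 := ev_subset h hR hs (isOpen_iUnion fun i : F => u1 i) fun y hy => mem_iUnion.2 (hA y hy)
  have e2 : ∀ᶠ t in 𝓝 s, ∀ i : F, IsConnected (M t ∩ sl (U i) t) :=
    eventually_all.2 fun i => u5 i
  have e3 : ∀ᶠ t in 𝓝 s, ∀ i j : F, ∀ x ∈ M s, x ∈ sl (U i) s → x ∈ sl (U j) s →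
      ∃ z ∈ M t, z ∈ sl (U i) t ∧ z ∈ sl (U j) t := by
    refine eventually_all.2 fun i => eventually_all.2 fun j => ?_
    by_cases hx : ∃ x ∈ M s, x ∈ sl (U i) s ∧ x ∈ sl (U j) s
    · obtain ⟨x, hx, h1, h2⟩ := hx
      obtain ⟨V, -, -, v1, v2⟩ := exists_nbhd h hs hx
        (inter_mem ((u1 i).mem_nhds h1) ((u1 j).mem_nhds h2))
      filter_upwards [v2] with t ht _ _ _ _
      obtain ⟨z, hz, hz'⟩ := ht.1
      exact ⟨z, hz, v1 hz'⟩
    · exact Eventually.of_forall fun t x h0 h1 h2 => (hx ⟨x, h0, h1, h2⟩).elim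
  have e4 : ∀ᶠ t in 𝓝 s, ∀ i j : F, ∀ x ∈ M t, x ∈ sl (U i) t → x ∈ sl (U j) t →
      ((i.1 : M s) : ConnectedComponents (M s)) = ((j.1 : M s) : ConnectedComponents (M s)) := by
    refine eventually_all.2 fun i => eventually_all.2 fun j => ?_
    by_cases hx : ∃ x ∈ M s, (s, x) ∈ closure (U i) ∧ (s, x) ∈ closure (U j)
    · obtain ⟨x, hx, h1, h2⟩ := hx
      refine Eventually.of_forall fun _ _ _ _ _ => ?_
      exact (mk_eq (y := ⟨x, hx⟩) (u4 i) inter_subset_left ⟨i.1.2, u3 i (subset_closure (u2 i))⟩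
        ⟨hx, u3 i h1⟩).trans (mk_eq (u4 j) inter_subset_left ⟨hx, u3 j h2⟩
          ⟨j.1.2, u3 j (subset_closure (u2 j))⟩)
    · filter_upwards [ev_subset h hR hs (isClosed_closure.inter isClosed_closure).isOpen_compl
        fun y hy h1 => hx ⟨y, hy, h1⟩] with t ht x h0 h1 h2
      exact (ht x h0 ⟨subset_closure h1, subset_closure h2⟩).elim
  filter_upwards [e1, e2, e3, e4] with t f1 f2 f3 f4
  choose b hb using fun i => (f2 i).1
  refine card_eq (W := fun i : F => sl (U i) s) (W' := fun i : F => sl (U i) t)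
    (fun i => isOpen_sl (u1 i) s) (fun i => isOpen_sl (u1 i) t) hA
    (fun y hy => by simpa [sl] using f1 y hy) (fun i => (u5 i).self_of_nhds.2) (fun i => (f2 i).2)
    (fun i => i.1) (fun i => ⟨b i, (hb i).1⟩) (fun i => u2 i) (fun i => (hb i).2)
    (fun i j x h0 h1 h2 => ?_) f4
  obtain ⟨z, z0, z1, z2⟩ := f3 i j x h0 h1 h2
  exact (mk_eq (y := ⟨z, z0⟩) (f2 i).2 inter_subset_left (hb i) ⟨z0, z1⟩).trans
    (mk_eq (f2 j).2 inter_subset_left ⟨z0, z2⟩ (hb j))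

theorem card_const (h : IsMCF M I) (hI : IsPreconnected I) (hR : ∀ t ∈ I, M t ⊆ closedBall 0 R)
    (hs : s ∈ I) {t : ℝ} (ht : t ∈ I) :
    Nat.card (ConnectedComponents (M s)) = Nat.card (ConnectedComponents (M t)) :=
  hI.constant (f := fun t => Nat.card (ConnectedComponents (M t))) (fun _ hu =>
    (continuousAt_const.congr (ev_card h hR hu)).continuousWithinAt) hs ht

end Vale.Agent.P218G.GC0
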