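import Vale.Agent.P218G.FinSpec
import Vale.Agent.P218G.GenC0
import Vale.Agent.P218F.LgbK

/-! The genus is constant along a smooth flow of closed surfaces. -/

open Set

namespace Vale.Agent.P218G.Rg

theorem genusConst_proof : GenusConstStmt := by
  intro M a b R h hR s hs t ht
  have h1 := P218F.Lgb.kconst_proof M a b R h hR s hs t ht
  unfold P218F.Lgb.gK at h1
  unfold Lit.totalGenus
  rw [h1, GC0.card_const h isPreconnected_Ioo hR hs ht]

end Vale.Agent.P218G.Rg
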