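import Vale.Agent.P218G.Fin
import Vale.Agent.P218G.GenConst
import Vale.Agent.P218G.GCore
import Vale.Agent.P218G.GCEnd
import Vale.Agent.P218F.Fin

/-! Uniqueness of tangent flows for weak flows: the theorem. -/

open MeasureTheory Set Metric

namespace Vale.Agent.P218G.Rg

open Vale.Agent.P218 Vale.Agent.P218G.Lit
open Vale.Agent.P218FT (E3)

theorem final (μ : ℝ → Measure E3) (hμ : IsIntegralBrakkeFlow 2 μ) (hU : IsUnitRegular μ)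
    (hR : ∃ R : ℝ, μ 0 (closedBall 0 R)ᶜ = 0) (x₀ : E3) (t₀ : ℝ) (ht : 0 < t₀)
    (h : (∃ a < t₀, ∀ t ∈ Ioo a t₀, IsRegularTime μ t) ∨
      (∃ a < t₀, IsAlmostRegularOn μ a t₀) ∨
      (∃ S : Set E3, IsSelfShrinker S ∧ (HasFiniteGenus S ∨ BddGeom S) ∧
        (μH[2] : Measure E3).restrict S ∈ tangentSlices 2 μ x₀ t₀) ∨
      (IsCyclic μ ∧ ∃ r : ℝ, 0 < r ∧ r ^ 2 ≤ t₀ ∧
        densityRatio 2 μ x₀ t₀ r < 2 * (om0 / (4 * Real.pi)))) :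
    TangentFlowUnique 2 μ x₀ t₀ ∧ ∃ S : Set E3, IsSelfShrinker S ∧ ConvergesTo μ x₀ t₀ S :=
  final_of (P218F.Top.static_of_LS P218F.Fin.ls) genusConst_proof (GL.gc_of GC.core_proof)
    μ hμ hU hR x₀ t₀ ht h

end Vale.Agent.P218G.Rg
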