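import Vale.Agent.P218.Defs
import Vale.Agent.P218FT.ConvSpec

/-! Weak mean curvature flows of surfaces in `ℝ³`: Gaussian density, regular points, unit-regular
flows. The measure `μH[2]` is Mathlib's (unnormalised) Hausdorff measure, as in the definition of
integral Brakke flows. -/

open MeasureTheory Set Filter Topology Metric
open scoped ENNReal NNReal RealInnerProductSpace ContDiff

namespace Vale.Agent.P218G.Lit

open Vale.Agent.P218 (densityRatio)
open Vale.Agent.P218FT (E3 Hv TwoPt)

/-- the integral of `exp (-|p|²/4)` over a plane; `om0 / (4π)` is the Gaussian density ratio of a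
static plane of multiplicity one -/
noncomputable def om0 : ℝ :=
  ∫ p : EuclideanSpace ℝ (Fin 2), Real.exp (-‖p‖ ^ 2 / 4) ∂(μH[2] : Measure _)

/-- the Gaussian density of `μ` at `(x, t)` is `θ`, a static plane having density one -/
def HasDensity (μ : ℝ → Measure E3) (x : E3) (t θ : ℝ) : Prop :=
  Tendsto (fun r => densityRatio 2 μ x t r) (𝓝[>] 0) (𝓝 (θ * (om0 / (4 * Real.pi))))

/-- `(M_t)` is a smooth embedded mean curvature flow in the open set `U` of space-time: its track
is closed in `U`, it is locally the zero set of a smooth function `w` with nonzero spatial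
gradient, and the normal velocity is the mean curvature vector. -/
structure IsMCFOn (M : ℝ → Set E3) (U : Set (ℝ × E3)) : Prop where
  isOpen : IsOpen U
  closed : ∀ p ∈ U, p.2 ∉ M p.1 → ∀ᶠ q : ℝ × E3 in 𝓝 p, q.2 ∉ M q.1
  loc : ∀ p ∈ U, p.2 ∈ M p.1 → ∃ w : ℝ × E3 → ℝ, ContDiff ℝ ∞ w ∧
    gradient (fun y => w (p.1, y)) p.2 ≠ 0 ∧ (∀ᶠ q : ℝ × E3 in 𝓝 p, q.2 ∈ M q.1 ↔ w q = 0) ∧
    deriv (fun s => w (s, p.2)) p.1 = -⟪gradient (fun y => w (p.1, y)) p.2, Hv (M p.1) p.2⟫

/-- the time slice of a set of space-time -/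
def tsl (U : Set (ℝ × E3)) (t : ℝ) : Set E3 := {x | (t, x) ∈ U}

/-- `(x, t)` is a regular point: in a space-time neighbourhood of it, `μ` is the area measure, with
multiplicity one, of a smooth embedded mean curvature flow (possibly empty) -/
def IsRegularPt (μ : ℝ → Measure E3) (x : E3) (t : ℝ) : Prop :=
  ∃ (U : Set (ℝ × E3)) (M : ℝ → Set E3), (t, x) ∈ U ∧ IsMCFOn M U ∧
    ∀ s, (μ s).restrict (tsl U s) = (μH[2] : Measure E3).restrict (M s ∩ tsl U s)

/-- unit-regular: the points of Gaussian density one are regular -/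
def IsUnitRegular (μ : ℝ → Measure E3) : Prop :=
  ∀ (x : E3) (t : ℝ), 0 < t → HasDensity μ x t 1 → IsRegularPt μ x t

/-- `t` is a regular time -/
def IsRegularTime (μ : ℝ → Measure E3) (t : ℝ) : Prop := ∀ x : E3, IsRegularPt μ x t

/-- bounded geometry: a two-point bound which is uniform on `S` (bounded curvature, and no two
sheets come close) -/
def BddGeom (S : Set E3) : Prop := ∃ r C : ℝ, 0 < r ∧ ∀ p ∈ S, TwoPt S p r C

end Vale.Agent.P218G.Lit
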