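import Vale.Agent.P218G.Par
import Vale.Agent.P218G.Lit

/-! Cyclic flows: the odd part of an integral varifold, and the colouring. -/

open MeasureTheory Set Filter Topology Metric
open scoped ENNReal NNReal RealInnerProductSpace ContDiff

namespace Vale.Agent.P218G.Par

open P218FT
open Vale.Agent.P214 (IntegralVarifold weightOf)

/-- the area measure of the part of `V` which has odd multiplicity -/
noncomputable def oddPart (V : IntegralVarifold 2 (univ : Set E3)) : Measure E3 :=
  (μHE[2] : Measure E3).restrict {x ∈ V.carrier | Odd (V.mult x)}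

/-- cyclic: for almost every time the flat chain modulo two of the varifold has no boundary, that
is, the part of odd multiplicity is the boundary of a set in the sense of the Gauss-Green
formula -/
def IsCyclic (μ : ℝ → Measure E3) : Prop :=
  ∀ᵐ t : ℝ, 0 ≤ t → ∃ V : IntegralVarifold 2 (univ : Set E3), V.weight = μ t ∧ Bounds (oddPart V)

lemma exists_cE : ∃ c : ℝ≥0, c ≠ 0 ∧ (μHE[2] : Measure E3) = c • (μH[2] : Measure E3) :=
  ⟨_, Measure.addHaarScalarFactor_volume_hausdorffMeasure_ne_zero 2, by
    simpa using Measure.euclideanHausdorffMeasure_def (X := E3) 2⟩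

variable (V : IntegralVarifold 2 (univ : Set E3))

lemma mul_le_weight {S : Set E3} (hS : MeasurableSet S) {k : ℕ}
    (h : ∀ᵐ x ∂(μH[2] : Measure E3), x ∈ S → x ∈ V.carrier → k ≤ V.mult x) :
    k * (μH[2] : Measure E3) (S ∩ V.carrier) ≤ V.weight S := by
  have hA : NullMeasurableSet V.carrier (μH[2] : Measure E3) := by simpa using V.carrier_meas
  have e : V.weight = ((μH[2] : Measure E3).restrict V.carrier).withDensity
      fun x => (V.mult x : ℝ≥0∞) := by simp [IntegralVarifold.weight, weightOf]
  rw [e, withDensity_apply _ hS, ← Measure.restrict_apply hS, ← setLIntegral_const]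
  refine lintegral_mono_ae ((ae_restrict_iff' hS).2 ?_)
  filter_upwards [ae_restrict_of_ae h, ae_restrict_mem₀ hA] with x h1 h2 h3
  exact_mod_cast h1 h3 h2

lemma oddPart_le : ∃ c : ℝ≥0, oddPart V ≤ c • V.weight := by
  obtain ⟨c, -, hc⟩ := exists_cE
  refine ⟨c, Measure.le_iff.2 fun S hS => ?_⟩
  have := mul_le_weight V hS (k := 1) (Eventually.of_forall fun x _ hx => V.mult_pos x hx)
  rw [oddPart, Measure.restrict_apply hS, hc, Measure.smul_apply, Measure.smul_apply]
  rw [Nat.cast_one, one_mul] at this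
  exact smul_le_smul_left c ((measure_mono (t := S ∩ V.carrier)
    fun x hx => ⟨hx.1, hx.2.1⟩).trans this)

/-- where the multiplicity is one, the odd part carries the mass -/
lemma weight_eq_zero {Q : Set E3} (hQ : MeasurableSet Q)
    (h : V.weight.restrict Q ≤ (μH[2] : Measure E3)) (h0 : oddPart V Q = 0) : V.weight Q = 0 := by
  obtain ⟨c, c0, hc⟩ := exists_cE
  rw [oddPart, Measure.restrict_apply hQ, hc, Measure.smul_apply, smul_eq_zero] at h0
  have h1 := measure_eq_zero_iff_ae_notMem.1 (h0.resolve_left c0)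
  have hA : NullMeasurableSet V.carrier (μH[2] : Measure E3) := by simpa using V.carrier_meas
  obtain ⟨A, hA1, hA2⟩ := hA
  have ac : V.weight ≪ (μH[2] : Measure E3).restrict V.carrier := by
    simpa [IntegralVarifold.weight, weightOf] using withDensity_absolutelyContinuous
      ((μH[2] : Measure E3).restrict V.carrier) fun x => (V.mult x : ℝ≥0∞)
  have hA3 : ∀ᵐ x ∂V.weight, x ∈ A := ac.ae_le (by
    filter_upwards [ae_restrict_mem₀ ⟨A, hA1, hA2⟩, ae_restrict_of_ae hA2] with x a b
    exact (iff_of_eq b).1 a)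
  rw [show Q = ⋃ k : ℕ, Q ∩ closedBall (0 : E3) k by
    rw [← inter_iUnion, iUnion_closedBall_nat, inter_univ]]
  refine measure_iUnion_null fun k => ?_
  set S := Q ∩ closedBall (0 : E3) k with hS
  have mS : MeasurableSet S := hQ.inter measurableSet_closedBall
  have f1 : V.weight S ≠ ⊤ := ((measure_mono inter_subset_right).trans_lt
    (V.locFinite _ (subset_univ _) (isCompact_closedBall _ _))).ne
  have a1 := mul_le_weight V mS (k := 2) (h1.mono fun x a b c => by
    have := V.mult_pos x c
    have : ¬ Odd (V.mult x) := fun d => a ⟨b.1, c, d⟩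
    rcases Nat.even_or_odd' (V.mult x) with ⟨j, e | e⟩
    · omega
    · exact absurd ⟨j, e⟩ this)
  have a2 : V.weight S ≤ (μH[2] : Measure E3) (S ∩ V.carrier) := by
    have b1 : V.weight S = V.weight.restrict Q (S ∩ A) := by
      rw [Measure.restrict_apply (mS.inter hA1), inter_eq_left.2 fun x hx => hx.1.1]
      refine measure_congr ?_
      filter_upwards [hA3] with x hx using propext ⟨fun a => ⟨a, hx⟩, fun a => a.1⟩
    rw [b1]
    exact (h _).trans (measure_congr (EventuallyEq.inter EventuallyEq.rfl hA2)).ge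
  by_contra h2
  have a3 : V.weight S + V.weight S ≤ V.weight S := by
    rw [← two_mul]
    exact (mul_le_mul_right a2 _).trans (by simpa using a1)
  exact absurd a3 (not_le.2 (ENNReal.lt_add_right f1 h2))

/-- **The colouring of a cyclic varifold**, on an open set where the multiplicity is one -/
theorem col_restrict (hB : Bounds (oddPart V)) {N W : Set E3} (hN : IsClosed N)
    (h0 : V.weight Nᶜ = 0) (hW : IsOpen W) (h : V.weight.restrict W ≤ (μH[2] : Measure E3)) :
    Col (V.weight.restrict W) N := by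
  obtain ⟨c, hc⟩ := oddPart_le V
  have : IsFiniteMeasureOnCompacts (oddPart V) := ⟨fun K hK => (hc K).trans_lt (by
    rw [Measure.smul_apply]
    exact ENNReal.mul_lt_top ENNReal.coe_lt_top (V.locFinite K (subset_univ _) hK))⟩
  obtain ⟨A, B, H⟩ := col_of_bounds hB hN (le_zero_iff.1 ((hc _).trans (by simp [h0])))
  refine ⟨A, B, H.openA, H.openB, H.disj, H.cover, fun Q hQ h1 h2 => ?_⟩
  rw [Measure.restrict_apply hQ.measurableSet]
  refine weight_eq_zero V (hQ.inter hW).measurableSet
    ((Measure.restrict_mono_set _ inter_subset_right).trans h) (H.null _ (hQ.inter hW)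
      (measure_mono_null (inter_subset_inter_left _ inter_subset_left) h1) ?_)
  exact h2.imp (fun a x hx => a ⟨hx.1.1, hx.2⟩) fun a x hx => a ⟨hx.1.1, hx.2⟩

/-- colourings are invariant under rescaling -/
theorem Col.scale {m : Measure E3} {N : Set E3} (h : Col m N) {lam : ℝ} (hl : 0 < lam) (x₀ : E3)
    (c : ℝ≥0∞) : Col (c • m.map fun x => lam • (x - x₀)) (scaleSet lam x₀ N) := by
  obtain ⟨A, B, H⟩ := h
  have g : Continuous fun y : E3 => x₀ + lam⁻¹ • y := by fun_prop
  have f : Continuous fun x : E3 => lam • (x - x₀) := by fun_prop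
  have e : ∀ x : E3, x₀ + lam⁻¹ • lam • (x - x₀) = x := fun x => by
    rw [inv_smul_smul₀ hl.ne', add_sub_cancel]
  refine ⟨scaleSet lam x₀ A, scaleSet lam x₀ B, H.openA.preimage g, H.openB.preimage g,
    H.disj.preimage _, fun y hy => H.cover hy, fun Q hQ h1 h2 => ?_⟩
  rw [Measure.smul_apply, Measure.map_apply f.measurable hQ.measurableSet,
    H.null _ (hQ.preimage f) ?_ (h2.imp (fun a x hx => ?_) fun a x hx => ?_), smul_zero]
  · have e1 : (fun x : E3 => lam • (x - x₀)) ⁻¹' Q ∩ N =
        (fun x : E3 => x - x₀) ⁻¹' ((fun x : E3 => lam • x) ⁻¹' (Q ∩ scaleSet lam x₀ N)) := by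
      ext x
      simp only [mem_inter_iff, mem_preimage, scaleSet, mem_ofPred_eq, e]
    rw [e1]
    simp only [sub_eq_add_neg]
    rw [measure_preimage_add_right, Measure.addHaar_preimage_smul _ hl.ne', h1, mul_zero]
  · have := a (a := lam • (x - x₀)) ⟨hx.1, fun b => hx.2 (e x ▸ b)⟩
    exact e x ▸ this
  · have := a (a := lam • (x - x₀)) ⟨hx.1, fun b => hx.2 (e x ▸ b)⟩
    exact e x ▸ this

/-- a Lipschitz condition gives the vertical line property -/
lemma once_of_lip {N S : Set E3} {e : E3} (he : ‖e‖ = 1) {τ : ℝ} (hτ : τ < 1)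
    (h : ∀ x ∈ N, x ∈ S → ∀ y ∈ N, y ∈ S → |⟪e, y - x⟫| ≤ τ * ‖y - x‖) :
    ∀ x ∈ N, x ∈ S → ∀ z : ℝ, x + z • e ∈ N → x + z • e ∈ S → z = 0 := by
  intro x h1 h2 z h3 h4
  have := h x h1 h2 _ h3 h4
  rw [add_sub_cancel_left, real_inner_smul_right, real_inner_self_eq_norm_sq, norm_smul, he,
    Real.norm_eq_abs] at this
  by_contra h0
  have := abs_pos.2 h0
  simp only [one_pow, mul_one] at *
  nlinarith

end Vale.Agent.P218G.Par
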