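import Vale.Agent.P218G.GBlow
import Vale.Agent.P218G.Par2

/-! Case C: points of Gaussian density less than two of cyclic unit-regular flows. Statements of
the blocks. -/

open MeasureTheory Set Filter Topology Metric
open scoped ENNReal NNReal RealInnerProductSpace ContDiff

namespace Vale.Agent.P218G.GC

open Vale.Agent.P218 Vale.Agent.P218G.Lit Vale.Agent.P218G.Rg Vale.Agent.P218G.GL
open Vale.Agent.P218FT (E3 TwoPt IsShr ssFlow AreaRatio)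
open Vale.Agent.P218F.Dyn (hm)

/-- a cyclic unit-regular flow whose density at `(x₀, t₀)` is less than two -/
structure Ctx (μ : ℝ → Measure E3) (x₀ : E3) (t₀ a D Θ : ℝ) : Prop where
  ibf : IsIntegralBrakkeFlow 2 μ
  fin : μ 0 univ < ⊤
  ur : IsUnitRegular μ
  cyc : Par.IsCyclic μ
  pos : 0 < a
  lt : a < t₀
  gs : GS μ a D
  dens : Dens μ x₀ t₀ Θ
  two : Θ < 2 * om0

/-- the density at `(y, t)` is at most one -/
def DL (ν : ℝ → Measure E3) (y : E3) (t : ℝ) : Prop := ∀ θ : ℝ, Dens ν y t θ → θ ≤ om0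

/-- a two-point bound of type I at `(y, 0)` -/
def T1At (M : ℝ → Set E3) (y : E3) : Prop :=
  ∀ R : ℝ, ∃ r C t₁ : ℝ, 0 < r ∧ 0 < C ∧ t₁ < 0 ∧ ∀ t ∈ Ioo t₁ 0, ∀ x ∈ M t,
    ‖x - y‖ ≤ R * √(0 - t) → TwoPt (M t) x (r * √(0 - t)) (C / √(0 - t))

/-- **REGL**: points of density at most one of limit flows are regular -/
def RegLStmt : Prop :=
  ∀ (μ : ℝ → Measure E3) (x₀ : E3) (t₀ a D Θ : ℝ), Ctx μ x₀ t₀ a D Θ → ∀ ν, Lim μ x₀ t₀ ν →
    ∀ (y : E3) (t : ℝ), DL ν y t → IsRegularPt ν y t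

/-- **INTL**: a static limit flow which is carried by a plane has density at most one -/
def IntLStmt : Prop :=
  ∀ (μ : ℝ → Measure E3) (x₀ : E3) (t₀ a D Θ : ℝ), Ctx μ x₀ t₀ a D Θ → ∀ ν, Lim μ x₀ t₀ ν →
    SS ν → Stat ν → ∀ e : E3, ‖e‖ = 1 → ν (-1) {x | ⟪e, x⟫ ≠ 0} = 0 → GA (ν (-1)) 0 1 ≤ om0

/-- **L0L**: a static cone which is invariant along a line, with density at most one off the
line -/
def L0LStmt : Prop :=
  ∀ (μ : ℝ → Measure E3) (x₀ : E3) (t₀ a D Θ : ℝ), Ctx μ x₀ t₀ a D Θ → ∀ ν, Lim μ x₀ t₀ ν →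
    SS ν → Stat ν → ∀ v : E3, ‖v‖ = 1 → Inv ν v →
      (∀ y ∉ (ℝ ∙ v : Submodule ℝ E3), ∀ t < 0, DL ν y t) → GA (ν (-1)) 0 1 ≤ om0

/-- **L1L**: a static cone with density at most one off the vertex -/
def L1LStmt : Prop :=
  ∀ (μ : ℝ → Measure E3) (x₀ : E3) (t₀ a D Θ : ℝ), Ctx μ x₀ t₀ a D Θ → ∀ ν, Lim μ x₀ t₀ ν →
    SS ν → Stat ν → (∀ y : E3, y ≠ 0 → ∀ t < 0, DL ν y t) → GA (ν (-1)) 0 1 ≤ om0

/-- **CORE**: self-similar limit flows have density at most one before the time zero -/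
def CoreStmt : Prop :=
  ∀ (μ : ℝ → Measure E3) (x₀ : E3) (t₀ a D Θ : ℝ), Ctx μ x₀ t₀ a D Θ → ∀ ν, Lim μ x₀ t₀ ν →
    SS ν → ∀ (y : E3), ∀ t < 0, DL ν y t

/-- **TOPA**: a self-similar Gaussian system which is regular before the time zero is a smooth
shrinker with multiplicity one -/
def TopAStmt : Prop :=
  ∀ (ν : ℝ → Measure E3) (D : ℝ), (∀ b, GS ν b D) → SS ν →
    (∀ (y : E3), ∀ t < 0, IsRegularPt ν y t) →
    IsMCFOn (Spt ν) (Iio 0 ×ˢ univ) ∧ IsShr (Spt ν (-1)) ∧ ν (-1) = hm (Spt ν (-1)) ∧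
      (∀ t < 0, Spt ν t = ssFlow (Spt ν (-1)) t) ∧ ∃ D', AreaRatio D' (Spt ν (-1))

/-- **TOPB**: the bound of type I at `(y, 0)`, when the blow-up limits have density at most one -/
def TopBStmt : Prop :=
  ∀ (ν : ℝ → Measure E3) (D : ℝ), (∀ b, GS ν b D) → IsMCFOn (Spt ν) (Iio 0 ×ˢ univ) → ∀ y : E3,
    (∀ (J : Type) (U : Ultrafilter J) (lam : J → ℝ) (ν' : ℝ → Measure E3),
      Blow U lam ν y 0 ν' → ∀ x : E3, DL ν' x (-1)) → T1At (Spt ν) y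

/-- **BDDT**: bounded geometry from the bounds of type I at the time zero -/
def BddTStmt : Prop :=
  ∀ (S : Set E3) (D : ℝ), IsShr S → AreaRatio D S → (∀ y, T1At (ssFlow S) y) → BddGeom S

/-- **Case C** -/
def GCStmt : Prop :=
  ∀ μ : ℝ → Measure E3, IsIntegralBrakkeFlow 2 μ → μ 0 univ < ⊤ → IsUnitRegular μ →
    Par.IsCyclic μ → ∀ (x₀ : E3) (t₀ θ : ℝ), 0 < t₀ → HasDensity μ x₀ t₀ θ → θ < 2 →
      ∃ (S : Set E3) (D : ℝ), IsShr S ∧ AreaRatio D S ∧ BddGeom S ∧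
        hm S ∈ tangentSlices 2 μ x₀ t₀

end Vale.Agent.P218G.GC
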