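import Vale.Agent.P218G.GRs
import Vale.Agent.P218G.GCSpec
import Vale.Agent.P218G.BGLgb

/-! Limit flows are regular systems; bounded geometry of self-similar limit flows. -/

open MeasureTheory Set Filter Topology Metric
open scoped ENNReal NNReal RealInnerProductSpace ContDiff

namespace Vale.Agent.P218G.GL

open Vale.Agent.P218 Vale.Agent.P218.H313.A1
open Vale.Agent.P218G.Lit Vale.Agent.P218G.Rg Vale.Agent.P218G.WL
open Vale.Agent.P218FT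

/-- `ε` is a gap constant for the entropy bound `D` -/
structure Gap (D ε : ℝ) : Prop where
  pos : 0 < ε
  ibf : ∀ (μ : ℝ → Measure E3) (a : ℝ), IsIntegralBrakkeFlow 2 μ → μ 0 univ < ⊤ →
    IsUnitRegular μ → 0 ≤ a → GS μ a D → RS μ a D ε (RegS μ)
  lim : ∀ {ι : Type} (U : Ultrafilter ι) (μ : ι → ℝ → Measure E3) (K : ι → Set (ℝ × E3))
    (ν : ℝ → Measure E3), (∀ a, ∀ᶠ i in (U : Filter ι), RS (μ i) a D ε (K i)) →
    (∀ s, Ent (ν s) D) → (∀ s, WL U (fun i => μ i s) (ν s)) → ∀ a, RS ν a D ε (Good U μ K)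

theorem exists_eps (D : ℝ) : ∃ ε, Gap D ε := by
  obtain ⟨ε₀, h0, h1⟩ := rs_ibf D
  obtain ⟨ε₁, h2, h3⟩ := rs_lim D
  exact ⟨min ε₀ ε₁, lt_min h0 h2, fun μ a a1 a2 a3 a4 a5 =>
    (h1 μ a a1 a2 a3 a4 a5).mono (min_le_left _ _), h3 _ (min_le_right _ _)⟩

lemma Gap.lt {D ε θ : ℝ} (h : Gap D ε) (hθ : θ ≤ om0) : θ < (1 + ε) * om0 := by
  nlinarith [h.pos, om0_pos]

variable {μ ν ν' : ℝ → Measure E3} {x₀ : E3} {t₀ a D ε : ℝ} {K : Set (ℝ × E3)}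

/-- limits of rescalings of a regular system -/
theorem LimD.rs {ι : Type} {U : Ultrafilter ι} {x : ι → E3} {t lam : ι → ℝ} (hg : Gap D ε)
    (hb : LimD U x t lam μ x₀ t₀ ν) (h : RS μ a D ε K) (ht : a < t₀) (b : ℝ) :
    RS ν b D ε (Good U (fun i => rescaled 2 μ (x i) (t i) (lam i))
      fun i => scaleReg (lam i) (x i) (t i) K) :=
  hg.lim U _ _ ν (ev_rs h hb.top x hb.ht ht) (hb.ent h.gs ht) hb.lim b

theorem Lim.rsG (hg : Gap D ε) (hb : Lim μ x₀ t₀ ν) (h : RS μ a D ε K) (ht : a < t₀) :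
    ∃ K', ∀ b, RS ν b D ε K' := by
  obtain ⟨ι, U, x, t, lam, hb⟩ := hb
  exact ⟨_, hb.rs hg h ht⟩

lemma Blow.limD {ι : Type} {l : Filter ι} {lam : ι → ℝ} {y : E3} {t : ℝ}
    (h : Blow l lam ν y t ν') : LimD l (fun _ => y) (fun _ => t) lam ν y t ν' :=
  ⟨tendsto_const_nhds, tendsto_const_nhds, h.top, h.lf, h.lim⟩

lemma RS.memG (h : RS ν a D ε K) (hg : Gap D ε) {y : E3} {t : ℝ} (ht : a < t)
    (hd : ∀ θ, Dens ν y t θ → θ ≤ om0) : (t, y) ∈ K :=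
  let ⟨θ, h1⟩ := exists_dens h.gs y ht
  h.gap y t θ ht h1 (hg.lt (hd θ h1))

lemma RS.regular (h : RS ν a D ε K) {y : E3} {t : ℝ} (hp : (t, y) ∈ K) : IsRegularPt ν y t :=
  ⟨K, Spt ν, hp, h.mcf, h.meas⟩

theorem reg_lim : GC.RegLStmt := by
  intro μ x₀ t₀ a D Θ c ν hν y t hd
  obtain ⟨ε, hg⟩ := exists_eps D
  obtain ⟨K, hK⟩ := hν.rsG hg (hg.ibf μ a c.ibf c.fin c.ur c.pos.le c.gs) c.lt
  exact (hK (t - 1)).regular ((hK (t - 1)).memG hg (by linarith) hd)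

/-- the support of a self-similar flow -/
lemma SS.sptG (hs : SS ν) {c s : ℝ} (hc : 0 < c) (h0 : s ≤ 0) :
    Spt ν s = scaleSet c 0 (Spt ν (s / c ^ 2)) := by
  have h1 := congrFun (spt_rescaled hc ν 0 0) s
  rw [scaleFlow_apply, zero_add] at h1
  rw [← h1]
  ext x
  refine eventually_congr (mem_of_superset self_mem_nhdsWithin fun u hu => ?_)
  simp only [mem_ofPred_eq]
  rw [rescaled_eq_dil, zero_add, hs c hc u (lt_of_lt_of_le hu h0)]

lemma SS.spt_zero (hs : SS ν) (y : E3) {c : ℝ} (hc : 0 < c) :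
    Spt (rescaled 2 ν y 0 c) (-1) = scaleSet 1 (c • y) (Spt ν (-1)) := by
  have h1 := hs.sptG (inv_pos.2 hc) (s := -1 / c ^ 2)
    (div_nonpos_of_nonpos_of_nonneg (by norm_num) (by positivity))
  rw [inv_pow, div_inv_eq_mul, div_mul_cancel₀ _ (by positivity)] at h1
  rw [spt_rescaled hc, scaleFlow_apply, zero_add, h1]
  ext x
  simp only [mem_scaleSet, inv_inv, zero_add, smul_add, smul_inv_smul₀ hc.ne', inv_one, one_smul]

/-- **Bounded geometry** of a smooth self-similar limit flow -/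
theorem bdd_lim (hμ : IsIntegralBrakkeFlow 2 μ) (h0 : μ 0 univ < ⊤) (hU : IsUnitRegular μ)
    (ha : 0 ≤ a) (h : GS μ a D) (ht : a < t₀) (hb : Lim μ x₀ t₀ ν) (hs : SS ν) {S : Set E3}
    {D' : ℝ} (hS : IsShr S) (hA : AreaRatio D' S) (hE : Spt ν (-1) = S)
    (hcore : ∀ ν', Lim μ x₀ t₀ ν' → SS ν' → ∀ y θ, Dens ν' y (-1) θ → θ ≤ om0) : BddGeom S := by
  obtain ⟨ε, hg⟩ := exists_eps D
  obtain ⟨K, hK⟩ := hb.rsG hg (hg.ibf μ a hμ h0 hU ha h) ht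
  have hk := hb.key h ht ((key_ibf hμ h0).later ha) (-1)
  refine BG.bdd_of_ultra hS hA fun y _ U hU' z => ?_
  have m1 : (-1 : ℝ) < 0 := by norm_num
  obtain ⟨ν', hB⟩ := exists_blow (lam := id) U hU' (hK (-1)).gs y m1
  obtain ⟨W, hW, r, C, hr, h1⟩ := (hB.limD.rs hg (hK (-1)) m1 (-2)).memG hg (y := z) (t := -1)
    (by norm_num) (hcore ν' (hb.blow h ht hB) (hB.ss (hK (-1)).gs m1 hk) z)
  obtain ⟨ρ, hρ, h2⟩ := Metric.mem_nhds_iff.1 hW
  refine ⟨ρ, r, C, hρ, hr, ?_⟩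
  filter_upwards [h1, hU' (eventually_gt_atTop 0)] with c a1 a2 x hx a3
  have a4 : x - c • y ∈ scaleSet 1 (c • y) S := by simpa [mem_scaleSet] using hx
  have a5 := a1.2 (-1, x - c • y) (h2 (by
    rw [← ball_prod_same]
    exact ⟨mem_ball_self hρ, by rwa [mem_ball_iff_norm, sub_sub]⟩))
  simp only [id, hs.spt_zero y a2, hE] at a5
  simpa using (twoPt_scale one_pos a4 r C).1 (a5 a4)

end Vale.Agent.P218G.GL
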