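import Vale.Agent.P218G.GLim

/-! Blow-up limits: self-similarity, inherited symmetries, iterated limits. -/

open MeasureTheory Set Filter Topology Metric
open scoped ENNReal NNReal RealInnerProductSpace ContDiff

namespace Vale.Agent.P218G.GL

open Vale.Agent.P218 Vale.Agent.P218.H313 Vale.Agent.P218.H313.A1 Vale.Agent.P218.H552
open Vale.Agent.P218G.Lit Vale.Agent.P218G.Rg
open Vale.Agent.P218FT (E3)

variable {ι : Type*} {l : Filter ι} {ν ν' : ℝ → Measure E3} {κ : Measure E3} {a D : ℝ}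
  {y : E3} {t : ℝ} {lam : ι → ℝ}

/-- `Θ` is the (unnormalised) Gaussian density of `ν` at `(y, t)` -/
def Dens (ν : ℝ → Measure E3) (y : E3) (t Θ : ℝ) : Prop :=
  Tendsto (fun σ => GA (ν (t - σ)) y σ) (𝓝[>] 0) (𝓝 Θ)

lemma GA_mono (h : GS ν a D) (y : E3) {t σ σ' : ℝ} (h1 : a ≤ t - σ) (h2 : σ' ≤ σ) (h3 : 0 < σ') :
    GA (ν (t - σ')) y σ' ≤ GA (ν (t - σ)) y σ := by
  have h4 := h.mono1 y (t := t) h1 (by linarith : t - σ ≤ t - σ') (by linarith)
  rwa [sub_sub_cancel, sub_sub_cancel] at h4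

lemma exists_dens (h : GS ν a D) (y : E3) (ht : a < t) : ∃ Θ, Dens ν y t Θ := by
  refine ⟨_, MonotoneOn.tendsto_nhdsWithin_Ioo_right (x := 0) (y := t - a)
    (nonempty_Ioo.2 (sub_pos.2 ht)) (fun σ h1 σ' h2 h3 => GA_mono h y (by linarith [h2.2]) h3 h1.1)
    ⟨0, ?_⟩⟩
  rintro _ ⟨σ, h1, rfl⟩
  exact GA_nonneg _ _ h1.1.le

lemma Dens.le {Θ σ : ℝ} (hd : Dens ν y t Θ) (h : GS ν a D) (h1 : a ≤ t - σ) (h2 : 0 < σ) :
    Θ ≤ GA (ν (t - σ)) y σ :=
  le_of_tendsto hd (mem_of_superset (Ioo_mem_nhdsGT h2) fun _ h3 => GA_mono h y h1 h3.2.le h3.1)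

lemma Dens.nonneg {Θ : ℝ} (hd : Dens ν y t Θ) : 0 ≤ Θ :=
  ge_of_tendsto hd (mem_of_superset self_mem_nhdsWithin fun _ h => GA_nonneg _ _ (le_of_lt h))

lemma ent_NS (h : GS ν a D) (y : E3) {σ : ℝ} (h1 : a ≤ t - σ) (h2 : 0 < σ) : Ent (NS ν y t σ) D :=
  (h.ent _ h1).dil (inv_pos.2 (Real.sqrt_pos.2 h2)) y

lemma ev_small (ht : a < t) {σ : ι → ℝ} (hσ : Tendsto σ l (𝓝[>] 0)) :
    ∀ᶠ i in l, a ≤ t - σ i ∧ 0 < σ i :=
  (hσ.eventually (Ioo_mem_nhdsGT (sub_pos.2 ht))).mono fun _ hi => ⟨by linarith [hi.2], hi.1⟩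

/-- **slow variation** of the rescaled slices -/
theorem slow_NS (h : GS ν a D) (hk : Key ν a) (ht : a < t) {σ σ' : ι → ℝ}
    (hσ : Tendsto σ l (𝓝[>] 0)) (hσ' : Tendsto σ' l (𝓝[>] 0)) {L : ℝ}
    (hL : ∀ᶠ i in l, |Real.log (σ i / σ' i)| ≤ L) (hκ : Ent κ D)
    (hw : WL l (fun i => NS ν y t (σ i)) κ) : WL l (fun i => NS ν y t (σ' i)) κ := by
  obtain ⟨Θ, hd⟩ := exists_dens h y ht
  have e1 := ev_small ht hσ
  have e2 := ev_small ht hσ'
  refine WL.of_c1 (fun φ a1 a2 => ?_) (e2.mono fun i hi => ent_NS h y hi.1 hi.2) hκ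
  obtain ⟨g, g1, g2, g3⟩ := exists_unweight a1 a2
  obtain ⟨A, hA, g4, g5, -⟩ := exists_bounds g1 g2
  have c1 := ((hd.comp hσ).sub (hd.comp hσ')).abs
  rw [sub_self, abs_zero] at c1
  have c2 := (c1.const_mul A).add ((c1.const_mul (D * L)).sqrt.const_mul A)
  simp only [mul_zero, Real.sqrt_zero, add_zero] at c2
  have one : ∀ u u' : ℝ, a ≤ t - u → u' ≤ u → 0 < u' → |Real.log (u / u')| ≤ L →
      |∫ z, φ z ∂(NS ν y t u') - ∫ z, φ z ∂(NS ν y t u)| ≤
        A * |GA (ν (t - u)) y u - GA (ν (t - u')) y u'| +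
          A * √(D * L * |GA (ν (t - u)) y u - GA (ν (t - u')) y u'|) := by
    intro u u' b1 b2 b3 b4
    have b5 := hk y t u u' b1 b2 b3 A A g hA hA g1 g2 g4 g5
    simp only [g3] at b5
    have b6 := sub_nonneg.2 (GA_mono h y b1 b2 b3)
    rw [abs_of_nonneg b6]
    refine b5.trans (add_le_add_right (mul_le_mul_of_nonneg_left (Real.sqrt_le_sqrt
      (mul_le_mul_of_nonneg_right ?_ b6)) hA) _)
    have b7 := (h.ent _ b1).le y u (b3.trans_le b2)
    calc _ ≤ GA (ν (t - u)) y u * L :=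
          mul_le_mul_of_nonneg_left ((le_abs_self _).trans b4) (GA_nonneg _ _ (b3.le.trans b2))
      _ ≤ D * L := mul_le_mul_of_nonneg_right b7 ((abs_nonneg _).trans b4)
  have c3 : Tendsto (fun i => ∫ z, φ z ∂(NS ν y t (σ' i)) - ∫ z, φ z ∂(NS ν y t (σ i))) l (𝓝 0) := by
    refine squeeze_zero_norm' ?_ c2
    filter_upwards [e1, e2, hL] with i b1 b2 b3
    rcases le_total (σ' i) (σ i) with b | b
    · exact one _ _ b1.1 b b2.2 b3
    · have b4 := one _ _ b2.1 b b1.2 (by rwa [← inv_div, Real.log_inv, abs_neg])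
      rw [abs_sub_comm, abs_sub_comm (GA _ _ _)] at b4
      exact b4
  simpa using c3.add (hw.c1 φ a1 a2)

lemma rescaled_eq_NS (ν : ℝ → Measure E3) (y : E3) (t : ℝ) {c s : ℝ} (hc : 0 < c) (hs : s < 0) :
    rescaled 2 ν y t c s = dil 2 √(-s) 0 (NS ν y t (-s / c ^ 2)) := by
  have h1 : 0 < -s := neg_pos.2 hs
  have h2 : 0 < √(-s) := Real.sqrt_pos.2 h1
  rw [NS, dil_dil h2 (inv_pos.2 (Real.sqrt_pos.2 (by positivity))), smul_zero, add_zero,
    Real.sqrt_div h1.le, Real.sqrt_sq hc.le, inv_div, mul_div_cancel₀ _ h2.ne', rescaled_eq_dil]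
  congr 2
  ring

lemma tendsto_scale (hl : Tendsto lam l atTop) {s : ℝ} (hs : s < 0) :
    Tendsto (fun i => -s / lam i ^ 2) l (𝓝[>] 0) :=
  tendsto_nhdsWithin_iff.2 ⟨tendsto_const_nhds.div_atTop ((tendsto_pow_atTop two_ne_zero).comp hl),
    (hl.eventually_gt_atTop 0).mono fun _ hi => div_pos (neg_pos.2 hs) (by positivity)⟩

lemma tendsto_time (hl : Tendsto lam l atTop) {t : ι → ℝ} {t₀ : ℝ} (ht : Tendsto t l (𝓝 t₀))
    (s : ℝ) : Tendsto (fun i => t i + s / lam i ^ 2) l (𝓝 t₀) := by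
  simpa using ht.add ((tendsto_const_nhds (x := s)).div_atTop
    ((tendsto_pow_atTop two_ne_zero).comp hl))

lemma tendsto_point (hl : Tendsto lam l atTop) {x : ι → E3} {x₀ : E3} (hx : Tendsto x l (𝓝 x₀))
    (z : E3) : Tendsto (fun i => x i + (lam i)⁻¹ • z) l (𝓝 x₀) := by
  simpa using hx.add (hl.inv_tendsto_atTop.smul_const z)

lemma ev_start (hl : Tendsto lam l atTop) {t : ι → ℝ} {t₀ : ℝ} (ht : Tendsto t l (𝓝 t₀))
    (ha : a < t₀) (b : ℝ) : ∀ᶠ i in l, 0 < lam i ∧ (a - t i) * lam i ^ 2 ≤ b := by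
  filter_upwards [hl.eventually_gt_atTop 0, (tendsto_time hl ht b).eventually (lt_mem_nhds ha)]
    with i h1 h2
  refine ⟨h1, (le_div_iff₀ (by positivity)).1 (by linarith)⟩

lemma ev_gs (h : GS ν a D) (hl : Tendsto lam l atTop) (x : ι → E3) {t : ι → ℝ} {t₀ : ℝ}
    (ht : Tendsto t l (𝓝 t₀)) (ha : a < t₀) (b : ℝ) :
    ∀ᶠ i in l, GS (rescaled 2 ν (x i) (t i) (lam i)) b D :=
  (ev_start hl ht ha b).mono fun _ hi => (h.scale hi.1 _ _).later hi.2

lemma ev_key (h : Key ν a) (hl : Tendsto lam l atTop) (x : ι → E3) {t : ι → ℝ} {t₀ : ℝ}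
    (ht : Tendsto t l (𝓝 t₀)) (ha : a < t₀) (b : ℝ) :
    ∀ᶠ i in l, Key (rescaled 2 ν (x i) (t i) (lam i)) b :=
  (ev_start hl ht ha b).mono fun _ hi => (h.scale hi.1 _ _).later hi.2

lemma ev_ent (h : GS ν a D) (hl : Tendsto lam l atTop) (x : ι → E3) {t : ι → ℝ} {t₀ : ℝ}
    (ht : Tendsto t l (𝓝 t₀)) (ha : a < t₀) (s : ℝ) :
    ∀ᶠ i in l, Ent (rescaled 2 ν (x i) (t i) (lam i) s) D :=
  (ev_gs h hl x ht ha s).mono fun _ hi => hi.ent s le_rfl

/-- comparable scales give the same limit -/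
theorem slow (h : GS ν a D) (hk : Key ν a) (ht : a < t) (hl : Tendsto lam l atTop) {c : ι → ℝ}
    {c₀ : ℝ} (h0 : 0 < c₀) (hc : Tendsto c l (𝓝 c₀)) {s : ℝ} (hs : s < 0) (hκ : Ent κ D)
    (hw : WL l (fun i => rescaled 2 ν y t (lam i) s) κ) :
    WL l (fun i => rescaled 2 ν y t (c i * lam i) s) κ := by
  have h2 : 0 < √(-s) := Real.sqrt_pos.2 (neg_pos.2 hs)
  have hl' : Tendsto (fun i => c i * lam i) l atTop := hc.pos_mul_atTop h0 hl
  have p1 := hl.eventually_gt_atTop 0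
  have p2 : ∀ᶠ i in l, 0 < c i := hc.eventually (lt_mem_nhds h0)
  have a1 := (hw.dil (ev_ent h hl (fun _ => y) tendsto_const_nhds ht s) hκ.nonneg (inv_pos.2 h2)
    tendsto_const_nhds (tendsto_const_nhds (x := (0 : E3)))).congr
    (m' := fun i => NS ν y t (-s / lam i ^ 2)) (p1.mono fun i hi => by
      rw [rescaled_eq_NS ν y t hi hs, dil_dil (inv_pos.2 h2) h2, inv_mul_cancel₀ h2.ne', smul_zero,
        add_zero, dil_one])
  have a2 : ∀ᶠ i in l, |Real.log (-s / lam i ^ 2 / (-s / (c i * lam i) ^ 2))| ≤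
      |Real.log (c₀ ^ 2)| + 1 := by
    filter_upwards [p1, p2, ((hc.pow 2).log (by positivity)).abs.eventually
      (gt_mem_nhds (lt_add_one _))] with i b1 b2 b3
    rw [show -s / lam i ^ 2 / (-s / (c i * lam i) ^ 2) = c i ^ 2 by
      have := hs.ne
      field_simp]
    exact b3.le
  have a3 := slow_NS h hk ht (tendsto_scale hl hs) (tendsto_scale hl' hs) a2
    (hκ.dil (inv_pos.2 h2) 0) a1
  have a4 := a3.dil ((ev_small ht (tendsto_scale hl' hs)).mono fun i hi => ent_NS h y hi.1 hi.2)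
    hκ.nonneg h2 tendsto_const_nhds (tendsto_const_nhds (x := (0 : E3)))
  rw [dil_dil h2 (inv_pos.2 h2), mul_inv_cancel₀ h2.ne', smul_zero, add_zero, dil_one] at a4
  exact a4.congr ((hl'.eventually_gt_atTop 0).mono fun i hi => (rescaled_eq_NS ν y t hi hs).symm)

/-- upper semicontinuity of the density: the entropy of a blow-up limit -/
theorem ent_blow [l.NeBot] (h : GS ν a D) (hl : Tendsto lam l atTop) {x : ι → E3} {t : ι → ℝ}
    {x₀ : E3} {t₀ Θ s : ℝ} (hx : Tendsto x l (𝓝 x₀)) (ht : Tendsto t l (𝓝 t₀)) (ha : a < t₀)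
    (hd : Dens ν x₀ t₀ Θ) (hκ : IsLocallyFiniteMeasure κ)
    (hw : WL l (fun i => rescaled 2 ν (x i) (t i) (lam i) s) κ) : Ent κ Θ := by
  have e1 := ev_ent h hl x ht ha s
  have e2 := hw.ent e1 hκ
  refine ⟨hκ, e2.int, fun z σ hσ => ge_of_tendsto hd ?_⟩
  filter_upwards [Ioo_mem_nhdsGT (sub_pos.2 ha)] with δ hδ
  have b1 : a ≤ t₀ - δ := by linarith [hδ.2]
  have b2 : Tendsto (fun i => t i + (s + σ) / lam i ^ 2 - (t₀ - δ)) l (𝓝 δ) := by
    simpa using (tendsto_time hl ht (s + σ)).sub_const (t₀ - δ)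
  refine le_of_tendsto_of_tendsto (hw.GA e1 e2 z hσ)
    (((h.ent _ b1).continuousAt_GA x₀ hδ.1).tendsto.comp
      ((tendsto_point hl hx z).prodMk_nhds b2)) ?_
  filter_upwards [hl.eventually_gt_atTop 0,
    (tendsto_time hl ht s).eventually (lt_mem_nhds (by linarith [hδ.1] : t₀ - δ < t₀))] with i b3 b4
  have b5 := h.mono1 (x i + (lam i)⁻¹ • z) (t := t i + (s + σ) / lam i ^ 2) b1 b4.le (by
    gcongr; linarith)
  rw [add_sub_add_left_eq_sub, ← sub_div, add_sub_cancel_left] at b5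
  simp only [Function.comp_apply]
  rwa [rescaled_eq_dil, GA_dil b3]

lemma gs_ent (h : GS ν a D) {D' : ℝ} (he : ∀ s, Ent (ν s) D') : GS ν a D' :=
  ⟨fun s _ => he s, h.mono, h.supp⟩

/-! ### Symmetries -/

/-- self-similar for negative times -/
def SS (ν : ℝ → Measure E3) : Prop := ∀ c : ℝ, 0 < c → ∀ s : ℝ, s < 0 → dil 2 c 0 (ν (s / c ^ 2)) = ν s

/-- static for negative times -/
def Stat (ν : ℝ → Measure E3) : Prop := ∀ s : ℝ, s < 0 → ν s = ν (-1)

/-- invariant under the translations in the direction `v`, for negative times -/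
def Inv (ν : ℝ → Measure E3) (v : E3) : Prop :=
  ∀ (b s : ℝ), s < 0 → dil 2 1 (b • v) (ν s) = ν s

/-- `ν'` is a blow-up limit of `ν` at `(y, t)` -/
structure Blow {ι : Type*} (l : Filter ι) (lam : ι → ℝ) (ν : ℝ → Measure E3) (y : E3) (t : ℝ)
    (ν' : ℝ → Measure E3) : Prop where
  top : Tendsto lam l atTop
  lf : ∀ s, IsLocallyFiniteMeasure (ν' s)
  lim : ∀ s, WL l (fun i => rescaled 2 ν y t (lam i) s) (ν' s)

theorem exists_blow (U : Ultrafilter ι) (hl : Tendsto lam U atTop) (h : GS ν a D) (y : E3)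
    (ht : a < t) : ∃ ν', Blow U lam ν y t ν' := by
  obtain ⟨ν', h1, h2⟩ := exists_lim U (ev_gs h hl (fun _ => y) tendsto_const_nhds ht)
  exact ⟨ν', hl, fun s => ((h1 s).ent s le_rfl).lf, h2⟩

lemma SS.rescaled_zero (h : SS ν) (y : E3) {c s : ℝ} (hc : 0 < c) (hs : s < 0) :
    rescaled 2 ν y 0 c s = dil 2 1 (c • y) (ν s) := by
  have h1 := h c⁻¹ (inv_pos.2 hc) (s / c ^ 2) (div_neg_of_neg_of_pos hs (by positivity))
  rw [rescaled_eq_dil, zero_add, ← h1, dil_dil hc (inv_pos.2 hc), mul_inv_cancel₀ hc.ne', inv_inv,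
    zero_add, inv_pow, div_inv_eq_mul, div_mul_cancel₀ _ (by positivity)]

lemma SS.cone (h : SS ν) (h' : Stat ν) {c : ℝ} (hc : 0 < c) : dil 2 c 0 (ν (-1)) = ν (-1) := by
  rw [← h' (-1 / c ^ 2) (div_neg_of_neg_of_pos (by norm_num) (by positivity))]
  nth_rewrite 2 [h' (-1 / c ^ 2) (div_neg_of_neg_of_pos (by norm_num) (by positivity))]
  exact h c hc (-1) (by norm_num)

lemma SS.GA_eq (h : SS ν) (z : E3) {σ τ : ℝ} (hσ : 0 < σ) :
    GA (ν (-σ)) (√σ • z) (σ * τ) = GA (ν (-1)) z τ := by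
  have h1 := Real.sqrt_pos.2 hσ
  rw [← h √σ h1 (-σ) (neg_neg_of_pos hσ), GA_dil h1, Real.sq_sqrt hσ.le, neg_div, div_self hσ.ne',
    inv_smul_smul₀ h1.ne', zero_add, mul_div_cancel_left₀ _ hσ.ne']

namespace Blow

variable [l.NeBot] (hb : Blow l lam ν y t ν') (h : GS ν a D) (ht : a < t)
include hb h ht

omit [l.NeBot] in
lemma ev (s : ℝ) : ∀ᶠ i in l, Ent (rescaled 2 ν y t (lam i) s) D :=
  ev_ent h hb.top (fun _ => y) tendsto_const_nhds ht s

lemma ent (s : ℝ) : Ent (ν' s) D := (hb.lim s).ent (hb.ev h ht s) (hb.lf s)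

theorem gs (b : ℝ) : GS ν' b D :=
  gs_lim (ev_gs h hb.top (fun _ => y) tendsto_const_nhds ht) (hb.ent h ht) hb.lim b

theorem key (hk : Key ν a) (b : ℝ) : Key ν' b :=
  key_lim (ev_gs h hb.top (fun _ => y) tendsto_const_nhds ht)
    (ev_key hk hb.top (fun _ => y) tendsto_const_nhds ht) (hb.ent h ht) hb.lim b

/-- the entropy of the limit is at most the density -/
theorem ent_dens {Θ : ℝ} (hd : Dens ν y t Θ) (s : ℝ) : Ent (ν' s) Θ :=
  ent_blow h hb.top tendsto_const_nhds tendsto_const_nhds ht hd (hb.lf s) (hb.lim s)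

/-- the density ratio of the limit at the origin is constant -/
theorem dens {Θ : ℝ} (hd : Dens ν y t Θ) {σ : ℝ} (hσ : 0 < σ) : GA (ν' (-σ)) 0 σ = Θ := by
  refine tendsto_nhds_unique ((hb.lim (-σ)).GA (hb.ev h ht _) (hb.ent h ht _) 0 hσ)
    ((hd.comp (tendsto_scale hb.top (neg_neg_of_pos hσ))).congr'
      ((hb.top.eventually_gt_atTop 0).mono fun i hi => ?_))
  simp only [Function.comp_apply]
  rw [rescaled_eq_dil, GA_dil hi, smul_zero, add_zero, neg_neg, neg_div, sub_eq_add_neg]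

/-- two families related by dilations with converging parameters -/
lemma rel {s s' c₀ : ℝ} {x₀ : E3} {c : ι → ℝ} {x : ι → E3} (h0 : 0 < c₀)
    (hc : Tendsto c l (𝓝 c₀)) (hx : Tendsto x l (𝓝 x₀))
    (hw : WL l (fun i => dil 2 (c i) (x i) (rescaled 2 ν y t (lam i) s)) (ν' s')) :
    dil 2 c₀ x₀ (ν' s) = ν' s' :=
  ((hb.lim s).dil (hb.ev h ht s) (hb.ent h ht s).nonneg h0 hc hx).unique hw
    ((hb.ent h ht s).dil h0 x₀).lf (hb.lf s')

/-- **blow-up limits at a fixed point are self-similar** -/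
theorem ss (hk : Key ν a) : SS ν' := fun c hc s hs =>
  hb.rel h ht hc tendsto_const_nhds tendsto_const_nhds
    ((slow h hk ht hb.top hc tendsto_const_nhds hs (hb.ent h ht s) (hb.lim s)).congr
      ((hb.top.eventually_gt_atTop 0).mono fun _ hi => rescaled_mul hc hi ν y t s))

omit h ht in
lemma stat_of_stat (h0 : t ≤ 0) (hs : Stat ν) : Stat ν' := fun s h1 =>
  (hb.lim s).unique ((hb.lim (-1)).congr ((hb.top.eventually_gt_atTop 0).mono fun i hi => by
    have h2 : ∀ u : ℝ, u < 0 → t + u / lam i ^ 2 < 0 := fun u hu =>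
      add_neg_of_nonpos_of_neg h0 (div_neg_of_neg_of_pos hu (by positivity))
    rw [rescaled_eq_dil, rescaled_eq_dil, hs _ (h2 s h1), hs _ (h2 _ (by norm_num))]))
    (hb.lf s) (hb.lf _)

lemma inv_of_inv (h0 : t ≤ 0) {v : E3} (hv : Inv ν v) : Inv ν' v := fun b s h1 =>
  hb.rel h ht one_pos tendsto_const_nhds tendsto_const_nhds
    ((hb.lim s).congr ((hb.top.eventually_gt_atTop 0).mono fun i hi => by
      have h2 : t + s / lam i ^ 2 < 0 :=
        add_neg_of_nonpos_of_neg h0 (div_neg_of_neg_of_pos h1 (by positivity))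
      rw [rescaled_eq_dil, dil_dil one_pos hi, one_mul]
      nth_rewrite 1 [← hv ((lam i)⁻¹ * b) _ h2]
      rw [dil_dil hi one_pos, mul_one, inv_one, one_smul, add_comm, mul_smul]))

end Blow

/-- the blow-up of a self-similar flow at `(y, 0)` is invariant in the direction `y` -/
theorem Blow.inv_of_ss [l.NeBot] (hb : Blow l lam ν y 0 ν') (h : GS ν a D) (ht : a < 0)
    (hk : Key ν a) (hs : SS ν) : Inv ν' y := by
  intro b s h1
  have h2 : Tendsto (fun i => 1 + b / lam i) l (𝓝 1) := by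
    simpa using (tendsto_const_nhds (x := (1 : ℝ))).add
      ((tendsto_const_nhds (x := b)).div_atTop hb.top)
  refine hb.rel h ht one_pos tendsto_const_nhds tendsto_const_nhds
    ((slow h hk ht hb.top one_pos h2 h1 (hb.ent h ht s) (hb.lim s)).congr ?_)
  filter_upwards [hb.top.eventually_gt_atTop 0, h2.eventually (lt_mem_nhds one_pos)] with i b1 b2
  rw [hs.rescaled_zero y (mul_pos b2 b1) h1, hs.rescaled_zero y b1 h1, dil_dil one_pos one_pos,
    mul_one, inv_one, one_smul, ← add_smul]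
  congr 2
  field_simp

/-- the blow-up of a self-similar flow at a negative time is static -/
theorem Blow.stat_of_ss [l.NeBot] (hb : Blow l lam ν y t ν') (h : GS ν a D) (ht : a < t)
    (h0 : t < 0) (hs : SS ν) : Stat ν' := by
  intro s _
  have t1 := tendsto_time hb.top (tendsto_const_nhds (x := t)) s
  have t2 := tendsto_time hb.top (tendsto_const_nhds (x := t)) (-1)
  set u : ι → ℝ := fun i => (t + -1 / lam i ^ 2) / (t + s / lam i ^ 2) with hu
  have t3 : Tendsto (fun i => √(u i)) l (𝓝 1) := by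
    have := (t2.div t1 h0.ne).sqrt
    rwa [div_self h0.ne, Real.sqrt_one] at this
  have t4 : Tendsto (fun i => (√(u i))⁻¹) l (𝓝 1) := by simpa using t3.inv₀ one_ne_zero
  have ev : ∀ᶠ i in l, 0 < lam i ∧ t + s / lam i ^ 2 < 0 ∧ 0 < u i := by
    filter_upwards [hb.top.eventually_gt_atTop 0, t1.eventually (gt_mem_nhds h0),
      t2.eventually (gt_mem_nhds h0)] with i b1 b2 b3 using ⟨b1, b2, div_pos_of_neg_of_neg b3 b2⟩
  have t5 : Tendsto (fun i => (lam i * (√(u i) - 1)) • y) l (𝓝 0) := by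
    have t6 := ((((tendsto_const_nhds (x := -1 - s)).div_atTop hb.top).div t1 h0.ne).div
      (t3.add_const 1) (by norm_num)).smul_const y
    rw [zero_div, zero_div, zero_smul] at t6
    refine t6.congr' (ev.mono fun i ⟨b1, b2, b3⟩ => ?_)
    have b4 := Real.sqrt_pos.2 b3
    have b5 : (√(u i) - 1) * (√(u i) + 1) = u i - 1 := by
      have := Real.mul_self_sqrt b3.le
      linarith
    have b6 : (-1 - s) / lam i / (t + s / lam i ^ 2) = lam i * (u i - 1) := by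
      rw [hu, div_eq_iff b2.ne, mul_assoc, sub_mul, div_mul_cancel₀ _ b2.ne]
      field_simp
      ring
    simp only [Pi.div_apply]
    rw [b6, ← b5, ← mul_assoc, mul_div_cancel_right₀ _ (by positivity)]
  refine ((hb.rel h ht one_pos t4 t5 ((hb.lim s).congr (ev.mono fun i ⟨b1, b2, b3⟩ => ?_))).symm.trans
    (dil_one _))
  have b4 := Real.sqrt_pos.2 b3
  have b5 := hs (√(u i))⁻¹ (inv_pos.2 b4) _ b2
  rw [inv_pow, Real.sq_sqrt b3.le, div_inv_eq_mul, hu, mul_div_cancel₀ _ b2.ne] at b5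
  rw [rescaled_eq_dil, rescaled_eq_dil, ← b5, dil_dil b1 (inv_pos.2 b4), dil_dil (inv_pos.2 b4) b1,
    mul_comm, inv_inv, zero_add, mul_smul, inv_smul_smul₀ b1.ne', sub_smul, one_smul,
    add_sub_cancel]

/-! ### The class of limit flows -/

lemma tendsto_curry {J : Type*} {l' : Filter J} {f : J × ι → ℝ} {g : J → ℝ} {b : ℝ}
    (h1 : ∀ᶠ j in l', Tendsto (fun i => f (j, i)) l (𝓝 (g j))) (h2 : Tendsto g l' (𝓝 b)) :
    Tendsto f (l'.curry l) (𝓝 b) := by
  refine Metric.tendsto_nhds.2 fun ε hε => eventually_curry_iff.2 ?_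
  filter_upwards [h1, Metric.tendsto_nhds.1 h2 (ε / 2) (half_pos hε)] with j a1 a2
  filter_upwards [Metric.tendsto_nhds.1 a1 (ε / 2) (half_pos hε)] with i a3
  linarith [dist_triangle (f (j, i)) (g j) b]

lemma WL.curry {J : Type*} {l' : Filter J} {m : J × ι → Measure E3} {n : J → Measure E3}
    (h1 : ∀ᶠ j in l', WL l (fun i => m (j, i)) (n j)) (h2 : WL l' n κ) : WL (l'.curry l) m κ :=
  fun φ a1 a2 => tendsto_curry (h1.mono fun _ hj => hj φ a1 a2) (h2 φ a1 a2)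

lemma neBot_curry {J : Type*} (l' : Filter J) (l : Filter ι) [l'.NeBot] [l.NeBot] :
    (l'.curry l).NeBot := by
  refine frequently_true_iff_neBot _ |>.1 ((frequently_curry_iff _).2 ?_)
  exact Frequently.of_forall fun _ => Frequently.of_forall fun _ => trivial

/-- the data of a limit of rescalings of `μ` at points converging to `(x₀, t₀)` -/
structure LimD {ι : Type*} (l : Filter ι) (x : ι → E3) (t lam : ι → ℝ) (μ : ℝ → Measure E3)
    (x₀ : E3) (t₀ : ℝ) (ν : ℝ → Measure E3) : Prop where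
  hx : Tendsto x l (𝓝 x₀)
  ht : Tendsto t l (𝓝 t₀)
  top : Tendsto lam l atTop
  lf : ∀ s, IsLocallyFiniteMeasure (ν s)
  lim : ∀ s, WL l (fun i => rescaled 2 μ (x i) (t i) (lam i) s) (ν s)

/-- `ν` is a limit of rescalings of `μ` at points converging to `(x₀, t₀)` -/
def Lim (μ : ℝ → Measure E3) (x₀ : E3) (t₀ : ℝ) (ν : ℝ → Measure E3) : Prop :=
  ∃ (ι : Type) (U : Ultrafilter ι) (x : ι → E3) (t lam : ι → ℝ), LimD U x t lam μ x₀ t₀ ν

variable {μ : ℝ → Measure E3} {x₀ : E3} {t₀ : ℝ}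

lemma LimD.mono {x : ι → E3} {t : ι → ℝ} (h : LimD l x t lam μ x₀ t₀ ν) {l' : Filter ι}
    (hl : l' ≤ l) : LimD l' x t lam μ x₀ t₀ ν :=
  ⟨h.hx.mono_left hl, h.ht.mono_left hl, h.top.mono_left hl, h.lf, fun s => (h.lim s).mono hl⟩

lemma LimD.toLim {ι : Type} {l : Filter ι} [l.NeBot] {x : ι → E3} {t lam : ι → ℝ}
    (h : LimD l x t lam μ x₀ t₀ ν) : Lim μ x₀ t₀ ν :=
  ⟨ι, Ultrafilter.of l, x, t, lam, h.mono (Ultrafilter.of_le l)⟩

lemma Blow.toLim {ι : Type} {l : Filter ι} [l.NeBot] {lam : ι → ℝ} (h : Blow l lam μ x₀ t₀ ν) :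
    Lim μ x₀ t₀ ν :=
  LimD.toLim (l := l) ⟨tendsto_const_nhds, tendsto_const_nhds, h.top, h.lf, h.lim⟩

namespace LimD

variable {x : ι → E3} {t : ι → ℝ} (hb : LimD l x t lam μ x₀ t₀ ν) (h : GS μ a D) (ht : a < t₀)
include hb h ht

lemma ev (b : ℝ) : ∀ᶠ i in l, GS (rescaled 2 μ (x i) (t i) (lam i)) b D :=
  ev_gs h hb.top x hb.ht ht b

lemma ev' (s : ℝ) : ∀ᶠ i in l, Ent (rescaled 2 μ (x i) (t i) (lam i) s) D :=
  ev_ent h hb.top x hb.ht ht s

lemma ent [l.NeBot] (s : ℝ) : Ent (ν s) D := (hb.lim s).ent (hb.ev' h ht s) (hb.lf s)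

/-- rescalings of the limit -/
lemma scale (y : E3) (τ : ℝ) {c : ℝ} (hc : 0 < c) :
    LimD l (fun i => x i + (lam i)⁻¹ • y) (fun i => t i + τ / lam i ^ 2) (fun i => c * lam i)
      μ x₀ t₀ (rescaled 2 ν y τ c) where
  hx := tendsto_point hb.top hb.hx y
  ht := tendsto_time hb.top hb.ht τ
  top := hb.top.const_mul_atTop hc
  lf s := by
    have := hb.lf (τ + s / c ^ 2)
    have := isFiniteMeasureOnCompacts_dil (m := 2) (μ := ν (τ + s / c ^ 2)) hc y
    rw [rescaled_eq_dil]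
    infer_instance
  lim s := ((hb.lim _).dil (hb.ev' h ht _) (h.ent a le_rfl).nonneg hc tendsto_const_nhds
    tendsto_const_nhds).congr ((hb.top.eventually_gt_atTop 0).mono fun i hi =>
      congrFun (rescaled_rescaled hc hi μ y (x i) τ (t i)) s)

end LimD

namespace Lim

variable (hb : Lim μ x₀ t₀ ν) (h : GS μ a D) (ht : a < t₀)
include hb h ht

/-- limit flows are eternal Gaussian systems, with entropy at most the density of `μ` -/
theorem gs {Θ : ℝ} (hd : Dens μ x₀ t₀ Θ) (b : ℝ) : GS ν b Θ := by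
  obtain ⟨ι, U, x, t, lam, hb⟩ := hb
  exact gs_ent (gs_lim (hb.ev h ht) (hb.ent h ht) hb.lim b) fun s =>
    ent_blow h hb.top hb.hx hb.ht ht hd (hb.lf s) (hb.lim s)

theorem key (hk : Key μ a) (b : ℝ) : Key ν b := by
  obtain ⟨ι, U, x, t, lam, hb⟩ := hb
  exact key_lim (hb.ev h ht) (ev_key hk hb.top x hb.ht ht) (hb.ent h ht) hb.lim b

theorem scale (y : E3) (τ : ℝ) {c : ℝ} (hc : 0 < c) : Lim μ x₀ t₀ (rescaled 2 ν y τ c) := by
  obtain ⟨ι, U, x, t, lam, hb⟩ := hb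
  exact ⟨ι, U, _, _, _, hb.scale h ht y τ hc⟩

/-- **the class is closed under limits of rescalings** (arbitrary centres and scales) -/
theorem lim {J : Type} {l' : Filter J} [l'.NeBot] {y : J → E3} {τ c : J → ℝ}
    (hc : ∀ᶠ j in l', 0 < c j) (hf : ∀ s, IsLocallyFiniteMeasure (ν' s))
    (hw : ∀ s, WL l' (fun j => rescaled 2 ν (y j) (τ j) (c j) s) (ν' s)) : Lim μ x₀ t₀ ν' := by
  obtain ⟨ι, U, x, t, lam, hb⟩ := hb
  have := neBot_curry l' (U : Filter ι)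
  have key : ∀ᶠ j in l', LimD U (fun i => x i + (lam i)⁻¹ • y j) (fun i => t i + τ j / lam i ^ 2)
      (fun i => c j * lam i) μ x₀ t₀ (rescaled 2 ν (y j) (τ j) (c j)) :=
    hc.mono fun j hj => hb.scale h ht _ _ hj
  exact LimD.toLim (l := l'.curry U) (x := fun p => x p.2 + (lam p.2)⁻¹ • y p.1)
    (t := fun p => t p.2 + τ p.1 / lam p.2 ^ 2) (lam := fun p => c p.1 * lam p.2)
    ⟨Tendsto.curry (f := fun j i => x i + (lam i)⁻¹ • y j) (key.mono fun j hj => hj.hx),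
      Tendsto.curry (f := fun j i => t i + τ j / lam i ^ 2) (key.mono fun j hj => hj.ht),
      Tendsto.curry (f := fun j i => c j * lam i) (key.mono fun j hj => hj.top), hf,
      fun s => WL.curry (key.mono fun j hj => hj.lim s) (hw s)⟩

theorem blow {J : Type} {l' : Filter J} [l'.NeBot] {c : J → ℝ} (hB : Blow l' c ν y t ν') :
    Lim μ x₀ t₀ ν' := hb.lim h ht (hB.top.eventually_gt_atTop 0) hB.lf hB.lim

end Lim

/-- the standard ultrafilter of scales -/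
noncomputable def U0 : Ultrafilter ℝ := Ultrafilter.of atTop

lemma U0_top : Tendsto id (U0 : Filter ℝ) atTop := Ultrafilter.of_le atTop

/-- **Tangent flows in the class.** -/
theorem Lim.exists_tangent (hb : Lim μ x₀ t₀ ν) (h : GS μ a D) (hk : Key μ a) (ht : a < t₀) (y : E3)
    (t : ℝ) {θ : ℝ} (hθ : Dens ν y t θ) : ∃ ν', Blow U0 id ν y t ν' ∧ Lim μ x₀ t₀ ν' ∧ SS ν' ∧
      (∀ σ : ℝ, 0 < σ → GA (ν' (-σ)) 0 σ = θ) ∧ (∀ s, Ent (ν' s) θ) ∧
      (t ≤ 0 → Stat ν → Stat ν') ∧ (t ≤ 0 → ∀ v, Inv ν v → Inv ν' v) ∧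
      (t < 0 → SS ν → Stat ν') ∧ (t = 0 → SS ν → Inv ν' y) := by
  obtain ⟨Θ, hd⟩ := exists_dens h x₀ ht
  have h1 := hb.gs h ht hd (t - 1)
  have h2 := hb.key h ht hk (t - 1)
  have h3 : t - 1 < t := by linarith
  obtain ⟨ν', h4⟩ := exists_blow U0 U0_top h1 y h3
  refine ⟨ν', h4, hb.blow h ht h4, h4.ss h1 h3 h2, fun σ hσ => h4.dens h1 h3 hθ hσ,
    h4.ent_dens h1 h3 hθ, h4.stat_of_stat, fun h5 v => h4.inv_of_inv h1 h3 h5,
    h4.stat_of_ss h1 h3, ?_⟩
  rintro rfl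
  exact h4.inv_of_ss h1 h3 h2

end Vale.Agent.P218G.GL
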