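import Vale.Agent.P218G.AGen1
import Vale.Agent.P218.Weak
import Vale.Agent.P218.H552.Bridge2

/-! Weak limits of measures and flows with bounded entropy. -/

open MeasureTheory Set Filter Topology Metric
open scoped ENNReal NNReal RealInnerProductSpace ContDiff CompactlySupported

namespace Vale.Agent.P218G.GL

open Vale.Agent.P218 Vale.Agent.P218.H313 Vale.Agent.P218.H313.A1 Vale.Agent.P218.H552
open Vale.Agent.P218G.Lit Vale.Agent.P218G.Rg
open Vale.Agent.P218FT (E3)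

/-- weak convergence along a filter -/
def WL {ι : Type*} (l : Filter ι) (m : ι → Measure E3) (κ : Measure E3) : Prop :=
  ∀ φ : E3 → ℝ, Continuous φ → HasCompactSupport φ →
    Tendsto (fun i => ∫ x, φ x ∂(m i)) l (𝓝 (∫ x, φ x ∂κ))

variable {ι : Type*} {l : Filter ι} {m : ι → Measure E3} {κ : Measure E3} {D : ℝ}

lemma abs_sub_le_of {m : Measure E3} (h : Ent m D) {f g : E3 → ℝ} (hf : Integrable f m)
    (hg : Integrable g m) {z : E3} {τ ε : ℝ} (hτ : 0 < τ) (hε : 0 ≤ ε)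
    (hb : ∀ x, |f x - g x| ≤ ε * gk0 τ (x - z)) : |∫ x, f x ∂m - ∫ x, g x ∂m| ≤ ε * D := by
  rw [← integral_sub hf hg]
  exact h.norm_integral_le (g := fun x => f x - g x) hε hτ (Eventually.of_forall hb)

lemma exists_c1 {f : E3 → ℝ} (hf : Continuous f) {K τ : ℝ} {z : E3} (hτ : 0 < τ)
    (hb : ∀ x, |f x| ≤ K * gk0 τ (x - z)) {ε : ℝ} (hε : 0 < ε) :
    ∃ φ : E3 → ℝ, ContDiff ℝ 1 φ ∧ HasCompactSupport φ ∧
      ∀ x, |f x - φ x| ≤ ε * gk0 (2 * τ) (x - z) := by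
  have h2 : 0 < 2 * τ := by positivity
  obtain ⟨g, g1, g2, -⟩ := hf.exists_contDiff_approx 1
    (ε := fun x => ε / 2 * gk0 (2 * τ) (x - z)) (continuous_const.mul (continuous_gk0' _ z))
    fun x => mul_pos (half_pos hε) (gk0_pos h2 _)
  obtain ⟨r, hr, h1⟩ := exists_tail (|K| * 2) (by positivity : 0 < 8 * τ) (half_pos hε)
  let χ : ContDiffBump z := ⟨r, r + 1, hr, lt_add_one r⟩
  refine ⟨fun x => χ x * g x, χ.contDiff.mul g1, χ.hasCompactSupport.mul_right, fun x => ?_⟩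
  have a1 := g2 x
  rw [Real.dist_eq, abs_sub_comm] at a1
  have a0 := gk0_pos h2 (x - z)
  have a2 : f x - χ x * g x = (1 - χ x) * f x + χ x * (f x - g x) := by ring
  have a3 : |χ x * (f x - g x)| ≤ ε / 2 * gk0 (2 * τ) (x - z) := by
    rw [abs_mul, abs_of_nonneg χ.nonneg]
    exact (mul_le_of_le_one_left (abs_nonneg _) χ.le_one).trans a1.le
  have a4 : |(1 - χ x) * f x| ≤ ε / 2 * gk0 (2 * τ) (x - z) := by
    rcases le_total ‖x - z‖ r with h | h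
    · rw [χ.one_of_mem_closedBall (mem_closedBall_iff_norm.2 h), sub_self, zero_mul, abs_zero]
      positivity
    · rw [abs_mul, abs_of_nonneg (sub_nonneg.2 χ.le_one)]
      refine (mul_le_of_le_one_left (abs_nonneg _) (by linarith [χ.nonneg (x := x)])).trans ?_
      refine (hb x).trans ((mul_le_mul_of_nonneg_right (le_abs_self K) (gk0_pos hτ _).le).trans ?_)
      rw [gk0_double hτ, ← mul_assoc]
      refine mul_le_mul_of_nonneg_right (le_trans ?_ h1) a0.le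
      rw [← mul_assoc]
      gcongr
  rw [a2]
  exact (abs_add_le _ _).trans (by linarith)

lemma small (hD : 0 ≤ D) {η : ℝ} (hη : 0 < η) : ∃ ε : ℝ, 0 < ε ∧ ε * D ≤ η :=
  ⟨η / (D + 1), by positivity, by
    rw [div_mul_eq_mul_div, div_le_iff₀ (by positivity)]; nlinarith⟩

/-- convergence for dominated functions, from the convergence for `C¹` test functions -/
lemma dom1 (hw : ∀ φ : E3 → ℝ, ContDiff ℝ 1 φ → HasCompactSupport φ →
      Tendsto (fun i => ∫ x, φ x ∂(m i)) l (𝓝 (∫ x, φ x ∂κ)))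
    (hm : ∀ᶠ i in l, Ent (m i) D) (hκ : Ent κ D) {f : E3 → ℝ} (hf : Continuous f) {K τ : ℝ}
    {z : E3} (hτ : 0 < τ) (hb : ∀ x, |f x| ≤ K * gk0 τ (x - z)) :
    Tendsto (fun i => ∫ x, f x ∂(m i)) l (𝓝 (∫ x, f x ∂κ)) := by
  refine tendsto_of_approx fun η hη => ?_
  obtain ⟨ε, hε, h1⟩ := small hκ.nonneg hη
  obtain ⟨φ, a1, a2, a3⟩ := exists_c1 hf hτ hb hε
  have key : ∀ n : Measure E3, Ent n D → |∫ x, f x ∂n - ∫ x, φ x ∂n| ≤ η := fun n hn => by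
    have := hn.lf
    exact (abs_sub_le_of hn (hn.integrable_of_le hf.aestronglyMeasurable hτ
      (Eventually.of_forall hb)) (a1.continuous.integrable_of_hasCompactSupport a2)
      (by positivity) hε.le a3).trans h1
  exact ⟨_, _, hw φ a1 a2, hm.mono fun i hi => key _ hi, key _ hκ⟩

lemma exists_dom {φ : E3 → ℝ} (hφ : Continuous φ) (hc : HasCompactSupport φ) :
    ∃ K : ℝ, ∀ x, |φ x| ≤ K * gk0 1 (x - 0) := by
  have h1 : Continuous fun x : E3 => φ x * (gk0 1 (x - 0))⁻¹ :=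
    hφ.mul ((continuous_gk0' 1 0).inv₀ fun x => (gk0_pos one_pos _).ne')
  obtain ⟨K, hK⟩ := (hc.mul_right (f' := fun x : E3 => (gk0 1 (x - 0))⁻¹)).exists_bound_of_continuous h1
  refine ⟨K, fun x => ?_⟩
  have h2 := hK x
  have h3 := gk0_pos one_pos (x - 0)
  simp only [Pi.mul_apply] at h2
  rwa [Real.norm_eq_abs, abs_mul, abs_of_pos (inv_pos.2 h3), ← div_eq_mul_inv, div_le_iff₀ h3] at h2

lemma WL.of_c1 (hw : ∀ φ : E3 → ℝ, ContDiff ℝ 1 φ → HasCompactSupport φ →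
      Tendsto (fun i => ∫ x, φ x ∂(m i)) l (𝓝 (∫ x, φ x ∂κ)))
    (hm : ∀ᶠ i in l, Ent (m i) D) (hκ : Ent κ D) : WL l m κ := fun φ h1 h2 => by
  obtain ⟨K, hK⟩ := exists_dom h1 h2
  exact dom1 hw hm hκ h1 one_pos hK

namespace WL

lemma c1 (hw : WL l m κ) (φ : E3 → ℝ) (h1 : ContDiff ℝ 1 φ) (h2 : HasCompactSupport φ) :
    Tendsto (fun i => ∫ x, φ x ∂(m i)) l (𝓝 (∫ x, φ x ∂κ)) := hw φ h1.continuous h2

lemma mono (hw : WL l m κ) {l' : Filter ι} (h : l' ≤ l) : WL l' m κ :=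
  fun φ h1 h2 => (hw φ h1 h2).mono_left h

lemma comp (hw : WL l m κ) {J : Type*} {l' : Filter J} {f : J → ι} (h : Tendsto f l' l) :
    WL l' (fun j => m (f j)) κ := fun φ h1 h2 => (hw φ h1 h2).comp h

lemma congr (hw : WL l m κ) {m' : ι → Measure E3} (h : ∀ᶠ i in l, m i = m' i) : WL l m' κ :=
  fun φ h1 h2 => (hw φ h1 h2).congr' (h.mono fun i hi => by simp only [hi])

lemma const (l : Filter ι) (κ : Measure E3) : WL l (fun _ => κ) κ :=
  fun _ _ _ => tendsto_const_nhds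

lemma unique [l.NeBot] {κ' : Measure E3} (hw : WL l m κ) (hw' : WL l m κ')
    (h1 : IsLocallyFiniteMeasure κ) (h2 : IsLocallyFiniteMeasure κ') : κ = κ' :=
  fnl_injective (funext fun φ => tendsto_nhds_unique (hw φ φ.continuous φ.hasCompactSupport)
    (hw' φ φ.continuous φ.hasCompactSupport))

lemma ent [l.NeBot] (hw : WL l m κ) (hm : ∀ᶠ i in l, Ent (m i) D)
    (h1 : IsLocallyFiniteMeasure κ) : Ent κ D := ent_lim hm h1 hw.c1

lemma dom (hw : WL l m κ) (hm : ∀ᶠ i in l, Ent (m i) D) (hκ : Ent κ D) {f : E3 → ℝ}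
    (hf : Continuous f) {K τ : ℝ} {z : E3} (hτ : 0 < τ) (hb : ∀ x, |f x| ≤ K * gk0 τ (x - z)) :
    Tendsto (fun i => ∫ x, f x ∂(m i)) l (𝓝 (∫ x, f x ∂κ)) := dom1 hw.c1 hm hκ hf hτ hb

/-- moving test functions -/
lemma move (hw : WL l m κ) (hm : ∀ᶠ i in l, Ent (m i) D) (hD : 0 ≤ D) {f : E3 → ℝ}
    (hf : Continuous f) (hc : HasCompactSupport f) {F : ι → E3 → ℝ} {τ : ℝ} {z : E3} (hτ : 0 < τ)
    (hF : ∀ ε : ℝ, 0 < ε → ∀ᶠ i in l, Integrable (F i) (m i) ∧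
      ∀ x, |F i x - f x| ≤ ε * gk0 τ (x - z)) :
    Tendsto (fun i => ∫ x, F i x ∂(m i)) l (𝓝 (∫ x, f x ∂κ)) := by
  refine tendsto_of_approx fun η hη => ?_
  obtain ⟨ε, hε, h1⟩ := small hD hη
  refine ⟨_, _, hw f hf hc, ?_, by simpa using hη.le⟩
  filter_upwards [hm, hF ε hε] with i hi h2
  have := hi.lf
  exact (abs_sub_le_of hi h2.1 (hf.integrable_of_hasCompactSupport hc) hτ hε.le h2.2).trans h1

/-- dilations with converging parameters -/
lemma dil (hw : WL l m κ) (hm : ∀ᶠ i in l, Ent (m i) D) (hD : 0 ≤ D) {lam : ι → ℝ} {x : ι → E3}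
    {lam₀ : ℝ} {x₀ : E3} (h0 : 0 < lam₀) (hl : Tendsto lam l (𝓝 lam₀)) (hx : Tendsto x l (𝓝 x₀)) :
    WL l (fun i => dil 2 (lam i) (x i) (m i)) (dil 2 lam₀ x₀ κ) := by
  intro φ hφ hc
  obtain ⟨R, hR0, hR⟩ := hc.isCompact.isBounded.subset_ball_lt 0 (0 : E3)
  have hz : ∀ y : E3, R ≤ ‖y‖ → φ y = 0 := fun y hy =>
    image_eq_zero_of_notMem_tsupport fun h => absurd (mem_ball_zero_iff.1 (hR h)) (not_lt.2 hy)
  have hp : Tendsto (fun i => (lam i, x i)) l (𝓝 (lam₀, x₀)) := hl.prodMk_nhds hx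
  have hF : Continuous fun q : (ℝ × E3) × E3 => q.1.1 ^ 2 * φ (yy q.1.1 q.1.2 q.2) := by
    unfold yy; fun_prop
  have hcs : ∀ (a : ℝ) (y : E3), 0 < a → HasCompactSupport fun z => a ^ 2 * φ (yy a y z) :=
    fun a y ha => (hasCompactSupport_comp_yy hc ha.ne' y).mul_left
  have hct : ∀ (a : ℝ) (y : E3), Continuous fun z => a ^ 2 * φ (yy a y z) := fun a y =>
    continuous_const.mul (hφ.comp (continuous_yy a y))
  have hpos : ∀ᶠ i in l, 0 < lam i := hl.eventually (lt_mem_nhds h0)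
  rw [integral_dil h0, ← integral_const_mul]
  refine (hw.move hm hD (hct lam₀ x₀) (hcs lam₀ x₀ h0) (F := fun i z => lam i ^ 2 *
    φ (yy (lam i) (x i) z)) one_pos (z := x₀) fun ε hε => ?_).congr' ?_
  · have far : ∀ᶠ p : ℝ × E3 in 𝓝 (lam₀, x₀), ∀ z, 2 * R / lam₀ + 1 ≤ ‖z - x₀‖ →
        φ (yy p.1 p.2 z) = 0 := by
      have a1 : ∀ᶠ p : ℝ × E3 in 𝓝 (lam₀, x₀), lam₀ / 2 < p.1 :=
        continuousAt_const.eventually_lt continuousAt_fst (by simpa using h0)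
      have a2 : ∀ᶠ p : ℝ × E3 in 𝓝 (lam₀, x₀), ‖p.2 - x₀‖ < 1 :=
        (by fun_prop : Continuous fun p : ℝ × E3 => ‖p.2 - x₀‖).continuousAt.eventually_lt
          continuousAt_const (by simp)
      filter_upwards [a1, a2] with p b1 b2 z hz'
      refine hz _ ?_
      have b3 : 2 * R / lam₀ ≤ ‖z - p.2‖ := by
        linarith [norm_sub_le_norm_sub_add_norm_sub z p.2 x₀]
      rw [yy, norm_smul, Real.norm_of_nonneg (by linarith)]
      calc R = lam₀ / 2 * (2 * R / lam₀) := by field_simp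
        _ ≤ p.1 * ‖z - p.2‖ := mul_le_mul b1.le b3 (by positivity) (by linarith)
    have near : ∀ᶠ p : ℝ × E3 in 𝓝 (lam₀, x₀), ∀ z ∈ closedBall x₀ (2 * R / lam₀ + 1),
        |p.1 ^ 2 * φ (yy p.1 p.2 z) - lam₀ ^ 2 * φ (yy lam₀ x₀ z)| < ε * gk0 1 (z - x₀) := by
      refine (isCompact_closedBall _ _).eventually_forall_of_forall_eventually fun z _ => ?_
      refine ContinuousAt.eventually_lt (hF.sub ((hct lam₀ x₀).comp continuous_snd)).abs.continuousAt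
        (continuous_const.mul ((continuous_gk0' _ x₀).comp continuous_snd)).continuousAt ?_
      simpa using mul_pos hε (gk0_pos one_pos (z - x₀))
    filter_upwards [hp.eventually far, hp.eventually near, hpos, hm] with i b1 b2 b3 b4
    have := b4.lf
    refine ⟨(hct _ _).integrable_of_hasCompactSupport (hcs _ _ b3), fun z => ?_⟩
    rcases le_total ‖z - x₀‖ (2 * R / lam₀ + 1) with h | h
    · exact (b2 z (mem_closedBall_iff_norm.2 h)).le
    · rw [b1 z h, far.self_of_nhds z h]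
      simpa using (mul_pos hε (gk0_pos one_pos (z - x₀))).le
  · filter_upwards [hpos] with i hi
    rw [integral_dil hi, ← integral_const_mul]

lemma GQ (hw : WL l m κ) (hm : ∀ᶠ i in l, Ent (m i) D) (hκ : Ent κ D) (y : E3) {σ : ℝ}
    (hσ : 0 < σ) (c : ℝ) (v : E3) :
    Tendsto (fun i => GQ (m i) y σ c v) l (𝓝 (GQ κ y σ c v)) :=
  hw.dom hm hκ ((by fun_prop : Continuous fun x : E3 => (c + ⟪v, x - y⟫) ^ 2).mul
    (continuous_gk0' σ y)) (by positivity : 0 < 2 * σ) (z := y) fun x => by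
      rw [abs_of_nonneg (mul_nonneg (sq_nonneg _) (gk0_pos hσ _).le)]
      exact aff_gk0_le hσ c v _

lemma GA (hw : WL l m κ) (hm : ∀ᶠ i in l, Ent (m i) D) (hκ : Ent κ D) (y : E3) {σ : ℝ}
    (hσ : 0 < σ) : Tendsto (fun i => GA (m i) y σ) l (𝓝 (GA κ y σ)) := by
  simpa only [GQ_one] using hw.GQ hm hκ y hσ 1 0

end WL

lemma GA_unit (m : Measure E3) (y : E3) {σ : ℝ} (hσ : 0 < σ) :
    GA (dil 2 (√σ)⁻¹ y m) 0 1 = GA m y σ := by
  rw [GA_dil (inv_pos.2 (Real.sqrt_pos.2 hσ)), smul_zero, add_zero, inv_pow, Real.sq_sqrt hσ.le,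
    one_div, inv_inv]

/-- Gaussian integrals with moving centres and scales -/
lemma WL.GA_move (hw : WL l m κ) (hm : ∀ᶠ i in l, Ent (m i) D) (hκ : Ent κ D) {y : ι → E3}
    {σ : ι → ℝ} {y₀ : E3} {σ₀ : ℝ} (h0 : 0 < σ₀) (hy : Tendsto y l (𝓝 y₀))
    (hσ : Tendsto σ l (𝓝 σ₀)) :
    Tendsto (fun i => Rg.GA (m i) (y i) (σ i)) l (𝓝 (Rg.GA κ y₀ σ₀)) := by
  have h1 : 0 < (√σ₀)⁻¹ := inv_pos.2 (Real.sqrt_pos.2 h0)
  have hp : ∀ᶠ i in l, 0 < σ i := hσ.eventually (lt_mem_nhds h0)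
  have h2 := (hw.dil hm hκ.nonneg h1 (hσ.sqrt.inv₀ (Real.sqrt_pos.2 h0).ne') hy).GA
    ((hm.and hp).mono fun i hi => hi.1.dil (inv_pos.2 (Real.sqrt_pos.2 hi.2)) _) (hκ.dil h1 _) 0
    one_pos
  rw [GA_unit _ _ h0] at h2
  exact h2.congr' (hp.mono fun i hi => GA_unit _ _ hi)

/-- an open set which is not charged by the approximating measures -/
lemma WL.null_open [l.NeBot] (hw : WL l m κ) (hκ : IsLocallyFiniteMeasure κ) {V : Set E3}
    (hV : IsOpen V) (h : ∀ᶠ i in l, m i V = 0) : κ V = 0 := by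
  refine measure_null_of_locally_null V fun x hx => ?_
  obtain ⟨r, hr, h1⟩ := Metric.isOpen_iff.1 hV x hx
  let χ : ContDiffBump x := ⟨r / 2, r, half_pos hr, half_lt_self hr⟩
  have h2 : ∫ y, χ y ∂κ = 0 := by
    refine tendsto_nhds_unique (hw χ χ.continuous χ.hasCompactSupport)
      (tendsto_const_nhds.congr' (h.mono fun i hi => ?_))
    refine (integral_eq_zero_of_ae ?_).symm
    filter_upwards [compl_mem_ae_iff.2 hi] with y hy
    exact χ.zero_of_le_dist (not_lt.1 fun h3 => hy (h1 h3))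
  rw [integral_eq_zero_iff_of_nonneg (fun _ => χ.nonneg)
    (χ.continuous.integrable_of_hasCompactSupport χ.hasCompactSupport)] at h2
  refine ⟨closedBall x (r / 2), mem_nhdsWithin_of_mem_nhds (closedBall_mem_nhds x (half_pos hr)),
    measure_mono_null (fun y hy => ?_) h2⟩
  have h3 : χ y = 1 := χ.one_of_mem_closedBall hy
  simp [h3]

/-- **compactness along ultrafilters** -/
theorem exists_wl (U : Ultrafilter ι) (hm : ∀ᶠ i in (U : Filter ι), Ent (m i) D) :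
    ∃ κ : Measure E3, Ent κ D ∧ WL U m κ := by
  have h1 : ∀ φ : C_c(E3, ℝ), ∃ L : ℝ, Tendsto (fun i => ∫ x, φ x ∂(m i)) U (𝓝 L) := fun φ => by
    obtain ⟨K, hK⟩ := exists_dom φ.continuous φ.hasCompactSupport
    refine Conv.exists_ulim (C := |K| * D) (hm.mono fun i hi => ?_)
    exact hi.norm_integral_le (g := fun x => φ x) (abs_nonneg K) one_pos (y := 0)
      (Eventually.of_forall fun x => (hK x).trans
        (mul_le_mul_of_nonneg_right (le_abs_self K) (gk0_pos one_pos _).le))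
  choose L hL using h1
  have h2 : ∀ f g : C_c(E3, ℝ), L (f + g) = L f + L g := fun f g =>
    tendsto_nhds_unique (hL (f + g)) (((hL f).add (hL g)).congr' (hm.mono fun i hi => by
      have := hi.lf
      exact (integral_add f.integrable g.integrable).symm))
  have h3 : ∀ (c : ℝ) (f : C_c(E3, ℝ)), L (c • f) = c * L f := fun c f =>
    tendsto_nhds_unique (hL (c • f)) (((hL f).const_mul c).congr fun i =>
      (integral_const_mul c _).symm)
  let Λ : C_c(E3, ℝ) →ₚ[ℝ] ℝ :=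
    PositiveLinearMap.mk₀ { toFun := L, map_add' := h2, map_smul' := h3 }
      fun f hf => ge_of_tendsto' (hL f) fun i => integral_nonneg fun x => hf x
  have h4 : WL U m (RealRMK.rieszMeasure Λ) := fun φ a1 a2 => by
    have h5 := RealRMK.integral_rieszMeasure Λ ⟨⟨φ, a1⟩, a2⟩
    have h6 := hL ⟨⟨φ, a1⟩, a2⟩
    change ∫ x, φ x ∂_ = L ⟨⟨φ, a1⟩, a2⟩ at h5
    rw [h5]
    exact h6
  exact ⟨_, h4.ent hm inferInstance, h4⟩

/-! ### Limits of flows -/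

variable {μ : ι → ℝ → Measure E3} {ν : ℝ → Measure E3}

/-- upper semicontinuity of the support -/
lemma spt_lim [l.NeBot] (hμ : ∀ a, ∀ᶠ i in l, GS (μ i) a D) (hν : ∀ s, Ent (ν s) D)
    (hw : ∀ s, WL l (fun i => μ i s) (ν s)) {x : ι → E3} {t : ι → ℝ} {x₀ : E3} {t₀ : ℝ}
    (hx : Tendsto x l (𝓝 x₀)) (ht : Tendsto t l (𝓝 t₀)) (h : ∀ᶠ i in l, x i ∈ Spt (μ i) (t i)) :
    x₀ ∈ Spt ν t₀ := by
  filter_upwards [self_mem_nhdsWithin] with s hs
  have hs' : s < t₀ := hs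
  refine ge_of_tendsto ((hw s).GA_move ((hμ s).mono fun i hi => hi.ent s le_rfl) (hν s)
    (sub_pos.2 hs') hx (ht.sub_const s)) ?_
  filter_upwards [hμ s, h, ht.eventually (lt_mem_nhds hs')] with i h1 h2 h3
  exact h1.low h2 le_rfl h3

/-- the supports of the approximating flows avoid a neighbourhood of a point off the support -/
lemma not_spt (hμ : ∀ a, ∀ᶠ i in l, GS (μ i) a D) (hν : ∀ s, Ent (ν s) D)
    (hw : ∀ s, WL l (fun i => μ i s) (ν s)) {x₀ : E3} {t₀ : ℝ} (h : x₀ ∉ Spt ν t₀) :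
    ∀ᶠ q : ι × ℝ × E3 in l ×ˢ 𝓝 (t₀, x₀), q.2.2 ∉ Spt (μ q.1) q.2.1 := by
  by_contra h1
  have h2 : NeBot ((l ×ˢ 𝓝 (t₀, x₀)) ⊓ 𝓟 {q : ι × ℝ × E3 | ¬ q.2.2 ∉ Spt (μ q.1) q.2.1}) :=
    frequently_iff_neBot.1 (not_eventually.1 h1)
  have a1 := (tendsto_fst (f := l) (g := 𝓝 (t₀, x₀))).mono_left
    (inf_le_left (b := 𝓟 {q : ι × ℝ × E3 | ¬ q.2.2 ∉ Spt (μ q.1) q.2.1}))
  have a2 := (tendsto_snd (f := l) (g := 𝓝 (t₀, x₀))).mono_left
    (inf_le_left (b := 𝓟 {q : ι × ℝ × E3 | ¬ q.2.2 ∉ Spt (μ q.1) q.2.1}))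
  exact h (spt_lim (μ := fun q : ι × ℝ × E3 => μ q.1)
    (fun a => a1.eventually (hμ a)) hν (fun s => (hw s).comp a1)
    (x := fun q => q.2.2) (t := fun q => q.2.1) ((continuous_snd.tendsto _).comp a2)
    ((continuous_fst.tendsto _).comp a2)
    (mem_inf_of_right (mem_principal.2 fun q hq => not_not.1 hq)))

lemma not_spt_ball (hμ : ∀ a, ∀ᶠ i in l, GS (μ i) a D) (hν : ∀ s, Ent (ν s) D)
    (hw : ∀ s, WL l (fun i => μ i s) (ν s)) {x₀ : E3} {t₀ : ℝ} (h : x₀ ∉ Spt ν t₀) :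
    ∃ r : ℝ, 0 < r ∧ ∀ᶠ i in l, ∀ t x, |t - t₀| < r → x ∈ ball x₀ r → x ∉ Spt (μ i) t := by
  obtain ⟨A, hA, B, hB, h1⟩ := mem_prod_iff.1 (not_spt hμ hν hw h)
  obtain ⟨r, hr, h2⟩ := Metric.mem_nhds_iff.1 hB
  refine ⟨r, hr, mem_of_superset hA fun i hi t x h3 h4 => ?_⟩
  exact h1 (mk_mem_prod hi (h2 (show (t, x) ∈ ball (t₀, x₀) r by
    rw [← ball_prod_same]; exact ⟨h3, h4⟩)))

/-- **limits of Gaussian systems** -/
theorem gs_lim [l.NeBot] (hμ : ∀ a, ∀ᶠ i in l, GS (μ i) a D) (hν : ∀ s, Ent (ν s) D)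
    (hw : ∀ s, WL l (fun i => μ i s) (ν s)) (a : ℝ) : GS ν a D := by
  have he : ∀ s, ∀ᶠ i in l, Ent (μ i s) D := fun s => (hμ s).mono fun i hi => hi.ent s le_rfl
  refine ⟨fun s _ => hν s, fun y t c v s s' h1 h2 h3 => ?_, fun s _ => ?_⟩
  · exact le_of_tendsto_of_tendsto ((hw s').GQ (he s') (hν s') y (sub_pos.2 h3) c v)
      ((hw s).GQ (he s) (hν s) y (sub_pos.2 (h2.trans_lt h3)) c v)
      ((hμ s).mono fun i hi => hi.mono y t c v s s' le_rfl h2 h3)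
  · refine measure_null_of_locally_null _ fun x hx => ?_
    obtain ⟨r, hr, h1⟩ := not_spt_ball hμ hν hw hx
    refine ⟨ball x r, mem_nhdsWithin_of_mem_nhds (ball_mem_nhds x hr),
      (hw s).null_open (hν s).lf isOpen_ball ?_⟩
    filter_upwards [h1, hμ (s - 1)] with i h2 h3
    exact measure_mono_null (fun y hy => h2 s y (by simpa using hr) hy)
      (h3.supp s (by linarith))

/-- limits of flows exist along ultrafilters -/
theorem exists_lim (U : Ultrafilter ι) (hμ : ∀ a, ∀ᶠ i in (U : Filter ι), GS (μ i) a D) :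
    ∃ ν : ℝ → Measure E3, (∀ a, GS ν a D) ∧ ∀ s, WL U (fun i => μ i s) (ν s) := by
  choose ν h1 h2 using fun s => exists_wl U ((hμ s).mono fun i hi => hi.ent s le_rfl)
  exact ⟨ν, gs_lim hμ h1 h2, h2⟩

/-! ### Algebra of dilations -/

lemma dil_dil {a b : ℝ} (ha : 0 < a) (hb : 0 < b) (x y : E3) (m : Measure E3) :
    dil 2 a x (dil 2 b y m) = dil 2 (a * b) (y + b⁻¹ • x) m := by
  unfold dil
  rw [Measure.map_smul, smul_smul, ← ENNReal.ofReal_mul (by positivity), ← mul_pow,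
    Measure.map_map (emb_yy ha x).measurable (emb_yy hb y).measurable]
  congr 2
  funext z
  simp only [Function.comp_apply]
  rw [← sub_sub, mul_smul, smul_sub b (z - y), smul_inv_smul₀ hb.ne']

lemma dil_one (m : Measure E3) : dil 2 1 0 m = m := by
  unfold dil
  simp

lemma rescaled_rescaled {a b : ℝ} (ha : 0 < a) (hb : 0 < b) (μ : ℝ → Measure E3) (x y : E3)
    (t u : ℝ) : rescaled 2 (rescaled 2 μ y u b) x t a =
      rescaled 2 μ (y + b⁻¹ • x) (u + t / b ^ 2) (a * b) := by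
  funext s
  rw [rescaled_eq_dil, rescaled_eq_dil, rescaled_eq_dil, dil_dil ha hb]
  congr 2
  field_simp
  ring

lemma rescaled_mul {a b : ℝ} (ha : 0 < a) (hb : 0 < b) (μ : ℝ → Measure E3) (y : E3)
    (u s : ℝ) : rescaled 2 μ y u (a * b) s = dil 2 a 0 (rescaled 2 μ y u b (s / a ^ 2)) := by
  have h := congrFun (rescaled_rescaled ha hb μ 0 y 0 u) s
  rw [smul_zero, add_zero, zero_div, add_zero] at h
  rw [← h, rescaled_eq_dil, zero_add]

/-! ### The key estimate -/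

/-- the slice `ν (t - σ)` at unit scale around `y` -/
noncomputable def NS (ν : ℝ → Measure E3) (y : E3) (t σ : ℝ) : Measure E3 :=
  dil 2 (√σ)⁻¹ y (ν (t - σ))

/-- the self-similarly rescaled slices move by at most the drop of the density ratio -/
def Key (ν : ℝ → Measure E3) (a : ℝ) : Prop :=
  ∀ (y : E3) (t σ σ' : ℝ), a ≤ t - σ → σ' ≤ σ → 0 < σ' → ∀ (A B : ℝ) (g : E3 → ℝ), 0 ≤ A → 0 ≤ B →
    ContDiff ℝ 1 g → HasCompactSupport g → (∀ z, |g z| ≤ A) → (∀ z, ‖fderiv ℝ g z‖ ≤ B) →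
    |∫ z, gF g z ∂(NS ν y t σ') - ∫ z, gF g z ∂(NS ν y t σ)| ≤
      A * (GA (ν (t - σ)) y σ - GA (ν (t - σ')) y σ') +
        B * √(GA (ν (t - σ)) y σ * Real.log (σ / σ') *
          (GA (ν (t - σ)) y σ - GA (ν (t - σ')) y σ'))

lemma JJ_eq (μ : ℝ → Measure E3) (y : E3) (t : ℝ) {σ : ℝ} (hσ : 0 < σ) (g : E3 → ℝ) :
    H552.JJ 2 μ y t g (t - σ) = ∫ z, gF g z ∂(NS μ y t σ) := by
  rw [NS, integral_dil (inv_pos.2 (Real.sqrt_pos.2 hσ)), ← integral_const_mul]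
  unfold H552.JJ phi0 Lam
  rw [sub_sub_cancel]

lemma Th_eq (μ : ℝ → Measure E3) (y : E3) (t : ℝ) {σ : ℝ} (hσ : 0 < σ) :
    Th 2 μ y t (t - σ) = GA (μ (t - σ)) y σ := by
  rw [Th, JJ_eq μ y t hσ, ← GA_unit _ _ hσ]
  unfold GA gF gk0 NS
  simp

theorem key_ibf {μ : ℝ → Measure E3} (hμ : IsIntegralBrakkeFlow 2 μ) (h0 : μ 0 univ < ⊤) :
    Key μ 0 := by
  intro y t σ σ' h1 h2 h3 A B g hA hB g1 g2 g3 g4
  obtain ⟨T, H, hF⟩ := exists_BF hμ
  have h4 := hF.key h0 y (t₀ := t) h1 (by linarith : t - σ ≤ t - σ') (by linarith) hA hB g1 g2 g3 g4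
  rwa [JJ_eq μ y t h3, JJ_eq μ y t (h3.trans_le h2), Th_eq μ y t h3, Th_eq μ y t (h3.trans_le h2),
    sub_sub_cancel, sub_sub_cancel] at h4

lemma Key.later {a a' : ℝ} (h : Key ν a) (ha : a ≤ a') : Key ν a' :=
  fun y t σ σ' h1 => h y t σ σ' (ha.trans h1)

lemma NS_rescaled {lam : ℝ} (hl : 0 < lam) (ν : ℝ → Measure E3) (x₀ : E3) (t₀ : ℝ) (y : E3) (t : ℝ)
    {σ : ℝ} (hσ : 0 < σ) : NS (rescaled 2 ν x₀ t₀ lam) y t σ =
      NS ν (x₀ + lam⁻¹ • y) (t₀ + t / lam ^ 2) (σ / lam ^ 2) := by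
  rw [NS, NS, rescaled_eq_dil, dil_dil (inv_pos.2 (Real.sqrt_pos.2 hσ)) hl,
    Real.sqrt_div hσ.le, Real.sqrt_sq hl.le, inv_div, div_eq_inv_mul lam]
  congr 2
  ring

lemma GA_NS (ν : ℝ → Measure E3) (y : E3) (t : ℝ) {σ : ℝ} (hσ : 0 < σ) :
    GA (NS ν y t σ) 0 1 = GA (ν (t - σ)) y σ := GA_unit _ _ hσ

lemma Key.scale {a lam : ℝ} (h : Key ν a) (hl : 0 < lam) (x₀ : E3) (t₀ : ℝ) :
    Key (rescaled 2 ν x₀ t₀ lam) ((a - t₀) * lam ^ 2) := by
  intro y t σ σ' h1 h2 h3 A B g hA hB g1 g2 g3 g4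
  have hl2 : 0 < lam ^ 2 := by positivity
  have h4 := h3.trans_le h2
  have h5 := h (x₀ + lam⁻¹ • y) (t₀ + t / lam ^ 2) (σ / lam ^ 2) (σ' / lam ^ 2) (by
    have := (le_div_iff₀ hl2).2 h1
    rw [sub_div] at this
    linarith) (by gcongr) (by positivity) A B g hA hB g1 g2 g3 g4
  rw [← GA_NS _ _ _ h3, ← GA_NS _ _ _ h4, NS_rescaled hl _ _ _ _ _ h3, NS_rescaled hl _ _ _ _ _ h4,
    GA_NS _ _ _ (by positivity), GA_NS _ _ _ (by positivity)]
  rwa [div_div_div_cancel_right₀ hl2.ne'] at h5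

theorem key_lim [l.NeBot] (hμ : ∀ a, ∀ᶠ i in l, GS (μ i) a D) (hk : ∀ a, ∀ᶠ i in l, Key (μ i) a)
    (hν : ∀ s, Ent (ν s) D) (hw : ∀ s, WL l (fun i => μ i s) (ν s)) (a : ℝ) : Key ν a := by
  intro y t σ σ' _ h2 h3 A B g hA hB g1 g2 g3 g4
  have he : ∀ s, ∀ᶠ i in l, Ent (μ i s) D := fun s => (hμ s).mono fun i hi => hi.ent s le_rfl
  have h4 := h3.trans_le h2
  have c1 : ∀ τ : ℝ, 0 < τ → Tendsto (fun i => ∫ z, gF g z ∂(NS (μ i) y t τ)) l
      (𝓝 (∫ z, gF g z ∂(NS ν y t τ))) := fun τ hτ =>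
    (hw (t - τ)).dil (he _) (hν 0).nonneg (inv_pos.2 (Real.sqrt_pos.2 hτ)) tendsto_const_nhds
      tendsto_const_nhds _ (contDiff_gF g1).continuous (hasCompactSupport_gF g2)
  have c2 := (hw (t - σ)).GA (he _) (hν _) y h4
  have c3 := (hw (t - σ')).GA (he _) (hν _) y h3
  exact le_of_tendsto_of_tendsto ((c1 σ' h3).sub (c1 σ h4)).abs
    (((c2.sub c3).const_mul A).add (((c2.mul_const _).mul (c2.sub c3)).sqrt.const_mul B))
    ((hk (t - σ)).mono fun i hi => hi y t σ σ' le_rfl h2 h3 A B g hA hB g1 g2 g3 g4)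

end Vale.Agent.P218G.GL
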