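import Vale.Agent.P218G.Glue

/-! An integral Brakke flow of finite mass is a Gaussian system, and it stays in a ball. -/

open MeasureTheory Set Filter Topology Metric
open scoped ENNReal NNReal RealInnerProductSpace ContDiff

namespace Vale.Agent.P218G.Rg

open Vale.Agent.P218 Vale.Agent.P218.H313 Vale.Agent.P218.H552 Vale.Agent.P218G.Lit
open Vale.Agent.P214 (proj divAlong)
open Vale.Agent.P218FT (E3)

namespace RC

variable {μ : ℝ → Measure E3} {T : ℝ → E3 → Submodule ℝ E3} {H : ℝ → E3 → E3}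

/-- Brakke's inequality for functions which are `C¹` before `t₀` -/
lemma brakke_le (hB : BF 2 μ T H) {φ : ℝ → E3 → ℝ} {a b t₀ e : ℝ} (ha : 0 ≤ a) (hab : a ≤ b)
    (hb : b < t₀)
    (hφ : ∀ p : ℝ × E3, p.1 < t₀ → ContDiffAt ℝ 1 (fun p : ℝ × E3 => φ p.1 p.2) p)
    {K : Set E3} (hK : IsCompact K) (hz : ∀ t x, x ∉ K → φ t x = 0)
    (h0 : ∀ t < t₀, ∀ x, 0 ≤ φ t x)
    (hle : ∀ᵐ t : ℝ, t ∈ Icc a b → MC 2 (μ t) (T t) (H t) → brakkeRHS (μ t) (H t) φ t ≤ e) :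
    ∫ x, φ b x ∂(μ b) - ∫ x, φ a x ∂(μ a) ≤ (b - a) * e := by
  obtain ⟨ψ, hψ, hψ0, hψ1, c, d, hd, hcd⟩ := exists_cutoff hab hb
  have hC : ContDiff ℝ 1 fun p : ℝ × E3 => ψ p.1 * φ p.1 p.2 := by
    rw [contDiff_iff_contDiffAt]
    intro p
    by_cases hp : p.1 < t₀
    · exact (hψ.contDiffAt.comp p contDiffAt_fst).mul (hφ p hp)
    · refine (contDiffAt_const (c := 0)).congr_of_eventuallyEq ?_
      filter_upwards [continuousAt_const.eventually_lt continuousAt_fst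
        (show d < p.1 by linarith)] with q hq
      have h3 : ψ q.1 = 0 := by
        by_contra h4
        exact absurd (hcd _ h4).2 (not_le.2 hq)
      rw [h3, zero_mul]
  have hc : HasCompactSupport fun p : ℝ × E3 => ψ p.1 * φ p.1 p.2 := by
    refine HasCompactSupport.intro (K := Icc c d ×ˢ K) (isCompact_Icc.prod hK) fun p hp => ?_
    by_contra h1
    exact hp ⟨hcd _ (left_ne_zero_of_mul h1), by
      by_contra h2
      exact right_ne_zero_of_mul h1 (hz _ _ h2)⟩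
  have hn : ∀ t x, 0 ≤ ψ t * φ t x := fun t x => by
    by_cases h1 : ψ t = 0
    · rw [h1, zero_mul]
    · exact mul_nonneg (hψ0 t) (h0 t ((hcd t h1).2.trans_lt hd) x)
  obtain ⟨hI, hineq⟩ := hB.ineq (fun t x => ψ t * φ t x) hC hc hn a b ha hab
  simp only [(hψ1 b ⟨hab, le_rfl⟩).self_of_nhds, (hψ1 a ⟨le_rfl, hab⟩).self_of_nhds,
    one_mul] at hineq
  refine hineq.trans ((intervalIntegral.integral_mono_ae_restrict hab hI
    (intervalIntegrable_const (c := e)) ?_).trans (by simp))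
  have h1 : ∀ᵐ t ∂volume.restrict (Icc a b), MC 2 (μ t) (T t) (H t) :=
    ae_restrict_of_ae_restrict_of_subset (fun t ht => ha.trans ht.1) hB.mc
  filter_upwards [h1, ae_restrict_mem measurableSet_Icc, ae_restrict_of_ae hle] with t h2 h3 h4
  refine le_trans (le_of_eq ?_) (h4 h3 h2)
  unfold brakkeRHS
  congr 1
  ext x
  have h5 : (fun τ => ψ τ * φ τ x) =ᶠ[𝓝 t] fun τ => φ τ x := by
    filter_upwards [hψ1 t h3] with s hs
    rw [hs, one_mul]
  simp only [h5.deriv_eq, (hψ1 t h3).self_of_nhds, one_mul]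

/-- a bound modulo the first variation -/
lemma int_le_of_fv {m : Measure E3} {T : E3 → Submodule ℝ E3} {H : E3 → E3} (hM : MC 2 m T H)
    [IsFiniteMeasure m] {I : E3 → ℝ} {X : E3 → E3} (hX : ContDiff ℝ 1 X)
    (hXc : HasCompactSupport X) {e : ℝ} (he : 0 ≤ e)
    (hI : ∀ᵐ x ∂m, I x ≤ divAlong (T x) X x + ⟪X x, H x⟫ + e) :
    ∫ x, I x ∂m ≤ e * m.real univ := by
  by_cases hi : Integrable I m
  · obtain ⟨A, hA⟩ := (hXc.fderiv (𝕜 := ℝ)).exists_bound_of_continuous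
      (hX.continuous_fderiv one_ne_zero)
    have h1 : AEStronglyMeasurable (fun x => (proj (T x)).comp (fderiv ℝ X x)) m :=
      (isBoundedBilinearMap_comp (𝕜 := ℝ) (E := E3) (F := E3)
        (G := E3)).continuous.comp_aestronglyMeasurable
        (hM.Tmeas.prodMk (hX.continuous_fderiv one_ne_zero).aestronglyMeasurable)
    have i1 : Integrable (fun x => divAlong (T x) X x) m :=
      Integrable.of_bound ((trL E3).continuous.comp_aestronglyMeasurable h1)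
        (Module.finrank ℝ E3 * A) (Eventually.of_forall fun x =>
          (abs_divAlong_le _ _ _).trans (mul_le_mul_of_nonneg_left (hA x) (by positivity)))
    have i2 := integrable_inner_of_cpt hM hX.continuous hXc
    have i3 : Integrable (fun x => divAlong (T x) X x + ⟪X x, H x⟫) m := i1.add i2
    refine (integral_mono_ae hi (i3.add (integrable_const e)) hI).trans (le_of_eq ?_)
    simp only [Pi.add_apply]
    rw [integral_add i3 (integrable_const e), integral_add i1 i2, hM.fv X hX hXc, integral_const,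
      smul_eq_mul]
    ring
  · rw [integral_undef hi]
    positivity

/-! ### The weighted kernel -/

lemma hasFDerivAt_gk0 {σ : ℝ} (hσ : 0 < σ) (y x : E3) :
    HasFDerivAt (fun x => gk0 σ (x - y))
      ((-(gk0 σ (x - y) / (2 * σ))) • innerSL ℝ (x - y)) x := by
  have h1 : HasFDerivAt (fun x : E3 => ‖x - y‖ ^ 2) (2 • innerSL ℝ (x - y)) x := by
    simpa using ((hasFDerivAt_id x).sub_const y).norm_sq
  have h2 := ((h1.neg.mul_const (4 * σ)⁻¹).exp).const_mul σ⁻¹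
  unfold gk0
  simp only [div_eq_mul_inv]
  refine h2.congr_fderiv ?_
  ext w
  simp only [smul_apply, neg_apply, smul_eq_mul,
    nsmul_eq_mul, Pi.neg_apply, Nat.cast_ofNat]
  field_simp
  ring

lemma hasDerivAt_gk0 {t₀ t : ℝ} (h : t < t₀) (z : E3) :
    HasDerivAt (fun τ => gk0 (t₀ - τ) z)
      (((t₀ - t)⁻¹ - ‖z‖ ^ 2 / (4 * (t₀ - t) ^ 2)) * gk0 (t₀ - t) z) t := by
  have h0 : t₀ - t ≠ 0 := (sub_pos.2 h).ne'
  have h1 : HasDerivAt (fun τ : ℝ => t₀ - τ) (-1) t := (hasDerivAt_id t).const_sub t₀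
  have h2 := h1.inv h0
  have h3 := h2.mul ((h2.const_mul (-‖z‖ ^ 2 / 4)).exp)
  have e : ∀ τ : ℝ, -‖z‖ ^ 2 / (4 * (t₀ - τ)) = -‖z‖ ^ 2 / 4 * (t₀ - τ)⁻¹ := fun τ => by
    rw [div_mul_eq_div_div, div_eq_mul_inv _ (t₀ - τ)]
  unfold gk0
  simp only [e]
  refine h3.congr_deriv ?_
  simp only [Pi.inv_apply]
  field_simp
  ring

/-- a function of the affine function `c + ⟪v, · - y⟫` times a cut-off Gaussian -/
noncomputable def WW (u : ℝ → ℝ) (c : ℝ) (v y : E3) (R σ : ℝ) (x : E3) : ℝ :=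
  u (c + ⟪v, x - y⟫) * chi R (x - y) * gk0 σ (x - y)

variable {u u' : ℝ → ℝ} {c : ℝ} {v y : E3} {R σ : ℝ}

lemma contDiff_aff {n : WithTop ℕ∞} : ContDiff ℝ n fun x : E3 => c + ⟪v, x - y⟫ :=
  contDiff_const.add (contDiff_const.inner ℝ (contDiff_id.sub contDiff_const))

lemma contDiff_WW (hu : ContDiff ℝ 1 u) : ContDiff ℝ 1 (WW u c v y R σ) :=
  ((hu.comp contDiff_aff).mul ((contDiff_chi R).comp (contDiff_id.sub contDiff_const))).mul
    (contDiff_const.mul (Real.contDiff_exp.comp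
      (((contDiff_id.sub contDiff_const).norm_sq ℝ).neg.div_const _)))

lemma WW_zero {x : E3} (hx : x ∉ (fun z => y + z) '' tsupport (chi (E := E3) R)) :
    WW u c v y R σ x = 0 := by
  have : chi R (x - y) = 0 :=
    image_eq_zero_of_notMem_tsupport fun h => hx ⟨x - y, h, by simp⟩
  rw [WW, this, mul_zero, zero_mul]

lemma isCompact_K (hR : 0 < R) (y : E3) : IsCompact ((fun z => y + z) '' tsupport (chi (E := E3) R)) :=
  (chi_compact hR).isCompact.image (by fun_prop)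

lemma compact_WW (hR : 0 < R) : HasCompactSupport (WW u c v y R σ) :=
  HasCompactSupport.intro (isCompact_K hR y) fun _ hx => WW_zero hx

lemma fderiv_WW (hu : ∀ s, HasDerivAt u (u' s) s) (hσ : 0 < σ) (x w : E3) :
    fderiv ℝ (WW u c v y R σ) x w = (u' (c + ⟪v, x - y⟫) * ⟪v, w⟫ * chi R (x - y)
      + u (c + ⟪v, x - y⟫) * fderiv ℝ (chi R) (x - y) w
      - u (c + ⟪v, x - y⟫) * chi R (x - y) * ⟪x - y, w⟫ / (2 * σ)) * gk0 σ (x - y) := by
  have h0 : HasFDerivAt (fun x : E3 => x - y) (ContinuousLinearMap.id ℝ E3) x :=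
    (hasFDerivAt_id x).sub_const y
  have h1 : HasFDerivAt (fun x : E3 => c + ⟪v, x - y⟫) (innerSL ℝ v) x := by
    simpa using ((innerSL ℝ v).hasFDerivAt.comp x h0).const_add c
  have h2 := (hu _).comp_hasFDerivAt x h1
  have h3 := (((contDiff_chi R).differentiable one_ne_zero (x - y)).hasFDerivAt).comp x h0
  have h4 := ((h2.mul h3).mul (hasFDerivAt_gk0 hσ y x)).fderiv
  have h5 : fderiv ℝ (WW u c v y R σ) x = _ := h4
  rw [h5]
  simp only [add_apply, smul_apply, smul_eq_mul,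
    ContinuousLinearMap.comp_id, innerSL_apply_apply, Pi.mul_apply, Function.comp_apply]
  ring

/-- convex weights of at most cubic growth -/
structure Cvx (g g' g'' : ℝ → ℝ) (A : ℝ) : Prop where
  d1 : ∀ s, HasDerivAt g (g' s) s
  d2 : ∀ s, HasDerivAt g' (g'' s) s
  c2 : Continuous g''
  p0 : ∀ s, 0 ≤ g s
  p2 : ∀ s, 0 ≤ g'' s
  b0 : ∀ s, g s ≤ A * (1 + |s|) ^ 3
  b1 : ∀ s, |g' s| ≤ A * (1 + |s|) ^ 3

lemma contDiff_of_deriv (h1 : ∀ s, HasDerivAt u (u' s) s) (h2 : Continuous u') :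
    ContDiff ℝ 1 u := by
  rw [contDiff_one_iff_deriv]
  refine ⟨fun s => (h1 s).differentiableAt, ?_⟩
  rwa [show deriv u = u' from funext fun s => (h1 s).deriv]

variable {g g' g'' : ℝ → ℝ} {A : ℝ}

lemma Cvx.s2 (h : Cvx g g' g'' A) : ContDiff ℝ 1 g' := contDiff_of_deriv h.d2 h.c2

lemma Cvx.s1 (h : Cvx g g' g'' A) : ContDiff ℝ 1 g := contDiff_of_deriv h.d1 h.s2.continuous

lemma poly_gk0 {σ₀ σ₁ : ℝ} (h0 : 0 < σ₀) (h1 : σ₀ ≤ σ) (h2 : σ ≤ σ₁) (z : E3) :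
    (1 + ‖z‖) ^ 4 * gk0 σ z ≤ 8 * (1 + 512 * σ₁ ^ 2) * σ₀⁻¹ := by
  have hσ : 0 < σ := h0.trans_le h1
  have a1 := sq_gk0_le hσ z
  have a2 := sq_gk0_le (by positivity : 0 < 2 * σ) z
  have a3 := gk0_le_inv hσ z
  have a4 := gk0_le_inv (by positivity : 0 < 2 * (2 * σ)) z
  have a5 : σ⁻¹ ≤ σ₀⁻¹ := inv_anti₀ h0 h1
  have a6 : (2 * (2 * σ))⁻¹ ≤ σ₀⁻¹ := inv_anti₀ h0 (by linarith)
  have a7 : (1 + ‖z‖) ^ 4 ≤ 8 * (1 + ‖z‖ ^ 2 * ‖z‖ ^ 2) := by
    nlinarith [sq_nonneg (‖z‖ - 1), sq_nonneg (‖z‖ ^ 2 - 1), sq_nonneg ((1 + ‖z‖) ^ 2),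
      mul_nonneg (sq_nonneg (‖z‖ - 1)) (sq_nonneg (‖z‖ + 1)), norm_nonneg z,
      mul_nonneg (sq_nonneg (‖z‖ - 1)) (sq_nonneg ‖z‖),
      mul_nonneg (sq_nonneg (‖z‖ - 1)) (norm_nonneg z)]
  have a8 : ‖z‖ ^ 2 * ‖z‖ ^ 2 * gk0 σ z ≤ 512 * σ₁ ^ 2 * σ₀⁻¹ := by
    calc ‖z‖ ^ 2 * ‖z‖ ^ 2 * gk0 σ z = ‖z‖ ^ 2 * (‖z‖ ^ 2 * gk0 σ z) := by ring
      _ ≤ ‖z‖ ^ 2 * (16 * σ * gk0 (2 * σ) z) := by gcongr
      _ = 16 * σ * (‖z‖ ^ 2 * gk0 (2 * σ) z) := by ring
      _ ≤ 16 * σ * (16 * (2 * σ) * σ₀⁻¹) :=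
          mul_le_mul_of_nonneg_left (a2.trans
            (mul_le_mul_of_nonneg_left (a4.trans a6) (by positivity))) (by positivity)
      _ = 512 * σ ^ 2 * σ₀⁻¹ := by ring
      _ ≤ _ := by gcongr
  have a9 := mul_le_mul_of_nonneg_right a7 (gk0_pos hσ z).le
  nlinarith

lemma Cvx.bound (h : Cvx g g' g'' A) (c : ℝ) (v : E3) {σ₀ : ℝ} (σ₁ : ℝ) (h0 : 0 < σ₀) :
    ∃ K : ℝ, 0 ≤ K ∧ ∀ σ ∈ Icc σ₀ σ₁, ∀ z : E3, g (c + ⟪v, z⟫) * gk0 σ z * (1 + ‖z‖) ≤ K ∧
      |g' (c + ⟪v, z⟫)| * gk0 σ z ≤ K := by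
  have hA : 0 ≤ A := by simpa using (h.p0 0).trans (h.b0 0)
  refine ⟨A * (1 + |c| + ‖v‖) ^ 3 * (8 * (1 + 512 * σ₁ ^ 2) * σ₀⁻¹), by positivity,
    fun σ hσ z => ?_⟩
  have h1 := poly_gk0 h0 hσ.1 hσ.2 z
  have h2 := (gk0_pos (h0.trans_le hσ.1) z).le
  have h3 : 1 + |c + ⟪v, z⟫| ≤ (1 + |c| + ‖v‖) * (1 + ‖z‖) := by
    have := abs_add_le c ⟪v, z⟫
    have := abs_real_inner_le_norm v z
    nlinarith [abs_nonneg c, norm_nonneg v, norm_nonneg z]
  have h4 : A * (1 + |c + ⟪v, z⟫|) ^ 3 * gk0 σ z * (1 + ‖z‖) ≤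
      A * (1 + |c| + ‖v‖) ^ 3 * (8 * (1 + 512 * σ₁ ^ 2) * σ₀⁻¹) := by
    calc _ ≤ A * ((1 + |c| + ‖v‖) * (1 + ‖z‖)) ^ 3 * gk0 σ z * (1 + ‖z‖) := by gcongr
      _ = A * (1 + |c| + ‖v‖) ^ 3 * ((1 + ‖z‖) ^ 4 * gk0 σ z) := by ring
      _ ≤ _ := by gcongr
  refine ⟨le_trans (by gcongr; exact h.b0 _) h4, le_trans ?_ h4⟩
  calc _ ≤ A * (1 + |c + ⟪v, z⟫|) ^ 3 * gk0 σ z * 1 := by rw [mul_one]; gcongr; exact h.b1 _
    _ ≤ _ := by gcongr; linarith [norm_nonneg z]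

/-- the vector field used in the first variation -/
noncomputable def XW (g g' : ℝ → ℝ) (c : ℝ) (v y : E3) (R σ : ℝ) (x : E3) : E3 :=
  ((2 * σ)⁻¹ * WW g c v y R σ x) • (x - y) + WW g' c v y R σ x • v

lemma alg {C K G G' G'' Φ β : ℝ} {z k : E3} {L : E3 →L[ℝ] ℝ} {P : Submodule ℝ E3}
    (hk : k ∈ Pᗮ) (hσ : 0 < σ) (hR : 1 ≤ R) (hC0 : 0 ≤ C)
    (hL : ∀ w, L w ≤ 2 * β * (C / R) * ‖w‖) (hb1 : β ≤ 1) (hΦ0 : 0 ≤ Φ)
    (hG0 : 0 ≤ G) (hG2 : 0 ≤ G'') (hK1 : G * Φ * (1 + ‖z‖) ≤ K) (hK2 : |G'| * Φ ≤ K) :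
    G * β ^ 2 * ((σ⁻¹ - ‖z‖ ^ 2 / (4 * σ ^ 2)) * Φ)
      + (G' * ⟪v, k⟫ * β ^ 2 + G * L k - G * β ^ 2 * ⟪z, k⟫ / (2 * σ)) * Φ
      - G * β ^ 2 * Φ * ‖k‖ ^ 2 ≤
    (2 * σ)⁻¹ * (G * β ^ 2 * Φ) * 2 + (2 * σ)⁻¹ * ((G' * ⟪v, proj P z⟫ * β ^ 2
      + G * L (proj P z) - G * β ^ 2 * ⟪z, proj P z⟫ / (2 * σ)) * Φ)
      + (G'' * ⟪v, proj P v⟫ * β ^ 2 + G' * L (proj P v)
        - G' * β ^ 2 * ⟪z, proj P v⟫ / (2 * σ)) * Φ
      + ((2 * σ)⁻¹ * (G * β ^ 2 * Φ) * ⟪z, k⟫ + G' * β ^ 2 * Φ * ⟪v, k⟫)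
      + K * (C ^ 2 + C / σ + 2 * C * ‖v‖) / R := by
  have hR0 : 0 < R := by linarith
  obtain ⟨q, hq⟩ : ∃ q, q = k + (2 * σ)⁻¹ • (z - proj P z) := ⟨_, rfl⟩
  have l1 := hL q
  have l2 := hL (-z)
  have l3 := hL (proj P v)
  have l4 := hL (-proj P v)
  rw [map_neg, norm_neg] at l2 l4
  have f6 : L k = L q - (2 * σ)⁻¹ * L z + (2 * σ)⁻¹ * L (proj P z) := by
    rw [hq, map_add, map_smul, map_sub, smul_eq_mul]; ring
  have f7 : ‖k‖ ^ 2 = ‖q‖ ^ 2 - σ⁻¹ * ⟪z, k⟫ - (‖z‖ ^ 2 - ⟪z, proj P z⟫) / (4 * σ ^ 2) := by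
    have a1 : ⟪k, z - proj P z⟫ = ⟪z, k⟫ := by
      rw [inner_sub_right, real_inner_comm (proj P z), inner_proj_of_mem_orthogonal _ _ _ hk,
        real_inner_comm, sub_zero]
    have a2 : ‖z - proj P z‖ ^ 2 = ‖z‖ ^ 2 - ⟪z, proj P z⟫ := by
      rw [norm_sub_sq_real, norm_proj_sq, real_inner_comm z]; ring
    rw [hq, norm_add_sq_real, real_inner_smul_right, norm_smul, mul_pow, a1, a2, Real.norm_eq_abs,
      sq_abs]
    field_simp
    ring
  have f3 : ⟪v, proj P v⟫ = ‖proj P v‖ ^ 2 := by rw [norm_proj_sq, real_inner_comm]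
  have f4 : ⟪z, proj P v⟫ = ⟪v, proj P z⟫ := by rw [← inner_proj_left, real_inner_comm]
  have f5 := norm_proj_apply_le P v
  have hCR : 0 ≤ C / R := by positivity
  have hGΦ := mul_nonneg hG0 hΦ0
  have hK4 : G * Φ + G * Φ * ‖z‖ ≤ K := by linarith
  have hK0 : G * Φ ≤ K := by linarith [mul_nonneg hGΦ (norm_nonneg z)]
  have hK3 : G * Φ * ‖z‖ ≤ K := by linarith
  have t1 : G * Φ * (L q - β ^ 2 * ‖q‖ ^ 2) ≤ K * (C ^ 2 / R) := by
    have a1 : L q - β ^ 2 * ‖q‖ ^ 2 ≤ (C / R) ^ 2 := by linarith [sq_nonneg (β * ‖q‖ - C / R)]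
    have a2 : (C / R) ^ 2 ≤ C ^ 2 / R := by
      rw [div_pow]
      exact div_le_div_of_nonneg_left (sq_nonneg C) hR0 (le_self_pow₀ hR two_ne_zero)
    exact (mul_le_mul_of_nonneg_left (a1.trans a2) hGΦ).trans
      (mul_le_mul_of_nonneg_right hK0 (by positivity))
  have t2 : G * Φ * ((2 * σ)⁻¹ * -L z) ≤ K * (C / σ / R) := by
    have a1 : -L z ≤ 2 * 1 * (C / R) * ‖z‖ := l2.trans (by gcongr)
    calc G * Φ * ((2 * σ)⁻¹ * -L z) ≤ G * Φ * ((2 * σ)⁻¹ * (2 * 1 * (C / R) * ‖z‖)) := by gcongr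
      _ = G * Φ * ‖z‖ * (C / σ / R) := by field_simp
      _ ≤ _ := by gcongr
  have t3 : -(G' * L (proj P v) * Φ) ≤ K * (2 * C * ‖v‖ / R) := by
    have a0 : 2 * β * (C / R) * ‖proj P v‖ ≤ 2 * C * ‖v‖ / R := by
      calc _ ≤ 2 * 1 * (C / R) * ‖proj P v‖ := by gcongr
        _ ≤ 2 * 1 * (C / R) * ‖v‖ := by gcongr
        _ = _ := by ring
    have a1 : |L (proj P v)| ≤ 2 * C * ‖v‖ / R := abs_le.2 ⟨by linarith, by linarith⟩
    calc -(G' * L (proj P v) * Φ) ≤ |G' * L (proj P v) * Φ| := neg_le_abs _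
      _ = |G'| * Φ * |L (proj P v)| := by rw [abs_mul, abs_mul, abs_of_nonneg hΦ0]; ring
      _ ≤ _ := mul_le_mul hK2 a1 (abs_nonneg _) ((mul_nonneg (abs_nonneg _) hΦ0).trans hK2)
  have t4 : 0 ≤ G'' * ‖proj P v‖ ^ 2 * β ^ 2 * Φ := by positivity
  have t5 : K * (C ^ 2 + C / σ + 2 * C * ‖v‖) / R =
      K * (C ^ 2 / R) + K * (C / σ / R) + K * (2 * C * ‖v‖ / R) := by ring
  rw [t5, f3, f4, f6, f7]
  refine le_trans (le_of_eq ?_) (add_le_add_right (add_le_add (add_le_add t1 t2)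
    (t3.trans' (sub_le_self _ t4))) _)
  field_simp
  ring

lemma pointwise (h : Cvx g g' g'' A) {C K : ℝ} (hC0 : 0 ≤ C)
    (hC : ∀ y v : E3, fderiv ℝ (chi (E := E3) R) y v ≤ 2 * bump E3 (R⁻¹ • y) * (C / R) * ‖v‖)
    (hR : 1 ≤ R) (hσ : 0 < σ) {x : E3}
    (hK1 : g (c + ⟪v, x - y⟫) * gk0 σ (x - y) * (1 + ‖x - y‖) ≤ K)
    (hK2 : |g' (c + ⟪v, x - y⟫)| * gk0 σ (x - y) ≤ K) {P : Submodule ℝ E3}
    (hP : Module.finrank ℝ P = 2) {k : E3} (hk : k ∈ Pᗮ) :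
    g (c + ⟪v, x - y⟫) * chi R (x - y) * ((σ⁻¹ - ‖x - y‖ ^ 2 / (4 * σ ^ 2)) * gk0 σ (x - y))
      + fderiv ℝ (WW g c v y R σ) x k - WW g c v y R σ x * ‖k‖ ^ 2 ≤
      divAlong P (XW g g' c v y R σ) x + ⟪XW g g' c v y R σ x, k⟫ +
        K * (C ^ 2 + C / σ + 2 * C * ‖v‖) / R := by
  have d1 := (contDiff_WW (c := c) (v := v) (y := y) (R := R) (σ := σ) h.s1).differentiable
    one_ne_zero x
  have d2 := (contDiff_WW (c := c) (v := v) (y := y) (R := R) (σ := σ) h.s2).differentiable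
    one_ne_zero x
  have d3 : DifferentiableAt ℝ (fun z => ((2 * σ)⁻¹ * WW g c v y R σ z) • (z - y)) x :=
    (d1.const_mul _).smul (differentiableAt_id.sub_const y)
  have e1 : divAlong P (XW g g' c v y R σ) x = (2 * σ)⁻¹ * WW g c v y R σ x * 2 +
      (2 * σ)⁻¹ * fderiv ℝ (WW g c v y R σ) x (proj P (x - y)) +
      fderiv ℝ (WW g' c v y R σ) x (proj P v) := by
    unfold XW
    rw [divAlong_add P d3 (d2.smul_const v), divAlong_smul_sub P _ y x (d1.const_mul _), hP,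
      fderiv_const_mul d1, divAlong_smul P d2 (differentiableAt_const v), inner_proj_left,
      inner_grad]
    simp [divAlong]
  rw [e1, fderiv_WW h.d1 hσ, fderiv_WW h.d1 hσ, fderiv_WW h.d2 hσ, XW, inner_add_left,
    real_inner_smul_left, real_inner_smul_left, WW, WW]
  exact alg hk hσ hR hC0 (hC (x - y)) (bump E3).le_one (gk0_pos hσ _).le (h.p0 _) (h.p2 _) hK1 hK2

/-- **weighted monotonicity** with a convex function of an affine function -/
theorem wmono (hB : BF 2 μ T H) (h0 : μ 0 univ < ⊤) (h : Cvx g g' g'' A) (c : ℝ) (v y : E3)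
    {a b t₀ : ℝ} (ha : 0 ≤ a) (hab : a ≤ b) (hb : b < t₀) :
    ∫ x, g (c + ⟪v, x - y⟫) * gk0 (t₀ - b) (x - y) ∂(μ b) ≤
      ∫ x, g (c + ⟪v, x - y⟫) * gk0 (t₀ - a) (x - y) ∂(μ a) := by
  obtain ⟨C, hC0, hC⟩ := exists_chi_grad (E := E3)
  have hσ : 0 < t₀ - b := sub_pos.2 hb
  obtain ⟨K, hK0, hK⟩ := h.bound c v (t₀ - a) hσ
  set e : ℝ := K * (C ^ 2 + C / (t₀ - b) + 2 * C * ‖v‖) * (μ 0).real univ with he
  have key : ∀ R : ℝ, 1 ≤ R → ∫ x, WW g c v y R (t₀ - b) x ∂(μ b) -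
      ∫ x, WW g c v y R (t₀ - a) x ∂(μ a) ≤ (b - a) * (e / R) := by
    intro R hR
    have hR0 : 0 < R := by linarith
    refine brakke_le hB (φ := fun t => WW g c v y R (t₀ - t)) ha hab hb (fun p hp => ?_)
      (isCompact_K hR0 y) (fun t x hx => WW_zero hx)
      (fun t ht x => mul_nonneg (mul_nonneg (h.p0 _) (chi_nonneg _ _))
        (gk0_pos (sub_pos.2 ht) _).le) (Eventually.of_forall fun t ht hM => ?_)
    · have a1 : ContDiff ℝ 1 fun p : ℝ × E3 => p.2 - y := contDiff_snd.sub contDiff_const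
      have a2 : ContDiffAt ℝ 1 (fun p : ℝ × E3 => t₀ - p.1) p := by fun_prop
      have a3 : t₀ - p.1 ≠ 0 := (sub_pos.2 hp).ne'
      refine (((h.s1.comp (contDiff_aff.comp contDiff_snd)).mul
        ((contDiff_chi R).comp a1)).contDiffAt).mul ((a2.inv a3).mul ?_)
      exact (((a1.norm_sq ℝ).neg.contDiffAt).div (contDiffAt_const.mul a2)
        (mul_ne_zero four_ne_zero a3)).exp
    · have ht0 : t < t₀ := ht.2.trans_lt hb
      have hs : 0 < t₀ - t := sub_pos.2 ht0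
      have := hB.finite h0 (ha.trans ht.1)
      have a1 : ContDiff ℝ 1 (XW g g' c v y R (t₀ - t)) :=
        ((contDiff_const.mul (contDiff_WW h.s1)).smul (contDiff_id.sub contDiff_const)).add
          ((contDiff_WW h.s2).smul contDiff_const)
      have a2 : HasCompactSupport (XW g g' c v y R (t₀ - t)) :=
        HasCompactSupport.intro (isCompact_K hR0 y) fun x hx => by
          rw [XW, WW_zero hx, WW_zero hx]; simp
      refine (int_le_of_fv hM a1 a2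
        (e := K * (C ^ 2 + C / (t₀ - t) + 2 * C * ‖v‖) / R) (by positivity) ?_).trans ?_
      · filter_upwards [hM.dim, hM.normal] with x h1 h2
        have h3 := hK (t₀ - t) ⟨by linarith [ht.2], by linarith [ht.1]⟩ (x - y)
        have h4 : deriv (fun τ => WW g c v y R (t₀ - τ) x) t = _ :=
          ((hasDerivAt_gk0 ht0 (x - y)).const_mul
            (g (c + ⟪v, x - y⟫) * chi R (x - y))).deriv
        rw [h4]
        exact pointwise h hC0 (hC R hR0) hR hs h3.1 h3.2 h1 h2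
      · have a3 := hB.real_le h0 (ha.trans ht.1)
        have a4 : t₀ - b ≤ t₀ - t := by linarith [ht.2]
        rw [he, div_mul_eq_mul_div]
        gcongr
  have lim : ∀ t ∈ Icc a b, Tendsto (fun R : ℝ => ∫ x, WW g c v y R (t₀ - t) x ∂(μ t)) atTop
      (𝓝 (∫ x, g (c + ⟪v, x - y⟫) * gk0 (t₀ - t) (x - y) ∂(μ t))) := by
    intro t ht
    have := hB.finite h0 (ha.trans ht.1)
    have hs : 0 < t₀ - t := by linarith [ht.2]
    refine tendsto_integral_filter_of_dominated_convergence (fun _ => K)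
      (Eventually.of_forall fun R => (contDiff_WW h.s1).continuous.aestronglyMeasurable)
      (Eventually.of_forall fun R => Eventually.of_forall fun x => ?_) (integrable_const K)
      (Eventually.of_forall fun x => ?_)
    · have h1 := (hK (t₀ - t) ⟨by linarith [ht.2], by linarith [ht.1]⟩ (x - y)).1
      have h2 := mul_nonneg (h.p0 (c + ⟪v, x - y⟫)) (gk0_pos hs (x - y)).le
      have h3 := chi_nonneg R (x - y)
      have h4 := chi_le_one R (x - y)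
      rw [WW, mul_right_comm, Real.norm_of_nonneg (mul_nonneg h2 h3)]
      nlinarith [mul_nonneg h2 (norm_nonneg (x - y))]
    · refine tendsto_const_nhds.congr' ?_
      filter_upwards [eventually_ge_atTop ‖x - y‖, eventually_gt_atTop 0] with R h1 h2
      rw [WW, chi_eq_one h2 h1, mul_one]
  have l1 := (lim b ⟨hab, le_rfl⟩).sub (lim a ⟨le_rfl, hab⟩)
  have l2 : Tendsto (fun R : ℝ => (b - a) * (e / R)) atTop (𝓝 ((b - a) * 0)) :=
    (tendsto_const_nhds.div_atTop tendsto_id).const_mul _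
  have := le_of_tendsto_of_tendsto l1 l2 ((eventually_ge_atTop 1).mono key)
  linarith

lemma cvx_sq : Cvx (fun s => s ^ 2) (fun s => 2 * s) (fun _ => 2) 2 where
  d1 s := by simpa using hasDerivAt_pow 2 s
  d2 s := by simpa using (hasDerivAt_id s).const_mul 2
  c2 := continuous_const
  p0 s := sq_nonneg s
  p2 _ := zero_le_two
  b0 s := by rw [← sq_abs]; nlinarith [abs_nonneg s, pow_nonneg (abs_nonneg s) 3]
  b1 s := by
    rw [abs_mul, abs_two]
    nlinarith [abs_nonneg s, pow_nonneg (abs_nonneg s) 3, pow_nonneg (abs_nonneg s) 2]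

lemma cvx_cube : Cvx (pp 3) (fun s => 3 * pp 2 s) (fun s => 6 * pp 1 s) 3 where
  d1 s := by simpa using hasDerivAt_pp 1 s
  d2 s := ((hasDerivAt_pp 0 s).const_mul 3).congr_deriv (by push_cast; ring)
  c2 := continuous_const.mul (continuous_pp 1)
  p0 := pp_nonneg 3
  p2 s := mul_nonneg (by norm_num) (pp_nonneg 1 s)
  b0 s := by
    have h1 : max s 0 ≤ 1 + |s| := max_le (by linarith [le_abs_self s]) (by positivity)
    have h2 : pp 3 s ≤ (1 + |s|) ^ 3 := pow_le_pow_left₀ (le_max_right _ _) h1 3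
    linarith [pp_nonneg 3 s]
  b1 s := by
    have h1 : max s 0 ≤ 1 + |s| := max_le (by linarith [le_abs_self s]) (by positivity)
    have h2 : pp 2 s ≤ (1 + |s|) ^ 2 := pow_le_pow_left₀ (le_max_right _ _) h1 2
    have h3 : (1 + |s|) ^ 2 ≤ (1 + |s|) ^ 3 :=
      pow_le_pow_right₀ (by linarith [abs_nonneg s]) (by norm_num)
    rw [abs_of_nonneg (mul_nonneg (by norm_num) (pp_nonneg 2 s))]
    linarith

/-! ### The Gaussian system -/

lemma int_gk0 {m : Measure E3} [IsFiniteMeasure m] (y : E3) (hσ : 0 < σ) :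
    Integrable (fun x => gk0 σ (x - y)) m :=
  Integrable.of_bound (continuous_gk0' σ y).aestronglyMeasurable σ⁻¹
    (Eventually.of_forall fun x => by
      rw [Real.norm_of_nonneg (gk0_pos hσ _).le]; exact gk0_le_inv hσ _)

lemma mono_GA (hB : BF 2 μ T H) (h0 : μ 0 univ < ⊤) (y : E3) {a b t₀ : ℝ} (ha : 0 ≤ a)
    (hab : a ≤ b) (hb : b < t₀) : GA (μ b) y (t₀ - b) ≤ GA (μ a) y (t₀ - a) := by
  rw [← GQ_one, ← GQ_one]
  exact wmono hB h0 cvx_sq 1 0 y ha hab hb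

lemma ent (hB : BF 2 μ T H) (h0 : μ 0 univ < ⊤) {a s : ℝ} (ha : 0 < a) (hs : a ≤ s) :
    Ent (μ s) ((μ 0).real univ / a) := by
  have h1 := hB.finite h0 (ha.le.trans hs)
  have h2 : IsFiniteMeasure (μ 0) := ⟨h0⟩
  refine ⟨inferInstance, fun y σ hσ => int_gk0 y hσ, fun y σ hσ => ?_⟩
  have h3 := mono_GA hB h0 y (t₀ := s + σ) le_rfl (ha.le.trans hs) (by linarith)
  rw [add_sub_cancel_left, sub_zero] at h3
  have h4 : 0 < s + σ := by linarith
  refine h3.trans ((integral_mono (int_gk0 y h4) (integrable_const a⁻¹) fun x =>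
    (gk0_le_inv h4 _).trans (inv_anti₀ ha (by linarith))).trans (le_of_eq ?_))
  rw [integral_const, smul_eq_mul, div_eq_mul_inv]

/-- the density at a point with an approximate tangent plane -/
lemma low_of_tangent {m : Measure E3} [IsFiniteMeasure m] {x : E3} {q : ℕ} (hq : 1 ≤ q)
    {P : Submodule ℝ E3} (h : P214.IsApproxTangent 2 m x q P) {c : ℝ} (hc : c < om0) :
    ∀ᶠ r in 𝓝[>] (0 : ℝ), c ≤ GA m x (r ^ 2) := by
  have hm := (continuous_gk0 1).aestronglyMeasurable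
    (μ := (μH[2] : Measure E3).restrict (P : Set E3))
  have hp : ∀ z : E3, 0 ≤ gk0 1 z := fun z => (gk0_pos one_pos z).le
  have h1 := lintegral_gk0_plane h.1 one_pos
  have i1 : Integrable (gk0 1) ((μH[2] : Measure E3).restrict (P : Set E3)) := by
    refine ⟨hm, ?_⟩
    rw [hasFiniteIntegral_iff_ofReal (Eventually.of_forall hp), h1]
    exact ENNReal.ofReal_lt_top
  have h2 : ∫ z in (P : Set E3), gk0 1 z ∂μH[2] = om0 := by
    rw [integral_eq_lintegral_of_nonneg_ae (Eventually.of_forall hp) hm, h1,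
      ENNReal.toReal_ofReal om0_pos.le]
  have hc1 : ∀ R : ℝ, Continuous fun z : E3 => gk0 1 z * chi R z := fun R =>
    (continuous_gk0 1).mul (contDiff_chi R).continuous
  have hle : ∀ (R : ℝ) (z : E3), gk0 1 z * chi R z ≤ gk0 1 z := fun R z =>
    mul_le_of_le_one_right (hp z) (chi_le_one R z)
  have h3 : Tendsto (fun R : ℝ => ∫ z in (P : Set E3), gk0 1 z * chi R z ∂μH[2]) atTop
      (𝓝 (∫ z in (P : Set E3), gk0 1 z ∂μH[2])) := by
    refine tendsto_integral_filter_of_dominated_convergence (gk0 1)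
      (Eventually.of_forall fun R => (hc1 R).aestronglyMeasurable)
      (Eventually.of_forall fun R => Eventually.of_forall fun z => ?_) i1
      (Eventually.of_forall fun z => ?_)
    · rw [Real.norm_of_nonneg (mul_nonneg (hp z) (chi_nonneg R z))]
      exact hle R z
    · refine tendsto_const_nhds.congr' ?_
      filter_upwards [eventually_ge_atTop ‖z‖, eventually_gt_atTop 0] with R h1 h2
      rw [chi_eq_one h2 h1, mul_one]
  rw [h2] at h3
  obtain ⟨R, hR, hR0⟩ := (((h3.eventually (lt_mem_nhds (max_lt hc om0_pos))).and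
    (eventually_gt_atTop 0))).exists
  have h4 := h.2 _ (hc1 R) (chi_compact hR0).mul_left
  have h5 : c < q * ∫ z in (P : Set E3), gk0 1 z * chi R z ∂μH[(2 : ℕ)] := by
    have a1 : (1 : ℝ) ≤ q := by exact_mod_cast hq
    rw [max_lt_iff] at hR
    rw [Nat.cast_ofNat]
    nlinarith [hR.1, hR.2]
  filter_upwards [h4.eventually (lt_mem_nhds h5), self_mem_nhdsWithin] with r h6 hr
  have hr0 : 0 < r := hr
  refine h6.le.trans ?_
  rw [GA, ← integral_div]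
  refine integral_mono_of_nonneg (Eventually.of_forall fun z =>
    div_nonneg (mul_nonneg (hp _) (chi_nonneg _ _)) (sq_nonneg r)) (int_gk0 x (by positivity))
    (Eventually.of_forall fun z => ?_)
  have h7 := gk0_smul (inv_pos.2 hr0) 1 (z - x)
  rw [inv_pow, one_div, inv_inv] at h7
  simp only
  rw [← h7, div_eq_inv_mul]
  exact mul_le_mul_of_nonneg_left (hle R _) (by positivity)

/-- at almost every time the mass is carried by `Spt μ` -/
lemma ae_supp (hμ : IsIntegralBrakkeFlow 2 μ) (h0 : μ 0 univ < ⊤) :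
    ∀ᵐ s : ℝ, 0 < s → ∀ᵐ x ∂(μ s), x ∈ Spt μ s := by
  obtain ⟨T, H, hB⟩ := exists_BF hμ
  obtain ⟨V, H', h1, -⟩ := hμ.ineq
  filter_upwards [h1] with s h2 hs
  have h3 := (h2 hs.le).1
  have h4 : ∀ᵐ x ∂(V s).weight, x ∈ (V s).carrier :=
    (withDensity_absolutelyContinuous _ _).ae_le (ae_restrict_mem₀ (V s).carrier_meas)
  have h5 : ∀ᵐ x ∂(V s).weight,
      P214.IsApproxTangent 2 (V s).weight x ((V s).mult x) ((V s).tangent x) := (V s).tangent_spec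
  rw [h3] at h4 h5
  have := hB.finite h0 hs.le
  filter_upwards [h4, h5] with x h6 h7
  filter_upwards [Ioo_mem_nhdsLT hs] with s' hs'
  refine le_of_forall_lt_imp_le_of_dense fun c hc => ?_
  have h8 : Tendsto (fun r : ℝ => GA (μ s') x (s + r ^ 2 - s')) (𝓝[>] 0)
      (𝓝 (GA (μ s') x (s - s'))) := by
    refine Tendsto.mono_left ?_ nhdsWithin_le_nhds
    exact ((ent hB h0 hs'.1 le_rfl).continuousAt_GA x (sub_pos.2 hs'.2)).tendsto.comp
      ((by fun_prop : Continuous fun r : ℝ => (x, s + r ^ 2 - s')).tendsto' 0 (x, s - s')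
        (by simp))
  refine ge_of_tendsto h8 ?_
  filter_upwards [low_of_tangent ((V s).mult_pos x h6) h7 hc, self_mem_nhdsWithin] with r h9 hr
  have hr0 : 0 < r := hr
  have h10 := mono_GA hB h0 x (t₀ := s + r ^ 2) hs'.1.le hs'.2.le (by nlinarith)
  rw [add_sub_cancel_left] at h10
  exact h9.trans h10

/-- the track of `Spt μ` is closed -/
lemma closed (hB : BF 2 μ T H) (h0 : μ 0 univ < ⊤) {t : ℝ} {x : E3} (ht : 0 < t)
    (hx : x ∉ Spt μ t) : ∀ᶠ p : ℝ × E3 in 𝓝 (t, x), p.2 ∉ Spt μ p.1 := by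
  have hx' : ¬ ∀ᶠ u in 𝓝[<] t, om0 ≤ GA (μ u) x (t - u) := hx
  obtain ⟨s, hx, hs⟩ := ((not_eventually.1 hx').and_eventually (Ioo_mem_nhdsLT ht)).exists
  have h1 : ContinuousAt (fun p : ℝ × E3 => GA (μ s) p.2 (p.1 - s)) (t, x) :=
    ((ent hB h0 hs.1 le_rfl).continuousAt_GA x (sub_pos.2 hs.2)).comp_of_eq
      (f := fun p : ℝ × E3 => (p.2, p.1 - s)) (by fun_prop) rfl
  filter_upwards [h1.eventually_lt continuousAt_const (not_le.1 hx),
    continuousAt_const.eventually_lt continuousAt_fst (show s < ((t, x) : ℝ × E3).1 from hs.2)]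
    with p h2 h3 h4
  have h5 : ∀ᶠ u in 𝓝[<] p.1, om0 ≤ GA (μ u) p.2 (p.1 - u) := h4
  obtain ⟨u, h6, h7⟩ := (h5.and (Ioo_mem_nhdsLT h3)).exists
  exact absurd (h6.trans (mono_GA hB h0 p.2 hs.1.le h7.1.le h7.2)) (not_le.2 h2)

/-- no mass appears where there was none -/
lemma null_of_null (hB : BF 2 μ T H) {a t r : ℝ} {x : E3} (ha : 0 ≤ a) (hat : a < t) (hr : 0 < r)
    (h : ∀ᵐ s : ℝ, s ∈ Ioo a t → μ s (ball x r) = 0) : μ t (ball x (r / 2)) = 0 := by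
  obtain ⟨s, hs, hs0⟩ : ∃ s ∈ Ioo a t, μ s (ball x r) = 0 := by
    by_contra hc
    push Not at hc
    have : volume (Ioo a t) = 0 :=
      measure_eq_zero_iff_ae_notMem.2 (h.mono fun s h1 hs => hc s hs (h1 hs))
    simp at this
    linarith
  let χ : ContDiffBump x := ⟨r / 2, 3 * r / 4, by positivity, by linarith⟩
  have hts : tsupport χ ⊆ ball x r := by
    rw [χ.tsupport_eq]
    exact closedBall_subset_ball (by change 3 * r / 4 < r; linarith)
  have hz : ∀ u, μ u (ball x r) = 0 → ∀ᵐ z ∂(μ u), z ∉ tsupport χ := fun u hu =>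
    measure_mono_null (fun z hz => hts (not_not.1 hz)) hu
  have hc : ContDiff ℝ 1 χ := χ.contDiff
  have h1 := brakke_le hB (φ := fun _ => χ) (t₀ := t + 1) (e := 0) (ha.trans hs.1.le) hs.2.le
    (by linarith) (fun p _ => (hc.comp contDiff_snd).contDiffAt) χ.hasCompactSupport.isCompact
    (fun _ _ hz => image_eq_zero_of_notMem_tsupport hz) (fun _ _ _ => χ.nonneg) (by
      filter_upwards [h, compl_mem_ae_iff.2 (measure_singleton t)] with u h2 h3 h4 _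
      refine le_of_eq (integral_eq_zero_of_ae ?_)
      filter_upwards [hz u (h2 ⟨hs.1.trans_le h4.1, lt_of_le_of_ne h4.2 h3⟩)] with z h5
      rw [image_eq_zero_of_notMem_tsupport h5, image_eq_zero_of_notMem_tsupport
        fun h6 => h5 (tsupport_fderiv_subset ℝ h6)]
      simp)
  have h2 : ∫ z, χ z ∂(μ s) = 0 := integral_eq_zero_of_ae
    ((hz s hs0).mono fun z h5 => image_eq_zero_of_notMem_tsupport h5)
  have := hB.fin t (ha.trans hat.le)
  have h3 : ∫ z, χ z ∂(μ t) = 0 :=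
    le_antisymm (by linarith) (integral_nonneg fun _ => χ.nonneg)
  rw [integral_eq_zero_iff_of_nonneg (fun _ => χ.nonneg)
    (hc.continuous.integrable_of_hasCompactSupport χ.hasCompactSupport)] at h3
  refine measure_eq_zero_iff_ae_notMem.2 (h3.mono fun z h4 hz => ?_)
  exact one_ne_zero ((χ.one_of_mem_closedBall (ball_subset_closedBall hz)).symm.trans h4)

lemma supp (hμ : IsIntegralBrakkeFlow 2 μ) (h0 : μ 0 univ < ⊤) {t : ℝ} (ht : 0 < t) :
    ∀ᵐ x ∂(μ t), x ∈ Spt μ t := by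
  obtain ⟨T, H, hB⟩ := exists_BF hμ
  refine measure_null_of_locally_null _ fun x hx => ?_
  have h1 := closed hB h0 ht hx
  rw [nhds_prod_eq] at h1
  obtain ⟨A, hA, B, hB', hAB⟩ := mem_prod_iff.1 h1
  obtain ⟨r, hr, hb⟩ := Metric.mem_nhds_iff.1 hB'
  obtain ⟨a, ha, hsub⟩ := mem_nhdsLT_iff_exists_Ioo_subset.1
    (inter_mem (mem_nhdsWithin_of_mem_nhds hA) (Ioo_mem_nhdsLT ht))
  refine ⟨ball x (r / 2), mem_nhdsWithin_of_mem_nhds (ball_mem_nhds x (half_pos hr)),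
    null_of_null hB (a := max a 0) (le_max_right _ _) (max_lt ha ht) hr ?_⟩
  filter_upwards [ae_supp hμ h0] with s h2 hs
  have h3 := hsub ⟨(le_max_left _ _).trans_lt hs.1, hs.2⟩
  exact measure_mono_null (fun z hz => hAB (mk_mem_prod h3.1 (hb hz))) (h2 h3.2.1)

end RC

theorem gs_proof : GSStmt := by
  intro μ hμ h0 a ha
  obtain ⟨T, H, hB⟩ := exists_BF hμ
  exact ⟨fun s hs => RC.ent hB h0 ha hs,
    fun y t c v s s' hs hss ht => RC.wmono hB h0 RC.cvx_sq c v y (ha.le.trans hs) hss ht,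
    fun s hs => RC.supp hμ h0 (ha.trans hs)⟩

theorem bdd_proof : BddStmt := by
  intro μ hμ h0 R hR t ht x hx
  obtain ⟨T, H, hB⟩ := exists_BF hμ
  by_contra hn
  obtain ⟨f, c, hf1, hf2⟩ := geometric_hahn_banach_closed_point (convex_closedBall (0 : E3) R)
    isClosed_closedBall hn
  set v : E3 := (InnerProductSpace.toDual ℝ E3).symm f with hv
  have hvf : ∀ z, ⟪v, z - 0⟫ = f z := fun z => by
    rw [sub_zero]; exact InnerProductSpace.toDual_symm_apply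
  obtain ⟨r, hr, hb⟩ := Metric.mem_nhds_iff.1
    (continuousAt_const.eventually_lt f.continuous.continuousAt hf2)
  refine Gl.not_spt (gs_proof μ hμ h0 (t / 2) (half_pos ht)) (half_lt_self ht) hr
    (Eventually.frequently ?_) hx
  filter_upwards [Ioo_mem_nhdsLT ht] with s hs
  have hσ : 0 < t - s := sub_pos.2 hs.2
  have h1 := RC.wmono hB h0 RC.cvx_cube (-c) v 0 (t₀ := t) le_rfl hs.1.le hs.2
  have h2 : ∫ z, pp 3 (-c + ⟪v, z - 0⟫) * gk0 (t - 0) (z - 0) ∂(μ 0) = 0 := by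
    refine integral_eq_zero_of_ae ?_
    filter_upwards [compl_mem_ae_iff.2 hR] with z hz
    rw [hvf, pp, max_eq_right (by linarith [hf1 z (not_not.1 hz)])]
    simp
  have hp : ∀ z : E3, 0 ≤ pp 3 (-c + ⟪v, z - 0⟫) * gk0 (t - s) (z - 0) := fun z =>
    mul_nonneg (pp_nonneg _ _) (gk0_pos hσ _).le
  have := hB.finite h0 hs.1.le
  obtain ⟨K, -, hK⟩ := RC.cvx_cube.bound (-c) v (t - s) hσ
  have i1 : Integrable (fun z : E3 => pp 3 (-c + ⟪v, z - 0⟫) * gk0 (t - s) (z - 0)) (μ s) := by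
    refine Integrable.of_bound (((continuous_pp 3).comp (RC.contDiff_aff (n := 0)).continuous).mul
      (continuous_gk0' _ 0)).aestronglyMeasurable K (Eventually.of_forall fun z => ?_)
    rw [Real.norm_of_nonneg (hp z)]
    nlinarith [(hK _ ⟨le_rfl, le_rfl⟩ (z - 0)).1, mul_nonneg (hp z) (norm_nonneg (z - 0))]
  have h3 := (integral_eq_zero_iff_of_nonneg hp i1).1
    (le_antisymm (h1.trans h2.le) (integral_nonneg hp))
  refine measure_eq_zero_iff_ae_notMem.2 (h3.mono fun z h4 hz => ?_)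
  have h5 : c < f z := hb hz
  have h6 : 0 < pp 3 (-c + ⟪v, z - 0⟫) := by
    rw [hvf, pp]
    exact pow_pos (lt_max_of_lt_left (by linarith)) 3
  exact (mul_pos h6 (gk0_pos hσ _)).ne' h4

end Vale.Agent.P218G.Rg
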