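import Vale.Agent.P218G.GBlow
import Vale.Agent.P218G.ConvL2
import Vale.Agent.P218G.AGen
import Vale.Agent.P218G.RegB
import Vale.Agent.P218G.RegC
import Vale.Agent.P218G.RegD
import Vale.Agent.P218G.Flat0
import Vale.Agent.P218G.WFin

/-! Regularity of limit flows at the points of density close to one. -/

open MeasureTheory Set Filter Topology Metric
open scoped ENNReal NNReal RealInnerProductSpace ContDiff

namespace Vale.Agent.P218G.GL

open Vale.Agent.P218 Vale.Agent.P218.H313.A1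
open Vale.Agent.P218G.Lit Vale.Agent.P218G.Rg Vale.Agent.P218G.Dyn Vale.Agent.P218G.WL
open Vale.Agent.P218FT Vale.Agent.P218FT.Conv
open Vale.Agent.P218F.Dyn (hm)

variable {ι : Type}

/-! ### Local smooth convergence -/

/-- smooth convergence with multiplicity one in the set `O` of space-time -/
structure SLimOn (U : Filter ι) (M : ι → ℝ → Set E3) (L : ℝ → Set E3) (O : Set (ℝ × E3)) :
    Prop where
  out : ∀ p ∈ O, p.2 ∉ L p.1 → ∃ W ∈ 𝓝 p, ∀ᶠ i in U, ∀ q ∈ W, q.2 ∉ M i q.1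
  loc : ∀ p ∈ O, p.2 ∈ L p.1 → ∃ (W : Set (ℝ × E3)) (w : ι → ℝ × E3 → ℝ) (v : ℝ × E3 → ℝ),
    IsOpen W ∧ p ∈ W ∧ (∀ i, ContDiff ℝ ∞ (w i)) ∧ ContDiff ℝ ∞ v ∧ CInf U W w v ∧
    gradient (fun y => v (p.1, y)) p.2 ≠ 0 ∧ (∀ q ∈ W, q.2 ∈ L q.1 ↔ v q = 0) ∧
    ∀ᶠ i in U, ∀ q ∈ W, q.2 ∈ M i q.1 ↔ w i q = 0

lemma grad_comp_ne {w : E3 → ℝ} {Φ : E3 → E3} (hw : ContDiff ℝ ∞ w) (h1 : ContDiff ℝ ∞ Φ) {y : E3}
    (h4 : Function.Surjective (fderiv ℝ Φ y)) (h : gradient w (Φ y) ≠ 0) :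
    gradient (w ∘ Φ) y ≠ 0 := by
  refine fun h0 => h ?_
  rw [← norm_eq_zero, norm_grad, norm_eq_zero] at h0 ⊢
  rw [fderiv_comp y (hw.differentiable (by simp) _) (h1.differentiable (by simp) _)] at h0
  ext v
  obtain ⟨u, rfl⟩ := h4 v
  exact DFunLike.congr_fun h0 u

lemma Hv_congr {N N' : Set E3} {x : E3} {w : E3 → ℝ} (h : IsEqn N x w) (hx : x ∈ N)
    (he : ∀ᶠ y in 𝓝 x, y ∈ N' ↔ y ∈ N) : Hv N' x = Hv N x := by
  rw [(isEqn_congr h he).Hv_eq (he.self_of_nhds.2 hx), h.Hv_eq hx]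

namespace SLimOn

variable {U : Filter ι} {M : ι → ℝ → Set E3} {L : ℝ → Set E3} {O : Set (ℝ × E3)}

lemma slim (h : SLimOn U M L O) {I : Set ℝ} (hI : ∀ t ∈ I, ∀ x, (t, x) ∈ O) : SLim U M L I :=
  ⟨fun t ht x => h.out (t, x) (hI t ht x), fun t ht x => h.loc (t, x) (hI t ht x)⟩

lemma pull [U.NeBot] (h : SLimOn U M L O) {Φ : E3 → E3} (h1 : ContDiff ℝ ∞ Φ)
    (h4 : ∀ y, Function.Surjective (fderiv ℝ Φ y)) {I : Set ℝ}
    (hI : ∀ t ∈ I, ∀ y, (t, Φ y) ∈ O) :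
    SLim U (fun i t => Φ ⁻¹' M i t) (fun t => Φ ⁻¹' L t) I := by
  have hΨ : ContDiff ℝ ∞ fun q : ℝ × E3 => (q.1, Φ q.2) :=
    contDiff_fst.prodMk (h1.comp contDiff_snd)
  refine ⟨fun t ht y hy => ?_, fun t ht y hy => ?_⟩
  · obtain ⟨W, hW, a1⟩ := h.out _ (hI t ht y) hy
    exact ⟨_, (hΨ.continuous.tendsto (t, y)) hW, a1.mono fun i hi q hq => hi _ hq⟩
  · obtain ⟨W, w, v, a1, a2, a3, a4, a5, a6, a7, a8⟩ := h.loc _ (hI t ht y) hy
    obtain ⟨δ, hδ, b1⟩ := Metric.mem_nhds_iff.1 ((hΨ.continuous.tendsto (t, y)) (a1.mem_nhds a2))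
    exact ⟨ball (t, y) δ, fun i q => w i (q.1, Φ q.2), fun q => v (q.1, Φ q.2), isOpen_ball,
      mem_ball_self hδ, fun i => (a3 i).comp hΨ, a4.comp hΨ,
      a5.comp (cinf_fixed hΨ isBounded_ball) a1 isOpen_ball (convex_ball _ _) isBounded_ball
        (Eventually.of_forall fun _ => b1) b1,
      grad_comp_ne (w := fun z => v (t, z)) (contDiff_sl a4 t) h1 (h4 y) a6,
      fun q hq => a7 _ (b1 hq), a8.mono fun i hi q hq => hi _ (b1 hq)⟩

/-- near a point, the slices agree with globally converging surfaces -/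
lemma slice [U.NeBot] (h : SLimOn U M L O) {t : ℝ} {x : E3} {V : Set (ℝ × E3)}
    (hO : O ∈ 𝓝 (t, x)) (hV : V ∈ 𝓝 (t, x)) {τ : ι → ℝ} (hτ : Tendsto τ U (𝓝 t)) :
    ∃ (r : ℝ) (N : ι → Set E3) (S : Set E3), 0 < r ∧ ball t r ×ˢ ball x (14 * r) ⊆ V ∧
      SLimS U N S ∧ (∀ i y, ‖y - x‖ ≤ r → (y ∈ N i ↔ y ∈ M i (τ i))) ∧
      (∀ y, ‖y - x‖ ≤ r → (y ∈ S ↔ y ∈ L t)) ∧
      ∀ i, SurfOn (M i (τ i)) (ball x (14 * r)) → IsSurf (N i) := by
  obtain ⟨δ, hδ, h0⟩ := Metric.mem_nhds_iff.1 (inter_mem hO hV)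
  have hr : 0 < δ / 14 := by positivity
  have hs : ball t (δ / 14) ×ˢ ball x (14 * (δ / 14)) ⊆ O ∩ V := by
    refine Subset.trans ?_ h0
    rw [← ball_prod_same]
    exact prod_mono (ball_subset_ball (by linarith)) (ball_subset_ball (by linarith))
  obtain ⟨Φ, h1, h2, h3, h4⟩ := exists_subm x hr
  refine ⟨δ / 14, fun i => Φ ⁻¹' M i (τ i), Φ ⁻¹' L t, hr, hs.trans inter_subset_right,
    (h.pull h1 h4 (I := ball t (δ / 14)) fun s hs' y => (hs (mk_mem_prod hs' (h3 y))).1).slice hτ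
      (mem_ball_self hr), fun i y hy => by rw [mem_preimage, h2 y hy],
    fun y hy => by rw [mem_preimage, h2 y hy], fun i hi => ⟨isOpen_compl_iff.1
      (isOpen_iff_mem_nhds.2 fun y hy => ?_), fun y hy => ?_⟩⟩
  · exact h1.continuous.continuousAt.eventually (hi.1 _ (h3 y) hy)
  · obtain ⟨w, a1, a2, a3⟩ := hi.2 _ (h3 y) hy
    exact ⟨w ∘ Φ, a1.comp h1, grad_comp_ne a1 h1 (h4 y) a2,
      h1.continuous.continuousAt.eventually a3⟩

lemma ev_ball {x y : E3} {r : ℝ} (h : ‖y - x‖ < r) : ∀ᶠ z in 𝓝 y, ‖z - x‖ ≤ r :=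
  ((by fun_prop : Continuous fun z : E3 => ‖z - x‖).continuousAt.eventually_lt
    continuousAt_const h).mono fun _ hz => hz.le

/-- the limit satisfies the equation -/
lemma eqn [U.NeBot] (h : SLimOn U M L O) (hO : IsOpen O) {K : ι → Set (ℝ × E3)} {p : ℝ × E3}
    (hp : p ∈ O) (hK : ∃ W ∈ 𝓝 p, ∀ᶠ i in U, IsMCFOn (M i) (K i) ∧ W ⊆ K i) (hx : p.2 ∈ L p.1) :
    ∃ w : ℝ × E3 → ℝ, ContDiff ℝ ∞ w ∧ gradient (fun y => w (p.1, y)) p.2 ≠ 0 ∧
      (∀ᶠ q : ℝ × E3 in 𝓝 p, q.2 ∈ L q.1 ↔ w q = 0) ∧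
      deriv (fun s => w (s, p.2)) p.1 = -⟪gradient (fun y => w (p.1, y)) p.2, Hv (L p.1) p.2⟫ := by
  obtain ⟨t, x⟩ := p
  obtain ⟨W, w, v, h1, h2, h3, h4, h5, h6, h7, h8⟩ := h.loc _ hp hx
  refine ⟨v, h4, h6, mem_of_superset (h1.mem_nhds h2) h7, ?_⟩
  obtain ⟨r, N, S, hr, -, s1, s2, s3, -⟩ := h.slice (hO.mem_nhds hp) univ_mem
    (tendsto_const_nhds (x := t))
  have x0 : ‖x - x‖ < r := by simpa using hr
  have hxS : x ∈ S := (s3 x x0.le).2 hx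
  obtain ⟨y, y1, y2⟩ := s1.exists_seq hxS
  have y3 : ∀ᶠ i in U, ‖y i - x‖ < r :=
    (y1.sub_const x).norm.eventually (gt_mem_nhds x0)
  have a1 : Tendsto (fun i => (t, y i)) U (𝓝 (t, x)) := tendsto_const_nhds.prodMk_nhds y1
  have a2 := (h5.fderiv h1).tendsto_comp h1 h2 a1
  have eg : ∀ (u : ℝ × E3 → ℝ), ContDiff ℝ ∞ u → ∀ z : E3, gradient (sl u t) z =
      rz ((fderiv ℝ u (t, z)).comp (ContinuousLinearMap.inr ℝ ℝ E3)) := fun u hu z => by
    rw [gradient_eq_rz, ← fderiv_sl hu]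
  have a3 : Tendsto (fun i => gradient (sl (w i) t) (y i)) U (𝓝 (gradient (sl v t) x)) := by
    simp only [eg _ (h3 _), eg _ h4]
    have : Continuous fun A : ℝ × E3 →L[ℝ] ℝ => rz (A.comp (ContinuousLinearMap.inr ℝ ℝ E3)) :=
      rz.continuous.comp (continuous_id.clm_comp continuous_const)
    exact (this.tendsto _).comp a2
  have a4 : Tendsto (fun i => fderiv ℝ (w i) (t, y i) (1, 0)) U (𝓝 (fderiv ℝ v (t, x) (1, 0))) :=
    ((ContinuousLinearMap.apply ℝ ℝ ((1 : ℝ), (0 : E3))).continuous.tendsto _).comp a2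
  have a5 := (a3.inner (𝕜 := ℝ) (s1.tendsto_Hv hxS y1 y2)).neg
  have hE : IsEqnT L (t, x) v := ⟨h4, h6, mem_of_superset (h1.mem_nhds h2) h7⟩
  rw [Hv_congr hE.isEqn hx ((ev_ball x0).mono s3)] at a5
  rw [deriv_time h4]
  refine tendsto_nhds_unique a4 (a5.congr' ?_)
  obtain ⟨V, hV, hV'⟩ := hK
  filter_upwards [hV', y2, y3, h8, a3.eventually_ne h6, a1.eventually (h1.mem_nhds h2),
    a1.eventually hV] with i b1 b2 b2' b4 b5 b6 b7
  have b3 := (s2 i _ b2'.le).1 b2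
  have b8 : IsEqnT (M i) (t, y i) (w i) := ⟨h3 i, b5, mem_of_superset (h1.mem_nhds b6) b4⟩
  rw [← deriv_time (h3 i), Hv_congr b8.isEqn b3 ((ev_ball b2').mono (s2 i))]
  exact ((⟨b1.1.1, b1.1.2, b1.1.3⟩ : MCFOn _ _).eqn_of_isEqnT (b1.2 b7) b3 b8).symm

end SLimOn

/-! ### Density ratios near a point -/

variable {l : Filter ι} {μ : ι → ℝ → Measure E3} {ν : ℝ → Measure E3} {a D : ℝ}

lemma low_ev (hμ : ∀ᶠ i in l, GS (μ i) a D) (hν : ∀ s, a ≤ s → Ent (ν s) D)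
    (hw : ∀ s, WL l (fun i => μ i s) (ν s)) {y : E3} {t θ B : ℝ} (ht : a < t)
    (hd : Dens ν y t θ) (hB : θ < B) : ∃ r : ℝ, 0 < r ∧ a ≤ t - 2 * r ∧ ∀ᶠ i in l,
      ∀ (z : E3) (t' σ : ℝ), ‖z - y‖ < r → |t' - t| < r → 0 < σ → σ < r →
        GA (μ i (t' - σ)) z σ < B := by
  obtain ⟨δ, h1, h2⟩ :=
    ((hd.eventually (gt_mem_nhds hB)).and (Ioo_mem_nhdsGT (sub_pos.2 ht))).exists
  have h3 : a ≤ t - δ := by linarith [h2.2]
  have h4 : Tendsto (fun q : ι × E3 × ℝ => q.2.2 - (t - δ)) (l ×ˢ 𝓝 (y, t)) (𝓝 δ) := by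
    simpa using (((continuous_snd.tendsto (y, t)).comp (tendsto_snd (f := l))).sub_const (t - δ))
  have h5 := (((hw (t - δ)).comp (tendsto_fst (g := 𝓝 (y, t)))).GA_move
    (tendsto_fst.eventually (hμ.mono fun i hi => hi.ent _ h3)) (hν _ h3) h2.1
    ((continuous_fst.tendsto (y, t)).comp tendsto_snd) h4).eventually (gt_mem_nhds h1)
  obtain ⟨A, hA, V, hV, h6⟩ := mem_prod_iff.1 h5
  obtain ⟨r, hr, h7⟩ := Metric.mem_nhds_iff.1 hV
  have m1 := min_le_left r (δ / 2)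
  have m2 := min_le_right r (δ / 2)
  refine ⟨min r (δ / 2), lt_min hr (half_pos h2.1), by linarith, ?_⟩
  filter_upwards [hA, hμ] with i a1 a2 z t' σ b1 b2 b3 b4
  have b5 := h6 (mk_mem_prod a1 (h7 (show (z, t') ∈ ball (y, t) r by
    rw [← ball_prod_same]
    exact ⟨mem_ball_iff_norm.2 (b1.trans_le m1), b2.trans_le m1⟩)))
  have b6 := GA_mono a2 z (t := t') (σ := t' - (t - δ)) (by linarith)
    (by linarith [(abs_lt.1 b2).1]) b3
  rw [sub_sub_cancel] at b6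
  exact b6.trans_lt b5

lemma low_of {μ : ℝ → Measure E3} {y z : E3} {t t' r ρ ε : ℝ}
    (h : ∀ (z : E3) (t' σ : ℝ), ‖z - y‖ < r → |t' - t| < r → 0 < σ → σ < r →
      GA (μ (t' - σ)) z σ < (1 + ε) * om0) (h0 : 0 < ρ) (h1 : ρ ≤ 1) (h2 : ρ ≤ r / 7)
    (hz : ‖z - y‖ < r / 2) (ht : |t' - t| < r / 2) : Low μ z t' ρ ε := by
  intro z' σ a1 a2 a3
  have a4 : ρ ^ 2 ≤ ρ := by nlinarith
  have a5 : 0 < ρ ^ 2 := by positivity
  have a6 := h z' (t' - ρ ^ 2 + σ) σ (by linarith [norm_sub_le_norm_sub_add_norm_sub z' z y])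
    (abs_lt.2 ⟨by linarith [(abs_lt.1 ht).1], by linarith [(abs_lt.1 ht).2]⟩) (by linarith)
    (by linarith)
  rw [add_sub_cancel_right] at a6
  exact a6.le

/-- the curvature estimate for Gaussian systems which are smooth -/
lemma smooth_white (D : ℝ) : ∃ ε r C : ℝ, 0 < ε ∧ 0 < r ∧ ∀ (ν : ℝ → Measure E3) (a : ℝ)
    (K : Set (ℝ × E3)) (x : E3) (t ρ : ℝ), 0 < ρ → GS ν a D → a ≤ t - ρ ^ 2 → Low ν x t ρ ε →
    IsMCFOn (Spt ν) K → Icc (t - (ρ / 10) ^ 2) t ×ˢ closedBall x (ρ / 10) ⊆ K → x ∈ Spt ν t →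
    TwoPt (Spt ν t) x (r * (ρ / 10)) (C / (ρ / 10)) := by
  obtain ⟨τ, r, C, hτ, hr, -, -, hW⟩ := WL.locWhite_proof
  obtain ⟨ε₁, θ, K, hε₁, -, -, hK, hI⟩ := iter_proof D
  obtain ⟨ε₀, hε₀, hF⟩ := flat0_proof D (τ / K) (by positivity)
  refine ⟨min ε₀ ε₁, r, C, lt_min hε₀ hε₁, hr, fun ν a O x t ρ hρ h ha hL hM hO hx => ?_⟩
  obtain ⟨c, v, hv, hH⟩ := hF ν a x t _ hρ h ha (hL.mono (min_le_left _ _)) hx
  have hP := (hI ν a x t _ hρ h ha (hL.mono (min_le_right _ _)) c v _ (by positivity) hH).2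
  rw [mul_div_cancel₀ _ hK.ne'] at hP
  exact hW (Spt ν) O hM x t (ρ / 10) v (by positivity) hv hO hP t
    ⟨by linarith [sq_nonneg (r * (ρ / 10))], le_rfl⟩ x hx
    (by rw [sub_self, norm_zero]; positivity)

/-! ### Regular systems -/

/-- a Gaussian system which is a smooth flow of multiplicity one in `K`, where `K` contains the
points of density less than `1 + ε` -/
structure RS (ν : ℝ → Measure E3) (a D ε : ℝ) (K : Set (ℝ × E3)) : Prop where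
  gs : GS ν a D
  mcf : IsMCFOn (Spt ν) K
  meas : ∀ s, (ν s).restrict (tsl K s) = (μH[2] : Measure E3).restrict (Spt ν s ∩ tsl K s)
  gap : ∀ (x : E3) (t θ : ℝ), a < t → Dens ν x t θ → θ < (1 + ε) * om0 → (t, x) ∈ K

theorem ww : WeakWhiteStmt :=
  weakWhite_of flat0_proof iter_proof gs_proof glue_proof WL.locWhite_proof

theorem rs_ibf (D : ℝ) : ∃ ε : ℝ, 0 < ε ∧ ∀ (μ : ℝ → Measure E3) (a : ℝ),
    IsIntegralBrakkeFlow 2 μ → μ 0 univ < ⊤ → IsUnitRegular μ → 0 ≤ a → GS μ a D →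
    RS μ a D ε (RegS μ) := by
  obtain ⟨ε, r, C, hε, hr, -, -, hW⟩ := ww D
  refine ⟨ε, hε, fun μ a hμ h0 hU ha h => ?_⟩
  obtain ⟨g1, g2, -⟩ := glue_proof μ fun b hb => ⟨_, gs_proof μ hμ h0 b hb⟩
  refine ⟨h, g1, g2, fun x t θ ht hd hθ => ?_⟩
  obtain ⟨R, hR, a1, a2⟩ := low_ev (l := (⊤ : Filter Unit)) (μ := fun _ => μ)
    (Eventually.of_forall fun _ => h) h.ent (fun s => WL.const _ _) ht hd hθ
  have b0 : 0 < min 1 (R / 7) := by positivity
  have b1 := min_le_left 1 (R / 7)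
  have b2 := min_le_right 1 (R / 7)
  exact (hW μ hμ h0 hU a x t _ b0 ha h (by nlinarith) (low_of (eventually_top.1 a2 ()) b0 b1 b2
    (by simpa using hR) (by simpa using hR)) t ⟨sub_le_self _ (sq_nonneg _), le_rfl⟩ x
    (by rw [sub_self, norm_zero]; positivity)).1

lemma dens_rescaled {lam : ℝ} (hl : 0 < lam) {x₀ y : E3} {t₀ t θ : ℝ}
    (h : Dens (rescaled 2 ν x₀ t₀ lam) y t θ) :
    Dens ν (x₀ + lam⁻¹ • y) (t₀ + t / lam ^ 2) θ := by
  have h2 : 0 < lam ^ 2 := by positivity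
  have h1 : Tendsto (fun σ : ℝ => σ * lam ^ 2) (𝓝[>] 0) (𝓝[>] 0) :=
    tendsto_nhdsWithin_iff.2 ⟨by
      simpa using ((tendsto_id.mono_left nhdsWithin_le_nhds).mul_const (lam ^ 2) :
        Tendsto (fun σ : ℝ => σ * lam ^ 2) (𝓝[>] 0) _),
      mem_of_superset self_mem_nhdsWithin fun σ hσ => mul_pos hσ h2⟩
  refine (h.comp h1).congr fun σ => ?_
  simp only [Function.comp_apply]
  rw [rescaled_eq_dil, GA_dil hl, mul_div_cancel_right₀ _ h2.ne', sub_div,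
    mul_div_cancel_right₀ _ h2.ne', add_sub_assoc]

lemma restrict_dil {lam : ℝ} (hl : 0 < lam) (x₀ : E3) (m : Measure E3) (T : Set E3) :
    (dil 2 lam x₀ m).restrict (scaleSet lam x₀ T) = dil 2 lam x₀ (m.restrict T) := by
  rw [dil, dil, Measure.restrict_smul, (Sc.embDn hl.ne' x₀).restrict_map]
  congr 3
  ext x
  exact dn_mem_scaleSet hl.ne'

namespace RS

variable {ε : ℝ} {K : Set (ℝ × E3)} (h : RS ν a D ε K)
include h

lemma later {a' : ℝ} (ha : a ≤ a') : RS ν a' D ε K :=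
  ⟨h.gs.later ha, h.mcf, h.meas, fun x t θ ht => h.gap x t θ (ha.trans_lt ht)⟩

lemma mono {ε' : ℝ} (he : ε' ≤ ε) : RS ν a D ε' K :=
  ⟨h.gs, h.mcf, h.meas, fun x t θ ht hd hθ => h.gap x t θ ht hd
    (hθ.trans_le (mul_le_mul_of_nonneg_right (by linarith) om0_pos.le))⟩

lemma mcfOn : MCFOn (Spt ν) K := ⟨h.mcf.1, h.mcf.2, h.mcf.3⟩

lemma scale {lam : ℝ} (hl : 0 < lam) (x₀ : E3) (t₀ : ℝ) :
    RS (rescaled 2 ν x₀ t₀ lam) ((a - t₀) * lam ^ 2) D ε (scaleReg lam x₀ t₀ K) := by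
  have h1 := h.mcfOn.scale hl x₀ t₀
  refine ⟨h.gs.scale hl x₀ t₀, ?_, fun s => ?_, fun x t θ ht hd hθ => ?_⟩
  · rw [spt_rescaled hl]
    exact ⟨h1.1, h1.2, h1.3⟩
  · rw [spt_rescaled hl, rescaled_eq_dil]
    exact (restrict_dil hl x₀ _ (tsl K (t₀ + s / lam ^ 2))).trans
      ((congrArg _ (h.meas _)).trans (P218F.DynBridge.hm_scale hl x₀ _).symm)
  · refine h.gap _ _ θ ?_ (dens_rescaled hl hd) hθ
    have := (lt_div_iff₀ (by positivity : 0 < lam ^ 2)).2 ht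
    linarith

/-- in a ball of the regular set -/
lemma ball_eq {s r : ℝ} {x : E3} {N : Set E3} (h1 : ball x r ⊆ tsl K s)
    (h2 : ∀ y, ‖y - x‖ ≤ r → (y ∈ N ↔ y ∈ Spt ν s)) :
    (ν s).restrict (ball x r) = (hm N).restrict (ball x r) := by
  rw [← Measure.restrict_restrict_of_subset h1, h.meas, hm,
    Measure.restrict_restrict measurableSet_ball, Measure.restrict_restrict measurableSet_ball]
  congr 1
  ext y
  exact ⟨fun hy => ⟨hy.1, (h2 y (mem_ball_iff_norm.1 hy.1).le).2 hy.2.1⟩,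
    fun hy => ⟨hy.1, (h2 y (mem_ball_iff_norm.1 hy.1).le).1 hy.2, h1 hy.1⟩⟩

end RS

lemma ev_rs {ε : ℝ} {K : Set (ℝ × E3)} (h : RS ν a D ε K) {lam : ι → ℝ}
    (hl : Tendsto lam l atTop) (x : ι → E3) {t : ι → ℝ} {t₀ : ℝ} (ht : Tendsto t l (𝓝 t₀))
    (ha : a < t₀) (b : ℝ) : ∀ᶠ i in l,
      RS (rescaled 2 ν (x i) (t i) (lam i)) b D ε (scaleReg (lam i) (x i) (t i) K) :=
  (ev_start hl ht ha b).mono fun _ hi => (h.scale hi.1 _ _).later hi.2

lemma restrict_eq_of_test {m m' : Measure E3} [IsLocallyFiniteMeasure m]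
    [IsLocallyFiniteMeasure m'] {x : E3} {r : ℝ} (hr : 0 < r)
    (h : ∀ φ : E3 → ℝ, Continuous φ → HasCompactSupport φ → (∀ y, y ∉ ball x r → φ y = 0) →
      ∫ y, φ y ∂m = ∫ y, φ y ∂m') :
    m.restrict (ball x (r / 2)) = m'.restrict (ball x (r / 2)) := by
  let χ : ContDiffBump x := ⟨r / 2, r, half_pos hr, half_lt_self hr⟩
  have hf : Continuous fun y => (χ y).toNNReal := continuous_real_toNNReal.comp χ.continuous
  have h1 : ∀ n : Measure E3, (n.withDensity fun y => (χ y).toNNReal).restrict (ball x (r / 2)) =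
      n.restrict (ball x (r / 2)) := fun n => by
    rw [restrict_withDensity measurableSet_ball, withDensity_congr_ae (g := 1)
      ((ae_restrict_mem measurableSet_ball).mono fun y hy => by
        have : χ y = 1 := χ.one_of_mem_closedBall (ball_subset_closedBall hy)
        simp [this]), withDensity_one]
  have i1 := IsLocallyFiniteMeasure.withDensity_coe (μ := m) hf
  have i2 := IsLocallyFiniteMeasure.withDensity_coe (μ := m') hf
  rw [← h1 m, ← h1 m', fnl_injective (μ := m.withDensity fun y => (χ y).toNNReal)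
    (ν := m'.withDensity fun y => (χ y).toNNReal) (funext fun ψ => ?_)]
  unfold fnl
  rw [integral_withDensity_eq_integral_smul hf.measurable,
    integral_withDensity_eq_integral_smul hf.measurable]
  refine h _ (hf.smul ψ.continuous) ψ.hasCompactSupport.smul_left fun y hy => ?_
  rw [χ.zero_of_le_dist (not_lt.1 hy)]
  simp

/-- the points near which the approximating flows are regular with uniform two-point bounds -/
def Good (U : Filter ι) (μ : ι → ℝ → Measure E3) (K : ι → Set (ℝ × E3)) : Set (ℝ × E3) :=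
  {p | ∃ W ∈ 𝓝 p, ∃ r C : ℝ, 0 < r ∧ ∀ᶠ i in U, W ⊆ K i ∧
    ∀ q ∈ W, q.2 ∈ Spt (μ i) q.1 → TwoPt (Spt (μ i) q.1) q.2 r C}

lemma isOpen_good (U : Filter ι) (μ : ι → ℝ → Measure E3) (K : ι → Set (ℝ × E3)) :
    IsOpen (Good U μ K) :=
  isOpen_iff_mem_nhds.2 fun _ ⟨W, hW, h⟩ =>
    mem_of_superset (eventually_mem_nhds_iff.2 hW) fun _ hq => ⟨W, hq, h⟩

/-- the support of the limit is the limit of the supports -/
lemma spt_iff_lim (U : Ultrafilter ι) (hμ : ∀ a, ∀ᶠ i in (U : Filter ι), GS (μ i) a D)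
    (hν : ∀ s, Ent (ν s) D) (hw : ∀ s, WL U (fun i => μ i s) (ν s)) (p : ℝ × E3) :
    (∀ V ∈ 𝓝 p, ∀ᶠ i in (U : Filter ι), ∃ q ∈ V, q.2 ∈ Spt (μ i) q.1) ↔ p.2 ∈ Spt ν p.1 := by
  obtain ⟨t, x⟩ := p
  constructor
  · intro h
    by_contra hx
    obtain ⟨A, hA, B, hB, h1⟩ := mem_prod_iff.1 (not_spt hμ hν hw hx)
    obtain ⟨i, a1, q, a2, a3⟩ := ((show ∀ᶠ i in (U : Filter ι), i ∈ A from hA).and (h B hB)).exists
    exact h1 (mk_mem_prod a1 a2) a3
  · intro hx V hV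
    by_contra h
    obtain ⟨r, hr, h1⟩ := Metric.mem_nhds_iff.1 hV
    rw [← ball_prod_same] at h1
    refine Gl.not_spt (gs_lim hμ hν hw (t - 1)) (by linarith) hr (Eventually.frequently ?_) hx
    filter_upwards [nhdsWithin_le_nhds (ball_mem_nhds t hr)] with s hs
    refine (hw s).null_open (hν s).lf isOpen_ball ?_
    filter_upwards [Ultrafilter.eventually_not.2 h, hμ (s - 1)] with i a1 a2
    exact measure_mono_null (fun y hy a3 => a1 ⟨(s, y), h1 (mk_mem_prod hs hy), a3⟩)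
      (a2.supp s (by linarith))

section lim

variable {U : Ultrafilter ι} {K : ι → Set (ℝ × E3)} {ε : ℝ}
  (hμ : ∀ a, ∀ᶠ i in (U : Filter ι), RS (μ i) a D ε (K i)) (hν : ∀ s, Ent (ν s) D)
  (hw : ∀ s, WL U (fun i => μ i s) (ν s))
include hμ hν hw

theorem slimOn_good : SLimOn U (fun i => Spt (μ i)) (Spt ν) (Good U μ K) := by
  have hg : ∀ a, ∀ᶠ i in (U : Filter ι), GS (μ i) a D := fun a => (hμ a).mono fun i hi => hi.gs
  refine ⟨fun p _ hx => ?_, ?_⟩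
  · obtain ⟨A, hA, B, hB, h1⟩ := mem_prod_iff.1 (not_spt hg hν hw hx)
    exact ⟨B, hB, mem_of_superset hA fun i hi q hq => h1 (mk_mem_prod hi hq)⟩
  · rintro ⟨t, x⟩ ⟨W, hW, r, C, hr, h1⟩ hx
    obtain ⟨r₁, hr₁, h3⟩ := nhds_basis_closedBall.mem_iff.1 hW
    have m1 : min r r₁ ≤ r₁ := min_le_right _ _
    have hin : ∀ s ∈ Icc (t - min r r₁) (t + min r r₁), ∀ z, ‖z - x‖ ≤ min r r₁ → (s, z) ∈ W := by
      intro s hs z hzx
      rw [← Real.closedBall_eq_Icc] at hs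
      refine h3 ?_
      rw [← closedBall_prod_same]
      exact ⟨closedBall_subset_closedBall m1 hs, mem_closedBall_iff_norm.2 (hzx.trans m1)⟩
    obtain ⟨V, w, v, a1, a2, a3, a4, a5, a6, a7, a8⟩ := CL.comp_loc U (M := fun i => Spt (μ i))
      (K := K) (r := min r r₁) (C := max C 1) (lt_min hr hr₁) (le_max_right _ _) (by
        filter_upwards [hμ 0, h1] with i a1 a2
        exact ⟨a1.mcfOn, fun s hs z hz => a2.1 (hin s hs z hz), fun s hs z hz hzx =>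
          twoPt_mono' (a2.2 (s, z) (hin s hs z hzx) hz) (min_le_left _ _) (le_max_left _ _)⟩)
      ((spt_iff_lim U hg hν hw (t, x)).2 hx)
    exact ⟨V, w, v, a1, a2, a3, a4, a5, a6,
      fun q hq => (spt_iff_lim U hg hν hw q).symm.trans (a7 q hq), a8⟩

theorem mcf_good : IsMCFOn (Spt ν) (Good U μ K) :=
  ⟨isOpen_good _ _ _, fun p _ hx => (gs_lim (fun a => (hμ a).mono fun _ hi => hi.gs) hν hw
    (p.1 - 1)).closed (by linarith) hx, fun _ hp => (slimOn_good hμ hν hw).eqn (isOpen_good _ _ _)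
      hp (let ⟨W, hW, _, _, _, h⟩ := hp; ⟨W, hW, ((hμ 0).and h).mono fun _ hi =>
        ⟨hi.1.mcf, hi.2.1⟩⟩)⟩

theorem meas_good (s : ℝ) : (ν s).restrict (tsl (Good U μ K) s) =
    (μH[2] : Measure E3).restrict (Spt ν s ∩ tsl (Good U μ K) s) := by
  have hO := isOpen_good U μ K
  have hc : ∀ x : tsl (Good U μ K) s, ∃ W : Set E3, IsOpen W ∧ x.1 ∈ W ∧ W ⊆ tsl (Good U μ K) s ∧
      (ν s).restrict W = ((μH[2] : Measure E3).restrict (Spt ν s)).restrict W := by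
    rintro ⟨x, hx⟩
    obtain ⟨W, hW, _, _, -, h1⟩ := id hx
    obtain ⟨r, N, S, hr, s0, s1, s2, s3, s4⟩ := (slimOn_good hμ hν hw).slice (hO.mem_nhds hx)
      (inter_mem hW (hO.mem_nhds hx)) (tendsto_const_nhds (x := s))
    have b0 : ∀ y ∈ ball x (14 * r), (s, y) ∈ W ∩ Good U μ K := fun y hy =>
      s0 (mk_mem_prod (mem_ball_self hr) hy)
    have b1 : ball x r ⊆ ball x (14 * r) := ball_subset_ball (by linarith)
    have b2 : ball x (r / 2) ⊆ ball x r := ball_subset_ball (by linarith)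
    have := (hν s).lf
    have := P218F.DynBridge.locFin_hm s1.isSurf
    refine ⟨ball x (r / 2), isOpen_ball, mem_ball_self (half_pos hr),
      fun y hy => (b0 y (b1 (b2 hy))).2, (restrict_eq_of_test (m' := hm S) hr
        fun φ c1 c2 c3 => ?_).trans ?_⟩
    · have c4 := (s1.tendsto_area (((hμ 0).and h1).mono fun i hi => s4 i
        ((surfOn_slice hi.1.mcf s).mono fun y hy => hi.2.1 (b0 y hy).1)) s1.isSurf c1 c2).const_mul
        (P218F.DynBridge.cE : ℝ)⁻¹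
      simp only [← P218F.DynBridge.integral_hm] at c4
      refine tendsto_nhds_unique (hw s φ c1 c2) (c4.congr' ?_)
      filter_upwards [hμ 0, h1] with i d1 d2
      rw [← setIntegral_eq_integral_of_forall_compl_eq_zero c3,
        ← d1.ball_eq (fun y hy => d2.1 (b0 y (b1 hy)).1) (s2 i),
        setIntegral_eq_integral_of_forall_compl_eq_zero c3]
    · rw [hm, Measure.restrict_restrict measurableSet_ball,
        Measure.restrict_restrict measurableSet_ball]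
      congr 1
      ext y
      exact and_congr_right fun hy => s3 y (mem_ball_iff_norm.1 (b2 hy)).le
  choose W hW hxW hWs hWe using hc
  obtain ⟨T, hT, hTe⟩ := TopologicalSpace.isOpen_iUnion_countable W hW
  have e : ⋃ i ∈ T, W i = tsl (Good U μ K) s := by
    rw [hTe]
    exact Subset.antisymm (iUnion_subset hWs) fun x hx => mem_iUnion.2 ⟨⟨x, hx⟩, hxW _⟩
  have key := (Measure.restrict_biUnion_congr hT).2 fun i _ => hWe i
  rwa [e, Measure.restrict_restrict (Gl.isOpen_tsl hO s).measurableSet, inter_comm] at key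

end lim

/-- **Limits of regular systems are regular systems.** -/
theorem rs_lim (D : ℝ) : ∃ ε₁ : ℝ, 0 < ε₁ ∧ ∀ ε ≤ ε₁, ∀ {ι : Type} (U : Ultrafilter ι)
    (μ : ι → ℝ → Measure E3) (K : ι → Set (ℝ × E3)) (ν : ℝ → Measure E3),
    (∀ a, ∀ᶠ i in (U : Filter ι), RS (μ i) a D ε (K i)) → (∀ s, Ent (ν s) D) →
    (∀ s, WL U (fun i => μ i s) (ν s)) → ∀ a, RS ν a D ε (Good U μ K) := by
  obtain ⟨ε₁, r, C, h1, hr, hW⟩ := smooth_white D
  refine ⟨ε₁, h1, fun ε hε ι U μ K ν hμ hν hw a => ⟨gs_lim (fun a => (hμ a).mono fun _ hi => hi.gs)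
    hν hw a, mcf_good hμ hν hw, meas_good hμ hν hw, fun x t θ _ hd hθ => ?_⟩⟩
  obtain ⟨R, hR, a1, a2⟩ := low_ev ((hμ (t - 1)).mono fun _ hi => hi.gs) (fun s _ => hν s) hw
    (by linarith) hd hθ
  have b0 : 0 < min 1 (R / 7) := by positivity
  have b1 := min_le_left 1 (R / 7)
  have b2 := min_le_right 1 (R / 7)
  generalize min 1 (R / 7) = ρ at b0 b1 b2
  refine ⟨Ioo (t - R / 2) (t + R / 2) ×ˢ ball x (R / 2), prod_mem_nhds (Ioo_mem_nhds (by linarith)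
    (by linarith)) (ball_mem_nhds x (half_pos hR)), r * (ρ / 10), C / (ρ / 10), by positivity, ?_⟩
  filter_upwards [hμ (t - 1), a2] with i c1 c2
  have c3 : ∀ q : ℝ × E3, |q.1 - t| < R → ‖q.2 - x‖ < R → q ∈ K i := fun q d1 d2 => by
    have d3 := (abs_lt.1 d1).1
    obtain ⟨θ', d4⟩ := exists_dens c1.gs q.2 (t := q.1) (by linarith)
    exact c1.gap q.2 q.1 θ' (by linarith) d4 ((d4.le c1.gs (by linarith) (half_pos hR)).trans_lt
      (c2 _ _ _ d2 d1 (half_pos hR) (half_lt_self hR)))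
  refine ⟨fun q hq => c3 q (abs_lt.2 ⟨by linarith [hq.1.1], by linarith [hq.1.2]⟩)
    ((mem_ball_iff_norm.1 hq.2).trans (half_lt_self hR)), fun q hq hx => ?_⟩
  have d1 := mem_ball_iff_norm.1 hq.2
  refine hW (μ i) (t - 1) (K i) q.2 q.1 ρ b0 c1.gs (by nlinarith [hq.1.1])
    ((low_of c2 b0 b1 b2 d1 (abs_lt.2 ⟨by linarith [hq.1.1], by linarith [hq.1.2]⟩)).mono hε)
    c1.mcf (fun p hp => c3 p (abs_lt.2 ⟨by nlinarith [hq.1.1, hp.1.1], by
      linarith [hq.1.2, hp.1.2]⟩) ?_) hx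
  linarith [mem_closedBall_iff_norm.1 hp.2, norm_sub_le_norm_sub_add_norm_sub p.2 q.2 x]

end Vale.Agent.P218G.GL
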