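import Vale.Agent.P218G.RegA
import Vale.Agent.P218FT.Chart
import Vale.Agent.P218FT.Local

/-! On the set of regular points a weak flow is the smooth flow `Spt μ`. -/

open MeasureTheory Set Filter Topology Metric
open scoped ENNReal NNReal RealInnerProductSpace ContDiff

namespace Vale.Agent.P218G.Rg

open Vale.Agent.P218 Vale.Agent.P218.H313 Vale.Agent.P218G.Lit
open Vale.Agent.P218FT (E3 IsSurf IsEqn nu nuw Hv TwoPt)

namespace Gl

/-- a smooth piece of surface has positive area near each of its points -/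
theorem area_pos {N : Set E3} {x : E3} {w : E3 → ℝ} (hw : IsEqn N x w) (hx : x ∈ N) {V : Set E3}
    (hV : V ∈ 𝓝 x) : (μH[2] : Measure E3) (N ∩ V) ≠ 0 := by
  obtain ⟨J, pr, F⟩ := P218FT.Chart.exists_frame (P218FT.norm_nuw hw.2.1)
  obtain ⟨h, U, hU, C⟩ := P218FT.Chart.IsEqn.exists_chart hw hx F (by
    rw [P218FT.inner_grad_nuw hw.2.1]
    exact norm_ne_zero_iff.2 hw.2.1)
  have hH : (μH[2] : Measure (EuclideanSpace ℝ (Fin 2))).IsAddHaarMeasure := by
    simpa using isAddHaar_euc 2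
  have h1 : pr '' (N ∩ V) ∈ 𝓝 (pr x) := by
    have h2 : U ∩ V ∈ 𝓝 (P218FT.Chart.gr (nuw w x) J h (pr x)) := by
      rw [C.gr_pr hx hU]
      exact inter_mem (C.isOpen.mem_nhds hU) hV
    filter_upwards [C.continuous_gr.continuousAt.preimage_mem_nhds h2] with u hu
    exact ⟨_, ⟨C.gr_mem hu.1, hu.2⟩, F.pr_gr h u⟩
  have hL : LipschitzWith 1 pr := LipschitzWith.of_dist_le_mul fun a b => by
    rw [dist_eq_norm, dist_eq_norm, ← map_sub, NNReal.coe_one, one_mul]
    exact F.norm_pr_le _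
  intro h0
  have h3 := hL.hausdorffMeasure_image_le (d := 2) (by norm_num) (N ∩ V)
  rw [h0, mul_zero] at h3
  exact (Measure.measure_pos_of_mem_nhds _ h1).not_ge h3

theorem isOpen_tsl {U : Set (ℝ × E3)} (hU : IsOpen U) (s : ℝ) : IsOpen (tsl U s) :=
  hU.preimage (Continuous.prodMk_right s)

theorem tail_small {r η : ℝ} (hr : 0 < r) (hη : 0 < η) (D t : ℝ) :
    ∀ᶠ s in 𝓝[<] t, 2 * Real.exp (-r ^ 2 / (8 * (t - s))) * D < η := by
  have h1 : Tendsto (fun s => t - s) (𝓝[<] t) (𝓝[>] 0) := by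
    refine tendsto_nhdsWithin_iff.2 ⟨?_, eventually_mem_nhdsWithin.mono fun s hs =>
      mem_Ioi.2 (sub_pos.2 (mem_Iio.1 hs))⟩
    have : Tendsto (fun s => t - s) (𝓝 t) (𝓝 (t - t)) := tendsto_const_nhds.sub tendsto_id
    rw [sub_self] at this
    exact this.mono_left nhdsWithin_le_nhds
  have h2 := (tendsto_inv_nhdsGT_zero.comp h1).const_mul_atTop (show 0 < r ^ 2 / 8 by positivity)
  have h3 := ((Real.tendsto_exp_neg_atTop_nhds_zero.comp h2).const_mul 2).mul_const D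
  rw [mul_zero, zero_mul] at h3
  refine (h3.eventually (gt_mem_nhds hη)).mono fun s hs => ?_
  have e : -r ^ 2 / (8 * (t - s)) = -(r ^ 2 / 8 * (t - s)⁻¹) := by
    rw [div_mul_eq_div_div, neg_div, neg_div, div_eq_mul_inv (r ^ 2 / 8)]
  rw [e]
  exact hs

/-- a point of `Spt μ t` is approached by mass at earlier times -/
theorem not_spt {μ : ℝ → Measure E3} {a D t r : ℝ} {x : E3} (h : GS μ a D) (ht : a < t)
    (hr : 0 < r) (h0 : ∃ᶠ s in 𝓝[<] t, μ s (ball x r) = 0) : x ∉ Spt μ t := by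
  intro hx
  obtain ⟨s, h1, h2, h3⟩ := (h0.and_eventually ((tail_small hr om0_pos D t).and
    (Ioo_mem_nhdsLT ht))).exists
  have h4 := h.low hx h3.1.le h3.2
  have h5 := (h.ent s h3.1.le).GA_le_ball x hr.le (sub_pos.2 h3.2)
  rw [setIntegral_measure_zero _ h1] at h5
  linarith

variable {μ : ℝ → Measure E3}

theorem spt_iff (h : ∀ a : ℝ, 0 < a → ∃ D, GS μ a D) {U : Set (ℝ × E3)} {M : ℝ → Set E3}
    (hM : IsMCFOn M U)
    (he : ∀ s, (μ s).restrict (tsl U s) = (μH[2] : Measure E3).restrict (M s ∩ tsl U s))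
    {s : ℝ} {y : E3} (hp : (s, y) ∈ U) (hs : 0 < s) : y ∈ Spt μ s ↔ y ∈ M s := by
  obtain ⟨D, hD⟩ := h (s / 2) (half_pos hs)
  have key : ∀ s', ∀ V : Set E3, IsOpen V → V ⊆ tsl U s' →
      μ s' V = (μH[2] : Measure E3) (M s' ∩ V) := by
    intro s' V hV hVU
    rw [← Measure.restrict_eq_self _ hVU, he, Measure.restrict_apply hV.measurableSet,
      inter_left_comm, inter_eq_left.2 hVU]
  constructor
  · intro hy
    by_contra hn
    have h1 := (hM.closed _ hp hn).and (hM.isOpen.mem_nhds hp)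
    rw [nhds_prod_eq] at h1
    obtain ⟨A, hA, B, hB, hAB⟩ := mem_prod_iff.1 h1
    obtain ⟨r, hr, hb⟩ := Metric.mem_nhds_iff.1 hB
    refine not_spt hD (half_lt_self hs) hr (Eventually.frequently ?_) hy
    filter_upwards [mem_nhdsWithin_of_mem_nhds hA] with s' hs'
    rw [key s' _ isOpen_ball fun z hz => (hAB (mk_mem_prod hs' (hb hz))).2]
    rw [eq_empty_of_forall_notMem (s := M s' ∩ ball y r)
      fun z hz => (hAB (mk_mem_prod hs' (hb hz.2))).1 hz.1, measure_empty]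
  · intro hy
    by_contra hn
    obtain ⟨w, hw, hg, hev, -⟩ := hM.loc _ hp hy
    have h1 : IsEqn (M s) y fun z => w (s, z) :=
      ⟨hw.comp (contDiff_const.prodMk contDiff_id), hg,
        (Continuous.prodMk_right s).continuousAt.eventually hev⟩
    have h2 : IsOpen ((Spt μ s)ᶜ ∩ tsl U s) :=
      (hD.isClosed_spt (half_lt_self hs)).isOpen_compl.inter (isOpen_tsl hM.isOpen s)
    refine area_pos h1 hy (h2.mem_nhds ⟨hn, hp⟩) ?_
    rw [← key s _ h2 inter_subset_right]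
    exact measure_mono_null inter_subset_left (hD.supp s (half_lt_self hs))

theorem isOpen_pos : IsOpen {p : ℝ × E3 | 0 < p.1} := isOpen_lt continuous_const continuous_fst

theorem isOpen_RegS (μ : ℝ → Measure E3) : IsOpen (RegS μ) := by
  refine isOpen_iff_mem_nhds.2 ?_
  rintro p ⟨hp, U, M, hU, hM, he⟩
  filter_upwards [hM.isOpen.mem_nhds hU, isOpen_pos.mem_nhds hp] with q h1 h2
  exact ⟨h2, U, M, h1, hM, he⟩

theorem closed (h : ∀ a : ℝ, 0 < a → ∃ D, GS μ a D) {t : ℝ} {x : E3} (ht : 0 < t)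
    (hx : x ∉ Spt μ t) : ∀ᶠ p : ℝ × E3 in 𝓝 (t, x), p.2 ∉ Spt μ p.1 := by
  obtain ⟨D, hD⟩ := h (t / 2) (half_pos ht)
  exact hD.closed (half_lt_self ht) hx

end Gl

open Gl in
theorem glue_proof : GlueStmt := by
  intro μ h
  refine ⟨⟨isOpen_RegS μ, fun p hp hx => closed h hp.1 hx, ?_⟩, fun s => ?_, fun t x ht hx => ?_⟩
  · rintro p ⟨hp, U, M, hU, hM, he⟩ hx
    have hy := (spt_iff h hM he hU hp).1 hx
    obtain ⟨w, hw, hg, hev, hd⟩ := hM.loc _ hU hy
    have hev' : ∀ᶠ q : ℝ × E3 in 𝓝 p, q.2 ∈ Spt μ q.1 ↔ w q = 0 := by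
      filter_upwards [hev, hM.isOpen.mem_nhds hU, isOpen_pos.mem_nhds hp] with q h1 h2 h3
      rw [spt_iff h hM he h2 h3, h1]
    have hs : ContDiff ℝ ∞ fun z => w (p.1, z) := hw.comp (contDiff_const.prodMk contDiff_id)
    have h1 : IsEqn (M p.1) p.2 fun z => w (p.1, z) :=
      ⟨hs, hg, (Continuous.prodMk_right p.1).continuousAt.eventually hev⟩
    have h2 : IsEqn (Spt μ p.1) p.2 fun z => w (p.1, z) :=
      ⟨hs, hg, (Continuous.prodMk_right p.1).continuousAt.eventually hev'⟩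
    refine ⟨w, hw, hg, hev', ?_⟩
    rw [h2.Hv_eq hx, ← h1.Hv_eq hy]
    exact hd
  · have hc : ∀ x : tsl (RegS μ) s, ∃ W : Set E3, IsOpen W ∧ x.1 ∈ W ∧ W ⊆ tsl (RegS μ) s ∧
        (μ s).restrict W = ((μH[2] : Measure E3).restrict (Spt μ s)).restrict W := by
      rintro ⟨x, hs, U, M, hU, hM, he⟩
      refine ⟨tsl U s, isOpen_tsl hM.isOpen s, hU, fun z hz => ⟨hs, U, M, hz, hM, he⟩, ?_⟩
      rw [he, Measure.restrict_restrict (isOpen_tsl hM.isOpen s).measurableSet]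
      congr 1
      ext z
      exact ⟨fun hz => ⟨hz.2, (spt_iff h hM he hz.2 hs).2 hz.1⟩,
        fun hz => ⟨(spt_iff h hM he hz.1 hs).1 hz.2, hz.1⟩⟩
    choose W hW hxW hWs hWe using hc
    obtain ⟨T, hT, hTe⟩ := TopologicalSpace.isOpen_iUnion_countable W hW
    have e : ⋃ i ∈ T, W i = tsl (RegS μ) s := by
      rw [hTe]
      exact Subset.antisymm (iUnion_subset hWs) fun x hx => mem_iUnion.2 ⟨⟨x, hx⟩, hxW _⟩
    have key := (Measure.restrict_biUnion_congr hT).2 fun i _ => hWe i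
    rw [e, Measure.restrict_restrict (isOpen_tsl (isOpen_RegS μ) s).measurableSet,
      inter_comm] at key
    exact key
  · refine ⟨ht, {p | 0 < p.1 ∧ p.2 ∉ Spt μ p.1}, fun _ => ∅, ⟨ht, hx⟩,
      ⟨isOpen_iff_mem_nhds.2 fun p hp => ?_, fun p _ _ => Eventually.of_forall fun q hq => hq,
        fun p _ hp => hp.elim⟩, fun s => ?_⟩
    · filter_upwards [closed h hp.1 hp.2, isOpen_pos.mem_nhds hp.1] with q h1 h2
      exact ⟨h2, h1⟩
    · rw [empty_inter, Measure.restrict_empty, Measure.restrict_eq_zero]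
      rcases lt_or_ge 0 s with hs | hs
      · obtain ⟨D, hD⟩ := h (s / 2) (half_pos hs)
        exact measure_mono_null (fun z hz => hz.2) (hD.supp s (half_lt_self hs))
      · rw [eq_empty_of_forall_notMem (s := tsl _ s) fun z hz => hs.not_gt hz.1, measure_empty]

end Vale.Agent.P218G.Rg
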