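import Vale.Agent.P218G.Defs
import Vale.Agent.P218FT.Gauss
import Mathlib.MeasureTheory.Integral.DominatedConvergence

/-! Gaussian integrals of measures with bounded mass ratios. -/

open MeasureTheory Set Filter Topology Metric
open scoped ENNReal NNReal RealInnerProductSpace ContDiff

namespace Vale.Agent.P218G

open P218FT

theorem mRatio_area {D : ℝ} {N : Set E3} : MRatio D (area N) ↔ AreaRatio D N := Iff.rfl

theorem gM_area (N : Set E3) (y : E3) (r : ℝ) : gM (area N) y r = gA N y r := rfl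

theorem MRatio.mono {D D' : ℝ} {ν : Measure E3} (h : MRatio D ν) (hD : D ≤ D') :
    MRatio D' ν := fun p r hr =>
  (h p r hr).trans (ENNReal.ofReal_le_ofReal (by gcongr))

theorem MRatio.ball_lt_top {D : ℝ} {ν : Measure E3} (h : MRatio D ν) (p : E3) (r : ℝ) :
    ν (ball p r) < ⊤ := by
  by_cases hr : 0 < r
  · exact (h p r hr).trans_lt ENNReal.ofReal_lt_top
  · rw [ball_eq_empty.mpr (not_lt.mp hr)]; simp

theorem MRatio.locFin {D : ℝ} {ν : Measure E3} (h : MRatio D ν) : IsLocallyFiniteMeasure ν :=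
  ⟨fun x => ⟨ball x 1, ball_mem_nhds x one_pos, h.ball_lt_top x 1⟩⟩

theorem MRatio.lintegral_gk_compl {D : ℝ} (hD : 0 ≤ D) {ν : Measure E3} (h : MRatio D ν) (y : E3)
    {r : ℝ} (hr : 0 < r) (n : ℕ) :
    ∫⁻ x in (ball y (n * r))ᶜ, ENNReal.ofReal (gk (r ^ 2) (x - y)) ∂ν ≤
      ENNReal.ofReal ((∑' k, gcoef (k + n)) * D) := by
  set A : ℕ → Set E3 := fun k => ball y (((k + n : ℕ) + 1) * r) \ ball y ((k + n : ℕ) * r) with hA
  have hsub : (ball y (n * r))ᶜ ⊆ ⋃ k, A k := by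
    intro x hx
    simp only [mem_compl_iff, mem_ball, not_lt] at hx
    have hd : (n : ℝ) ≤ dist x y / r := by rwa [le_div_iff₀ hr]
    have hn : n ≤ ⌊dist x y / r⌋₊ := Nat.le_floor hd
    refine mem_iUnion.mpr ⟨⌊dist x y / r⌋₊ - n, ?_⟩
    have e1 : ⌊dist x y / r⌋₊ - n + n = ⌊dist x y / r⌋₊ := Nat.sub_add_cancel hn
    simp only [hA, e1, Set.mem_sdiff, mem_ball, not_lt]
    constructor
    · have := Nat.lt_floor_add_one (dist x y / r)
      rwa [div_lt_iff₀ hr] at this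
    · have := Nat.floor_le (show 0 ≤ dist x y / r by positivity)
      rwa [le_div_iff₀ hr] at this
  have hk : ∀ k, ∫⁻ x in A k, ENNReal.ofReal (gk (r ^ 2) (x - y)) ∂ν ≤
      ENNReal.ofReal (gcoef (k + n) * D) := by
    intro k
    have hm : MeasurableSet (A k) := measurableSet_ball.diff measurableSet_ball
    set j : ℝ := ((k + n : ℕ) : ℝ) with hj
    have hj0 : 0 ≤ j := Nat.cast_nonneg _
    have hb : ∀ x ∈ A k, ENNReal.ofReal (gk (r ^ 2) (x - y)) ≤
        ENNReal.ofReal ((4 * Real.pi * r ^ 2)⁻¹ * Real.exp (-j ^ 2 / 4)) := by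
      intro x hx
      apply ENNReal.ofReal_le_ofReal
      have h1 : j * r ≤ ‖x - y‖ := by
        have := hx.2
        simp only [mem_ball, not_lt, dist_eq_norm] at this
        exact this
      unfold gk
      have := Real.pi_pos
      have h2 : -‖x - y‖ ^ 2 / (4 * r ^ 2) ≤ -j ^ 2 / 4 := by
        rw [div_le_div_iff₀ (by positivity) (by positivity)]
        have : (j * r) ^ 2 ≤ ‖x - y‖ ^ 2 := by gcongr
        nlinarith
      gcongr
    calc ∫⁻ x in A k, ENNReal.ofReal (gk (r ^ 2) (x - y)) ∂ν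
        ≤ ∫⁻ _x in A k, ENNReal.ofReal ((4 * Real.pi * r ^ 2)⁻¹ * Real.exp (-j ^ 2 / 4))
            ∂ν := setLIntegral_mono' hm hb
      _ = ENNReal.ofReal ((4 * Real.pi * r ^ 2)⁻¹ * Real.exp (-j ^ 2 / 4)) * ν (A k) := by
          rw [setLIntegral_const]
      _ ≤ ENNReal.ofReal ((4 * Real.pi * r ^ 2)⁻¹ * Real.exp (-j ^ 2 / 4)) *
            ENNReal.ofReal (D * ((j + 1) * r) ^ 2) := by
          gcongr
          exact (measure_mono sdiff_subset).trans (h y _ (by positivity))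
      _ = ENNReal.ofReal (gcoef (k + n) * D) := by
          have := Real.pi_pos
          rw [← ENNReal.ofReal_mul (by positivity)]
          congr 1
          unfold gcoef
          rw [← hj]
          field_simp
  have hs : Summable fun k => gcoef (k + n) := (summable_nat_add_iff n).mpr summable_gcoef
  calc ∫⁻ x in (ball y (n * r))ᶜ, ENNReal.ofReal (gk (r ^ 2) (x - y)) ∂ν
      ≤ ∫⁻ x in ⋃ k, A k, ENNReal.ofReal (gk (r ^ 2) (x - y)) ∂ν :=
        lintegral_mono_set hsub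
    _ ≤ ∑' k, ∫⁻ x in A k, ENNReal.ofReal (gk (r ^ 2) (x - y)) ∂ν :=
        lintegral_iUnion_le _ _
    _ ≤ ∑' k, ENNReal.ofReal (gcoef (k + n) * D) := ENNReal.tsum_le_tsum hk
    _ = ENNReal.ofReal ((∑' k, gcoef (k + n)) * D) := by
        rw [← tsum_mul_right, ENNReal.ofReal_tsum_of_nonneg
          (fun k => mul_nonneg (gcoef_pos _).le hD) (hs.mul_right D)]

theorem MRatio.lintegral_gk_le {D : ℝ} (hD : 0 ≤ D) {ν : Measure E3} (h : MRatio D ν) (y : E3)
    {σ : ℝ} (hσ : 0 < σ) :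
    ∫⁻ x, ENNReal.ofReal (gk σ (x - y)) ∂ν ≤ ENNReal.ofReal ((∑' k, gcoef k) * D) := by
  have := h.lintegral_gk_compl hD y (Real.sqrt_pos.mpr hσ) 0
  simpa [Real.sq_sqrt hσ.le] using this

theorem MRatio.integrable_gk {D : ℝ} {ν : Measure E3} (h : MRatio D ν) (y : E3) {σ : ℝ}
    (hσ : 0 < σ) : Integrable (fun x => gk σ (x - y)) ν := by
  have hc : Continuous fun x : E3 => gk σ (x - y) := (continuous_gk σ).comp (by fun_prop)
  refine ⟨hc.aestronglyMeasurable, ?_⟩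
  rw [hasFiniteIntegral_iff_ofReal (Eventually.of_forall fun x => (gk_pos hσ _).le)]
  exact ((h.mono (le_max_left D 0)).lintegral_gk_le (le_max_right D 0) y hσ).trans_lt
    ENNReal.ofReal_lt_top

/-- **Gaussian bounds** for measures with bounded mass ratios -/
theorem gaussM : ∃ C₀ : ℝ, 0 < C₀ ∧ ∀ D : ℝ, 0 ≤ D →
    (∀ ν : Measure E3, MRatio D ν → ∀ (y : E3) (σ : ℝ), 0 < σ →
      Integrable (fun x => gk σ (x - y)) ν ∧ ∫ x, gk σ (x - y) ∂ν ≤ C₀ * D) ∧
    ∀ η : ℝ, 0 < η → ∃ ρ : ℝ, 0 < ρ ∧ ∀ ν : Measure E3, MRatio D ν → ∀ (y : E3) (r : ℝ), 0 < r →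
      ∫ x in (ball y (ρ * r))ᶜ, gk (r ^ 2) (x - y) ∂ν ≤ η := by
  have hC : 0 < ∑' k, gcoef k := summable_gcoef.tsum_pos (fun k => (gcoef_pos k).le) 0 (gcoef_pos 0)
  refine ⟨∑' k, gcoef k, hC, fun D hD => ⟨fun N h y σ hσ => ⟨h.integrable_gk y hσ, ?_⟩, ?_⟩⟩
  · have hc : Continuous fun x : E3 => gk σ (x - y) := (continuous_gk σ).comp (by fun_prop)
    rw [integral_eq_lintegral_of_nonneg_ae (Eventually.of_forall fun x => (gk_pos hσ _).le)
      hc.aestronglyMeasurable]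
    exact ENNReal.toReal_le_of_le_ofReal (by positivity) (h.lintegral_gk_le hD y hσ)
  · intro η hη
    have ht : Tendsto (fun n => (∑' k, gcoef (k + n)) * D) atTop (𝓝 (0 * D)) :=
      (tendsto_sum_nat_add gcoef).mul_const D
    rw [zero_mul] at ht
    obtain ⟨n, hn, hn1⟩ := ((ht.eventually (ge_mem_nhds hη)).and (eventually_ge_atTop 1)).exists
    refine ⟨n, by exact_mod_cast hn1, fun N h y r hr => ?_⟩
    have hc : Continuous fun x : E3 => gk (r ^ 2) (x - y) := (continuous_gk _).comp (by fun_prop)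
    rw [integral_eq_lintegral_of_nonneg_ae
      (Eventually.of_forall fun x => (gk_pos (by positivity) _).le) hc.aestronglyMeasurable]
    exact ENNReal.toReal_le_of_le_ofReal hη.le
      ((h.lintegral_gk_compl hD y hr n).trans (ENNReal.ofReal_le_ofReal hn))

theorem gM_nonneg (ν : Measure E3) (y : E3) (r : ℝ) : 0 ≤ gM ν y r :=
  integral_nonneg fun _ => gk_nonneg (sq_nonneg r) _

theorem densM_nonneg (μ : ℝ → Measure E3) (y : E3) (t r : ℝ) : 0 ≤ densM μ y t r :=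
  gM_nonneg _ _ _

theorem gM_sqrt (ν : Measure E3) (y : E3) {σ : ℝ} (hσ : 0 ≤ σ) :
    gM ν y √σ = ∫ x, gk σ (x - y) ∂ν := by
  unfold gM
  rw [Real.sq_sqrt hσ]

/-- the density ratio in terms of the time `a = t - r²` -/
theorem densM_sqrt (μ : ℝ → Measure E3) (y : E3) {t a : ℝ} (h : a ≤ t) :
    densM μ y t √(t - a) = gM (μ a) y √(t - a) := by
  unfold densM
  rw [Real.sq_sqrt (sub_nonneg.mpr h), sub_sub_cancel]

/-- a locally uniform majorant of the kernels -/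
theorem gk_le_near {σ₀ σ : ℝ} (h0 : 0 < σ₀) (h1 : σ₀ / 2 ≤ σ) (h2 : σ ≤ 2 * σ₀) {y₀ y : E3}
    (hy : ‖y - y₀‖ ≤ 1) (x : E3) :
    gk σ (x - y) ≤ 8 * Real.exp (1 / (2 * σ₀)) * gk (4 * σ₀) (x - y₀) := by
  have hσ : 0 < σ := by linarith
  have hπ := Real.pi_pos
  have h3 : ‖x - y₀‖ ≤ ‖x - y‖ + 1 := by
    calc ‖x - y₀‖ = ‖(x - y) + (y - y₀)‖ := by congr 1; abel
      _ ≤ ‖x - y‖ + ‖y - y₀‖ := norm_add_le _ _
      _ ≤ _ := by linarith
  have h4 : ‖x - y₀‖ ^ 2 ≤ 2 * ‖x - y‖ ^ 2 + 2 := by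
    have h5 : ‖x - y₀‖ ^ 2 ≤ (‖x - y‖ + 1) ^ 2 := by gcongr
    nlinarith [sq_nonneg (‖x - y‖ - 1)]
  have h6 : -‖x - y‖ ^ 2 / (4 * σ) ≤ 1 / (2 * σ₀) + -‖x - y₀‖ ^ 2 / (4 * (4 * σ₀)) := by
    have h7 : -‖x - y‖ ^ 2 / (4 * σ) ≤ -‖x - y‖ ^ 2 / (8 * σ₀) := by
      rw [neg_div, neg_div, neg_le_neg_iff]
      exact div_le_div_of_nonneg_left (sq_nonneg _) (by positivity) (by linarith)
    refine h7.trans ?_
    rw [div_add_div _ _ (by positivity) (by positivity), div_le_div_iff₀ (by positivity)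
      (by positivity)]
    have : 0 < σ₀ ^ 2 := by positivity
    nlinarith [mul_le_mul_of_nonneg_left h4 this.le]
  have h8 : (4 * Real.pi * σ)⁻¹ ≤ 8 * (4 * Real.pi * (4 * σ₀))⁻¹ := by
    rw [← div_eq_mul_inv, le_div_iff₀ (by positivity), inv_mul_eq_div, div_le_iff₀ (by positivity)]
    nlinarith
  unfold gk
  calc (4 * Real.pi * σ)⁻¹ * Real.exp (-‖x - y‖ ^ 2 / (4 * σ))
      ≤ 8 * (4 * Real.pi * (4 * σ₀))⁻¹ *
          Real.exp (1 / (2 * σ₀) + -‖x - y₀‖ ^ 2 / (4 * (4 * σ₀))) := by gcongr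
    _ = _ := by rw [Real.exp_add]; ring

/-- the Gaussian integral depends continuously on the centre and the variance -/
theorem MRatio.continuousAt_gk {D : ℝ} {ν : Measure E3} (h : MRatio D ν) (y₀ : E3) {σ₀ : ℝ}
    (h0 : 0 < σ₀) :
    ContinuousAt (fun q : E3 × ℝ => ∫ x, gk q.2 (x - q.1) ∂ν) (y₀, σ₀) := by
  have hev : ∀ᶠ q : E3 × ℝ in 𝓝 (y₀, σ₀), ‖q.1 - y₀‖ ≤ 1 ∧ σ₀ / 2 ≤ q.2 ∧ q.2 ≤ 2 * σ₀ := by
    have c1 : Continuous fun q : E3 × ℝ => ‖q.1 - y₀‖ := by fun_prop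
    refine (c1.continuousAt.eventually (ge_mem_nhds (by simp))).and
      ((continuous_snd.continuousAt.eventually (le_mem_nhds ?_)).and
        (continuous_snd.continuousAt.eventually (ge_mem_nhds ?_)))
    · change σ₀ / 2 < σ₀
      linarith
    · change σ₀ < 2 * σ₀
      linarith
  refine continuousAt_of_dominated
    (bound := fun x => 8 * Real.exp (1 / (2 * σ₀)) * gk (4 * σ₀) (x - y₀)) ?_ ?_
    ((h.integrable_gk y₀ (by positivity)).const_mul _) ?_
  · refine Eventually.of_forall fun q => ?_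
    exact ((continuous_gk q.2).comp (by fun_prop : Continuous fun x : E3 => x - q.1)).aestronglyMeasurable
  · filter_upwards [hev] with q hq
    refine Eventually.of_forall fun x => ?_
    rw [Real.norm_of_nonneg (gk_nonneg (by linarith [hq.2.1]) _)]
    exact gk_le_near h0 hq.2.1 hq.2.2 hq.1 x
  · refine Eventually.of_forall fun x => ?_
    have hπ := Real.pi_pos
    unfold gk
    refine ContinuousAt.mul (ContinuousAt.inv₀ (by fun_prop) (by positivity))
      (ContinuousAt.rexp (ContinuousAt.div (by fun_prop) (by fun_prop) (by positivity)))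

/-- the Gaussian mass depends continuously on the centre and the scale -/
theorem MRatio.continuousAt_gM {D : ℝ} {ν : Measure E3} (h : MRatio D ν) (y₀ : E3) {r₀ : ℝ}
    (h0 : 0 < r₀) : ContinuousAt (fun q : E3 × ℝ => gM ν q.1 q.2) (y₀, r₀) := by
  have h1 := h.continuousAt_gk y₀ (σ₀ := r₀ ^ 2) (by positivity)
  have h2 : Continuous fun q : E3 × ℝ => ((q.1, q.2 ^ 2) : E3 × ℝ) := by fun_prop
  exact ContinuousAt.comp (g := fun q : E3 × ℝ => ∫ x, gk q.2 (x - q.1) ∂ν)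
    (f := fun q : E3 × ℝ => ((q.1, q.2 ^ 2) : E3 × ℝ)) h1 h2.continuousAt

theorem MRatio.continuousOn_gM {D : ℝ} {ν : Measure E3} (h : MRatio D ν) :
    ContinuousOn (fun q : E3 × ℝ => gM ν q.1 q.2) (univ ×ˢ Ioi 0) := fun q hq =>
  (h.continuousAt_gM q.1 hq.2).continuousWithinAt

/-- continuity in the space-time centre, the measure being fixed at time `a` -/
theorem MRatio.continuousAt_gM_sqrt {D : ℝ} {ν : Measure E3} (h : MRatio D ν) {a : ℝ}
    {p : ℝ × E3} (hp : a < p.1) : ContinuousAt (fun q : ℝ × E3 => gM ν q.2 √(q.1 - a)) p := by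
  have h1 := h.continuousAt_gM p.2 (r₀ := √(p.1 - a)) (Real.sqrt_pos.mpr (sub_pos.mpr hp))
  have h2 : Continuous fun q : ℝ × E3 => ((q.2, √(q.1 - a)) : E3 × ℝ) := by fun_prop
  exact ContinuousAt.comp (g := fun q : E3 × ℝ => gM ν q.1 q.2)
    (f := fun q : ℝ × E3 => ((q.2, √(q.1 - a)) : E3 × ℝ)) h1 h2.continuousAt

end Vale.Agent.P218G
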