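import Vale.Agent.P218G.Drop

/-! Huisken's monotonicity formula for weak flows, with the sudden loss of mass. -/

open MeasureTheory Set Filter Topology Metric
open scoped ENNReal NNReal RealInnerProductSpace ContDiff

namespace Vale.Agent.P218G

open P218FT P218FT.Hu

variable {D : ℝ} {μ : ℝ → Measure E3} {M : ℝ → Set E3} {J I : Set ℝ}

theorem WF.aesm_WW (h : WF D μ M J I) (y : E3) {t₀ a b R : ℝ} (hR : 0 < R) (hb : b < t₀)
    (hI : Icc a b ⊆ I) :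
    AEStronglyMeasurable (WW M y t₀ a R) (volume.restrict (Icc a b)) := by
  have hJ := h.mcf.mono (h.mcf.isOpen.inter isOpen_Ioo) (inter_subset_left (t := Ioo (a - 1) t₀))
  refine h.aemeasurable measurableSet_Icc hI (O := Ioo (a - 1) t₀) isOpen_Ioo
    (fun t ht => ⟨by linarith [ht.1], by linarith [ht.2]⟩) ?_
  exact cont_loc cont_proof hJ (continuousOn_W hJ y a R fun t ht => ht.2.2) (R := ‖y‖ + (R + 2))
    fun p hp hx => by rw [FF_zero hR hp.2.1.le (far hx), mul_zero]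

/-- **Local monotonicity formula** with the loss of a smaller test function -/
theorem WF.local_mono (h : WF D μ M J I) (y : E3) {t₀ a b R : ℝ} (hR : 0 < R) (hab : a ≤ b)
    (hb : b < t₀) (hI : Icc a b ⊆ I) {f : ℝ × E3 → ℝ} (hf : Adm f (Ioo a b ×ˢ univ)) {κ : ℝ}
    (hle : ∀ p : ℝ × E3, p.1 ∈ Ioo a b → κ * f p ≤ FF y t₀ a R p) :
    IntegrableOn (WW M y t₀ a R) (Icc a b) ∧
    ∫ x, FF y t₀ a R (b, x) ∂(μ b) + (∫ t in Icc a b, WW M y t₀ a R t) + κ * ∫ t, rate M f t ≤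
      ∫ x, FF y t₀ a R (a, x) ∂(μ a) := by
  have hJ := h.mcf.mono (h.mcf.isOpen.inter isOpen_Ioo) (inter_subset_left (t := Ioo (a - 1) t₀))
  have hsub : Icc a b ⊆ Ioo (a - 1) t₀ := fun t ht => ⟨by linarith [ht.1], by linarith [ht.2]⟩
  obtain ⟨g, hg, -, he, hs⟩ := exists_global hab isOpen_Ioo hsub
    (contDiffOn_FF y t₀ a R fun t ht => ht.2) (R := ‖y‖ + (R + 2))
    (fun p hp hx => FF_zero hR hp.1.le (far hx))
  obtain ⟨R', -, hR'⟩ := hf.exists_CB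
  have hfg : ∀ p, κ * f p ≤ g p := fun p => by
    by_cases hp : p.1 ∈ Ioo a b
    · rw [show g p = FF y t₀ a R p from (he p.1 (Ioo_subset_Icc_self hp)).self_of_nhds p.2]
      exact hle p hp
    · rw [hf.zero_of_notMem fun h' => hp h'.1, mul_zero]
      obtain ⟨c, c0, -, c1, c2⟩ := hs p
      by_cases hO : p.1 ∈ Ioo (a - 1) t₀
      · rw [c1]; exact mul_nonneg c0 (FF_nonneg y a R hO.2)
      · rw [c1, c2 hO, zero_mul]
  have h1 := h.loss_mono ((hR'.const_mul κ).mono (le_max_left _ (‖y‖ + (R + 2))))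
    (hg.mono (le_max_right R' _)) hfg hab hI
  rw [loss_const_mul hf.smooth, loss_eq_total hab hf.sub] at h1
  have hi := h.intervalIntegrable_rate hg hab hI
  rw [intervalIntegrable_iff_integrableOn_Icc_of_le hab] at hi
  have hd : ∀ᵐ t ∂(volume.restrict (Icc a b)), rate M g t ≤ -WW M y t₀ a R t := by
    filter_upwards [h.ae_Icc hI, ae_restrict_mem measurableSet_Icc] with t ht ht'
    rw [rate_congr_time (he t ht')]
    exact deriv_le Chart.locFin_proof fv_proof hJ y hR (fun s hs => ⟨hs.2.1.le, hs.2.2⟩)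
      ⟨ht, hsub ht'⟩
  have hW : IntegrableOn (WW M y t₀ a R) (Icc a b) := by
    refine hi.neg.mono' (h.aesm_WW y hR hb hI) ?_
    filter_upwards [hd, ae_restrict_mem measurableSet_Icc] with t ht ht'
    rw [Real.norm_of_nonneg (WW_nonneg M y a R (ht'.2.trans_lt hb))]
    simp only [Pi.neg_apply]
    linarith
  refine ⟨hW, ?_⟩
  have h2 := integral_mono_ae hi hW.neg hd
  unfold loss at h1
  rw [intervalIntegral.integral_of_le hab, ← integral_Icc_eq_integral_Ioc] at h1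
  simp only [(he a ⟨le_rfl, hab⟩).self_of_nhds, (he b ⟨hab, le_rfl⟩).self_of_nhds] at h1
  simp only [Pi.neg_apply, integral_neg] at h2
  linarith

theorem tendsto_FF {ν : Measure E3} (hν : MRatio D ν) (y : E3) {t₀ a b : ℝ} (hab : a ≤ b)
    (hb : b < t₀) :
    Tendsto (fun n : ℕ => ∫ x, FF y t₀ a ((n : ℝ) + 1) (b, x) ∂ν) atTop
      (𝓝 (gM ν y √(t₀ - b))) := by
  have h0 : 0 < t₀ - b := sub_pos.mpr hb
  rw [gM_sqrt _ _ h0.le]
  refine tendsto_integral_of_dominated_convergence (fun x => gk (t₀ - b) (x - y)) (fun n => ?_)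
    (hν.integrable_gk y h0) (fun n => Eventually.of_forall fun x => ?_)
    (Eventually.of_forall fun x => ?_)
  · have h1 : Continuous fun x : E3 => gk (t₀ - b) (x - y) := (continuous_gk _).comp (by fun_prop)
    have h2 : Continuous fun x : E3 => ec ((n : ℝ) + 1) (b - a) (x - y) :=
      (continuous_ec _).comp (f := fun x : E3 => (b - a, x - y)) (by fun_prop)
    exact (h1.mul h2).aestronglyMeasurable
  · rw [Real.norm_of_nonneg (FF_nonneg y a _ (p := (b, x)) hb)]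
    exact mul_le_of_le_one_right (gk_pos h0 _).le (ec_le_one _ (sub_nonneg.mpr hab) _)
  · simpa [FF] using (tendsto_ec (b - a) (x - y)).const_mul (gk (t₀ - b) (x - y))

theorem int_FF_leM {ν : Measure E3} (hν : MRatio D ν) (y : E3) {t₀ a : ℝ} (R : ℝ) (ha : a < t₀) :
    ∫ x, FF y t₀ a R (a, x) ∂ν ≤ gM ν y √(t₀ - a) := by
  have h0 : 0 < t₀ - a := sub_pos.mpr ha
  rw [gM_sqrt _ _ h0.le]
  refine integral_mono_of_nonneg (Eventually.of_forall fun x => FF_nonneg y a R (p := (a, x)) ha)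
    (hν.integrable_gk y h0) (Eventually.of_forall fun x => ?_)
  exact mul_le_of_le_one_right (gk_pos h0 _).le (ec_le_one R (sub_self a).ge _)

/-- the cutoff tends to one uniformly on bounded sets -/
theorem eventually_ec {θ : ℝ} (hθ : θ < 1) (A : ℝ) :
    ∀ᶠ n : ℕ in atTop, ∀ (s : ℝ) (z : E3), ‖z‖ ^ 2 + 4 * s ≤ A → θ ≤ ec ((n : ℝ) + 1) s z := by
  have h1 : Tendsto (fun n : ℕ => ((n : ℝ) + 1) ^ 2) atTop atTop :=
    (tendsto_pow_atTop two_ne_zero).comp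
      (tendsto_atTop_add_const_right _ 1 tendsto_natCast_atTop_atTop)
  have h2 := ((tendsto_const_nhds (x := (1 : ℝ))).sub
    ((tendsto_const_nhds (x := A)).div_atTop h1))
  have h3 := (h2.max (tendsto_const_nhds (x := (0 : ℝ)))).pow 3
  simp only [sub_zero, zero_le_one, sup_of_le_left, one_pow] at h3
  filter_upwards [h3.eventually (le_mem_nhds hθ)] with n hn s z hz
  refine hn.trans (pow_le_pow_left₀ (le_max_right _ _) (max_le_max ?_ le_rfl) 3)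
  unfold cu
  gcongr

theorem WF.huisken_aux (h : WF D μ M J I) (y : E3) {t₀ a b : ℝ} (hab : a ≤ b) (hb : b < t₀)
    (hI : Icc a b ⊆ I) {f : ℝ × E3 → ℝ} (hf : Adm f (Ioo a b ×ˢ univ)) {κ θ : ℝ} (hκ : 0 ≤ κ)
    (hθ0 : 0 ≤ θ) (hθ : θ < 1) (hle : ∀ p : ℝ × E3, f p ≠ 0 → κ ≤ gk (t₀ - p.1) (p.2 - y)) :
    ENNReal.ofReal (gM (μ b) y √(t₀ - b)) +
      (∫⁻ t in Icc a b, ∫⁻ x, ENNReal.ofReal (‖relV (M t) y (t₀ - t) x‖ ^ 2 * gk (t₀ - t) (x - y))
        ∂(area (M t))) + ENNReal.ofReal (θ * κ * ∫ t, rate M f t) ≤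
      ENNReal.ofReal (gM (μ a) y √(t₀ - a)) := by
  have hJ := h.mcf.mono (h.mcf.isOpen.inter isOpen_Iio) (inter_subset_left (t := Iio t₀))
  have hbI : b ∈ I := hI ⟨hab, le_rfl⟩
  have haI : a ∈ I := hI ⟨le_rfl, hab⟩
  have hgk : ∀ σ : ℝ, Continuous fun x : E3 => gk σ (x - y) := fun σ =>
    (continuous_gk σ).comp (by fun_prop)
  have h1 := ENNReal.tendsto_ofReal (tendsto_FF (h.ratio b hbI) y hab hb)
  have h2 : ∀ᵐ t ∂(volume.restrict (Icc a b)),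
      (Monotone fun n : ℕ => ENNReal.ofReal (WW M y t₀ a ((n : ℝ) + 1) t)) ∧
      Tendsto (fun n : ℕ => ENNReal.ofReal (WW M y t₀ a ((n : ℝ) + 1) t)) atTop
        (𝓝 (∫⁻ x, ENNReal.ofReal (‖relV (M t) y (t₀ - t) x‖ ^ 2 * gk (t₀ - t) (x - y))
          ∂(area (M t)))) := by
    filter_upwards [h.ae_Icc hI, ae_restrict_mem measurableSet_Icc] with t htJ ht
    have ht0 : t < t₀ := ht.2.trans_lt hb
    have := (h.areaRatio htJ).locFin
    have h3 := lim_ec (h.isSurf htJ).1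
      (h := fun x => ‖relV (M t) y (t₀ - t) x‖ ^ 2 * gk (t₀ - t) (x - y))
      (((slice (continuousOn_relV hJ y t₀ fun _ h => h.2) ⟨htJ, ht0⟩).norm.pow 2).mul
        (hgk (t₀ - t)).continuousOn)
      (fun x => mul_nonneg (sq_nonneg _) (gk_pos (sub_pos.mpr ht0) _).le) y (sub_nonneg.mpr ht.1)
    simpa only [WW, FF, mul_assoc] using h3
  have h3 := lintegral_tendsto_of_tendsto_of_monotone (μ := volume.restrict (Icc a b))
    (fun n : ℕ => (h.aesm_WW y (R := (n : ℝ) + 1) (by positivity) hb hI).aemeasurable.ennreal_ofReal)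
    (h2.mono fun t ht => ht.1) (h2.mono fun t ht => ht.2)
  obtain ⟨R', hR0, hR'⟩ := hf.exists_CB
  refine le_of_tendsto ((h1.add h3).add tendsto_const_nhds) ?_
  filter_upwards [eventually_ec hθ ((R' + ‖y‖) ^ 2 + 4 * (b - a))] with n hn
  have hR : (0 : ℝ) < (n : ℝ) + 1 := by positivity
  obtain ⟨h4, h5⟩ := h.local_mono y hR hab hb hI hf (κ := θ * κ) fun p hp => by
    by_cases h0 : f p = 0
    · rw [h0, mul_zero]; exact FF_nonneg y a _ (hp.2.trans hb)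
    · have h6 : ‖p.2‖ < R' := by
        by_contra h7
        exact h0 (hR'.zero p (not_lt.mp h7))
      have h7 : ‖p.2 - y‖ ≤ R' + ‖y‖ := (norm_sub_le _ _).trans (by linarith)
      have h8 : ‖p.2 - y‖ ^ 2 ≤ (R' + ‖y‖) ^ 2 := by gcongr
      have h9 := hn (p.1 - a) (p.2 - y) (by linarith [hp.2])
      calc θ * κ * f p ≤ θ * κ * 1 := by gcongr; exact hf.le_one p
        _ = κ * θ := by ring
        _ ≤ _ := mul_le_mul (hle p h0) h9 hθ0 (hκ.trans (hle p h0))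
  have h6 := int_FF_leM (h.ratio a haI) y ((n : ℝ) + 1) (hab.trans_lt hb)
  have h7 : 0 ≤ᵐ[volume.restrict (Icc a b)] WW M y t₀ a ((n : ℝ) + 1) :=
    (ae_restrict_mem measurableSet_Icc).mono fun t ht => WW_nonneg M y a _ (ht.2.trans_lt hb)
  have h8 : 0 ≤ ∫ x, FF y t₀ a ((n : ℝ) + 1) (b, x) ∂(μ b) :=
    integral_nonneg fun x => FF_nonneg y a _ (p := (b, x)) hb
  have h9 := integral_nonneg_of_ae h7
  rw [← ofReal_integral_eq_lintegral_ofReal h4 h7, ← ENNReal.ofReal_add h8 h9,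
    ← ENNReal.ofReal_add (add_nonneg h8 h9)
      (mul_nonneg (mul_nonneg hθ0 hκ) (h.total_nonneg hab hf hI))]
  exact ENNReal.ofReal_le_ofReal (h5.trans h6)

/-- **Huisken's monotonicity formula** for weak flows -/
theorem WF.huisken (h : WF D μ M J I) (y : E3) {t₀ a b : ℝ} (hab : a ≤ b) (hb : b < t₀)
    (hI : Icc a b ⊆ I) {U : Set (ℝ × E3)} {κ : ℝ} (hκ : 0 ≤ κ) (hU : U ⊆ Ioo a b ×ˢ univ)
    (hle : ∀ p ∈ U, κ ≤ gk (t₀ - p.1) (p.2 - y)) :
    ENNReal.ofReal (gM (μ b) y √(t₀ - b)) +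
      (∫⁻ t in Icc a b, ∫⁻ x, ENNReal.ofReal (‖relV (M t) y (t₀ - t) x‖ ^ 2 * gk (t₀ - t) (x - y))
        ∂(area (M t))) + ENNReal.ofReal κ * drop M U ≤ ENNReal.ofReal (gM (μ a) y √(t₀ - a)) := by
  unfold drop
  simp only [ENNReal.mul_iSup]
  rw [ENNReal.add_biSup' (p := fun f => Adm f U) ⟨_, adm_zero U⟩]
  refine iSup₂_le fun f hf => ?_
  rw [← ENNReal.ofReal_mul hκ]
  have h1 : Tendsto (fun θ : ℝ => ENNReal.ofReal (θ * κ * ∫ t, rate M f t)) (𝓝[<] 1)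
      (𝓝 (ENNReal.ofReal (κ * ∫ t, rate M f t))) := by
    refine ENNReal.tendsto_ofReal (Tendsto.mono_left ?_ nhdsWithin_le_nhds)
    have : Continuous fun θ : ℝ => θ * κ * ∫ t, rate M f t := by fun_prop
    simpa using this.tendsto 1
  refine le_of_tendsto (tendsto_const_nhds.add h1) ?_
  filter_upwards [Ioo_mem_nhdsLT (zero_lt_one' ℝ)] with θ hθ
  exact h.huisken_aux y hab hb hI (hf.mono hU) hκ hθ.1.le hθ.2 fun p hp =>
    hle p (hf.sub (subset_tsupport _ hp))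

/-- the Gaussian mass decreases along the flow -/
theorem WF.gM_anti (h : WF D μ M J I) (y : E3) {t₀ a b : ℝ} (hab : a ≤ b) (hb : b < t₀)
    (hI : Icc a b ⊆ I) : gM (μ b) y √(t₀ - b) ≤ gM (μ a) y √(t₀ - a) :=
  (ENNReal.ofReal_le_ofReal_iff (gM_nonneg _ _ _)).mp ((le_self_add.trans le_self_add).trans
    (h.huisken y hab hb hI (U := ∅) (κ := 0) le_rfl (empty_subset _) (by simp)))

/-- the density ratios increase with the scale -/
theorem WF.densM_mono (h : WF D μ M J I) (y : E3) (t : ℝ) {r₁ r₂ : ℝ} (h1 : 0 < r₁)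
    (h12 : r₁ ≤ r₂) (hI : Icc (t - r₂ ^ 2) (t - r₁ ^ 2) ⊆ I) :
    densM μ y t r₁ ≤ densM μ y t r₂ := by
  have h3 : r₁ ^ 2 ≤ r₂ ^ 2 := by gcongr
  have h4 := h.gM_anti y (t₀ := t) (a := t - r₂ ^ 2) (b := t - r₁ ^ 2) (by linarith)
    (by nlinarith) hI
  rwa [sub_sub_cancel, sub_sub_cancel, Real.sqrt_sq h1.le, Real.sqrt_sq (h1.le.trans h12)] at h4

theorem monoW_proof : MonoW := fun _ _ _ _ _ h y t _ _ h1 h2 hI => h.densM_mono y t h1 h2 hI

/-- comparison of a density ratio with the Gaussian mass at an earlier time -/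
theorem WF.densM_le_gM (h : WF D μ M J I) (y : E3) {t r a : ℝ} (hr : 0 < r) (ha : a ≤ t - r ^ 2)
    (hI : Icc a (t - r ^ 2) ⊆ I) : densM μ y t r ≤ gM (μ a) y √(t - a) := by
  have h4 := h.gM_anti y (t₀ := t) ha (by nlinarith) hI
  rwa [sub_sub_cancel, Real.sqrt_sq hr.le] at h4

/-- the dissipation and the loss are bounded by the decrease of the Gaussian mass -/
theorem WF.energy_le (h : WF D μ M J I) (y : E3) {t₀ a b η : ℝ} (hab : a ≤ b) (hb : b < t₀)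
    (hI : Icc a b ⊆ I) {U : Set (ℝ × E3)} {κ : ℝ} (hκ : 0 ≤ κ) (hU : U ⊆ Ioo a b ×ˢ univ)
    (hle : ∀ p ∈ U, κ ≤ gk (t₀ - p.1) (p.2 - y))
    (hη : gM (μ a) y √(t₀ - a) ≤ gM (μ b) y √(t₀ - b) + η) :
    (∫⁻ t in Icc a b, ∫⁻ x, ENNReal.ofReal (‖relV (M t) y (t₀ - t) x‖ ^ 2 * gk (t₀ - t) (x - y))
      ∂(area (M t))) + ENNReal.ofReal κ * drop M U ≤ ENNReal.ofReal η := by
  have h1 := (h.huisken y hab hb hI hκ hU hle).trans
    ((ENNReal.ofReal_le_ofReal hη).trans ENNReal.ofReal_add_le)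
  rw [add_assoc] at h1
  exact (ENNReal.add_le_add_iff_left ENNReal.ofReal_ne_top).mp h1

/-- the Gaussian mass about `(x₀, b)` is a Cauchy function at `b` -/
theorem WF.gM_cauchy {a b : ℝ} (h : WF D μ M J (Ioo a b)) (hab : a < b) (x₀ : E3) {η : ℝ}
    (hη : 0 < η) : ∃ t₁ ∈ Ioo a b, ∀ s t, t₁ ≤ s → s ≤ t → t < b →
      gM (μ s) x₀ √(b - s) ≤ gM (μ t) x₀ √(b - t) + η := by
  set θ : ℝ → ℝ := fun t => gM (μ t) x₀ √(b - t) with hθ
  have hne : (θ '' Ioo a b).Nonempty := (nonempty_Ioo.mpr hab).image θ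
  have hbd : BddBelow (θ '' Ioo a b) := ⟨0, by rintro _ ⟨t, -, rfl⟩; exact gM_nonneg _ _ _⟩
  obtain ⟨_, ⟨t₁, ht₁, rfl⟩, h1⟩ := exists_lt_of_csInf_lt hne (lt_add_of_pos_right _ hη)
  refine ⟨t₁, ht₁, fun s t hs hst ht => ?_⟩
  have h2 : θ s ≤ θ t₁ := h.gM_anti x₀ hs (hst.trans_lt ht) fun u hu =>
    ⟨ht₁.1.trans_le hu.1, hu.2.trans_lt (hst.trans_lt ht)⟩
  have h3 : sInf (θ '' Ioo a b) ≤ θ t := csInf_le hbd ⟨t, ⟨ht₁.1.trans_le (hs.trans hst), ht⟩, rfl⟩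
  change θ s ≤ θ t + η
  linarith

theorem dissW_proof : DissW := by
  intro D μ M J a b hab h x₀ R hR
  refine ⟨R ^ 2 * 4096 ^ 2, by positivity, fun δ hδ => ?_⟩
  have hπ := Real.pi_pos
  set c : ℝ := (8 * Real.pi)⁻¹ * Real.exp (-(1024 * R ^ 2)) with hc
  have hc0 : 0 < c := by positivity
  obtain ⟨t₁, ht₁, hcau⟩ := h.gM_cauchy hab x₀ (η := δ * c / 2) (by positivity)
  have hev : ∀ᶠ lam : ℝ in 𝓝 0, t₁ < b - 2 * lam ^ 2 := by
    have : Continuous fun lam : ℝ => b - 2 * lam ^ 2 := by fun_prop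
    exact this.continuousAt.eventually (lt_mem_nhds (by simpa using ht₁.2))
  filter_upwards [self_mem_nhdsWithin, mem_nhdsWithin_of_mem_nhds hev] with lam hl h1
  have hl0 : 0 < lam := hl
  have hl2 : 0 < lam ^ 2 := by positivity
  have h2 : b - 2 * lam ^ 2 ≤ b - lam ^ 2 / 4096 := by linarith
  have h3 : b - lam ^ 2 / 4096 < b := by linarith
  have h6 : ∀ t ∈ Icc (b - 2 * lam ^ 2) (b - lam ^ 2 / 4096), ∀ x ∈ ball x₀ (R * lam),
      c / lam ^ 2 ≤ gk (b - t) (x - x₀) := by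
    intro t ht x hx
    have hσ1 : lam ^ 2 / 4096 ≤ b - t := by linarith [ht.2]
    have hσ2 : b - t ≤ 2 * lam ^ 2 := by linarith [ht.1]
    have hσ : 0 < b - t := lt_of_lt_of_le (by positivity) hσ1
    rw [mem_ball, dist_eq_norm] at hx
    have hx2 : ‖x - x₀‖ ^ 2 ≤ (R * lam) ^ 2 := by gcongr
    have e : c / lam ^ 2 = (4 * Real.pi * (2 * lam ^ 2))⁻¹ * Real.exp (-(1024 * R ^ 2)) := by
      rw [hc]; field_simp; norm_num
    have h7 : -(1024 * R ^ 2) ≤ -‖x - x₀‖ ^ 2 / (4 * (b - t)) := by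
      rw [le_div_iff₀ (by positivity)]
      nlinarith [mul_le_mul_of_nonneg_left hσ1 (sq_nonneg R)]
    rw [e]
    unfold gk
    gcongr
  have hE := h.energy_le x₀ h2 h3
    (fun u hu => ⟨ht₁.1.trans (h1.trans_le hu.1), hu.2.trans_lt h3⟩)
    (U := Ioo (b - 2 * lam ^ 2) (b - lam ^ 2 / 4096) ×ˢ ball x₀ (R * lam)) (κ := c / lam ^ 2)
    (by positivity) (prod_mono Subset.rfl (subset_univ _))
    (fun p hp => h6 p.1 (Ioo_subset_Icc_self hp.1) p.2 hp.2) (hcau _ _ h1.le h2 h3)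
  have hK : 0 ≤ 2 * lam ^ 2 / c := by positivity
  have hpt : ∀ t ∈ Icc (b - 2 * lam ^ 2) (b - lam ^ 2 / 4096), ∀ x ∈ ball x₀ (R * lam),
      ‖Hv (M t) x‖ ^ 2 - R ^ 2 * 4096 ^ 2 / lam ^ 2 ≤
        2 * lam ^ 2 / c * (‖relV (M t) x₀ (b - t) x‖ ^ 2 * gk (b - t) (x - x₀)) := by
    intro t ht x hx
    have h8 := h6 t ht x hx
    have hσ1 : lam ^ 2 / 4096 ≤ b - t := by linarith [ht.2]
    have hσ : 0 < b - t := lt_of_lt_of_le (by positivity) hσ1
    rw [mem_ball, dist_eq_norm] at hx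
    have hx2 : ‖x - x₀‖ ^ 2 ≤ (R * lam) ^ 2 := by gcongr
    have h4 := norm_Hv_sq_le (M t) x₀ hσ x
    have h5 : ‖x - x₀‖ ^ 2 / (2 * (b - t) ^ 2) ≤ R ^ 2 * 4096 ^ 2 / lam ^ 2 := by
      calc ‖x - x₀‖ ^ 2 / (2 * (b - t) ^ 2) ≤ (R * lam) ^ 2 / (1 * (lam ^ 2 / 4096) ^ 2) := by
            gcongr; norm_num
        _ = R ^ 2 * 4096 ^ 2 / lam ^ 2 := by field_simp
    calc ‖Hv (M t) x‖ ^ 2 - R ^ 2 * 4096 ^ 2 / lam ^ 2 ≤ 2 * ‖relV (M t) x₀ (b - t) x‖ ^ 2 := by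
          linarith
      _ = 2 * lam ^ 2 / c * (‖relV (M t) x₀ (b - t) x‖ ^ 2 * (c / lam ^ 2)) := by field_simp
      _ ≤ _ := by gcongr
  have hA : diss M (R ^ 2 * 4096 ^ 2 / lam ^ 2) x₀ (R * lam) (b - 2 * lam ^ 2)
      (b - lam ^ 2 / 4096) ≤ ENNReal.ofReal (2 * lam ^ 2 / c) *
        ∫⁻ t in Icc (b - 2 * lam ^ 2) (b - lam ^ 2 / 4096),
          ∫⁻ x, ENNReal.ofReal (‖relV (M t) x₀ (b - t) x‖ ^ 2 * gk (b - t) (x - x₀))
            ∂(area (M t)) := by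
    rw [← lintegral_const_mul' _ _ ENNReal.ofReal_ne_top]
    refine setLIntegral_mono' measurableSet_Icc fun t ht => ?_
    rw [← lintegral_const_mul' _ _ ENNReal.ofReal_ne_top]
    refine (setLIntegral_mono' measurableSet_ball fun x hx => ?_).trans
      (setLIntegral_le_lintegral _ _)
    rw [← ENNReal.ofReal_mul hK]
    exact ENNReal.ofReal_le_ofReal (hpt t ht x hx)
  have hB : drop M (Ioo (b - 2 * lam ^ 2) (b - lam ^ 2 / 4096) ×ˢ ball x₀ (R * lam)) ≤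
      ENNReal.ofReal (2 * lam ^ 2 / c) * (ENNReal.ofReal (c / lam ^ 2) *
        drop M (Ioo (b - 2 * lam ^ 2) (b - lam ^ 2 / 4096) ×ˢ ball x₀ (R * lam))) := by
    rw [← mul_assoc, ← ENNReal.ofReal_mul hK]
    refine le_mul_of_one_le_left zero_le ?_
    rw [ENNReal.one_le_ofReal]
    have : 2 * lam ^ 2 / c * (c / lam ^ 2) = 2 := by field_simp
    linarith
  calc dis2 M (R ^ 2 * 4096 ^ 2 / lam ^ 2) x₀ (R * lam) (b - 2 * lam ^ 2) (b - lam ^ 2 / 4096)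
      ≤ _ := add_le_add hA hB
    _ ≤ ENNReal.ofReal (2 * lam ^ 2 / c) * ENNReal.ofReal (δ * c / 2) := by
        rw [← mul_add]
        gcongr
    _ = ENNReal.ofReal (δ * lam ^ 2) := by
        rw [← ENNReal.ofReal_mul hK]
        congr 1
        field_simp

end Vale.Agent.P218G
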