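import Vale.Agent.P218G.RegD

/-! Integrality, static part: an integral varifold with small tilt, small mean curvature and
density ratios below two has Gaussian area at most one. -/

open MeasureTheory Set Filter Topology Metric
open scoped ENNReal NNReal RealInnerProductSpace ContDiff

namespace Vale.Agent.P218G.Itg

open Vale.Agent.P218 Vale.Agent.P218.H313 Vale.Agent.P218G.Lit Vale.Agent.P218G.Rg
open Vale.Agent.P218.H552 (MC pp pp_nonneg hasDerivAt_pp continuous_pp contDiff_pp trace_proj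
  trace_comp_smulRight inner_proj_left norm_proj_le)
open Vale.Agent.P214 (IntegralVarifold IsApproxTangent weightOf proj divAlong)
open Vale.Agent.P218FT (E3 pt pt_apply)

/-! ### The profile -/

/-- the truncated Gaussian profile -/
noncomputable def fb (b u : ℝ) : ℝ := pp 2 (Real.exp (-u / 8) - b)

/-- its derivative -/
noncomputable def fd (b u : ℝ) : ℝ := -(1 / 4) * (Real.exp (-u / 8) * pp 1 (Real.exp (-u / 8) - b))

variable {b u L : ℝ}

lemma hasDerivAt_fb (b u : ℝ) : HasDerivAt (fb b) (fd b u) u := by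
  have h1 : HasDerivAt (fun u : ℝ => Real.exp (-u / 8) - b) (Real.exp (-u / 8) * (-1 / 8)) u :=
    (((hasDerivAt_id u).neg.div_const 8).exp).sub_const b
  refine ((hasDerivAt_pp 0 _).comp u h1).congr_deriv ?_
  simp only [fd]; push_cast; ring

lemma contDiff_fb (b : ℝ) : ContDiff ℝ 1 (fb b) :=
  (contDiff_pp 0).comp (by fun_prop : ContDiff ℝ 1 fun u : ℝ => Real.exp (-u / 8) - b)

lemma continuous_fd (b : ℝ) : Continuous (fd b) :=
  continuous_const.mul ((by fun_prop : Continuous fun u : ℝ => Real.exp (-u / 8)).mul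
    ((continuous_pp 1).comp (by fun_prop : Continuous fun u : ℝ => Real.exp (-u / 8) - b)))

lemma fb_nonneg (b u : ℝ) : 0 ≤ fb b u := pp_nonneg _ _

lemma exp_sq (u : ℝ) : Real.exp (-u / 8) ^ 2 = Real.exp (-u / 4) := by
  rw [← Real.exp_nat_mul]; congr 1; push_cast; ring

lemma fb_le (hb : 0 ≤ b) (u : ℝ) : fb b u ≤ Real.exp (-u / 4) := by
  rw [← exp_sq]
  exact pow_le_pow_left₀ (le_max_right _ _) (max_le (by linarith) (Real.exp_pos _).le) 2

lemma fb_ge (hb : 0 ≤ b) (u : ℝ) : Real.exp (-u / 4) - 2 * b * Real.exp (-u / 8) ≤ fb b u := by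
  rw [← exp_sq, fb, pp]
  have := Real.exp_pos (-u / 8)
  rcases le_total (Real.exp (-u / 8) - b) 0 with h | h
  · rw [max_eq_right h]; nlinarith
  · rw [max_eq_left h]; nlinarith

lemma exp_le_one' (hu : 0 ≤ u) {c : ℝ} (hc : 0 < c) : Real.exp (-u / c) ≤ 1 :=
  Real.exp_le_one_iff.2 (div_nonpos_of_nonpos_of_nonneg (by linarith) hc.le)

lemma fb_le_one (hb : 0 ≤ b) (hu : 0 ≤ u) : fb b u ≤ 1 :=
  (fb_le hb u).trans (exp_le_one' hu (by norm_num))

lemma fd_nonpos (b u : ℝ) : fd b u ≤ 0 := by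
  have := mul_nonneg (Real.exp_pos (-u / 8)).le (pp_nonneg 1 (Real.exp (-u / 8) - b))
  unfold fd; linarith

lemma fd_ge (hb : 0 ≤ b) (hu : 0 ≤ u) : -(1 / 4) ≤ fd b u := by
  have h1 := exp_le_one' hu (by norm_num : (0 : ℝ) < 8)
  have h2 : pp 1 (Real.exp (-u / 8) - b) ≤ 1 := by
    rw [pp, pow_one]; exact max_le (by linarith) zero_le_one
  have := mul_le_one₀ h1 (pp_nonneg 1 _) h2
  unfold fd; linarith

lemma fb_zero (hL : Real.exp (-L ^ 2 / 8) ≤ b) (hu : L ^ 2 ≤ u) : fb b u = 0 ∧ fd b u = 0 := by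
  have h : Real.exp (-u / 8) - b ≤ 0 := by
    have : Real.exp (-u / 8) ≤ Real.exp (-L ^ 2 / 8) := Real.exp_le_exp.2 (by linarith)
    linarith
  simp [fb, fd, pp, max_eq_right h]

/-! ### The anisotropic kernels -/

/-- the quadratic form with horizontal scale `a` and vertical scale `s` -/
noncomputable def qq (e : E3) (s a : ℝ) (w : E3) : ℝ := ‖pt e w‖ ^ 2 / a ^ 2 + ⟪e, w⟫ ^ 2 / s ^ 2

/-- the kernel -/
noncomputable def KK (b : ℝ) (e : E3) (s a : ℝ) (w : E3) : ℝ := (a ^ 2)⁻¹ * fb b (qq e s a w)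

/-- its derivative with respect to the horizontal scale -/
noncomputable def dK (b : ℝ) (e : E3) (s a : ℝ) (w : E3) : ℝ :=
  -(a ^ 3)⁻¹ * (2 * fb b (qq e s a w) + 2 / a ^ 2 * fd b (qq e s a w) * ‖pt e w‖ ^ 2)

variable {e : E3} {s a : ℝ}

lemma qq_nonneg (e : E3) (s a : ℝ) (w : E3) : 0 ≤ qq e s a w := by unfold qq; positivity

lemma continuous_qq (e : E3) (s a : ℝ) : Continuous (qq e s a) := by
  have := (pt e).continuous
  unfold qq; fun_prop

lemma continuous_KK (b : ℝ) (e : E3) (s a : ℝ) : Continuous (KK b e s a) :=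
  continuous_const.mul ((contDiff_fb b).continuous.comp (continuous_qq e s a))

lemma continuous_dK (b : ℝ) (e : E3) (s a : ℝ) : Continuous (dK b e s a) := by
  have h1 := (contDiff_fb b).continuous.comp (continuous_qq e s a)
  have h2 := (continuous_fd b).comp (continuous_qq e s a)
  have h3 := (pt e).continuous
  exact continuous_const.mul ((continuous_const.mul h1).add
    ((continuous_const.mul h2).mul (by fun_prop)))

lemma pyth (he : ‖e‖ = 1 ∨ e = 0) (w : E3) : ‖pt e w‖ ^ 2 + ⟪e, w⟫ ^ 2 = ‖w‖ ^ 2 := by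
  rcases he with h | rfl
  · rw [P218FT.norm_pt_sq h]; ring
  · simp [pt_apply]

lemma pt_idem (he : ‖e‖ = 1 ∨ e = 0) (w : E3) : pt e (pt e w) = pt e w := by
  rcases he with h | rfl
  · exact P218FT.pt_pt h w
  · simp [pt_apply]

lemma hasDerivAt_KK (ha : a ≠ 0) (w : E3) :
    HasDerivAt (fun a => KK b e s a w) (dK b e s a w) a := by
  have h1 : HasDerivAt (fun a : ℝ => (a ^ 2)⁻¹) (-2 / a ^ 3) a := by
    refine ((hasDerivAt_pow 2 a).inv (pow_ne_zero 2 ha)).congr_deriv ?_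
    field_simp; norm_num; ring
  have h2 : HasDerivAt (fun a => qq e s a w) (‖pt e w‖ ^ 2 * (-2 / a ^ 3)) a := by
    simpa only [qq, div_eq_mul_inv] using (h1.const_mul (‖pt e w‖ ^ 2)).add_const
      (⟪e, w⟫ ^ 2 * (s ^ 2)⁻¹)
  refine (h1.fun_mul ((hasDerivAt_fb b _).comp a h2)).congr_deriv ?_
  simp only [dK, Function.comp]
  field_simp
  ring

/-- the support of the kernels -/
lemma supp (hL : Real.exp (-L ^ 2 / 8) ≤ b) (hL0 : 0 ≤ L) (hs : 0 < s) (ha : 0 < a) (w : E3) :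
    (fb b (qq e s a w) = 0 ∧ fd b (qq e s a w) = 0) ∨
      (‖pt e w‖ ≤ L * a ∧ |⟪e, w⟫| ≤ L * s ∧ qq e s a w ≤ L ^ 2) := by
  rcases le_total (L ^ 2) (qq e s a w) with h | h
  · exact Or.inl (fb_zero hL h)
  refine Or.inr ⟨?_, ?_, h⟩
  · have h1 : ‖pt e w‖ ^ 2 / a ^ 2 ≤ L ^ 2 := by
      have : 0 ≤ ⟪e, w⟫ ^ 2 / s ^ 2 := by positivity
      unfold qq at h; linarith
    rw [div_le_iff₀ (by positivity), ← mul_pow] at h1
    exact (pow_le_pow_iff_left₀ (norm_nonneg _) (by positivity) two_ne_zero).1 h1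
  · have h1 : ⟪e, w⟫ ^ 2 / s ^ 2 ≤ L ^ 2 := by
      have : 0 ≤ ‖pt e w‖ ^ 2 / a ^ 2 := by positivity
      unfold qq at h; linarith
    rw [div_le_iff₀ (by positivity), ← mul_pow] at h1
    exact abs_le_of_sq_le_sq' h1 (by positivity) |> abs_le.2

lemma norm_le_of_qq (he : ‖e‖ = 1 ∨ e = 0) (hL0 : 0 ≤ L) (hs : 0 < s) (ha : 0 < a) {c : ℝ}
    (hsc : s ≤ c) (hac : a ≤ c) {w : E3} (h : qq e s a w ≤ L ^ 2) : ‖w‖ ≤ L * c := by
  have hc : 0 < c := hs.trans_le hsc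
  have h1 : ‖w‖ ^ 2 / c ^ 2 ≤ qq e s a w := by
    rw [← pyth he w, add_div, qq]
    gcongr
  have h2 := h1.trans h
  rw [div_le_iff₀ (by positivity), ← mul_pow] at h2
  exact (pow_le_pow_iff_left₀ (norm_nonneg _) (by positivity) two_ne_zero).1 h2

lemma zero_of_far (he : ‖e‖ = 1 ∨ e = 0) (hL : Real.exp (-L ^ 2 / 8) ≤ b) (hL0 : 0 ≤ L)
    (hs : 0 < s) (ha : 0 < a) {c : ℝ} (hsc : s ≤ c) (hac : a ≤ c) {x z : E3}
    (hz : z ∉ closedBall x (L * c)) :
    fb b (qq e s a (z - x)) = 0 ∧ fd b (qq e s a (z - x)) = 0 := by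
  refine (supp hL hL0 hs ha (z - x)).resolve_right fun h => hz ?_
  rw [mem_closedBall, dist_eq_norm]
  exact norm_le_of_qq he hL0 hs ha hsc hac h.2.2

lemma abs_dK_le (hb : 0 ≤ b) (hL : Real.exp (-L ^ 2 / 8) ≤ b) (hL0 : 0 ≤ L) (hs : 0 < s)
    (ha : 0 < a) (w : E3) : |dK b e s a w| ≤ (a ^ 3)⁻¹ * (2 + L ^ 2) := by
  rw [dK, abs_mul, abs_neg, abs_of_pos (by positivity : 0 < (a ^ 3)⁻¹)]
  refine mul_le_mul_of_nonneg_left ?_ (by positivity)
  rcases supp (e := e) hL hL0 hs ha w with h | h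
  · rw [h.1, h.2]; simp; positivity
  have h1 := fb_le_one hb (qq_nonneg e s a w)
  have h2 := fb_nonneg b (qq e s a w)
  have h3 := fd_ge hb (qq_nonneg e s a w)
  have h4 := fd_nonpos b (qq e s a w)
  have h5 : ‖pt e w‖ ^ 2 / a ^ 2 ≤ L ^ 2 := by
    rw [div_le_iff₀ (by positivity), ← mul_pow]
    exact pow_le_pow_left₀ (norm_nonneg _) h.1 2
  have h6 : 0 ≤ ‖pt e w‖ ^ 2 / a ^ 2 := by positivity
  have e1 : 2 / a ^ 2 * fd b (qq e s a w) * ‖pt e w‖ ^ 2 =
      2 * fd b (qq e s a w) * (‖pt e w‖ ^ 2 / a ^ 2) := by ring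
  rw [e1, abs_le]
  constructor <;> nlinarith

variable {m : Measure E3} {T : E3 → Submodule ℝ E3} {H : E3 → E3}

lemma integrable_cpt [IsFiniteMeasureOnCompacts m] {g : E3 → ℝ} (hg : Continuous g) {x : E3}
    {r : ℝ} (h : ∀ z, z ∉ closedBall x r → g z = 0) : Integrable g m :=
  hg.integrable_of_hasCompactSupport (HasCompactSupport.intro (isCompact_closedBall x r) h)

lemma hasDerivAt_int [IsFiniteMeasureOnCompacts m] (he : ‖e‖ = 1 ∨ e = 0) (hb : 0 ≤ b)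
    (hL : Real.exp (-L ^ 2 / 8) ≤ b) (hL0 : 0 ≤ L) (hs : 0 < s) (ha : 0 < a) (x : E3) :
    HasDerivAt (fun a => ∫ z, KK b e s a (z - x) ∂m) (∫ z, dK b e s a (z - x) ∂m) a := by
  have hx : Continuous fun z : E3 => z - x := by fun_prop
  refine (hasDerivAt_integral_of_dominated_loc_of_deriv_le (s := Ioo (a / 2) (2 * a))
    (F := fun a z => KK b e s a (z - x)) (F' := fun a z => dK b e s a (z - x))
    (bound := (closedBall x (L * (2 * a + s))).indicator fun _ => ((a / 2) ^ 3)⁻¹ * (2 + L ^ 2))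
    (Ioo_mem_nhds (by linarith) (by linarith))
    (Eventually.of_forall fun a => ((continuous_KK b e s a).comp hx).aestronglyMeasurable) ?_
    ((continuous_dK b e s a).comp hx).aestronglyMeasurable
    (Eventually.of_forall fun z a' ha' => ?_) ?_
    (Eventually.of_forall fun z a' ha' => hasDerivAt_KK (by linarith [ha'.1]) _)).2
  · refine integrable_cpt ((continuous_KK b e s a).comp hx) (x := x) (r := L * (a + s))
      fun z hz => ?_
    simp [KK, (zero_of_far he hL hL0 hs ha (by linarith) (by linarith) hz).1]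
  · have h1 : 0 < a' := by linarith [ha'.1]
    by_cases hz : z ∈ closedBall x (L * (2 * a + s))
    · rw [indicator_of_mem hz]
      refine (abs_dK_le hb hL hL0 hs h1 _).trans ?_
      gcongr
      exact ha'.1.le
    · have := zero_of_far he hL hL0 hs h1 (by linarith) (by linarith [ha'.2]) hz
      simp [dK, this.1, this.2, indicator_of_notMem hz]
  · exact (integrableOn_const (isCompact_closedBall _ _).measure_lt_top.ne).integrable_indicator
      measurableSet_closedBall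

/-! ### The first variation -/

/-- the vector field -/
noncomputable def XX (b : ℝ) (e : E3) (s a : ℝ) (x z : E3) : E3 :=
  fb b (qq e s a (z - x)) • pt e (z - x)

lemma contDiff_qq (e : E3) (s a : ℝ) : ContDiff ℝ 1 (qq e s a) :=
  (((pt e).contDiff.norm_sq ℝ).div_const _).add
    (((contDiff_const.inner ℝ contDiff_id).pow 2).div_const _)

lemma contDiff_XX (b : ℝ) (e : E3) (s a : ℝ) (x : E3) : ContDiff ℝ 1 (XX b e s a x) :=
  ((contDiff_fb b).comp ((contDiff_qq e s a).comp (contDiff_id.sub contDiff_const))).smul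
    ((pt e).contDiff.comp (contDiff_id.sub contDiff_const))

lemma div_XX (he : ‖e‖ = 1 ∨ e = 0) {P : Submodule ℝ E3} (hP : Module.finrank ℝ P = 2)
    (x z : E3) : divAlong P (XX b e s a x) z = fb b (qq e s a (z - x)) * (2 - ‖proj P e‖ ^ 2) +
      fd b (qq e s a (z - x)) * (2 * ⟪pt e (z - x), proj P (pt e (z - x))⟫ / a ^ 2 +
        2 * ⟪e, z - x⟫ * ⟪proj P e, pt e (z - x)⟫ / s ^ 2) := by
  set w := z - x with hw
  have h0 : HasFDerivAt (fun z : E3 => z - x) (ContinuousLinearMap.id ℝ E3) z :=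
    (hasFDerivAt_id z).sub_const x
  have h1 : HasFDerivAt (fun z : E3 => pt e (z - x)) (pt e) z :=
    ((pt e).hasFDerivAt.comp z h0).congr_fderiv (ContinuousLinearMap.comp_id _)
  have h2 : HasFDerivAt (fun z : E3 => ⟪e, z - x⟫) (innerSL ℝ e) z :=
    ((innerSL ℝ e).hasFDerivAt.comp z h0).congr_fderiv (ContinuousLinearMap.comp_id _)
  have h3 := (h1.norm_sq.mul_const (a ^ 2)⁻¹).fun_add ((h2.pow 2).mul_const (s ^ 2)⁻¹)
  have h4 := (hasDerivAt_fb b (qq e s a w)).comp_hasFDerivAt z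
    (f := fun z => qq e s a (z - x)) (by simpa only [qq, div_eq_mul_inv] using h3)
  have h5 := (h4.smul h1).fderiv
  have e1 : fderiv ℝ (XX b e s a x) z = _ := h5
  have e2 : LinearMap.trace ℝ E3 ((proj P).comp (pt e)).toLinearMap = 2 - ‖proj P e‖ ^ 2 := by
    rw [pt, ContinuousLinearMap.comp_sub, ContinuousLinearMap.comp_id,
      ContinuousLinearMap.toLinearMap_sub, map_sub, trace_proj, trace_comp_smulRight, hP,
      innerSL_apply_apply]
    have : ⟪e, proj P e⟫ = ‖proj P e‖ ^ 2 := by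
      have h6 := H552.inner_proj_of_mem_orthogonal P e _ (H552.sub_proj_mem P e)
      rw [inner_sub_right, real_inner_self_eq_norm_sq] at h6
      rw [real_inner_comm]; linarith
    rw [this]; norm_num
  rw [divAlong, e1, ContinuousLinearMap.comp_add, ContinuousLinearMap.comp_smul,
    ContinuousLinearMap.toLinearMap_add, map_add, ContinuousLinearMap.toLinearMap_smul, map_smul,
    e2, trace_comp_smulRight]
  have e3 : ⟪pt e w, pt e (proj P (pt e w))⟫ = ⟪pt e w, proj P (pt e w)⟫ := by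
    rw [← P218FT.inner_pt_left, pt_idem he]
  simp only [Function.comp, smul_eq_mul, smul_apply,
    add_apply, ContinuousLinearMap.comp_apply, innerSL_apply_apply, ← hw, e3,
    inner_proj_left P e, nsmul_eq_mul]
  push_cast
  ring

/-- the tilt and curvature integrand -/
noncomputable def gg (T : E3 → Submodule ℝ E3) (H : E3 → E3) (e₀ z : E3) : ℝ :=
  ‖H z‖ ^ 2 + ‖proj (T z) e₀‖ ^ 2

lemma gg_nonneg (T : E3 → Submodule ℝ E3) (H : E3 → E3) (e₀ z : E3) : 0 ≤ gg T H e₀ z := by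
  unfold gg; positivity

lemma le_amgm {ε x g : ℝ} (hε : 0 < ε) (h : x ^ 2 ≤ g) : x ≤ ε + g / ε := by
  have h1 : x * ε ≤ ε ^ 2 + g := by nlinarith [sq_nonneg (x - ε), sq_nonneg x]
  have h2 : ε + g / ε = (ε ^ 2 + g) / ε := by field_simp
  rw [h2, le_div_iff₀ hε]; exact h1

/-- the pointwise inequality -/
lemma ptw {e₀ : E3} (h0 : ‖e₀‖ = 1) (he : e = e₀ ∨ e = 0) (hb : 0 ≤ b)
    (hL : Real.exp (-L ^ 2 / 8) ≤ b) (hL0 : 0 ≤ L) (hs : 0 < s) (hsa : s ≤ a) {ε : ℝ}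
    (hε : 0 < ε) (hε1 : ε ≤ 1) (x z : E3) (hP : Module.finrank ℝ (T z) = 2) :
    -((L * a + ‖e‖ * (L ^ 2 * a / s + 1)) *
      (closedBall x (L * a)).indicator (fun z => ε + gg T H e₀ z / ε) z) ≤
      a ^ 3 * dK b e s a (z - x) + divAlong (T z) (XX b e s a x) z + ⟪XX b e s a x z, H z⟫ := by
  have ha : 0 < a := hs.trans_le hsa
  have he' : ‖e‖ = 1 ∨ e = 0 := he.imp_left fun h => by rw [h, h0]
  have hg := gg_nonneg T H e₀ z
  rw [div_XX he' hP, XX, dK, real_inner_smul_left]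
  set w := z - x with hw
  rcases supp (e := e) hL hL0 hs ha w with h | h
  · rw [h.1, h.2]
    have : 0 ≤ (closedBall x (L * a)).indicator (fun z => ε + gg T H e₀ z / ε) z :=
      indicator_nonneg (fun y _ => by have := gg_nonneg T H e₀ y; positivity) z
    simp only [mul_zero, zero_mul, add_zero, Left.neg_nonpos_iff]
    positivity
  have hz : z ∈ closedBall x (L * a) := by
    rw [mem_closedBall, dist_eq_norm]; exact norm_le_of_qq he' hL0 hs ha hsa le_rfl h.2.2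
  rw [indicator_of_mem hz]
  set f := fb b (qq e s a w)
  set f' := fd b (qq e s a w)
  set p := pt e w
  set G := ε + gg T H e₀ z / ε with hG
  have hf0 : 0 ≤ f := fb_nonneg _ _
  have hf1 : f ≤ 1 := fb_le_one hb (qq_nonneg e s a w)
  have hd0 : f' ≤ 0 := fd_nonpos _ _
  have hd1 : -(1 / 4) ≤ f' := fd_ge hb (qq_nonneg e s a w)
  have hG0 : 0 ≤ G := by positivity
  have h1 : ‖H z‖ ≤ G := le_amgm hε (by unfold gg; nlinarith [sq_nonneg ‖proj (T z) e₀‖])
  have h2 : ‖proj (T z) e‖ ≤ ‖e‖ * G ∧ ‖proj (T z) e‖ ^ 2 ≤ ‖e‖ * G := by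
    rcases he with rfl | rfl
    · have h3 : ‖proj (T z) e‖ ^ 2 ≤ gg T H e z := by unfold gg; nlinarith [sq_nonneg ‖H z‖]
      rw [h0, one_mul]
      refine ⟨le_amgm hε h3, h3.trans ?_⟩
      have : gg T H e z ≤ gg T H e z / ε := le_div_self hg hε hε1
      linarith
    · simp
  have h3 : ⟪p, proj (T z) p⟫ ≤ ‖p‖ ^ 2 := by
    have h4 := (proj (T z)).le_opNorm p
    have h5 := real_inner_le_norm p (proj (T z) p)
    have h6 := norm_proj_le (T z)
    have h7 := norm_nonneg p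
    nlinarith [mul_le_mul_of_nonneg_right h6 h7]
  have h4 : -(L * a * G) ≤ f * ⟪p, H z⟫ := by
    have h5 : |⟪p, H z⟫| ≤ L * a * G :=
      (abs_real_inner_le_norm _ _).trans (mul_le_mul h.1 h1 (norm_nonneg _) (by positivity))
    have h6 : |f * ⟪p, H z⟫| ≤ 1 * (L * a * G) := by
      rw [abs_mul]; exact mul_le_mul (by rwa [abs_of_nonneg hf0]) h5 (abs_nonneg _) zero_le_one
    linarith [(abs_le.1 h6).1]
  have h5 : -(‖e‖ * (L ^ 2 * a / s) * G) ≤
      f' * (2 * ⟪e, w⟫ * ⟪proj (T z) e, p⟫ / s ^ 2) := by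
    have h6 : |⟪proj (T z) e, p⟫| ≤ ‖e‖ * G * (L * a) :=
      (abs_real_inner_le_norm _ _).trans (mul_le_mul h2.1 h.1 (norm_nonneg _) (by positivity))
    have h7 : |f' * (2 * ⟪e, w⟫ * ⟪proj (T z) e, p⟫ / s ^ 2)| ≤
        1 / 2 * (2 * (L * s) * (‖e‖ * G * (L * a)) / s ^ 2) := by
      rw [abs_mul, abs_div, abs_mul, abs_mul, abs_two, abs_of_pos (pow_pos hs 2)]
      have h8 : |f'| ≤ 1 / 2 := abs_le.2 ⟨by linarith, by linarith⟩
      have h9 := h.2.1
      gcongr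
    have e1 : 1 / 2 * (2 * (L * s) * (‖e‖ * G * (L * a)) / s ^ 2) =
        ‖e‖ * (L ^ 2 * a / s) * G := by field_simp
    linarith [(abs_le.1 h7).1]
  have h6 : f * ‖proj (T z) e‖ ^ 2 ≤ ‖e‖ * G := by nlinarith [h2.2, sq_nonneg ‖proj (T z) e‖]
  have h7 : 0 ≤ -f' * ((‖p‖ ^ 2 - ⟪p, proj (T z) p⟫) * (2 / a ^ 2)) :=
    mul_nonneg (by linarith) (mul_nonneg (by linarith) (by positivity))
  have e2 : a ^ 3 * (-(a ^ 3)⁻¹ * (2 * f + 2 / a ^ 2 * f' * ‖p‖ ^ 2)) =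
      -(2 * f + 2 / a ^ 2 * f' * ‖p‖ ^ 2) := by field_simp
  have e3 : f' * (2 * ⟪p, proj (T z) p⟫ / a ^ 2 + 2 * ⟪e, w⟫ * ⟪proj (T z) e, p⟫ / s ^ 2) =
      2 / a ^ 2 * f' * ⟪p, proj (T z) p⟫ + f' * (2 * ⟪e, w⟫ * ⟪proj (T z) e, p⟫ / s ^ 2) := by ring
  rw [e2, e3]
  nlinarith

lemma integrableOn_gg (h : MC 2 m T H) (e₀ : E3) {K : Set E3} (hK : IsCompact K) :
    IntegrableOn (gg T H e₀) K m := by
  have := h.fin
  refine (h.locL2 K hK).add (Measure.integrableOn_of_bounded (M := ‖e₀‖ ^ 2)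
    hK.measure_lt_top.ne ?_ (Eventually.of_forall fun z => ?_))
  · exact (H552.aesm_apply' h.Tmeas aestronglyMeasurable_const).norm.pow 2
  · rw [Real.norm_of_nonneg (by positivity)]
    refine pow_le_pow_left₀ (norm_nonneg _) (((proj (T z)).le_opNorm e₀).trans ?_) 2
    exact mul_le_of_le_one_left (norm_nonneg _) (norm_proj_le _)

lemma integrable_div (h : MC 2 m T H) {X : E3 → E3} (hX : ContDiff ℝ 1 X)
    (hc : HasCompactSupport X) : Integrable (fun z => divAlong (T z) X z) m := by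
  have := h.fin
  have h0 := hX.continuous_fderiv (by norm_num)
  have h1 : AEStronglyMeasurable (fun x => (proj (T x)).comp (fderiv ℝ X x)) m :=
    (isBoundedBilinearMap_comp (𝕜 := ℝ) (E := E3) (F := E3)
      (G := E3)).continuous.comp_aestronglyMeasurable (h.Tmeas.prodMk h0.aestronglyMeasurable)
  exact ((h0.norm.integrable_of_hasCompactSupport (hc.fderiv ℝ).norm).const_mul _).mono'
    ((trL E3).continuous.comp_aestronglyMeasurable h1)
    (Eventually.of_forall fun x => abs_divAlong_le _ _ _)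

lemma exp_quarter_le : Real.exp (1 / 4) ≤ 2 := by
  have h := Real.exp_bound_div_one_sub_of_interval (x := 1 / 4) (by norm_num) (by norm_num)
  exact h.trans (by norm_num)

/-- `x` is a good point: the tilt and the curvature are small at all scales up to `r₀` -/
def Good (m : Measure E3) (g : E3 → ℝ) (ε r₀ : ℝ) (x : E3) : Prop :=
  ∀ r, 0 < r → r ≤ r₀ → ∫ z in closedBall x r, g z ∂m ≤ ε ^ 2 * r ^ 2

lemma deriv_ge (h : MC 2 m T H) {D : ℝ} (hE : Ent m D) {e₀ : E3} (h0 : ‖e₀‖ = 1)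
    (he : e = e₀ ∨ e = 0) (hb : 0 ≤ b) (hL : Real.exp (-L ^ 2 / 8) ≤ b) (hL0 : 0 < L) (hs : 0 < s)
    (hsa : s ≤ a) {ε r₀ : ℝ} (hε : 0 < ε) (hε1 : ε ≤ 1) {x : E3} (hx : Good m (gg T H e₀) ε r₀ x)
    (hr : L * a ≤ r₀) :
    -(ε * L ^ 2 * (1 + 2 * D) * (L + ‖e‖ * (L ^ 2 + 1) / s)) ≤ ∫ z, dK b e s a (z - x) ∂m := by
  have := h.fin
  have ha : 0 < a := hs.trans_le hsa
  have hD := hE.nonneg
  have he' : ‖e‖ = 1 ∨ e = 0 := he.imp_left fun h => by rw [h, h0]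
  have hz : ∀ z, z ∉ closedBall x (L * a) → _ := fun z hz =>
    zero_of_far he' hL hL0.le hs ha hsa le_rfl hz
  have hc : HasCompactSupport (XX b e s a x) :=
    HasCompactSupport.intro (isCompact_closedBall x (L * a)) fun z h => by simp [XX, (hz z h).1]
  have i1 : Integrable (fun z => dK b e s a (z - x)) m :=
    integrable_cpt ((continuous_dK b e s a).comp (by fun_prop)) (x := x) (r := L * a)
      fun z h => by simp [dK, (hz z h).1, (hz z h).2]
  have i2 := integrable_div h (contDiff_XX b e s a x) hc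
  have i3 := H552.integrable_inner_of_cpt h (contDiff_XX b e s a x).continuous hc
  have i4 := integrableOn_gg h e₀ (isCompact_closedBall x (L * a))
  have i5 : IntegrableOn (fun _ => ε) (closedBall x (L * a)) m :=
    integrableOn_const (isCompact_closedBall _ _).measure_lt_top.ne
  have i6 := (i5.add (i4.div_const ε)).integrable_indicator measurableSet_closedBall
  have h1 := integral_mono_ae (i6.const_mul (L * a + ‖e‖ * (L ^ 2 * a / s + 1))).neg
    (((i1.const_mul (a ^ 3)).add i2).add i3)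
    (h.dim.mono fun z hz => ptw (H := H) h0 he hb hL hL0.le hs hsa hε hε1 x z hz)
  simp only [Pi.neg_apply, Pi.add_apply] at h1
  have i7 : Integrable (fun z => a ^ 3 * dK b e s a (z - x) + divAlong (T z) (XX b e s a x) z) m :=
    (i1.const_mul (a ^ 3)).add i2
  rw [integral_add i7 i3, integral_add (i1.const_mul (a ^ 3)) i2,
    h.fv _ (contDiff_XX b e s a x) hc, integral_neg, integral_const_mul, integral_const_mul,
    integral_indicator measurableSet_closedBall] at h1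
  simp only [Pi.add_apply] at h1
  rw [integral_add i5 (i4.div_const ε), integral_div, setIntegral_const, smul_eq_mul] at h1
  have h2 := hE.ball_le x (mul_pos hL0 ha)
  have h3 := hx _ (mul_pos hL0 ha) hr
  have h4 := exp_quarter_le
  have h5 : m.real (closedBall x (L * a)) * ε + (∫ z in closedBall x (L * a), gg T H e₀ z ∂m) / ε
      ≤ ε * L ^ 2 * (1 + 2 * D) * a ^ 2 := by
    have h6 : m.real (closedBall x (L * a)) ≤ 2 * (L * a) ^ 2 * D := h2.trans (by gcongr)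
    have h7 : (∫ z in closedBall x (L * a), gg T H e₀ z ∂m) / ε ≤ ε * (L * a) ^ 2 := by
      rw [div_le_iff₀ hε]; linarith
    nlinarith [mul_le_mul_of_nonneg_right h6 hε.le]
  have h6 : L * a + ‖e‖ * (L ^ 2 * a / s + 1) ≤ (L + ‖e‖ * (L ^ 2 + 1) / s) * a := by
    have h7 : 1 ≤ a / s := (one_le_div hs).2 hsa
    have e1 : (L + ‖e‖ * (L ^ 2 + 1) / s) * a = L * a + ‖e‖ * (L ^ 2 * a / s + a / s) := by ring
    rw [e1]; gcongr
  have h7 := mul_le_mul h6 h5 (by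
    have : 0 ≤ ∫ z in closedBall x (L * a), gg T H e₀ z ∂m := integral_nonneg (gg_nonneg T H e₀)
    positivity) (by positivity)
  refine le_of_mul_le_mul_left ?_ (pow_pos ha 3)
  nlinarith

/-- **Almost monotonicity** in the horizontal scale -/
lemma grow (h : MC 2 m T H) {D : ℝ} (hE : Ent m D) {e₀ : E3} (h0 : ‖e₀‖ = 1)
    (he : e = e₀ ∨ e = 0) (hb : 0 ≤ b) (hL : Real.exp (-L ^ 2 / 8) ≤ b) (hL0 : 0 < L) (hs : 0 < s)
    (hsa : s ≤ a) {ε r₀ : ℝ} (hε : 0 < ε) (hε1 : ε ≤ 1) {x : E3} (hx : Good m (gg T H e₀) ε r₀ x)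
    (hr : L * a ≤ r₀) :
    ∫ z, KK b e s s (z - x) ∂m - ε * L ^ 2 * (1 + 2 * D) * (L * a + ‖e‖ * (L ^ 2 + 1) * (a / s))
      ≤ ∫ z, KK b e s a (z - x) ∂m := by
  have := h.fin
  have hD := hE.nonneg
  have he' : ‖e‖ = 1 ∨ e = 0 := he.imp_left fun h => by rw [h, h0]
  have hd : ∀ c ∈ Icc s a, _ := fun c hc =>
    hasDerivAt_int (m := m) he' hb hL hL0.le hs (hs.trans_le hc.1) x
  have h1 := (convex_Icc s a).mul_sub_le_image_sub_of_le_deriv
    (fun c hc => (hd c hc).continuousAt.continuousWithinAt)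
    (fun c hc => (hd c (interior_subset hc)).differentiableAt.differentiableWithinAt)
    (fun c hc => by
      have hc' := interior_subset hc
      rw [(hd c hc').deriv]
      exact deriv_ge h hE h0 he hb hL hL0 hs hc'.1 hε hε1 hx
        ((mul_le_mul_of_nonneg_left hc'.2 hL0.le).trans hr))
    s ⟨le_rfl, hsa⟩ a ⟨hsa, le_rfl⟩ hsa
  have h2 : 0 ≤ ε * L ^ 2 * (1 + 2 * D) * (L + ‖e‖ * (L ^ 2 + 1) / s) * s := by positivity
  have e1 : ε * L ^ 2 * (1 + 2 * D) * (L * a + ‖e‖ * (L ^ 2 + 1) * (a / s)) =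
      ε * L ^ 2 * (1 + 2 * D) * (L + ‖e‖ * (L ^ 2 + 1) / s) * a := by ring
  rw [e1]
  nlinarith

/-! ### Lower bound at good points, the two-point inequality -/

lemma KK_zero (b s a : ℝ) (w : E3) : KK b 0 s a w = (a ^ 2)⁻¹ * fb b (‖w‖ ^ 2 / a ^ 2) := by
  simp [KK, qq, pt_apply]

lemma KK_self (he : ‖e‖ = 1) (b s : ℝ) (w : E3) :
    KK b e s s w = (s ^ 2)⁻¹ * fb b (‖w‖ ^ 2 / s ^ 2) := by
  rw [KK, qq, ← add_div, pyth (Or.inl he)]

lemma low (h : MC 2 m T H) {D : ℝ} (hE : Ent m D) (he : ‖e‖ = 1) (hb : 0 ≤ b)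
    (hL : Real.exp (-L ^ 2 / 8) ≤ b) (hL0 : 0 < L) (hs : 0 < s) (hsa : s ≤ a) {ε r₀ : ℝ}
    (hε : 0 < ε) (hε1 : ε ≤ 1) {x : E3} (hx : Good m (gg T H e) ε r₀ x) (hr : L * a ≤ r₀) {q : ℕ}
    (hq : 1 ≤ q) {P : Submodule ℝ E3} (hP : IsApproxTangent 2 m x q P) :
    (1 - 4 * b) * om0 - ε * L ^ 2 * (1 + 2 * D) * (2 * (L * a) + (L ^ 2 + 1) * (a / s)) ≤
      ∫ z, KK b e s a (z - x) ∂m := by
  have hD := hE.nonneg
  have h1 := grow h hE he (Or.inl rfl) hb hL hL0 hs hsa hε hε1 hx hr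
  have hc : Continuous fun z : E3 => fb b (‖z‖ ^ 2) :=
    (contDiff_fb b).continuous.comp (by fun_prop)
  have hz : ∀ z : E3, z ∉ closedBall (0 : E3) L → fb b (‖z‖ ^ 2) = 0 := fun z hz =>
    (fb_zero hL (pow_le_pow_left₀ hL0.le (by simpa using hz : L < ‖z‖).le 2)).1
  obtain ⟨i1, e1⟩ := integral_gk0_plane hP.1 one_pos
  obtain ⟨i2, e2⟩ := integral_gk0_plane hP.1 two_pos
  have hle : ∀ z : E3, fb b (‖z‖ ^ 2) ≤ gk0 1 z := fun z => by simpa [gk0] using fb_le hb (‖z‖ ^ 2)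
  have h2 : (1 - 4 * b) * om0 ≤ ∫ z in (P : Set E3), fb b (‖z‖ ^ 2) ∂μH[2] := by
    have h3 := integral_mono (i1.sub (i2.const_mul (4 * b))) (i1.mono' hc.aestronglyMeasurable
      (Eventually.of_forall fun z => by rw [Real.norm_of_nonneg (fb_nonneg _ _)]; exact hle z))
      fun z => by
        have h4 := fb_ge hb (‖z‖ ^ 2)
        have h5 : (4 * 2 : ℝ) = 8 := by norm_num
        simp only [Pi.sub_apply, gk0, inv_one, mul_one, one_mul, h5]
        linarith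
    simp only [Pi.sub_apply] at h3
    rw [integral_sub i1 (i2.const_mul _), integral_const_mul, e1, e2] at h3
    linarith
  have h3 : (q : ℝ) * ∫ z in (P : Set E3), fb b (‖z‖ ^ 2) ∂μH[2] ≤
      ∫ z, KK b e s s (z - x) ∂m + ε * L ^ 2 * (1 + 2 * D) * (L * a) := by
    refine le_of_tendsto (hP.2 _ hc (HasCompactSupport.intro (isCompact_closedBall 0 L) hz)) ?_
    filter_upwards [Ioc_mem_nhdsGT hs] with r hr'
    have h4 := grow h hE he (Or.inr rfl) hb hL hL0 hr'.1 hr'.2 hε hε1 hx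
      ((mul_le_mul_of_nonneg_left hsa hL0.le).trans hr)
    have h5 : ε * L ^ 2 * (1 + 2 * D) * (L * s) ≤ ε * L ^ 2 * (1 + 2 * D) * (L * a) := by gcongr
    simp only [KK_zero, norm_zero, zero_mul, add_zero] at h4
    simp only [KK_self he, norm_smul, norm_inv, Real.norm_of_nonneg hr'.1.le, div_pow,
      ← div_eq_inv_mul] at h4 ⊢
    rw [integral_div] at h4
    linarith
  have h4 : 0 ≤ ∫ z in (P : Set E3), fb b (‖z‖ ^ 2) ∂μH[2] := integral_nonneg fun z => fb_nonneg _ _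
  have h5 : (1 : ℝ) ≤ q := by exact_mod_cast hq
  rw [he] at h1
  nlinarith

lemma KK_le (he : ‖e‖ = 1) (hb : 0 ≤ b) (hs : 0 < s) (ha : 0 < a) (hsa : 2 * s ^ 2 ≤ a ^ 2)
    (w : E3) : KK b e s a w ≤ gk0 (a ^ 2) w * Real.exp (-⟪e, w⟫ ^ 2 / (8 * s ^ 2)) := by
  rw [KK, gk0, mul_assoc, ← Real.exp_add]
  refine mul_le_mul_of_nonneg_left ((fb_le hb _).trans (Real.exp_le_exp.2 ?_)) (by positivity)
  have h1 : ⟪e, w⟫ ^ 2 / a ^ 2 ≤ ⟪e, w⟫ ^ 2 / (2 * s ^ 2) := by gcongr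
  rw [← pyth (Or.inl he) w, qq]
  have e1 : -(‖pt e w‖ ^ 2 + ⟪e, w⟫ ^ 2) / (4 * a ^ 2) =
      -(‖pt e w‖ ^ 2 / a ^ 2 + ⟪e, w⟫ ^ 2 / a ^ 2) / 4 := by field_simp
  have e2 : -⟪e, w⟫ ^ 2 / (8 * s ^ 2) = -(⟪e, w⟫ ^ 2 / (2 * s ^ 2)) / 4 := by field_simp; ring
  have e3 : ⟪e, w⟫ ^ 2 / s ^ 2 = 2 * (⟪e, w⟫ ^ 2 / (2 * s ^ 2)) := by field_simp
  rw [e1, e2, e3]
  linarith

lemma exp_neg_le_of {w : ℝ} (hb : 0 < b) (h : 1 ≤ b * w) : Real.exp (-w) ≤ b := by
  have h1 := Real.add_one_le_exp w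
  rw [Real.exp_neg, inv_le_comm₀ (Real.exp_pos _) hb, inv_le_iff_one_le_mul₀ hb]
  nlinarith

lemma two_pt (he : ‖e‖ = 1) (hb : 0 < b) (hb1 : b ≤ 1) {γ d : ℝ} (hγ : 0 < γ) (hγ1 : γ ≤ 1)
    (hd : 0 < d) {x x' : E3} (h1 : ‖x' - x‖ = d) (h2 : γ * d ≤ |⟪e, x' - x⟫|) (z : E3) :
    KK b e (γ * b * d / 6) (d / b) (z - x) + KK b e (γ * b * d / 6) (d / b) (z - x') ≤
      (1 + b) ^ 3 * gk0 ((1 + b) * (d / b) ^ 2) (z - x) := by
  set s := γ * b * d / 6 with hs
  set a := d / b with ha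
  have hs0 : 0 < s := by positivity
  have ha0 : 0 < a := by positivity
  have hda : d ≤ a := le_div_self hd.le hb hb1
  have hsd : s ≤ d / 6 := by
    have := mul_le_one₀ hγ1 hb.le hb1
    rw [hs]; gcongr; nlinarith
  have hsa : 2 * s ^ 2 ≤ a ^ 2 := by nlinarith
  have hσ : a ^ 2 < (1 + b) * a ^ 2 := by nlinarith [pow_pos ha0 2]
  have hk := (gk0_pos (by positivity : 0 < (1 + b) * a ^ 2) (z - x)).le
  have h3 : ∀ u : E3, ‖u‖ ≤ d →
      gk0 (a ^ 2) (z - x - u) ≤ (1 + b) ^ 2 * gk0 ((1 + b) * a ^ 2) (z - x) := fun u hu => by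
    refine (gk0_shift (by positivity) hσ _ _).trans (mul_le_mul_of_nonneg_right ?_ hk)
    have h4 : ‖u‖ ^ 2 / (4 * ((1 + b) * a ^ 2 - a ^ 2)) ≤ b / 4 := by
      have e1 : 4 * ((1 + b) * a ^ 2 - a ^ 2) = 4 * d ^ 2 / b := by rw [ha]; field_simp; ring
      have h5 := pow_le_pow_left₀ (norm_nonneg _) hu 2
      rw [e1, div_le_iff₀ (by positivity)]
      refine h5.trans (le_of_eq ?_)
      field_simp
    have h5 := Real.exp_bound_div_one_sub_of_interval (x := b / 4) (by positivity) (by linarith)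
    have h6 : 1 / (1 - b / 4) ≤ 1 + b := by
      rw [div_le_iff₀ (by linarith)]; nlinarith
    rw [mul_div_assoc, div_self (by positivity), mul_one, sq (1 + b)]
    exact mul_le_mul_of_nonneg_left (((Real.exp_le_exp.2 h4).trans h5).trans h6) (by positivity)
  have h4 : ∀ t : ℝ, Real.exp (-t ^ 2 / (8 * s ^ 2)) ≤ 1 := fun t =>
    exp_le_one' (sq_nonneg t) (by positivity)
  have h5 : ∀ t : ℝ, γ * d / 2 ≤ |t| → Real.exp (-t ^ 2 / (8 * s ^ 2)) ≤ b := fun t ht => by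
    rw [neg_div]
    refine exp_neg_le_of hb ?_
    have h6 := pow_le_pow_left₀ (by positivity) ht 2
    rw [sq_abs] at h6
    rw [← mul_div_assoc, le_div_iff₀ (by positivity)]
    have h7 : 8 * s ^ 2 = 8 / 9 * b * (b * (γ * d / 2) ^ 2) := by rw [hs]; ring
    have h8 : 0 ≤ b * (γ * d / 2) ^ 2 := by positivity
    nlinarith [mul_le_mul_of_nonneg_left h6 hb.le]
  have h6 : Real.exp (-⟪e, z - x⟫ ^ 2 / (8 * s ^ 2)) + Real.exp (-⟪e, z - x'⟫ ^ 2 / (8 * s ^ 2))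
      ≤ 1 + b := by
    have e1 : ⟪e, x' - x⟫ = ⟪e, z - x⟫ - ⟪e, z - x'⟫ := by
      rw [← inner_sub_right]; congr 1; abel
    have h7 := abs_sub ⟪e, z - x⟫ ⟪e, z - x'⟫
    rw [← e1] at h7
    rcases le_total (γ * d / 2) |⟪e, z - x⟫| with h8 | h8
    · linarith [h5 _ h8, h4 ⟪e, z - x'⟫]
    · linarith [h5 ⟪e, z - x'⟫ (by linarith), h4 ⟪e, z - x⟫]
  have h7 := h3 0 (by simpa using hd.le)
  have h8 := h3 (x' - x) h1.le
  rw [sub_zero] at h7
  rw [sub_sub_sub_cancel_right] at h8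
  have h9 := (KK_le he hb.le hs0 ha0 hsa (z - x)).trans
    (mul_le_mul_of_nonneg_right h7 (Real.exp_pos _).le)
  have h10 := (KK_le he hb.le hs0 ha0 hsa (z - x')).trans
    (mul_le_mul_of_nonneg_right h8 (Real.exp_pos _).le)
  have h11 : 0 ≤ (1 + b) ^ 2 * gk0 ((1 + b) * a ^ 2) (z - x) := by positivity
  nlinarith [mul_le_mul_of_nonneg_left h6 h11]

/-! ### The maximal inequality -/

lemma maximal (m τ : Measure E3) {C : ℝ} (hC : 0 ≤ C)
    (hm : ∀ y r, 0 < r → m (closedBall y r) ≤ ENNReal.ofReal (C * r ^ 2)) (R r₀ : ℝ) {ε : ℝ}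
    (hε : 0 < ε) : ∃ W : Set E3, MeasurableSet W ∧
      m W ≤ ENNReal.ofReal (25 * C / ε ^ 2) * τ (closedBall 0 (R + r₀)) ∧
      ∀ x ∈ ball (0 : E3) R, x ∉ W → ∀ r, 0 < r → r ≤ r₀ →
        τ (closedBall x r) ≤ ENNReal.ofReal (ε ^ 2 * r ^ 2) := by
  obtain ⟨u, hu, hd, hc⟩ := Vitali.exists_disjoint_subfamily_covering_enlargement_closedBall
    {p : E3 × ℝ | p.1 ∈ ball (0 : E3) R ∧ 0 < p.2 ∧ p.2 ≤ r₀ ∧
      ENNReal.ofReal (ε ^ 2 * p.2 ^ 2) < τ (closedBall p.1 p.2)} Prod.fst Prod.snd r₀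
    (fun p hp => hp.2.2.1) 5 (by norm_num)
  have hcount : u.Countable := hd.countable_of_nonempty_interior fun p hp =>
    ⟨p.1, ball_subset_interior_closedBall (mem_ball_self (hu hp).2.1)⟩
  refine ⟨⋃ p ∈ u, closedBall p.1 (5 * p.2),
    MeasurableSet.biUnion hcount fun _ _ => measurableSet_closedBall, ?_, fun x hx hW r h1 h2 => ?_⟩
  · refine (measure_biUnion_le m hcount _).trans ?_
    refine le_trans ?_ (mul_le_mul_right (measure_mono (s := ⋃ p ∈ u, closedBall p.1 p.2)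
      (iUnion₂_subset fun p hp => closedBall_subset_closedBall' ?_)) _)
    · rw [measure_biUnion hcount hd fun _ _ => measurableSet_closedBall, ← ENNReal.tsum_mul_left]
      refine ENNReal.tsum_le_tsum fun p => ?_
      have hp := hu p.2
      refine (hm _ _ (mul_pos (by norm_num) hp.2.1)).trans
        (le_trans (le_of_eq ?_) (mul_le_mul_right hp.2.2.2.le _))
      rw [← ENNReal.ofReal_mul (by positivity)]
      congr 1
      field_simp
      ring
    · have h1 := (hu hp).2.2.1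
      have h2 := mem_ball.1 (hu hp).1
      linarith
  · by_contra h
    obtain ⟨p, hp, h3⟩ := hc (x, r) ⟨hx, h1, h2, not_le.1 h⟩
    exact hW (mem_biUnion hp (h3 (mem_closedBall_self h1.le)))

/-! ### The static theorem -/

/-- integer multiplicity -/
def IsItg (m : Measure E3) : Prop :=
  ∃ q : E3 → ℕ, (∀ᵐ x ∂m, 1 ≤ q x ∧ ∃ P, IsApproxTangent 2 m x (q x) P) ∧
    ∀ B : Set E3, MeasurableSet B → (∀ x ∈ B, q x ≤ 1) → m B ≤ μH[2] B

lemma exists_b {θ : ℝ} (hθ : θ < 2) :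
    ∃ b : ℝ, 0 < b ∧ b ≤ 1 ∧ (1 + b) ^ 3 * θ < 2 * (1 - 5 * b) := by
  have h1 : ∀ᶠ b : ℝ in 𝓝 0, (1 + b) ^ 3 * θ < 2 * (1 - 5 * b) :=
    ContinuousAt.eventually_lt (by fun_prop) (by fun_prop) (by simpa using hθ)
  obtain ⟨b, h2, h3⟩ := ((h1.filter_mono nhdsWithin_le_nhds).and
    (Ioc_mem_nhdsGT (zero_lt_one' ℝ))).exists
  exact ⟨b, h3.1, h3.2, h2⟩

lemma exists_small (C : ℝ) {c : ℝ} (hc : 0 < c) : ∃ ε : ℝ, 0 < ε ∧ ε ≤ 1 ∧ ε * C ≤ c := by
  have h1 : ∀ᶠ ε : ℝ in 𝓝 0, ε * C < c :=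
    ContinuousAt.eventually_lt (by fun_prop) (by fun_prop) (by simpa using hc)
  obtain ⟨b, h2, h3⟩ := ((h1.filter_mono nhdsWithin_le_nhds).and
    (Ioc_mem_nhdsGT (zero_lt_one' ℝ))).exists
  exact ⟨b, h3.1, h3.2, h2.le⟩

/-- the good points form a Lipschitz graph -/
lemma lip (D R : ℝ) {θ γ : ℝ} (hθ : θ < 2) (hγ : 0 < γ) (hγ1 : γ ≤ 1) (hR : 0 < R) :
    ∃ ε r₀ Λ : ℝ, 0 < ε ∧ 0 < r₀ ∧ 0 < Λ ∧ ∀ (m : Measure E3) T H (e : E3), MC 2 m T H → Ent m D →
      ‖e‖ = 1 → (∀ y σ, ‖y‖ ≤ R → 0 < σ → σ ≤ Λ → GA m y σ ≤ θ * om0) →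
      ∀ x x' : E3, ‖x‖ ≤ R → ‖x'‖ ≤ R → Good m (gg T H e) ε r₀ x → Good m (gg T H e) ε r₀ x' →
        (∃ q P, 1 ≤ q ∧ IsApproxTangent 2 m x q P) → (∃ q P, 1 ≤ q ∧ IsApproxTangent 2 m x' q P) →
        |⟪e, x' - x⟫| ≤ γ * ‖x' - x‖ := by
  obtain ⟨b, hb, hb1, hbθ⟩ := exists_b hθ
  have ho := om0_pos
  set L := 3 / b with hLd
  have hL0 : 0 < L := by positivity
  have hL : Real.exp (-L ^ 2 / 8) ≤ b := by
    rw [neg_div]
    refine exp_neg_le_of hb ?_
    have e1 : b * (L ^ 2 / 8) = 9 / 8 / b := by rw [hLd]; field_simp; norm_num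
    rw [e1, le_div_iff₀ hb]; linarith
  obtain ⟨ε, hε, hε1, hεC⟩ := exists_small
    (L ^ 2 * (1 + 2 * D) * (2 * (L * (2 * R / b)) + (L ^ 2 + 1) * (6 / (γ * b ^ 2))))
    (mul_pos hb ho)
  refine ⟨ε, L * (2 * R / b), 2 * (2 * R / b) ^ 2, hε, by positivity, by positivity,
    fun m T H e h hE he hA x x' hx hx' g1 g2 ⟨q, P, hq, hP⟩ ⟨q', P', hq', hP'⟩ => ?_⟩
  have := h.fin
  have hD := hE.nonneg
  by_contra hc
  push Not at hc
  set d := ‖x' - x‖ with hd
  have hd0 : 0 < d := by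
    refine (norm_nonneg _).lt_of_ne fun h0 => ?_
    rw [norm_eq_zero.1 h0.symm] at hc hd
    simp [hd] at hc
  have hdR : d ≤ 2 * R := (norm_sub_le _ _).trans (by linarith)
  have ha : d / b ≤ 2 * R / b := by gcongr
  have hs : 0 < γ * b * d / 6 := by positivity
  have hsa : γ * b * d / 6 ≤ d / b := by
    have h1 := mul_le_one₀ hγ1 hb.le hb1
    have h2 : d ≤ d / b := le_div_self hd0.le hb hb1
    nlinarith
  have hr := mul_le_mul_of_nonneg_left ha hL0.le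
  have l1 := low h hE he hb.le hL hL0 hs hsa hε hε1 g1 hr hq hP
  have l2 := low h hE he hb.le hL hL0 hs hsa hε hε1 g2 hr hq' hP'
  have e1 : d / b / (γ * b * d / 6) = 6 / (γ * b ^ 2) := by field_simp
  have l3 : ε * L ^ 2 * (1 + 2 * D) * (2 * (L * (d / b)) + (L ^ 2 + 1) * (d / b / (γ * b * d / 6)))
      ≤ b * om0 := by
    rw [e1]
    refine le_trans ?_ hεC
    rw [mul_assoc, mul_assoc, ← mul_assoc (L ^ 2)]
    gcongr
  have hi : ∀ y : E3, Integrable (fun z => KK b e (γ * b * d / 6) (d / b) (z - y)) m := fun y =>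
    integrable_cpt ((continuous_KK b e _ _).comp (by fun_prop)) (x := y) (r := L * (d / b))
      fun z hz => by
        simp [KK, (zero_of_far (Or.inl he) hL hL0.le hs (by positivity) hsa le_rfl hz).1]
  have hσ : 0 < (1 + b) * (d / b) ^ 2 := by positivity
  have l4 := integral_mono ((hi x).add (hi x')) ((hE.int x _ hσ).const_mul ((1 + b) ^ 3))
    (two_pt he hb hb1 hγ hγ1 hd0 rfl hc.le)
  simp only [Pi.add_apply] at l4
  rw [integral_add (hi x) (hi x'), integral_const_mul] at l4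
  have l5 := hA x _ hx hσ (mul_le_mul (by linarith) (pow_le_pow_left₀ (by positivity) ha 2)
    (by positivity) (by norm_num))
  have l6 := mul_le_mul_of_nonneg_left l5 (by positivity : 0 ≤ (1 + b) ^ 3)
  have l7 := mul_lt_mul_of_pos_right hbθ ho
  unfold GA at l6
  nlinarith

/-- **Static integrality.** -/
theorem int_static (D : ℝ) {θ η : ℝ} (hθ : θ < 2) (hη : 0 < η) : ∃ δ R Λ : ℝ, 0 < δ ∧ 0 < R ∧
    0 < Λ ∧ ∀ (m : Measure E3) T H (e : E3), MC 2 m T H → IsItg m → Ent m D → ‖e‖ = 1 →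
      (∀ y σ, ‖y‖ ≤ R → 0 < σ → σ ≤ Λ → GA m y σ ≤ θ * om0) →
      ∫ z in closedBall 0 R, gg T H e z ∂m ≤ δ → GA m 0 1 ≤ (1 + η) * om0 := by
  have ho := om0_pos
  obtain ⟨γ, hγ, hγ1, hγη⟩ : ∃ γ : ℝ, 0 < γ ∧ γ < 1 ∧ om0 / (1 - γ ^ 2) ≤ (1 + η / 3) * om0 := by
    have h1 : ∀ᶠ γ : ℝ in 𝓝 0, om0 / (1 - γ ^ 2) < (1 + η / 3) * om0 :=
      ContinuousAt.eventually_lt (by fun_prop (disch := norm_num)) (by fun_prop)
        (by have : 0 < η / 3 * om0 := by positivity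
            simp only [ne_eq, OfNat.ofNat_ne_zero, not_false_eq_true, zero_pow, sub_zero, div_one]
            linarith)
    obtain ⟨b, h2, h3⟩ := ((h1.filter_mono nhdsWithin_le_nhds).and
      (Ioo_mem_nhdsGT (zero_lt_one' ℝ))).exists
    exact ⟨b, h3.1, h3.2, h2.le⟩
  obtain ⟨R, hR, hRη⟩ : ∃ R : ℝ, 0 < R ∧ 2 * Real.exp (-R ^ 2 / (8 * 1)) * D ≤ η / 3 * om0 := by
    have h1 : Tendsto (fun R : ℝ => 2 * Real.exp (-R ^ 2 / (8 * 1)) * D) atTop (𝓝 (2 * 0 * D)) :=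
      ((Real.tendsto_exp_atBot.comp ((tendsto_neg_atTop_atBot.comp
        (tendsto_pow_atTop two_ne_zero)).atBot_div_const (by norm_num))).const_mul 2).mul_const D
    obtain ⟨R, h2, h3⟩ := ((h1.eventually (gt_mem_nhds (by
      simp only [mul_zero, zero_mul]; positivity : _ < η / 3 * om0))).and
      (eventually_gt_atTop 0)).exists
    exact ⟨R, h3, h2.le⟩
  obtain ⟨ε, r₀, Λ, hε, hr₀, hΛ, hl⟩ := lip D R hθ hγ hγ1.le hR
  obtain ⟨δ, hδ, -, hδC⟩ := exists_small (25 * (2 * D) / ε ^ 2) (by positivity : 0 < η / 3 * om0)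
  refine ⟨δ, R + r₀, Λ, hδ, by positivity, hΛ, fun m T H e h ⟨q, hq, hq1⟩ hE he hA hg => ?_⟩
  have := h.fin
  have hD := hE.nonneg
  have hA' : ∀ y σ, ‖y‖ ≤ R → 0 < σ → σ ≤ Λ → GA m y σ ≤ θ * om0 := fun y σ h1 =>
    hA y σ (by linarith)
  have hτ : ∀ (y : E3) (r : ℝ), m.withDensity (fun z => ENNReal.ofReal (gg T H e z))
      (closedBall y r) = ENNReal.ofReal (∫ z in closedBall y r, gg T H e z ∂m) := fun y r => by
    rw [withDensity_apply _ measurableSet_closedBall, ofReal_integral_eq_lintegral_ofReal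
      (integrableOn_gg h e (isCompact_closedBall y r)) (Eventually.of_forall (gg_nonneg T H e))]
  obtain ⟨W, hW, hW1, hW2⟩ := maximal m (m.withDensity fun z => ENNReal.ofReal (gg T H e z))
    (C := 2 * D) (by positivity) (fun y r hr => by
      rw [← ofReal_measureReal (isCompact_closedBall y r).measure_lt_top.ne]
      refine ENNReal.ofReal_le_ofReal ((hE.ball_le y hr).trans ?_)
      have := exp_quarter_le
      rw [mul_right_comm]; gcongr) R r₀ hε
  obtain ⟨Z, hZ1, hZ, hZ0⟩ := exists_measurable_superset_of_null (ae_iff.1 hq)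
  set B := ball (0 : E3) R \ (W ∪ Z) with hB
  have hBm : MeasurableSet B := measurableSet_ball.diff (hW.union hZ)
  have hB1 : ∀ x ∈ B, ‖x‖ ≤ R ∧ Good m (gg T H e) ε r₀ x ∧ 1 ≤ q x ∧
      ∃ P, IsApproxTangent 2 m x (q x) P := fun x hx => by
    refine ⟨(mem_ball_zero_iff.1 hx.1).le, fun r h1 h2 => ?_, ?_⟩
    · have h3 := hW2 x hx.1 (fun h => hx.2 (Or.inl h)) r h1 h2
      rwa [hτ, ENNReal.ofReal_le_ofReal_iff (by positivity)] at h3
    · by_contra h3
      exact hx.2 (Or.inr (hZ1 h3))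
  have hB2 : ∀ x ∈ B, q x ≤ 1 := fun x hx => by
    obtain ⟨h1, -, -, P, hP⟩ := hB1 x hx
    have h2 := hE.mult_le hP (B := θ * om0) (by
      filter_upwards [Ioc_mem_nhdsGT hΛ] with σ hσ using hA' x σ h1 hσ.1 hσ.2)
    have h3 : (q x : ℝ) < 2 := (le_of_mul_le_mul_right h2 ho).trans_lt hθ
    have h4 : q x < 2 := by exact_mod_cast h3
    omega
  have hB3 : m.restrict B ≤ (μH[2] : Measure E3).restrict B := Measure.le_iff.2 fun A hA => by
    rw [Measure.restrict_apply hA, Measure.restrict_apply hA]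
    exact hq1 _ (hA.inter hBm) fun x hx => hB2 x hx.2
  have h1 := (lintegral_mono' hB3 le_rfl).trans (lip_bound he hγ.le hγ1 (A := B)
    (fun y hy y' hy' => by
      obtain ⟨a1, a2, a3, P, a4⟩ := hB1 y hy
      obtain ⟨b1, b2, b3, P', b4⟩ := hB1 y' hy'
      exact hl m T H e h hE he hA' y' y b1 a1 b2 a2 ⟨_, _, b3, b4⟩ ⟨_, _, a3, a4⟩) 0 one_pos)
  have h2 : ∫⁻ y in W ∪ Z, ENNReal.ofReal (gk0 1 (y - 0)) ∂m ≤ ENNReal.ofReal (η / 3 * om0) := by
    refine (lintegral_mono (g := fun _ => 1) fun y => ?_).trans ?_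
    · exact ENNReal.ofReal_le_one.2 (by simpa using gk0_le_inv one_pos (y - 0))
    rw [setLIntegral_one]
    refine (measure_union_le _ _).trans ?_
    rw [hZ0, add_zero]
    refine hW1.trans ?_
    rw [hτ, ← ENNReal.ofReal_mul (by positivity)]
    refine ENNReal.ofReal_le_ofReal (le_trans ?_ hδC)
    rw [mul_comm δ]; gcongr
  have h3 : ∫ y in ball (0 : E3) R, gk0 1 (y - 0) ∂m ≤ om0 / (1 - γ ^ 2) + η / 3 * om0 := by
    have h4 : 0 < 1 - γ ^ 2 := by nlinarith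
    rw [integral_eq_lintegral_of_nonneg_ae (Eventually.of_forall fun y => (gk0_pos one_pos _).le)
      (continuous_gk0' 1 0).aestronglyMeasurable]
    refine ENNReal.toReal_le_of_le_ofReal (by positivity) ?_
    rw [ENNReal.ofReal_add (by positivity) (by positivity)]
    refine le_trans ((lintegral_mono_set (t := B ∪ (W ∪ Z)) fun y hy => ?_).trans
      (lintegral_union_le _ _ _)) (add_le_add h1 h2)
    by_cases h5 : y ∈ W ∪ Z
    · exact Or.inr h5
    · exact Or.inl ⟨hy, h5⟩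
  have h4 := hE.GA_le_ball 0 hR.le one_pos
  linarith

end Vale.Agent.P218G.Itg
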