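import Vale.Agent.P218G.Int1
import Vale.Agent.P218G.GBlow

/-! Integrality: a limit flow which is carried by a plane and has entropy below two has density
at most one. -/

open MeasureTheory Set Filter Topology Metric
open scoped ENNReal NNReal RealInnerProductSpace ContDiff

namespace Vale.Agent.P218G.Itg

open Vale.Agent.P218 Vale.Agent.P218.H313 Vale.Agent.P218.H313.A1 Vale.Agent.P218G.Lit
  Vale.Agent.P218G.Rg Vale.Agent.P218G.GL
open Vale.Agent.P218.H552 (MC NN yy GG JJ trace_comp_smulRight)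
open Vale.Agent.P214 (IntegralVarifold IsApproxTangent weightOf proj divAlong)
open Vale.Agent.P218FT (E3 pt pt_apply)

lemma isItg_weight (V : IntegralVarifold 2 (univ : Set E3)) : IsItg V.weight := by
  refine ⟨V.mult, ?_, fun B hB h => ?_⟩
  · have h2 : V.weight ≪ (μH[((2 : ℕ) : ℝ)] : Measure E3).restrict V.carrier :=
      withDensity_absolutelyContinuous _ _
    filter_upwards [h2.ae_le (ae_restrict_mem₀ V.carrier_meas), V.tangent_spec] with x h1 h3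
    exact ⟨V.mult_pos x h1, _, h3⟩
  · simpa using lintegral_le_of_mult V MeasurableSet.univ hB
      (Eventually.of_forall fun x hx => ⟨h x hx, mem_univ x⟩) (f := fun _ => 1) measurable_const

lemma IsItg.dil {m : Measure E3} (h : IsItg m) {lam : ℝ} (hl : 0 < lam) (x₀ : E3) :
    IsItg (dil 2 lam x₀ m) := by
  obtain ⟨q, h1, h2⟩ := h
  refine ⟨fun y => q (xx lam x₀ y), ae_dil hl x₀ ?_, fun B hB h => ?_⟩
  · filter_upwards [h1] with x ⟨hx, P, hP⟩
    rw [xx_yy hl]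
    refine ⟨hx, P, hP.1, fun f hf hc => ?_⟩
    have h3 : Tendsto (fun r : ℝ => r / lam) (𝓝[>] 0) (𝓝[>] 0) := by
      refine tendsto_nhdsWithin_iff.2 ⟨?_, ?_⟩
      · exact ((continuous_id.div_const lam).tendsto' 0 0 (by simp)).mono_left nhdsWithin_le_nhds
      · filter_upwards [self_mem_nhdsWithin] with r hr using div_pos (mem_Ioi.1 hr) hl
    refine ((hP.2 f hf hc).comp h3).congr' ?_
    filter_upwards [self_mem_nhdsWithin] with r hr
    have hr : 0 < r := hr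
    have e : ∀ x' : E3, (r / lam)⁻¹ • (x' - x) = r⁻¹ • (yy lam x₀ x' - yy lam x₀ x) := fun x' => by
      unfold yy
      rw [← smul_sub, sub_sub_sub_cancel_right, smul_smul]
      congr 1
      field_simp
    simp only [Function.comp, e]
    rw [integral_dil hl, div_pow]
    field_simp
  · have hL : LipschitzWith (Real.toNNReal lam⁻¹) (xx lam x₀) :=
      LipschitzWith.of_dist_le_mul fun y y' => by
        rw [dist_eq_norm, dist_eq_norm, xx, xx, add_sub_add_left_eq_sub, ← smul_sub, norm_smul,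
          Real.coe_toNNReal _ (by positivity), Real.norm_of_nonneg (by positivity)]
    have h3 : (fun x => lam • (x - x₀)) ⁻¹' B ⊆ xx lam x₀ '' B := fun x hx =>
      ⟨_, hx, xx_yy hl x₀ x⟩
    have h4 := h2 _ ((emb_yy hl x₀).measurable hB) fun x hx => by
      have : q (xx lam x₀ (yy lam x₀ x)) ≤ 1 := h _ hx
      rwa [xx_yy hl] at this
    have h5 := (h4.trans (measure_mono h3)).trans (hL.hausdorffMeasure_image_le zero_le_two B)
    rw [A1.dil, Measure.smul_apply, (emb_yy hl x₀).map_apply, smul_eq_mul]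
    refine (mul_le_mul_right h5 _).trans (le_of_eq ?_)
    rw [← mul_assoc, ENNReal.rpow_two, ← ENNReal.ofReal, ← ENNReal.ofReal_pow (by positivity),
      ← ENNReal.ofReal_mul (by positivity), ← mul_pow, mul_inv_cancel₀ hl.ne']
    simp

lemma ae_isItg {μ : ℝ → Measure E3} (h : IsIntegralBrakkeFlow 2 μ) :
    ∀ᵐ t : ℝ, 0 ≤ t → IsItg (μ t) := by
  obtain ⟨-, V, H, h2, -, -⟩ := h
  filter_upwards [h2] with t ht ht0
  rw [← (ht ht0).1]
  exact isItg_weight _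

/-- the rescaled flow, with an explicit initial time -/
theorem exists_RF' {μ : ℝ → Measure E3} (hμ : IsIntegralBrakkeFlow 2 μ) (h0 : μ 0 univ < ⊤)
    (x₀ : E3) {t₀ s₀ : ℝ} (ht : 0 < t₀) (hs₀ : Real.exp (-s₀) ≤ t₀ / 2) :
    ∃ (T : ℝ → E3 → Submodule ℝ E3) (H : ℝ → E3 → E3),
      RF 2 (fun s => NN 2 μ x₀ t₀ (s / 2)) T H s₀ ∧
        ∀ᵐ s : ℝ, s₀ ≤ s → IsItg (NN 2 μ x₀ t₀ (s / 2)) := by
  obtain ⟨T, H, hB, hS⟩ := exists_BF_slice hμ
  have hti : ∀ s, s₀ ≤ s → t₀ / 2 ≤ ti t₀ s := fun s hs => by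
    have h2 : Real.exp (-s) ≤ Real.exp (-s₀) := Real.exp_le_exp.2 (by linarith)
    unfold ti
    linarith
  have htau : ∀ s, s₀ ≤ s → H552.tau0 t₀ ≤ s / 2 := fun s hs => by
    have h1 : -s₀ ≤ Real.log t₀ := (Real.le_log_iff_exp_le ht).2 (by linarith)
    unfold H552.tau0
    linarith
  refine ⟨fun s y => T (ti t₀ s) (xx (Real.exp (s / 2)) x₀ y),
    fun s y => (Real.exp (s / 2))⁻¹ • H (ti t₀ s) (xx (Real.exp (s / 2)) x₀ y), ?_, ?_⟩
  swap
  · filter_upwards [ae_time t₀ (ae_isItg hμ)] with s hs hs0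
    rw [NN_half]
    exact (hs (by linarith [hti s hs0])).dil (Real.exp_pos (s / 2)) x₀
  constructor
  · intro s hs
    exact H552.NN_finite hB h0 x₀ ht (htau s hs)
  · refine ⟨√2 ^ 2 * ((√t₀)⁻¹ ^ 2 * (μ 0).real univ), fun s hs => ?_⟩
    have h1 := H552.gauss_bound hB h0 x₀ ht (k := 2) (by norm_num) (htau s hs)
    have e : ∀ y : E3, Real.exp (-‖y‖ ^ 2 / (4 * 2)) = Real.exp (-‖y‖ ^ 2 / 8) := by
      intro y; norm_num
    simp only [e] at h1
    exact h1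
  · refine ⟨_, fun s hs x r hr _ => ratio_bound hB h0 x₀ ht (hti s hs) x hr⟩
  · filter_upwards [ae_time t₀ hS] with s hs hs0
    rw [NN_half]
    exact slice_dil (hs (by linarith [hti s hs0])) (Real.exp_pos (s / 2)) x₀
  · intro f hf hfc hf0 a b ha hab
    have hmono := (ti_strictMono t₀).monotone hab
    obtain ⟨h1, h2⟩ := hB.weighted x₀ hf hfc hf0 (a := ti t₀ a) (b := ti t₀ b)
      (by linarith [hti a ha]) hmono (ti_lt _ _)
    have e1 : (fun s => LL (NN 2 μ x₀ t₀ (s / 2))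
        (fun y => T (ti t₀ s) (xx (Real.exp (s / 2)) x₀ y))
        (fun y => (Real.exp (s / 2))⁻¹ • H (ti t₀ s) (xx (Real.exp (s / 2)) x₀ y)) f)
        = fun s => Real.exp (-s) * GG 2 μ T H x₀ t₀ f (ti t₀ s) := by
      ext s; exact LL_dil x₀ t₀ s f
    have e2 : ∀ s, ∫ x, f x * rho x ∂(NN 2 μ x₀ t₀ (s / 2)) = JJ 2 μ x₀ t₀ f (ti t₀ s) := by
      intro s
      rw [← tim_half, H552.JJ_tim _ _ _ _ (Real.exp_pos _)]
      rfl
    refine ⟨?_, ?_⟩
    · rw [e1]; exact intervalIntegrable_time t₀ hab h1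
    · rw [e2, e2, e1]
      rw [integral_time t₀ hab] at h2
      exact h2

lemma gk0_one (z : E3) : gk0 1 (z - 0) = rho z := by simp [gk0, rho]

variable {m : Measure E3} {T : E3 → Submodule ℝ E3} {H : E3 → E3} {e : E3}

lemma int_tilt (h : GSlice 2 m T H) (he : ‖e‖ = 1) :
    Integrable (fun z => ‖proj (T z) e‖ ^ 2 * rho z) m :=
  h.integrable_PB ((h.toSlice.proj_apply_meas aestronglyMeasurable_const).norm.pow 2)
    (PB.of_bound (C := 1) fun z => by
      rw [Real.norm_of_nonneg (by positivity)]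
      refine pow_le_one₀ (norm_nonneg _) (((proj (T z)).le_opNorm e).trans ?_)
      rw [he, mul_one]; exact H552.norm_proj_le _)

lemma int_height (h : GSlice 2 m T H) (e : E3) : Integrable (fun z => ⟪e, z⟫ ^ 2 * rho z) m :=
  h.integrable_PB (by fun_prop : Continuous fun z : E3 => ⟪e, z⟫ ^ 2).aestronglyMeasurable
    (((PB.const e).inner' PB.id').pow 2)

lemma int_vel (h : GSlice 2 m T H) : Integrable (fun z => ‖vel T H z‖ ^ 2 * rho z) m := by
  simpa using h.vsq 0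

lemma GQ_eq (m : Measure E3) (e : E3) : GQ m 0 1 0 e = ∫ z, ⟪e, z⟫ ^ 2 * rho z ∂m := by
  simp only [GQ, gk0_one]
  simp only [zero_add, sub_zero]

/-- the tilt is bounded by the height and the dissipation -/
lemma tilt_le (h : GSlice 2 m T H) (he : ‖e‖ = 1) :
    ∫ z, ‖proj (T z) e‖ ^ 2 * rho z ∂m ≤ GQ m 0 1 0 e + dis m T H / 2 := by
  set A : E3 →L[ℝ] E3 := (innerSL ℝ e).smulRight e with hA
  have hX : ∀ x, A x = ⟪e, x⟫ • e := fun x => rfl
  have hb : PB (A : E3 → E3) := ((PB.const e).inner' PB.id').smul (PB.const e)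
  have h1 := h.wfv (X := A) A.contDiff hb (by
    rw [show fderiv ℝ (A : E3 → E3) = fun _ => A from funext fun x => A.fderiv]
    exact PB.const A)
  have e1 : ∀ x, (divAlong (T x) A x - 1 / 2 * ⟪x, A x⟫) * rho x =
      ‖proj (T x) e‖ ^ 2 * rho x - 1 / 2 * (⟪e, x⟫ ^ 2 * rho x) := fun x => by
    have h6 := H552.inner_proj_of_mem_orthogonal (T x) e _ (H552.sub_proj_mem (T x) e)
    rw [inner_sub_right, real_inner_self_eq_norm_sq, real_inner_comm] at h6
    rw [divAlong, A.fderiv, hA, trace_comp_smulRight, innerSL_apply_apply, ← hA, hX,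
      real_inner_smul_right, real_inner_comm e x, sub_eq_zero.1 h6]
    ring
  simp only [e1] at h1
  rw [integral_sub (int_tilt h he) ((int_height h e).const_mul _), integral_const_mul,
    ← integral_neg] at h1
  have h2 := integral_mono (h.integrable_inner_vel A.continuous.aestronglyMeasurable hb).neg
    (((int_height h e).const_mul (1 / 2)).add ((int_vel h).const_mul (1 / 2))) fun x => by
      have h3 : ‖A x‖ ^ 2 = ⟪e, x⟫ ^ 2 := by rw [hX, norm_smul, he, mul_one, Real.norm_eq_abs, sq_abs]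
      have h4 := abs_real_inner_le_norm (A x) (vel T H x)
      have h5 : -⟪A x, vel T H x⟫ ≤ 1 / 2 * ⟪e, x⟫ ^ 2 + 1 / 2 * ‖vel T H x‖ ^ 2 := by
        nlinarith [neg_abs_le ⟪A x, vel T H x⟫, sq_nonneg (‖A x‖ - ‖vel T H x‖)]
      have h6 := mul_le_mul_of_nonneg_right h5 (rho_pos x).le
      simp only [Pi.neg_apply, Pi.add_apply]
      linarith
  simp only [Pi.neg_apply, Pi.add_apply] at h2
  rw [integral_add ((int_height h e).const_mul _) ((int_vel h).const_mul _), integral_const_mul,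
    integral_const_mul] at h2
  rw [GQ_eq, dis]
  linarith

lemma gg_le (he : ‖e‖ = 1) {z : E3} (hP : Module.finrank ℝ (T z) = 2) :
    gg T H e z ≤ 2 * ‖vel T H z‖ ^ 2 + ⟪e, z⟫ ^ 2 + (‖z‖ ^ 2 + 1) * ‖proj (T z) e‖ ^ 2 := by
  obtain ⟨n, hn, -, -, hp⟩ := H63.exists_normal (m := 2) (by simp) hP
  have h1 : ‖z - proj (T z) z‖ = |⟪n, z⟫| := by
    rw [hp, sub_sub_cancel, norm_smul, hn, mul_one, Real.norm_eq_abs]
  have h2 : ‖pt e n‖ ^ 2 = ‖proj (T z) e‖ ^ 2 := by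
    rw [H63.norm_proj_sq hn hp, P218FT.norm_pt_sq he, hn, he, real_inner_comm]
  have h3 : ⟪n, z⟫ = ⟪pt e n, z⟫ + ⟪e, n⟫ * ⟪e, z⟫ := by
    rw [pt_apply, inner_sub_left, real_inner_smul_left]; ring
  have h4 : ⟪pt e n, z⟫ ^ 2 ≤ ‖proj (T z) e‖ ^ 2 * ‖z‖ ^ 2 := by
    rw [← h2, ← mul_pow, ← sq_abs]
    exact pow_le_pow_left₀ (abs_nonneg _) (abs_real_inner_le_norm _ _) 2
  have h5 : ⟪e, n⟫ ^ 2 ≤ 1 := by
    have := abs_real_inner_le_norm e n
    rw [he, hn, mul_one] at this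
    exact (sq_le_one_iff_abs_le_one _).2 this
  have h6 : (⟪e, n⟫ * ⟪e, z⟫) ^ 2 ≤ ⟪e, z⟫ ^ 2 := by
    rw [mul_pow]; exact mul_le_of_le_one_left (sq_nonneg _) h5
  have h7 : ‖H z‖ ≤ ‖vel T H z‖ + 1 / 2 * |⟪n, z⟫| := by
    have e1 : H z = vel T H z - (1 / 2 : ℝ) • (z - proj (T z) z) := by simp [vel]
    rw [e1]
    refine (norm_sub_le _ _).trans (le_of_eq ?_)
    rw [norm_smul, h1, Real.norm_of_nonneg (by norm_num)]
  have h8 := pow_le_pow_left₀ (norm_nonneg _) h7 2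
  have h9 : |⟪n, z⟫| ^ 2 ≤ 2 * ⟪pt e n, z⟫ ^ 2 + 2 * (⟪e, n⟫ * ⟪e, z⟫) ^ 2 := by
    rw [sq_abs, h3]; nlinarith [sq_nonneg (⟪pt e n, z⟫ - ⟪e, n⟫ * ⟪e, z⟫)]
  unfold gg
  nlinarith [sq_nonneg (‖vel T H z‖ - 1 / 2 * |⟪n, z⟫|)]

lemma int_gg_le (h : GSlice 2 m T H) (he : ‖e‖ = 1) {R δ : ℝ}
    (h1 : GQ m 0 1 0 e ≤ δ) (h2 : dis m T H ≤ 4 * δ) :
    ∫ z in closedBall 0 R, gg T H e z ∂m ≤ δ * (Real.exp (R ^ 2 / 4) * (3 * R ^ 2 + 12)) := by
  have i1 := (((int_vel h).const_mul 2).add (int_height h e)).add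
    ((int_tilt h he).const_mul (R ^ 2 + 1))
  have h3 : ∫ z in closedBall 0 R, gg T H e z ∂m ≤ ∫ z, Real.exp (R ^ 2 / 4) *
      (2 * (‖vel T H z‖ ^ 2 * rho z) + ⟪e, z⟫ ^ 2 * rho z +
        (R ^ 2 + 1) * (‖proj (T z) e‖ ^ 2 * rho z)) ∂m := by
    rw [← integral_indicator measurableSet_closedBall]
    refine integral_mono_ae ((integrableOn_gg h.mc e (isCompact_closedBall 0 R)).integrable_indicator
      measurableSet_closedBall) (i1.const_mul _) (h.mc.dim.mono fun z hz => ?_)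
    have h4 := (rho_pos z).le
    by_cases hzR : z ∈ closedBall (0 : E3) R
    · have h5 := pow_le_pow_left₀ (norm_nonneg _) (mem_closedBall_zero_iff.1 hzR) 2
      have h6 : 1 ≤ Real.exp (R ^ 2 / 4) * rho z := by
        rw [rho, ← Real.exp_add]; exact Real.one_le_exp (by linarith)
      have h7 : gg T H e z ≤
          2 * ‖vel T H z‖ ^ 2 + ⟪e, z⟫ ^ 2 + (R ^ 2 + 1) * ‖proj (T z) e‖ ^ 2 :=
        (gg_le he hz).trans (by gcongr)
      have h8 := mul_le_mul h6 h7 (gg_nonneg T H e z) (by linarith)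
      simp only [indicator_of_mem hzR]
      linarith
    · simp only [indicator_of_notMem hzR]
      positivity
  have i2 : Integrable (fun z => 2 * (‖vel T H z‖ ^ 2 * rho z) + ⟪e, z⟫ ^ 2 * rho z) m :=
    ((int_vel h).const_mul 2).add (int_height h e)
  rw [integral_const_mul, integral_add i2 ((int_tilt h he).const_mul _),
    integral_add ((int_vel h).const_mul 2) (int_height h e), integral_const_mul, integral_const_mul,
    ← GQ_eq] at h3
  have h4 : ∫ z, ‖proj (T z) e‖ ^ 2 * rho z ∂m ≤ 3 * δ := (tilt_le h he).trans (by linarith)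
  have h5 := mul_le_mul_of_nonneg_left h4 (by positivity : 0 ≤ R ^ 2 + 1)
  refine h3.trans ?_
  rw [mul_left_comm]
  refine mul_le_mul_of_nonneg_left ?_ (Real.exp_pos _).le
  unfold dis at h2
  linarith

/-- **Integrality for flows.** -/
theorem int_flow (D : ℝ) {θ η : ℝ} (hθ : θ < 2) (hη : 0 < η) : ∃ δ R Λ : ℝ, 0 < δ ∧ 0 < R ∧
    0 < Λ ∧ ∀ μ : ℝ → Measure E3, IsIntegralBrakkeFlow 2 μ → μ 0 univ < ⊤ →
      ∀ (x₀ : E3) (t₀ lam : ℝ) (e : E3), 0 < lam → 4 / lam ^ 2 ≤ t₀ →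
      GS (rescaled 2 μ x₀ t₀ lam) (-2) D → ‖e‖ = 1 →
      (∀ y σ, ‖y‖ ≤ R → 1 / 2 ≤ σ → σ ≤ Λ → GA (rescaled 2 μ x₀ t₀ lam (-2)) y σ ≤ θ * om0) →
      GQ (rescaled 2 μ x₀ t₀ lam (-2)) 0 2 0 e ≤ δ →
      GA (rescaled 2 μ x₀ t₀ lam (-2)) 0 2 - GA (rescaled 2 μ x₀ t₀ lam (-1)) 0 1 ≤ δ →
      GA (rescaled 2 μ x₀ t₀ lam (-1)) 0 1 ≤ (1 + η) * om0 := by
  obtain ⟨δ₀, R, Λ, hδ₀, hR, hΛ, hS⟩ := int_static D hθ hη
  obtain ⟨δ, hδ, -, hδC⟩ := exists_small (Real.exp (R ^ 2 / 4) * (3 * R ^ 2 + 12)) hδ₀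
  refine ⟨δ, 2 * R, 2 * Λ + 1, hδ, by positivity, by positivity,
    fun μ hμ h0 x₀ t₀ lam e hl ht h he hA hQ hd => ?_⟩
  set N := rescaled 2 μ x₀ t₀ lam with hN
  have hl2 : 0 < lam ^ 2 := by positivity
  have ht0 : 0 < t₀ := lt_of_lt_of_le (by positivity) ht
  set b := Real.log (lam ^ 2) with hb
  have hex : ∀ s, Real.exp (-s) = Real.exp (b - s) / lam ^ 2 := fun s => by
    rw [Real.exp_sub, hb, Real.exp_log hl2, Real.exp_neg]; field_simp
  have h13 : Real.exp (1 / 3) ≤ 3 / 2 :=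
    (Real.exp_bound_div_one_sub_of_interval (x := 1 / 3) (by norm_num) (by norm_num)).trans
      (by norm_num)
  obtain ⟨T, H, hRF, hI⟩ := exists_RF' hμ h0 x₀ ht0 (s₀ := b - 1 / 3) (by
    rw [hex, sub_sub_cancel]
    have : Real.exp (1 / 3) / lam ^ 2 ≤ 2 / lam ^ 2 := by gcongr; linarith
    have e1 : 4 / lam ^ 2 = 2 * (2 / lam ^ 2) := by ring
    linarith)
  have hM : ∀ s ∈ Icc (b - 1 / 3) b, ∃ c u : ℝ, 0 < c ∧ c ≤ 1 ∧ c⁻¹ ≤ 2 ∧ 1 ≤ u ∧ u ≤ 3 / 2 ∧
      1 / c ^ 2 = u ∧ (s = b → u = 1) ∧ NN 2 μ x₀ t₀ (s / 2) = A1.dil 2 c 0 (N (-u)) := by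
    intro s hs
    have e1 : Real.exp (s / 2) = Real.exp ((s - b) / 2) * lam := by
      refine (pow_left_inj₀ (by positivity) (by positivity) two_ne_zero).1 ?_
      rw [mul_pow, ← Real.exp_nat_mul, ← Real.exp_nat_mul, ← Real.exp_log hl2, ← Real.exp_add]
      congr 1; push_cast; ring
    have e2 : 1 / Real.exp ((s - b) / 2) ^ 2 = Real.exp (b - s) := by
      rw [← Real.exp_nat_mul, one_div, ← Real.exp_neg]; congr 1; push_cast; ring
    refine ⟨_, Real.exp (b - s), Real.exp_pos ((s - b) / 2),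
      Real.exp_le_one_iff.2 (by linarith [hs.2]), ?_, Real.one_le_exp (by linarith [hs.2]),
      (Real.exp_le_exp.2 (by linarith [hs.1])).trans h13, e2, fun h => by simp [h], ?_⟩
    · rw [← Real.exp_neg]
      exact ((Real.exp_le_exp.2 (by linarith [hs.1])).trans h13).trans (by norm_num)
    · rw [NN, e1, rescaled_mul (Real.exp_pos _) hl, neg_div, e2]
  have hG : ∀ s ∈ Icc (b - 1 / 3) b, GA (N (-1)) 0 1 ≤ GA (NN 2 μ x₀ t₀ (s / 2)) 0 1 ∧
      GA (NN 2 μ x₀ t₀ (s / 2)) 0 1 ≤ GA (N (-2)) 0 2 ∧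
      (s = b → GA (NN 2 μ x₀ t₀ (s / 2)) 0 1 = GA (N (-1)) 0 1) := fun s hs => by
    obtain ⟨c, u, h1, -, -, h2, h3, h4, h5, h6⟩ := hM s hs
    rw [h6, GA_dil h1, h4, smul_zero, add_zero]
    refine ⟨?_, ?_, fun h => by rw [h5 h]⟩
    · simpa using h.mono1 0 (t := 0) (s := -u) (s' := -1) (by linarith) (by linarith) (by norm_num)
    · simpa using h.mono1 0 (t := 0) (s := -2) (s' := -u) le_rfl (by linarith) (by linarith)
  obtain ⟨i1, i2⟩ := hRF.ineq_poly (f := fun _ => 1) contDiff_const (PB.const 1)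
    (PB.of_bound (C := 0) fun x => by simp) (fun _ => zero_le_one) le_rfl
    (by linarith : b - 1 / 3 ≤ b)
  have e1 : ∀ m : Measure E3, ∫ x, 1 * rho x ∂m = GA m 0 1 := fun m => by
    simp only [GA, gk0_one, one_mul]
  have e2 : ∀ (m : Measure E3) T H, LL m T H (fun _ => 1) = -dis m T H := fun m T H => by
    simp [LL, dis, integral_neg]
  simp only [e1, e2] at i1 i2
  obtain ⟨s, hs, g1, g2, g3⟩ : ∃ s ∈ Icc (b - 1 / 3) b, GSlice 2 (NN 2 μ x₀ t₀ (s / 2)) (T s) (H s)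
      ∧ IsItg (NN 2 μ x₀ t₀ (s / 2)) ∧ dis (NN 2 μ x₀ t₀ (s / 2)) (T s) (H s) ≤ 4 * δ := by
    by_contra hc
    push Not at hc
    have h1 := intervalIntegral.integral_mono_ae_restrict (by linarith : b - 1 / 3 ≤ b) i1
      (g := fun _ => -(4 * δ)) intervalIntegrable_const (by
        refine (ae_restrict_iff' measurableSet_Icc).2 ?_
        filter_upwards [hRF.gslice, hI] with s h1 h2 h3
        exact neg_le_neg (hc s h3 (h1 h3.1) (h2 h3.1)).le)
    have h2 := (hG b ⟨by linarith, le_rfl⟩).2.2 rfl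
    have h3 := (hG (b - 1 / 3) ⟨le_rfl, by linarith⟩).2.1
    rw [intervalIntegral.integral_const, smul_eq_mul] at h1
    linarith
  refine (hG s hs).1.trans ?_
  obtain ⟨c, u, h1, h1', h1'', h2, h3, h4, -, h6⟩ := hM s hs
  have e3 : ∀ σ : ℝ, σ / c ^ 2 = σ * u := fun σ => by rw [← h4]; ring
  refine hS _ _ _ e g1.mc g2 (h6 ▸ (h.ent _ (by linarith)).dil h1 0) he (fun y σ k1 k2 k3 => ?_)
    ((int_gg_le g1 he ?_ g3).trans hδC)
  · rw [h6, GA_dil h1, e3, zero_add]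
    have k4 := h.mono1 (c⁻¹ • y) (t := -u + σ * u) (s := -2) (s' := -u) le_rfl (by linarith)
      (by nlinarith)
    rw [add_sub_cancel_left] at k4
    refine k4.trans (hA _ _ ?_ (by nlinarith) (by nlinarith))
    rw [norm_smul, Real.norm_of_nonneg (by positivity)]
    gcongr
  · rw [h6, GQ_dil h1, h4, smul_zero, add_zero]
    have k4 := h.mono 0 0 0 (c • e) (-2) (-u) le_rfl (by linarith) (by linarith)
    have k5 : GQ (N (-2)) 0 2 0 (c • e) = c ^ 2 * GQ (N (-2)) 0 2 0 e := by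
      simp only [GQ, ← integral_const_mul, real_inner_smul_left, zero_add, mul_pow, mul_assoc]
    have k6 := mul_le_of_le_one_left (GQ_nonneg (N (-2)) 0 zero_le_two 0 e) (pow_le_one₀ h1.le h1'
      (n := 2))
    simp only [zero_sub, neg_neg] at k4
    linarith

/-- **Integrality for limit flows**: a limit flow which is carried by a plane through the origin,
has entropy below two and a constant density ratio at the origin has density at most one. -/
theorem int_lim {μ ν : ℝ → Measure E3} {a D t₀ θ : ℝ} {x₀ : E3} (hμ : IsIntegralBrakkeFlow 2 μ)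
    (h0 : μ 0 univ < ⊤) (h : GS μ a D) (ht : a < t₀) (ht₀ : 0 < t₀) (hb : Lim μ x₀ t₀ ν)
    (he : ‖e‖ = 1) (hQ : GQ (ν (-2)) 0 2 0 e = 0) (hθ : θ < 2 * om0)
    (hE : ∀ y σ, 0 < σ → GA (ν (-2)) y σ ≤ θ) (hc : GA (ν (-2)) 0 2 ≤ GA (ν (-1)) 0 1) :
    GA (ν (-1)) 0 1 ≤ om0 := by
  obtain ⟨ι, U, x, t, lam, hb⟩ := hb
  have ho := om0_pos
  refine le_of_forall_pos_le_add fun η hη => ?_
  obtain ⟨δ, R, Λ, hδ, hR, hΛ, hF⟩ := int_flow D (θ := (θ / om0 + 2) / 2) (η := η / om0)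
    (by have := (div_lt_iff₀ ho).2 hθ; linarith) (by positivity)
  have e1 : (1 + η / om0) * om0 = om0 + η := by field_simp
  have e2 : (θ / om0 + 2) / 2 * om0 = θ + (2 * om0 - θ) / 2 := by field_simp; ring
  have l1 := (hb.lim (-1)).GA (hb.ev' h ht _) (hb.ent h ht _) 0 one_pos
  have l2 := (hb.lim (-2)).GA (hb.ev' h ht _) (hb.ent h ht _) 0 two_pos
  have l3 := (hb.lim (-2)).GQ (hb.ev' h ht _) (hb.ent h ht _) 0 two_pos 0 e
  rw [← e1]
  refine le_of_tendsto l1 ?_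
  filter_upwards [ev_start hb.top hb.ht ht₀ (-4), hb.ev h ht (-2),
    unif_proof ι U _ _ D (hb.ev' h ht _) (hb.ent h ht _) (hb.lim (-2)).c1 R (1 / 2) Λ
      ((2 * om0 - θ) / 2) (by norm_num) (by linarith),
    l3.eventually (ge_mem_nhds (hQ ▸ hδ)),
    (l2.sub l1).eventually (ge_mem_nhds (by linarith : _ < δ))] with i k1 k2 k3 k4 k5
  refine hF μ hμ h0 _ _ _ e k1.1 ?_ k2 he (fun y σ j1 j2 j3 => ?_) k4 k5
  · rw [div_le_iff₀ (pow_pos k1.1 2)]; linarith [k1.2]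
  · rw [e2]
    linarith [(abs_le.1 (k3 y σ j1 j2 j3)).2, hE y σ (by linarith)]

end Vale.Agent.P218G.Itg
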