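import Vale.Agent.P218G.RegSpec
import Vale.Agent.P218.H313.A1
import Vale.Agent.P218FT.Scale

/-! Basic facts on Gaussian integrals and Gaussian systems. -/

open MeasureTheory Set Filter Topology Metric
open scoped ENNReal NNReal RealInnerProductSpace ContDiff

namespace Vale.Agent.P218G.Rg

open Vale.Agent.P218 Vale.Agent.P218.H313 Vale.Agent.P218G.Lit
open Vale.Agent.P218FT (E3 scaleSet scaleFlow)

/-! ### The kernel -/

lemma gk0_pos {σ : ℝ} (h : 0 < σ) (z : E3) : 0 < gk0 σ z := by unfold gk0; positivity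

lemma gk0_nonneg {σ : ℝ} (h : 0 ≤ σ) (z : E3) : 0 ≤ gk0 σ z := by unfold gk0; positivity

lemma continuous_gk0 (σ : ℝ) : Continuous (gk0 σ) := by unfold gk0; fun_prop

lemma continuous_gk0' (σ : ℝ) (y : E3) : Continuous fun x : E3 => gk0 σ (x - y) :=
  (continuous_gk0 σ).comp (by fun_prop)

lemma gk0_le_inv {σ : ℝ} (h : 0 < σ) (z : E3) : gk0 σ z ≤ σ⁻¹ := by
  unfold gk0
  refine mul_le_of_le_one_right (by positivity) (Real.exp_le_one_iff.2 ?_)
  rw [neg_div]; exact neg_nonpos.2 (by positivity)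

lemma gk0_smul {lam : ℝ} (hl : 0 < lam) (σ : ℝ) (z : E3) :
    lam ^ 2 * gk0 σ (lam • z) = gk0 (σ / lam ^ 2) z := by
  unfold gk0
  rw [norm_smul, Real.norm_eq_abs, abs_of_pos hl, inv_div, ← mul_assoc, div_eq_mul_inv (lam ^ 2) σ]
  congr 2
  by_cases h : σ = 0
  · simp [h]
  · field_simp

lemma gk0_double {σ : ℝ} (h : 0 < σ) (z : E3) :
    gk0 σ z = 2 * Real.exp (-‖z‖ ^ 2 / (8 * σ)) * gk0 (2 * σ) z := by
  unfold gk0
  have e : -‖z‖ ^ 2 / (4 * σ) = -‖z‖ ^ 2 / (8 * σ) + -‖z‖ ^ 2 / (4 * (2 * σ)) := by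
    field_simp; ring
  rw [e, Real.exp_add]; field_simp

lemma mul_exp_neg_le (w : ℝ) : w * Real.exp (-w) ≤ 1 := by
  have h1 := Real.add_one_le_exp w
  have h2 := Real.exp_pos (-w)
  have h3 : Real.exp w * Real.exp (-w) = 1 := by rw [← Real.exp_add]; simp
  nlinarith

lemma gk0_le_double {σ : ℝ} (h : 0 < σ) (z : E3) : gk0 σ z ≤ 2 * gk0 (2 * σ) z := by
  rw [gk0_double h]
  have h1 : Real.exp (-‖z‖ ^ 2 / (8 * σ)) ≤ 1 :=
    Real.exp_le_one_iff.2 (by rw [neg_div]; exact neg_nonpos.2 (by positivity))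
  have h2 := gk0_pos (by positivity : 0 < 2 * σ) z
  nlinarith

lemma sq_gk0_le {σ : ℝ} (h : 0 < σ) (z : E3) :
    ‖z‖ ^ 2 * gk0 σ z ≤ 16 * σ * gk0 (2 * σ) z := by
  rw [gk0_double h]
  have h1 := mul_exp_neg_le (‖z‖ ^ 2 / (8 * σ))
  rw [← neg_div] at h1
  have h2 := gk0_pos (by positivity : 0 < 2 * σ) z
  have h3 : ‖z‖ ^ 2 * (2 * Real.exp (-‖z‖ ^ 2 / (8 * σ)) * gk0 (2 * σ) z) =
      16 * σ * gk0 (2 * σ) z * (‖z‖ ^ 2 / (8 * σ) * Real.exp (-‖z‖ ^ 2 / (8 * σ))) := by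
    field_simp; ring
  rw [h3]
  exact mul_le_of_le_one_right (by positivity) h1

lemma aff_sq_le (c : ℝ) (v z : E3) : (c + ⟪v, z⟫) ^ 2 ≤ 2 * c ^ 2 + 2 * ‖v‖ ^ 2 * ‖z‖ ^ 2 := by
  have h1 : ⟪v, z⟫ ^ 2 ≤ (‖v‖ * ‖z‖) ^ 2 := by
    rw [← sq_abs]; exact pow_le_pow_left₀ (abs_nonneg _) (abs_real_inner_le_norm v z) 2
  nlinarith [sq_nonneg (c - ⟪v, z⟫)]

lemma aff_gk0_le {σ : ℝ} (h : 0 < σ) (c : ℝ) (v z : E3) :
    (c + ⟪v, z⟫) ^ 2 * gk0 σ z ≤ (4 * c ^ 2 + 32 * ‖v‖ ^ 2 * σ) * gk0 (2 * σ) z := by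
  have h1 := mul_le_mul_of_nonneg_right (aff_sq_le c v z) (gk0_pos h z).le
  have h2 := mul_le_mul_of_nonneg_left (sq_gk0_le h z) (by positivity : 0 ≤ 2 * ‖v‖ ^ 2)
  have h3 := mul_le_mul_of_nonneg_left (gk0_le_double h z) (by positivity : 0 ≤ 2 * c ^ 2)
  nlinarith

/-- change of centre and of scale -/
lemma gk0_shift {s σ : ℝ} (hs : 0 < s) (h : s < σ) (v u : E3) :
    gk0 s (v - u) ≤ σ / s * Real.exp (‖u‖ ^ 2 / (4 * (σ - s))) * gk0 σ v := by
  have hσ : 0 < σ := hs.trans h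
  have hd : 0 < σ - s := by linarith
  unfold gk0
  have h1 : -‖v - u‖ ^ 2 / (4 * s) ≤ ‖u‖ ^ 2 / (4 * (σ - s)) + -‖v‖ ^ 2 / (4 * σ) := by
    have h2 : ‖v‖ ≤ ‖v - u‖ + ‖u‖ := by simpa using norm_add_le (v - u) u
    have h3 : ‖v‖ ^ 2 ≤ (‖v - u‖ + ‖u‖) ^ 2 := pow_le_pow_left₀ (norm_nonneg _) h2 2
    generalize ‖v - u‖ = a at *
    generalize ‖u‖ = b at *
    have h4 : (a + b) ^ 2 / (4 * σ) ≤ a ^ 2 / (4 * s) + b ^ 2 / (4 * (σ - s)) := by
      rw [div_add_div _ _ (by positivity) (by positivity), div_le_div_iff₀ (by positivity)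
        (by positivity)]
      nlinarith [sq_nonneg (a * (σ - s) - b * s), mul_pos hs hd]
    have h5 : ‖v‖ ^ 2 / (4 * σ) ≤ (a + b) ^ 2 / (4 * σ) := by gcongr
    rw [neg_div, neg_div]; linarith
  calc s⁻¹ * Real.exp (-‖v - u‖ ^ 2 / (4 * s))
      ≤ s⁻¹ * Real.exp (‖u‖ ^ 2 / (4 * (σ - s)) + -‖v‖ ^ 2 / (4 * σ)) := by gcongr
    _ = _ := by rw [Real.exp_add]; field_simp

/-! ### Planes -/

lemma integrable_gauss2 :
    Integrable (fun p : EuclideanSpace ℝ (Fin 2) => Real.exp (-‖p‖ ^ 2 / 4)) (μH[2] : Measure _) := by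
  have hH : (μH[2] : Measure (EuclideanSpace ℝ (Fin 2))).IsAddHaarMeasure := by
    simpa using isAddHaar_euc 2
  rw [Measure.isAddLeftInvariant_eq_smul (μH[2] : Measure (EuclideanSpace ℝ (Fin 2))) volume]
  refine Integrable.smul_measure ?_ ENNReal.coe_ne_top
  have h := (GaussianFourier.integrable_cexp_neg_mul_sq_norm_add (V := EuclideanSpace ℝ (Fin 2))
    (b := 1 / 4) (by norm_num) 0 0).norm
  refine h.congr (Eventually.of_forall fun p => ?_)
  simp only [Complex.norm_exp, zero_mul, add_zero]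
  congr 1
  have : (-(1 / 4 : ℂ) * (‖p‖ : ℂ) ^ 2) = ((-‖p‖ ^ 2 / 4 : ℝ) : ℂ) := by push_cast; ring
  rw [this, Complex.ofReal_re]

lemma om0_pos : 0 < om0 := by
  have hH : (μH[2] : Measure (EuclideanSpace ℝ (Fin 2))).IsAddHaarMeasure := by
    simpa using isAddHaar_euc 2
  unfold om0
  refine (integral_pos_iff_support_of_nonneg (fun p => (Real.exp_pos _).le) integrable_gauss2).2 ?_
  have : Function.support (fun p : EuclideanSpace ℝ (Fin 2) => Real.exp (-‖p‖ ^ 2 / 4)) = univ :=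
    eq_univ_of_forall fun p => (Real.exp_pos _).ne'
  rw [this]
  exact isOpen_univ.measure_pos _ univ_nonempty

lemma lintegral_gk0_euc {σ : ℝ} (h : 0 < σ) :
    ∫⁻ p : EuclideanSpace ℝ (Fin 2), ENNReal.ofReal (σ⁻¹ * Real.exp (-‖p‖ ^ 2 / (4 * σ))) ∂μH[2]
      = ENNReal.ofReal om0 := by
  have hH : (μH[2] : Measure (EuclideanSpace ℝ (Fin 2))).IsAddHaarMeasure := by
    simpa using isAddHaar_euc 2
  have hr : 0 < √σ := Real.sqrt_pos.2 h
  have e : ∀ p : EuclideanSpace ℝ (Fin 2),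
      Real.exp (-‖p‖ ^ 2 / (4 * σ)) = Real.exp (-‖(√σ)⁻¹ • p‖ ^ 2 / 4) := by
    intro p
    rw [norm_smul, norm_inv, Real.norm_eq_abs, abs_of_pos hr, mul_pow, inv_pow, Real.sq_sqrt h.le]
    congr 1; field_simp
  simp only [e]
  have hi := (integrable_gauss2.comp_smul (R := (√σ)⁻¹) (inv_ne_zero hr.ne')).const_mul σ⁻¹
  rw [← ofReal_integral_eq_lintegral_ofReal hi (Eventually.of_forall fun p => by positivity),
    integral_const_mul, Measure.integral_comp_inv_smul_of_nonneg _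
      (fun p : EuclideanSpace ℝ (Fin 2) => Real.exp (-‖p‖ ^ 2 / 4)) hr.le,
    finrank_euclideanSpace_fin, Real.sq_sqrt h.le, smul_eq_mul, ← mul_assoc,
    inv_mul_cancel₀ h.ne', one_mul]
  rfl

/-- the Gaussian integral over a plane through the centre -/
lemma lintegral_gk0_plane {T : Submodule ℝ E3} (hT : Module.finrank ℝ T = 2) {σ : ℝ} (h : 0 < σ) :
    ∫⁻ z in (T : Set E3), ENNReal.ofReal (gk0 σ z) ∂μH[2] = ENNReal.ofReal om0 := by
  let b := (stdOrthonormalBasis ℝ T).reindex (finCongr hT)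
  let i : EuclideanSpace ℝ (Fin 2) → E3 := fun p => ((b.repr.symm p : T) : E3)
  have hi : Isometry i := (isometry_subtype_coe).comp b.repr.symm.isometry
  have hrange : range i = (T : Set E3) := by
    ext y
    constructor
    · rintro ⟨p, rfl⟩; exact (b.repr.symm p).2
    · intro hy
      exact ⟨b.repr ⟨y, hy⟩, by simp [i]⟩
  have h1 := hi.map_hausdorffMeasure (d := (2 : ℝ)) (Or.inl (by norm_num))
  rw [← hrange, ← h1, lintegral_map (continuous_gk0 σ).measurable.ennreal_ofReal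
    hi.continuous.measurable, ← lintegral_gk0_euc h]
  refine lintegral_congr fun p => ?_
  have h2 : ‖i p‖ = ‖p‖ := b.repr.symm.norm_map p
  rw [gk0, h2]

/-- **Gaussian integral over a Lipschitz graph.** -/
theorem lip_bound {A : Set E3} {e : E3} (he : ‖e‖ = 1) {L : ℝ} (hL0 : 0 ≤ L) (hL : L < 1)
    (hA : ∀ y ∈ A, ∀ y' ∈ A, |⟪e, y - y'⟫| ≤ L * ‖y - y'‖) (x : E3) {σ : ℝ} (h : 0 < σ) :
    ∫⁻ y in A, ENNReal.ofReal (gk0 σ (y - x)) ∂μH[2] ≤ ENNReal.ofReal (om0 / (1 - L ^ 2)) := by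
  have he0 : e ≠ 0 := by intro h; rw [h, norm_zero] at he; norm_num at he
  set T : Submodule ℝ E3 := (ℝ ∙ e)ᗮ with hT
  have hTd : Module.finrank ℝ T = 2 := by
    have : Fact (Module.finrank ℝ E3 = 2 + 1) := ⟨by simp⟩
    exact Submodule.finrank_orthogonal_span_singleton he0
  have hpos : 0 < 1 - L ^ 2 := by nlinarith
  set K : ℝ := (√(1 - L ^ 2))⁻¹ with hK
  have hs : 0 < √(1 - L ^ 2) := Real.sqrt_pos.2 hpos
  have hKpos : 0 < K := by positivity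
  set q : E3 → E3 := fun y => P218FT.pt e (y - x) with hq
  have hqc : Continuous q := (P218FT.pt e).continuous.comp (by fun_prop)
  have hqT : ∀ y, q y ∈ T := fun y =>
    Submodule.mem_orthogonal_singleton_iff_inner_right.2 (P218FT.inner_pt_nrm he _)
  have hexp : ∀ y ∈ A, ∀ y' ∈ A, dist y y' ≤ K * dist (q y) (q y') := by
    intro y hy y' hy'
    have h4 : q y - q y' = P218FT.pt e (y - y') := by
      simp only [hq]; rw [← map_sub]; congr 1; abel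
    have h6 : (1 - L ^ 2) * ‖y - y'‖ ^ 2 ≤ ‖P218FT.pt e (y - y')‖ ^ 2 := by
      rw [P218FT.norm_pt_sq he]
      have h7 : ⟪e, y - y'⟫ ^ 2 ≤ (L * ‖y - y'‖) ^ 2 := by
        rw [← sq_abs]; exact pow_le_pow_left₀ (abs_nonneg _) (hA y hy y' hy') 2
      nlinarith
    rw [dist_eq_norm, dist_eq_norm, h4, hK, le_inv_mul_iff₀ hs]
    apply le_of_sq_le_sq _ (norm_nonneg _)
    rw [mul_pow, Real.sq_sqrt hpos.le]
    exact h6
  have hmap : ((μH[2] : Measure E3).restrict A).map q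
      ≤ ENNReal.ofReal (K ^ 2) • (μH[2] : Measure E3).restrict T := by
    refine Measure.le_iff.2 fun s hs => ?_
    rw [Measure.map_apply hqc.measurable hs, Measure.restrict_apply (hqc.measurable hs),
      Measure.smul_apply, Measure.restrict_apply hs, smul_eq_mul, inter_comm _ A, inter_comm s]
    have hanti : AntilipschitzWith K.toNNReal (fun y : A => q y) := by
      refine AntilipschitzWith.of_le_mul_dist fun y y' => ?_
      rw [Real.coe_toNNReal _ hKpos.le]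
      exact hexp y y.2 y' y'.2
    have h3 := hanti.hausdorffMeasure_preimage_le (d := (2 : ℝ)) (by norm_num) ((T : Set E3) ∩ s)
    have h4 : (Subtype.val : A → E3) '' ((fun y : A => q y) ⁻¹' ((T : Set E3) ∩ s)) =
        A ∩ q ⁻¹' s := by
      ext y
      constructor
      · rintro ⟨z, hz, rfl⟩
        exact ⟨z.2, hz.2⟩
      · rintro ⟨hyA, hys⟩
        exact ⟨⟨y, hyA⟩, ⟨hqT y, hys⟩, rfl⟩
    rw [← h4, isometry_subtype_coe.hausdorffMeasure_image (Or.inl (by norm_num))]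
    refine h3.trans (le_of_eq ?_)
    congr 1
    rw [ENNReal.rpow_two, ENNReal.ofReal_pow hKpos.le]
    rfl
  have hm := (continuous_gk0 σ).measurable.ennreal_ofReal
  calc ∫⁻ y in A, ENNReal.ofReal (gk0 σ (y - x)) ∂μH[2]
      ≤ ∫⁻ y in A, ENNReal.ofReal (gk0 σ (q y)) ∂μH[2] := by
        refine lintegral_mono fun y => ENNReal.ofReal_le_ofReal ?_
        unfold gk0
        have h1 : ‖q y‖ ≤ ‖y - x‖ := P218FT.norm_pt_le he _
        have h2 : ‖q y‖ ^ 2 ≤ ‖y - x‖ ^ 2 := pow_le_pow_left₀ (norm_nonneg _) h1 2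
        gcongr
    _ = ∫⁻ z, ENNReal.ofReal (gk0 σ z) ∂(((μH[2] : Measure E3).restrict A).map q) :=
        (lintegral_map hm hqc.measurable).symm
    _ ≤ ∫⁻ z, ENNReal.ofReal (gk0 σ z)
          ∂(ENNReal.ofReal (K ^ 2) • (μH[2] : Measure E3).restrict T) := lintegral_mono' hmap le_rfl
    _ = _ := by
        rw [lintegral_smul_measure, lintegral_gk0_plane hTd h, smul_eq_mul,
          ← ENNReal.ofReal_mul (by positivity), hK, inv_pow, Real.sq_sqrt hpos.le, inv_mul_eq_div]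

/-! ### Measures of bounded entropy -/

lemma GA_nonneg (m : Measure E3) (y : E3) {σ : ℝ} (h : 0 ≤ σ) : 0 ≤ GA m y σ :=
  integral_nonneg fun _ => gk0_nonneg h _

lemma GQ_nonneg (m : Measure E3) (y : E3) {σ : ℝ} (h : 0 ≤ σ) (c : ℝ) (v : E3) :
    0 ≤ GQ m y σ c v :=
  integral_nonneg fun _ => mul_nonneg (sq_nonneg _) (gk0_nonneg h _)

lemma GQ_one (m : Measure E3) (y : E3) (σ : ℝ) : GQ m y σ 1 0 = GA m y σ := by
  simp [GQ, GA]

namespace Ent

variable {m : Measure E3} {D : ℝ} (h : Ent m D)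
include h

lemma nonneg : 0 ≤ D := (GA_nonneg m 0 zero_le_one).trans (h.le 0 1 one_pos)

lemma mono {D' : ℝ} (hD : D ≤ D') : Ent m D' :=
  ⟨h.lf, h.int, fun y σ hσ => (h.le y σ hσ).trans hD⟩

lemma integrable_of_le {F : Type*} [NormedAddCommGroup F] {g : E3 → F}
    (hg : AEStronglyMeasurable g m) {K σ : ℝ} {y : E3} (hσ : 0 < σ)
    (hb : ∀ᵐ x ∂m, ‖g x‖ ≤ K * gk0 σ (x - y)) : Integrable g m :=
  ((h.int y σ hσ).const_mul K).mono' hg hb

lemma integral_le {g : E3 → ℝ} (hg : Integrable g m) {K σ : ℝ} {y : E3} (hK : 0 ≤ K) (hσ : 0 < σ)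
    (hb : ∀ᵐ x ∂m, g x ≤ K * gk0 σ (x - y)) : ∫ x, g x ∂m ≤ K * D := by
  refine (integral_mono_ae hg ((h.int y σ hσ).const_mul K) hb).trans ?_
  rw [integral_const_mul]
  exact mul_le_mul_of_nonneg_left (h.le y σ hσ) hK

lemma norm_integral_le {F : Type*} [NormedAddCommGroup F] [NormedSpace ℝ F] {g : E3 → F}
    {K σ : ℝ} {y : E3} (hK : 0 ≤ K) (hσ : 0 < σ)
    (hb : ∀ᵐ x ∂m, ‖g x‖ ≤ K * gk0 σ (x - y)) : ‖∫ x, g x ∂m‖ ≤ K * D := by
  refine (norm_integral_le_of_norm_le ((h.int y σ hσ).const_mul K) hb).trans ?_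
  rw [integral_const_mul]
  exact mul_le_mul_of_nonneg_left (h.le y σ hσ) hK

lemma int_GQ (y : E3) {σ : ℝ} (hσ : 0 < σ) (c : ℝ) (v : E3) :
    Integrable (fun x => (c + ⟪v, x - y⟫) ^ 2 * gk0 σ (x - y)) m := by
  refine h.integrable_of_le (Continuous.aestronglyMeasurable ?_) (y := y)
    (by positivity : 0 < 2 * σ) (Eventually.of_forall fun x => ?_)
    (K := 4 * c ^ 2 + 32 * ‖v‖ ^ 2 * σ)
  · exact (by fun_prop : Continuous fun x : E3 => (c + ⟪v, x - y⟫) ^ 2).mul (continuous_gk0' σ y)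
  · rw [Real.norm_of_nonneg (mul_nonneg (sq_nonneg _) (gk0_pos hσ _).le)]
    exact aff_gk0_le hσ c v _

lemma GQ_le (y : E3) {σ : ℝ} (hσ : 0 < σ) (c : ℝ) (v : E3) :
    GQ m y σ c v ≤ (4 * c ^ 2 + 32 * ‖v‖ ^ 2 * σ) * D :=
  h.integral_le (h.int_GQ y hσ c v) (by positivity) (by positivity : 0 < 2 * σ)
    (Eventually.of_forall fun _ => aff_gk0_le hσ c v _)

lemma int_aff (y : E3) {σ : ℝ} (hσ : 0 < σ) (c : ℝ) (v : E3) :
    Integrable (fun x => (c + ⟪v, x - y⟫) * gk0 σ (x - y)) m := by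
  refine ((h.int y σ hσ).add (h.int_GQ y hσ c v)).mono' (Continuous.aestronglyMeasurable ?_)
    (Eventually.of_forall fun x => ?_)
  · exact (by fun_prop : Continuous fun x : E3 => (c + ⟪v, x - y⟫)).mul (continuous_gk0' σ y)
  · have h1 := gk0_pos hσ (x - y)
    rw [norm_mul, Real.norm_of_nonneg h1.le, Real.norm_eq_abs, Pi.add_apply, ← sq_abs]
    nlinarith [mul_nonneg h1.le (sq_nonneg (|c + ⟪v, x - y⟫| - 1)), abs_nonneg (c + ⟪v, x - y⟫)]

/-- the Gaussian tail -/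
lemma tail {A : Set E3} (hA : MeasurableSet A) {y : E3} {r σ : ℝ} (hr : 0 ≤ r) (hσ : 0 < σ)
    (hd : ∀ x ∈ A, r ≤ ‖x - y‖) :
    ∫ x in A, gk0 σ (x - y) ∂m ≤ 2 * Real.exp (-r ^ 2 / (8 * σ)) * D := by
  rw [← integral_indicator hA]
  refine h.integral_le ((h.int y σ hσ).indicator hA) (by positivity) (by positivity : 0 < 2 * σ)
    (y := y) (Eventually.of_forall fun x => ?_)
  have h0 := gk0_pos (by positivity : 0 < 2 * σ) (x - y)
  by_cases hx : x ∈ A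
  · rw [indicator_of_mem hx, gk0_double hσ]
    have h1 : r ^ 2 ≤ ‖x - y‖ ^ 2 := pow_le_pow_left₀ hr (hd x hx) 2
    gcongr
  · rw [indicator_of_notMem hx]; positivity

/-- the Gaussian integral is the part in a ball plus a tail -/
lemma GA_le_ball (y : E3) {r σ : ℝ} (hr : 0 ≤ r) (hσ : 0 < σ) :
    GA m y σ ≤ ∫ x in ball y r, gk0 σ (x - y) ∂m + 2 * Real.exp (-r ^ 2 / (8 * σ)) * D := by
  rw [GA, ← integral_add_compl measurableSet_ball (h.int y σ hσ)]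
  refine add_le_add_right (h.tail measurableSet_ball.compl hr hσ fun x hx => ?_) _
  simpa [dist_eq_norm] using hx

/-- mass ratios -/
lemma ball_le (y : E3) {r : ℝ} (hr : 0 < r) :
    m.real (closedBall y r) ≤ Real.exp (1 / 4) * r ^ 2 * D := by
  have := h.lf
  rw [← integral_indicator_one measurableSet_closedBall]
  refine h.integral_le ((integrable_indicator_iff measurableSet_closedBall).2
    (integrableOn_const (isCompact_closedBall y r).measure_lt_top.ne)) (by positivity)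
    (by positivity : 0 < r ^ 2) (y := y) (Eventually.of_forall fun x => ?_)
  by_cases hx : x ∈ closedBall y r
  · rw [indicator_of_mem hx, gk0]
    change (1 : ℝ) ≤ _
    have h1 : ‖x - y‖ ^ 2 ≤ r ^ 2 :=
      pow_le_pow_left₀ (norm_nonneg _) (by simpa [dist_eq_norm] using hx) 2
    have h2 : -(1 / 4) ≤ -‖x - y‖ ^ 2 / (4 * r ^ 2) := by
      rw [le_div_iff₀ (by positivity)]; linarith
    calc (1 : ℝ) = Real.exp (1 / 4) * Real.exp (-(1 / 4)) := by rw [← Real.exp_add]; simp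
      _ ≤ Real.exp (1 / 4) * Real.exp (-‖x - y‖ ^ 2 / (4 * r ^ 2)) := by gcongr
      _ = _ := by field_simp
  · rw [indicator_of_notMem hx]
    exact mul_nonneg (by positivity) (gk0_pos (by positivity) _).le

lemma continuousAt_GA (y : E3) {σ : ℝ} (hσ : 0 < σ) :
    ContinuousAt (fun p : E3 × ℝ => GA m p.1 p.2) (y, σ) := by
  unfold GA
  have hnb : ∀ᶠ p : E3 × ℝ in 𝓝 (y, σ), ‖p.1 - y‖ < 1 ∧ σ / 2 < p.2 ∧ p.2 < 2 * σ := by
    have h1 : ∀ᶠ p : E3 × ℝ in 𝓝 (y, σ), ‖p.1 - y‖ < 1 :=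
      (by fun_prop : Continuous fun p : E3 × ℝ => ‖p.1 - y‖).continuousAt.eventually_lt
        continuousAt_const (by simp)
    have h2 : ∀ᶠ p : E3 × ℝ in 𝓝 (y, σ), σ / 2 < p.2 :=
      continuousAt_const.eventually_lt continuousAt_snd (by simpa using hσ)
    have h3 : ∀ᶠ p : E3 × ℝ in 𝓝 (y, σ), p.2 < 2 * σ :=
      continuousAt_snd.eventually_lt continuousAt_const (by simp; linarith)
    exact h1.and (h2.and h3)
  refine continuousAt_of_dominated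
    (bound := fun x => 6 * Real.exp (1 / (4 * σ)) * gk0 (3 * σ) (x - y)) ?_ ?_ ?_ ?_
  · exact Eventually.of_forall fun p => (continuous_gk0' _ _).aestronglyMeasurable
  · filter_upwards [hnb] with p ⟨h1, h2, h3⟩
    refine Eventually.of_forall fun x => ?_
    have hp : 0 < p.2 := by linarith
    rw [Real.norm_of_nonneg (gk0_pos hp _).le, show x - p.1 = (x - y) - (p.1 - y) by abel]
    refine (gk0_shift hp (by linarith : p.2 < 3 * σ) _ _).trans ?_
    have h4 := gk0_pos (by positivity : 0 < 3 * σ) (x - y)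
    have h5 : 3 * σ / p.2 ≤ 6 := by rw [div_le_iff₀ hp]; linarith
    have h6 : ‖p.1 - y‖ ^ 2 / (4 * (3 * σ - p.2)) ≤ 1 / (4 * σ) :=
      div_le_div₀ zero_le_one (pow_le_one₀ (norm_nonneg _) h1.le) (by positivity) (by linarith)
    gcongr
  · exact (h.int y _ (by positivity)).const_mul _
  · refine Eventually.of_forall fun x => ?_
    unfold gk0
    refine ContinuousAt.mul (ContinuousAt.inv₀ (by fun_prop) hσ.ne') ?_
    refine Real.continuous_exp.continuousAt.comp (ContinuousAt.div (by fun_prop) (by fun_prop) ?_)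
    positivity

end Ent

/-! ### Gaussian systems -/

namespace GS

variable {μ : ℝ → Measure E3} {a D : ℝ} (h : GS μ a D)
include h

lemma later {a' : ℝ} (ha : a ≤ a') : GS μ a' D :=
  ⟨fun s hs => h.ent s (ha.trans hs), fun y t c v s s' hs => h.mono y t c v s s' (ha.trans hs),
    fun s hs => h.supp s (ha.trans_lt hs)⟩

lemma mono1 (y : E3) {t s s' : ℝ} (hs : a ≤ s) (hss : s ≤ s') (ht : s' < t) :
    GA (μ s') y (t - s') ≤ GA (μ s) y (t - s) := by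
  simpa only [GQ_one] using h.mono y t 1 0 s s' hs hss ht

lemma low {t s : ℝ} {x : E3} (hx : x ∈ Spt μ t) (hs : a ≤ s) (ht : s < t) :
    om0 ≤ GA (μ s) x (t - s) := by
  have hx' : ∀ᶠ u in 𝓝[<] t, om0 ≤ GA (μ u) x (t - u) := hx
  have h0 : ∀ᶠ u in 𝓝[<] t, u ∈ Ioo s t := Ioo_mem_nhdsLT ht
  obtain ⟨s', h1, h2⟩ := (hx'.and h0).exists
  exact h1.trans (h.mono1 x hs h2.1.le h2.2)

lemma mem_spt {t : ℝ} {x : E3} (ht : a < t) :
    x ∈ Spt μ t ↔ ∀ s, a ≤ s → s < t → om0 ≤ GA (μ s) x (t - s) :=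
  ⟨fun hx _ hs hst => h.low hx hs hst, fun hx => by
    filter_upwards [Ioo_mem_nhdsLT ht] with s hs using hx s hs.1.le hs.2⟩

/-- the track of `Spt μ` is closed -/
lemma closed {t : ℝ} {x : E3} (ht : a < t) (hx : x ∉ Spt μ t) :
    ∀ᶠ p : ℝ × E3 in 𝓝 (t, x), p.2 ∉ Spt μ p.1 := by
  rw [h.mem_spt ht] at hx
  push Not at hx
  obtain ⟨s, hs, hst, hx⟩ := hx
  have h1 : ContinuousAt (fun p : ℝ × E3 => GA (μ s) p.2 (p.1 - s)) (t, x) :=
    ((h.ent s hs).continuousAt_GA x (sub_pos.2 hst)).comp_of_eq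
      (f := fun p : ℝ × E3 => (p.2, p.1 - s)) (by fun_prop) rfl
  filter_upwards [h1.eventually_lt continuousAt_const hx,
    continuousAt_const.eventually_lt continuousAt_fst (show s < ((t, x) : ℝ × E3).1 from hst)]
    with p h2 h3 h4
  exact absurd (h.low h4 hs h3) (not_le.2 h2)

lemma isClosed_spt {t : ℝ} (ht : a < t) : IsClosed (Spt μ t) :=
  isOpen_compl_iff.1 (isOpen_iff_mem_nhds.2 fun x hx =>
    ((continuous_const.prodMk continuous_id).tendsto' x (t, x) rfl).eventually (h.closed ht hx))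

/-- the sub-mean value inequality -/
lemma submean {t s : ℝ} {x : E3} (hx : x ∈ Spt μ t) (hs : a ≤ s) (ht : s < t) (c : ℝ) (v : E3) :
    om0 * c ^ 2 ≤ GQ (μ s) x (t - s) c v := by
  have key : ∀ s', s ≤ s' → s' < t → ∀ η : ℝ, 0 < η → η ≤ 1 →
      (1 - η) * (om0 * c ^ 2) - 16 * ‖v‖ ^ 2 * D / η * (t - s') ≤ GQ (μ s) x (t - s) c v := by
    intro s' h1 h2 η hη hη1
    have hσ : 0 < t - s' := sub_pos.2 h2
    have hE := h.ent s' (hs.trans h1)
    refine le_trans ?_ (h.mono x t c v s s' hs h1 h2)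
    have i2 : Integrable (fun y => ‖y - x‖ ^ 2 * gk0 (t - s') (y - x)) (μ s') :=
      hE.integrable_of_le ((by fun_prop : Continuous fun y : E3 => ‖y - x‖ ^ 2).mul
        (continuous_gk0' _ x)).aestronglyMeasurable (by positivity : 0 < 2 * (t - s'))
        (Eventually.of_forall fun y => by
          rw [Real.norm_of_nonneg (mul_nonneg (sq_nonneg _) (gk0_pos hσ _).le)]
          exact sq_gk0_le hσ _)
    have h3 : ∫ y, ‖y - x‖ ^ 2 * gk0 (t - s') (y - x) ∂(μ s') ≤ 16 * (t - s') * D :=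
      hE.integral_le i2 (by positivity) (by positivity : 0 < 2 * (t - s'))
        (Eventually.of_forall fun y => sq_gk0_le hσ _)
    have h4 : ∫ y, ((1 - η) * c ^ 2 * gk0 (t - s') (y - x)
        - ‖v‖ ^ 2 / η * (‖y - x‖ ^ 2 * gk0 (t - s') (y - x))) ∂(μ s') ≤ GQ (μ s') x (t - s') c v := by
      refine integral_mono (((hE.int x _ hσ).const_mul _).sub (i2.const_mul _))
        (hE.int_GQ x hσ c v) fun y => ?_
      have h5 : ⟪v, y - x⟫ ^ 2 ≤ (‖v‖ * ‖y - x‖) ^ 2 := by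
        rw [← sq_abs]; exact pow_le_pow_left₀ (abs_nonneg _) (abs_real_inner_le_norm _ _) 2
      have h6 : (1 - η) * c ^ 2 - ‖v‖ ^ 2 / η * ‖y - x‖ ^ 2 ≤ (c + ⟪v, y - x⟫) ^ 2 := by
        have h7 : ‖v‖ ^ 2 / η * ‖y - x‖ ^ 2 = (‖v‖ * ‖y - x‖) ^ 2 / η := by ring
        have h8 : ⟪v, y - x⟫ ^ 2 / η ≤ (‖v‖ * ‖y - x‖) ^ 2 / η := by gcongr
        have h9 : 0 ≤ (η * c + ⟪v, y - x⟫) ^ 2 / η := by positivity
        have h10 : (η * c + ⟪v, y - x⟫) ^ 2 / η =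
            η * c ^ 2 + 2 * c * ⟪v, y - x⟫ + ⟪v, y - x⟫ ^ 2 / η := by field_simp; ring
        nlinarith [sq_nonneg ⟪v, y - x⟫]
      have h11 := mul_le_mul_of_nonneg_right h6 (gk0_pos hσ (y - x)).le
      simp only
      linarith
    rw [integral_sub ((hE.int x _ hσ).const_mul _) (i2.const_mul _), integral_const_mul,
      integral_const_mul] at h4
    have h12 := mul_le_mul_of_nonneg_left (h.low hx (hs.trans h1) h2)
      (mul_nonneg (sub_nonneg.2 hη1) (sq_nonneg c))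
    have h13 := mul_le_mul_of_nonneg_left h3 (by positivity : 0 ≤ ‖v‖ ^ 2 / η)
    have h14 : ‖v‖ ^ 2 / η * (16 * (t - s') * D) = 16 * ‖v‖ ^ 2 * D / η * (t - s') := by ring
    unfold GA at h12
    nlinarith
  have k2 : ∀ η : ℝ, 0 < η → η ≤ 1 → (1 - η) * (om0 * c ^ 2) ≤ GQ (μ s) x (t - s) c v := by
    intro η hη hη1
    have h1 : Tendsto (fun s' => (1 - η) * (om0 * c ^ 2) - 16 * ‖v‖ ^ 2 * D / η * (t - s'))
        (𝓝[<] t) (𝓝 ((1 - η) * (om0 * c ^ 2) - 16 * ‖v‖ ^ 2 * D / η * (t - t))) :=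
      (Continuous.tendsto (by fun_prop) t).mono_left nhdsWithin_le_nhds
    rw [sub_self, mul_zero, sub_zero] at h1
    refine le_of_tendsto h1 ?_
    filter_upwards [Ioo_mem_nhdsLT ht] with s' hs' using key s' hs'.1.le hs'.2 η hη hη1
  have h1 : Tendsto (fun η : ℝ => (1 - η) * (om0 * c ^ 2)) (𝓝[>] 0)
      (𝓝 ((1 - 0) * (om0 * c ^ 2))) :=
    (Continuous.tendsto (by fun_prop) 0).mono_left nhdsWithin_le_nhds
  rw [sub_zero, one_mul] at h1
  refine le_of_tendsto h1 ?_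
  filter_upwards [Ioo_mem_nhdsGT one_pos] with η hη using k2 η hη.1 hη.2.le

/-- the smallness of the density ratios passes to smaller cylinders -/
lemma low_sub {x₀ x : E3} {t₀ t ρ ρ' ε : ℝ} (hL : Low μ x₀ t₀ ρ ε) (ha : a ≤ t₀ - ρ ^ 2)
    (h0 : 0 < ρ') (h1 : ρ' ≤ ρ / 2) (hx : ‖x - x₀‖ ≤ ρ) (ht : t₀ - ρ ^ 2 / 4 ≤ t) (ht' : t ≤ t₀) :
    Low μ x t ρ' ε := by
  intro y σ hy h2 h3
  have h4 : ρ' ^ 2 ≤ (ρ / 2) ^ 2 := pow_le_pow_left₀ h0.le h1 2
  have h5 : 0 < ρ' ^ 2 := by positivity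
  have h6 := h.mono1 y (t := t - ρ' ^ 2 + σ) (s := t₀ - ρ ^ 2) (s' := t - ρ' ^ 2) ha
    (by nlinarith) (by linarith)
  rw [add_sub_cancel_left] at h6
  refine h6.trans (hL y _ ?_ (by nlinarith) (by linarith))
  linarith [norm_sub_le_norm_sub_add_norm_sub y x x₀]

end GS

/-! ### Rescaling -/

section scale

open A1 H552

variable {lam : ℝ}

lemma rescaled_eq_dil (μ : ℝ → Measure E3) (x₀ : E3) (t₀ lam s : ℝ) :
    rescaled 2 μ x₀ t₀ lam s = dil 2 lam x₀ (μ (t₀ + s / lam ^ 2)) := rfl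

lemma yy_sub (hl : 0 < lam) (x₀ x y : E3) : yy lam x₀ x - y = lam • (x - (x₀ + lam⁻¹ • y)) := by
  rw [yy, ← sub_sub, smul_sub _ (x - x₀), smul_inv_smul₀ hl.ne']

lemma GQ_dil (hl : 0 < lam) (x₀ : E3) (m : Measure E3) (y : E3) (σ c : ℝ) (v : E3) :
    GQ (dil 2 lam x₀ m) y σ c v = GQ m (x₀ + lam⁻¹ • y) (σ / lam ^ 2) c (lam • v) := by
  rw [GQ, integral_dil hl, ← integral_const_mul, GQ]
  congr 1
  ext x
  rw [yy_sub hl, ← gk0_smul hl, real_inner_smul_right, real_inner_smul_left]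
  ring

lemma GA_dil (hl : 0 < lam) (x₀ : E3) (m : Measure E3) (y : E3) (σ : ℝ) :
    GA (dil 2 lam x₀ m) y σ = GA m (x₀ + lam⁻¹ • y) (σ / lam ^ 2) := by
  rw [← GQ_one, GQ_dil hl, smul_zero, GQ_one]

lemma Ent.dil {m : Measure E3} {D : ℝ} (h : Ent m D) (hl : 0 < lam) (x₀ : E3) :
    Ent (dil 2 lam x₀ m) D where
  lf := by
    have := h.lf
    have := isFiniteMeasureOnCompacts_dil (m := 2) (μ := m) hl x₀
    infer_instance
  int y σ hσ := by
    unfold A1.dil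
    refine ((emb_yy hl x₀).integrable_map_iff.2 ?_).smul_measure ENNReal.ofReal_ne_top
    refine ((h.int (x₀ + lam⁻¹ • y) (σ / lam ^ 2) (by positivity)).const_mul
      (lam ^ 2)⁻¹).congr (Eventually.of_forall fun x => ?_)
    have h1 := yy_sub hl x₀ x y
    unfold yy at h1
    simp only [Function.comp_apply]
    rw [h1, ← gk0_smul hl, ← mul_assoc, inv_mul_cancel₀ (by positivity), one_mul]
  le y σ hσ := by rw [GA_dil hl]; exact h.le _ _ (by positivity)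

lemma spt_rescaled (hl : 0 < lam) (μ : ℝ → Measure E3) (x₀ : E3) (t₀ : ℝ) :
    Spt (rescaled 2 μ x₀ t₀ lam) = scaleFlow lam x₀ t₀ (Spt μ) := by
  funext s
  ext y
  have hl2 : 0 < lam ^ 2 := by positivity
  have e : ∀ u, GA (rescaled 2 μ x₀ t₀ lam u) y (s - u) =
      GA (μ (t₀ + u / lam ^ 2)) (x₀ + lam⁻¹ • y) (t₀ + s / lam ^ 2 - (t₀ + u / lam ^ 2)) := by
    intro u
    rw [rescaled_eq_dil, GA_dil hl]
    congr 1; ring
  have hmap : map (fun u => t₀ + u / lam ^ 2) (𝓝[<] s) = 𝓝[<] (t₀ + s / lam ^ 2) := by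
    let f : ℝ ≃o ℝ := (OrderIso.divRight₀ (lam ^ 2) hl2).trans (OrderIso.addLeft t₀)
    have h1 := f.toHomeomorph.isInducing.map_nhdsWithin_eq (Iio s) s
    have h2 : f.toHomeomorph '' Iio s = Iio (f s) := f.image_Iio s
    rw [h2] at h1
    exact h1
  change (∀ᶠ u in 𝓝[<] s, om0 ≤ GA (rescaled 2 μ x₀ t₀ lam u) y (s - u)) ↔
    ∀ᶠ u in 𝓝[<] (t₀ + s / lam ^ 2), om0 ≤ GA (μ u) (x₀ + lam⁻¹ • y) (t₀ + s / lam ^ 2 - u)
  rw [← hmap, eventually_map]
  simp only [e]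

lemma GS.scale {μ : ℝ → Measure E3} {a D : ℝ} (h : GS μ a D) (hl : 0 < lam) (x₀ : E3) (t₀ : ℝ) :
    GS (rescaled 2 μ x₀ t₀ lam) ((a - t₀) * lam ^ 2) D := by
  have hl2 : 0 < lam ^ 2 := by positivity
  have h1 : ∀ s, (a - t₀) * lam ^ 2 ≤ s → a ≤ t₀ + s / lam ^ 2 := fun s hs => by
    have := (le_div_iff₀ hl2).2 hs
    linarith
  refine ⟨fun s hs => (h.ent _ (h1 s hs)).dil hl x₀, fun y t c v s s' hs hss ht => ?_,
    fun s hs => ?_⟩
  · rw [rescaled_eq_dil, rescaled_eq_dil, GQ_dil hl, GQ_dil hl]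
    have h2 := h.mono (x₀ + lam⁻¹ • y) (t₀ + t / lam ^ 2) c (lam • v) (t₀ + s / lam ^ 2)
      (t₀ + s' / lam ^ 2) (h1 s hs) (by gcongr) (by gcongr)
    rwa [add_sub_add_left_eq_sub, add_sub_add_left_eq_sub, ← sub_div, ← sub_div] at h2
  · rw [spt_rescaled hl, rescaled_eq_dil]
    refine ae_dil hl x₀ ?_
    have h3 : a < t₀ + s / lam ^ 2 := by
      have := (lt_div_iff₀ hl2).2 hs
      linarith
    filter_upwards [h.supp _ h3] with x hx
    exact (P218FT.dn_mem_scaleSet hl.ne').2 hx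

lemma low_unit {μ : ℝ → Measure E3} {x₀ : E3} {t₀ ρ ε : ℝ} (hρ : 0 < ρ) (h : Low μ x₀ t₀ ρ ε) :
    Low (rescaled 2 μ x₀ t₀ ρ⁻¹) 0 0 1 ε := by
  intro y σ hy h1 h2
  have h3 : 0 < ρ ^ 2 := by positivity
  rw [rescaled_eq_dil, GA_dil (inv_pos.2 hρ), inv_inv, inv_pow, div_inv_eq_mul, div_inv_eq_mul,
    show t₀ + (0 - 1 ^ 2) * ρ ^ 2 = t₀ - ρ ^ 2 by ring]
  refine h _ _ ?_ (by nlinarith) (by nlinarith)
  rw [add_sub_cancel_left, norm_smul, Real.norm_of_nonneg hρ.le]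
  rw [sub_zero] at hy
  nlinarith

lemma HH_unit (μ : ℝ → Measure E3) (x₀ : E3) (t₀ : ℝ) {ρ : ℝ} (hρ : 0 < ρ) (r c : ℝ) (v : E3) :
    HH (rescaled 2 μ x₀ t₀ ρ⁻¹) 0 0 r c v = HH μ x₀ t₀ (r * ρ) c (ρ⁻¹ • v) := by
  rw [HH, rescaled_eq_dil, GQ_dil (inv_pos.2 hρ), HH, smul_zero, add_zero, inv_pow,
    div_inv_eq_mul, div_inv_eq_mul]
  congr 1
  · congr 1; ring
  · ring

end scale

end Vale.Agent.P218G.Rg
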