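import Vale.Agent.P218G.Par
import Vale.Agent.P218G.RegA

/-! Cones which are invariant along a line: half planes, and their parity. -/

open MeasureTheory Set Filter Topology Metric Real
open scoped ENNReal NNReal RealInnerProductSpace ContDiff

namespace Vale.Agent.P218G.Par

open P218FT Rg Lit

/-- the line spanned by `v` -/
def axis (v : E3) : Set E3 := range fun z : ℝ => z • v

/-- the unit circle -/
noncomputable def cir (a b : E3) (s : ℝ) : E3 := cos s • a + sin s • b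

/-- its tangent -/
noncomputable def nrm (a b : E3) (s : ℝ) : E3 := (-sin s) • a + cos s • b

/-- the open half plane at the angle `s` -/
def hpl (a b : E3) (s : ℝ) : Set E3 := {x | ⟪nrm a b s, x⟫ = 0 ∧ 0 < ⟪cir a b s, x⟫}

lemma measurableSet_hpl (a b : E3) (s : ℝ) : MeasurableSet (hpl a b s) :=
  (isClosed_eq (f := fun x => ⟪nrm a b s, x⟫) (by fun_prop) continuous_const).measurableSet.inter
    (isOpen_lt (g := fun x => ⟪cir a b s, x⟫) continuous_const (by fun_prop)).measurableSet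

lemma isClosed_axis (v : E3) : IsClosed (axis v) := by
  have : axis v = ((ℝ ∙ v : Submodule ℝ E3) : Set E3) := by
    ext x; simp [axis, Submodule.mem_span_singleton]
  rw [this]
  exact Submodule.closed_of_finiteDimensional _

lemma hausdorff_axis (v : E3) : (μH[2] : Measure E3) (axis v) = 0 := by
  have h := ((ContinuousLinearMap.id ℝ ℝ).smulRight v).lipschitz.hausdorffMeasure_image_le
    (d := 2) (by norm_num) univ
  rw [Real.hausdorffMeasure_of_finrank_lt (E := ℝ) (by simp), image_univ] at h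
  exact le_zero_iff.1 (h.trans (by simp))

/-- lines carry no mass -/
lemma ent_axis {m : Measure E3} {D : ℝ} (h : Ent m D) {v : E3} (hv : ‖v‖ = 1) : m (axis v) = 0 := by
  have := h.lf
  have hD := h.nonneg
  have e : axis v ⊆ ⋃ k : ℤ, (fun z : ℝ => z • v) '' Ico (k : ℝ) (k + 1) := by
    rintro _ ⟨z, rfl⟩
    exact mem_iUnion.2 ⟨⌊z⌋, z, ⟨Int.floor_le z, Int.lt_floor_add_one z⟩, rfl⟩
  refine measure_mono_null e (measure_iUnion_null fun k => le_zero_iff.1 ?_)
  have t : Tendsto (fun n : ℕ => ENNReal.ofReal (Real.exp (1 / 4) * D * (1 / ((n : ℝ) + 1)))) atTop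
      (𝓝 0) := by
    simpa using ENNReal.tendsto_ofReal
      ((tendsto_one_div_add_atTop_nhds_zero_nat (𝕜 := ℝ)).const_mul (Real.exp (1 / 4) * D))
  refine ge_of_tendsto' t fun n => ?_
  have n0 : (0 : ℝ) < (n : ℝ) + 1 := by positivity
  have e2 : (fun z : ℝ => z • v) '' Ico (k : ℝ) (k + 1) ⊆
      ⋃ j ∈ Finset.range (n + 1), closedBall (((k : ℝ) + j / (n + 1)) • v) (1 / (n + 1)) := by
    rintro _ ⟨z, hz, rfl⟩
    have z0 : 0 ≤ (z - k) * (n + 1) := mul_nonneg (by linarith [hz.1]) n0.le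
    have z1 := Nat.floor_le z0
    have z2 := Nat.lt_floor_add_one ((z - k) * (n + 1))
    refine mem_iUnion₂.2 ⟨⌊(z - k) * (n + 1)⌋₊, Finset.mem_range.2 ((Nat.floor_lt z0).2 ?_), ?_⟩
    · push_cast; nlinarith [hz.2]
    · rw [mem_closedBall, dist_eq_norm, ← sub_smul, norm_smul, hv, mul_one, Real.norm_eq_abs,
        show z - (k + (⌊(z - k) * (n + 1)⌋₊ : ℝ) / (n + 1)) =
          ((z - k) * (n + 1) - ⌊(z - k) * (n + 1)⌋₊) / (n + 1) by field_simp; ring,
        abs_of_nonneg (div_nonneg (by linarith) n0.le)]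
      gcongr
      linarith
  refine (measure_mono e2).trans ((measure_biUnion_finset_le _ _).trans ?_)
  have e3 : ∀ y : E3, m (closedBall y (1 / (n + 1))) ≤
      ENNReal.ofReal (Real.exp (1 / 4) * (1 / (n + 1)) ^ 2 * D) := fun y => by
    rw [← ofReal_measureReal (isCompact_closedBall y _).measure_lt_top.ne]
    exact ENNReal.ofReal_le_ofReal (h.ball_le y (by positivity))
  refine (Finset.sum_le_card_nsmul _ _ _ fun j _ => e3 _).trans (le_of_eq ?_)
  rw [Finset.card_range, nsmul_eq_mul, ← ENNReal.ofReal_natCast, ← ENNReal.ofReal_mul (by positivity)]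
  congr 1
  push_cast
  field_simp

variable {a b v : E3} (hT : Triple a b v)
include hT

lemma inner_comb (p q r s : ℝ) : ⟪p • a + q • b, r • a + s • b⟫ = p * r + q * s := by
  simp only [inner_add_left, inner_add_right, real_inner_smul_left, real_inner_smul_right,
    real_inner_self_eq_norm_sq, hT.na, hT.nb, hT.ab, real_inner_comm a b]
  ring

lemma inner_comb_v (p q : ℝ) : ⟪p • a + q • b, v⟫ = 0 := by
  simp only [inner_add_left, real_inner_smul_left, hT.ac, hT.bc, mul_zero, add_zero]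

lemma cir_cir (s t : ℝ) : ⟪cir a b t, cir a b s⟫ = cos (s - t) := by
  rw [cir, cir, inner_comb hT, cos_sub]; ring

lemma nrm_cir (s t : ℝ) : ⟪nrm a b t, cir a b s⟫ = sin (s - t) := by
  rw [cir, nrm, inner_comb hT, sin_sub]; ring

lemma triple_cir (s : ℝ) : Triple (cir a b s) (nrm a b s) v := by
  have n1 : ∀ u : E3, ⟪u, u⟫ = 1 → ‖u‖ = 1 := fun u hu => by
    rw [real_inner_self_eq_norm_sq] at hu
    exact (sq_eq_sq₀ (norm_nonneg _) zero_le_one).1 (by rw [hu]; norm_num)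
  refine ⟨n1 _ (by rw [cir_cir hT, sub_self, cos_zero]), n1 _ ?_, hT.nc, ?_, inner_comb_v hT _ _,
    inner_comb_v hT _ _⟩
  · rw [nrm, inner_comb hT]; nlinarith [sin_sq_add_cos_sq s]
  · rw [real_inner_comm, nrm_cir hT, sub_self, sin_zero]

lemma hpl_eq {s : ℝ} {x : E3} (hx : x ∈ hpl a b s) :
    x = ⟪cir a b s, x⟫ • cir a b s + ⟪v, x⟫ • v := by
  conv_lhs => rw [(triple_cir hT s).expand x, hx.1, zero_smul, add_zero]

lemma mem_axis {s : ℝ} {x : E3} (h1 : ⟪cir a b s, x⟫ = 0) (h2 : ⟪nrm a b s, x⟫ = 0) :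
    x ∈ axis v := ⟨⟪v, x⟫, by
  conv_rhs => rw [(triple_cir hT s).expand x, h1, h2, zero_smul, zero_smul, add_zero, zero_add]⟩

lemma not_axis {s : ℝ} {x : E3} (h : 0 < ⟪cir a b s, x⟫) : x ∉ axis v := by
  rintro ⟨z, rfl⟩
  simp [real_inner_smul_right, (triple_cir hT s).ac] at h

lemma exists_hpl {x : E3} (hx : x ∉ axis v) (s₀ : ℝ) :
    ∃ s ∈ Ico s₀ (s₀ + 2 * π), x ∈ hpl a b s := by
  set z : ℂ := ⟨⟪a, x⟫, ⟪b, x⟫⟩ with hz
  have z0 : z ≠ 0 := fun h => hx (mem_axis hT (s := 0)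
    (by simpa [cir] using congrArg Complex.re h) (by simpa [nrm] using congrArg Complex.im h))
  have n0 : 0 < ‖z‖ := norm_pos_iff.2 z0
  refine ⟨toIcoMod two_pi_pos s₀ z.arg, toIcoMod_mem_Ico _ _ _, ?_⟩
  have h2 : ‖z‖ ^ 2 = ⟪a, x⟫ ^ 2 + ⟪b, x⟫ ^ 2 := by
    rw [Complex.sq_norm, Complex.normSq_apply]; simp only [hz]; ring
  simp only [hpl, nrm, cir, toIcoMod, cos_periodic.sub_zsmul_eq, sin_periodic.sub_zsmul_eq,
    Complex.cos_arg z0, Complex.sin_arg, mem_ofPred_eq, inner_add_left, real_inner_smul_left]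
  refine ⟨by simp only [hz]; ring, ?_⟩
  have : z.re / ‖z‖ * ⟪a, x⟫ + z.im / ‖z‖ * ⟪b, x⟫ = ‖z‖ := by
    rw [div_mul_eq_mul_div, div_mul_eq_mul_div, ← add_div, div_eq_iff n0.ne']
    linear_combination -h2
  rwa [this]

omit hT in
lemma angle_eq {s₀ s t : ℝ} (hs : s ∈ Ico s₀ (s₀ + 2 * π)) (ht : t ∈ Ico s₀ (s₀ + 2 * π))
    (h1 : sin (s - t) = 0) (h2 : 0 ≤ cos (s - t)) : s = t := by
  have h3 : cos (s - t) = 1 := by nlinarith [sin_sq_add_cos_sq (s - t)]
  exact sub_eq_zero.1 ((cos_eq_one_iff_of_lt_of_lt (by linarith [hs.1, ht.2])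
    (by linarith [hs.2, ht.1])).1 h3)

lemma disjoint_hpl {s₀ s t : ℝ} (hs : s ∈ Ico s₀ (s₀ + 2 * π)) (ht : t ∈ Ico s₀ (s₀ + 2 * π))
    (h : s ≠ t) : Disjoint (hpl a b s) (hpl a b t) := by
  refine Set.disjoint_left.2 fun x h1 h2 => h (angle_eq hs ht ?_ ?_)
  · have := h2.1
    rw [hpl_eq hT h1, inner_add_right, real_inner_smul_right, real_inner_smul_right, nrm_cir hT,
      (triple_cir hT t).bc, mul_zero, add_zero] at this
    exact (mul_eq_zero.1 this).resolve_left h1.2.ne'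
  · have := h2.2
    rw [hpl_eq hT h1, inner_add_right, real_inner_smul_right, real_inner_smul_right, cir_cir hT,
      (triple_cir hT t).ac, mul_zero, add_zero] at this
    exact ((mul_pos_iff_of_pos_left h1.2).1 this).le

/-- the Gaussian integral over a half plane -/
lemma lintegral_hpl (s : ℝ) {σ : ℝ} (hσ : 0 < σ) :
    ∫⁻ x in hpl a b s, ENNReal.ofReal (gk0 σ x) ∂μH[2] = ENNReal.ofReal (om0 / 2) := by
  have n0 : nrm a b s ≠ 0 := fun h => by simpa [h] using (triple_cir hT s).nb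
  have hd : Module.finrank ℝ (ℝ ∙ nrm a b s)ᗮ = 2 := by
    have : Fact (Module.finrank ℝ E3 = 2 + 1) := ⟨by simp⟩
    exact Submodule.finrank_orthogonal_span_singleton n0
  have h1 := lintegral_gk0_plane hd hσ
  have h2 : (((ℝ ∙ nrm a b s)ᗮ : Submodule ℝ E3) : Set E3) =ᵐ[μH[2]]
      (hpl a b s ∪ (fun x => -x) ⁻¹' hpl a b s : Set E3) := by
    filter_upwards [measure_eq_zero_iff_ae_notMem.1 (hausdorff_axis v)] with x hx
    refine propext (Submodule.mem_orthogonal_singleton_iff_inner_right.trans ⟨fun h => ?_, ?_⟩)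
    · rcases lt_trichotomy ⟪cir a b s, x⟫ 0 with c | c | c
      · exact Or.inr ⟨by rw [inner_neg_right, h, neg_zero], by rw [inner_neg_right]; linarith⟩
      · exact absurd (mem_axis hT c h) hx
      · exact Or.inl ⟨h, c⟩
    · rintro (h | h)
      · exact h.1
      · simpa using h.1
  have h3 := ((LinearIsometryEquiv.neg ℝ (E := E3)).toIsometryEquiv.measurePreserving_hausdorffMeasure
    2).setLIntegral_comp_preimage (measurableSet_hpl a b s)
    (f := fun x => ENNReal.ofReal (gk0 σ x)) (continuous_gk0 σ).measurable.ennreal_ofReal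
  have h4 : ∫⁻ x in (fun x => -x) ⁻¹' hpl a b s, ENNReal.ofReal (gk0 σ x) ∂μH[2] =
      ∫⁻ x in hpl a b s, ENNReal.ofReal (gk0 σ x) ∂μH[2] := by
    rw [← h3]
    refine lintegral_congr fun x => ?_
    simp [gk0]
  rw [setLIntegral_congr h2, lintegral_union ((measurableSet_hpl a b s).preimage measurable_neg)
    (Set.disjoint_left.2 fun x c d => by
      have := d.2; rw [inner_neg_right] at this; linarith [c.2]), h4, ← two_mul] at h1
  rw [ENNReal.ofReal_div_of_pos two_pos, ← h1, ENNReal.ofReal_ofNat, mul_comm,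
    ENNReal.mul_div_cancel_right two_ne_zero ENNReal.ofNat_ne_top]

lemma lintegral_hpls {s₀ : ℝ} (F : Finset ℝ) (hF : ∀ s ∈ F, s ∈ Ico s₀ (s₀ + 2 * π)) {σ : ℝ}
    (hσ : 0 < σ) : ∫⁻ x in ⋃ s ∈ F, hpl a b s, ENNReal.ofReal (gk0 σ x) ∂μH[2] =
      ENNReal.ofReal (F.card * (om0 / 2)) := by
  rw [lintegral_biUnion_finset (fun s hs t ht h => disjoint_hpl hT (hF s hs) (hF t ht) h)
    fun s _ => measurableSet_hpl a b s]
  simp only [lintegral_hpl hT _ hσ, Finset.sum_const, nsmul_eq_mul]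
  rw [ENNReal.ofReal_mul (by positivity), ENNReal.ofReal_natCast]

omit hT in
lemma three_pt {e u p x y : E3} (he : ‖e‖ = 1) (hu : ‖u‖ = 1) {η : ℝ} (hη : 0 < η)
    (hx : x ∈ ball p (η / 20)) (hy : y ∈ ball (p + η • u) (η / 20))
    (h : |⟪e, y - x⟫| ≤ ‖y - x‖ / 4) : ⟪e, u⟫ ^ 2 ≤ (3 / 8) ^ 2 := by
  set d := (y - (p + η • u)) - (x - p) with hd
  have h1 : ‖d‖ ≤ η / 10 := by
    linarith [norm_sub_le (y - (p + η • u)) (x - p), mem_ball_iff_norm.1 hx, mem_ball_iff_norm.1 hy]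
  have h2 : y - x = η • u + d := by rw [hd]; abel
  have h3 := norm_add_le (η • u) d
  have h4 := abs_real_inner_le_norm e d
  rw [norm_smul, hu, Real.norm_of_nonneg hη.le] at h3
  rw [h2, inner_add_right, real_inner_smul_right] at h
  rw [he] at h4
  have h5 := abs_le.1 h
  have h6 := abs_le.1 h4
  refine sq_le_sq' ?_ ?_ <;> nlinarith [h5.1, h5.2, h6.1, h6.2]

omit hT in
/-- **A cone of density less than two which is invariant along a line, has multiplicity one off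
the line and is a limit of boundaries has density at most one.** -/
theorem half_planes {ν : Measure E3} {D : ℝ} (hE : Ent ν D) {C : Set E3} {v : E3} (hv : ‖v‖ = 1)
    (cone : ∀ x ∈ C, ∀ c : ℝ, 0 < c → c • x ∈ C) (inv : ∀ x ∈ C, ∀ z : ℝ, x + z • v ∈ C)
    (hν : ν.restrict (axis v)ᶜ = (μH[2] : Measure E3).restrict (C ∩ (axis v)ᶜ))
    {ι : Type*} (U : Ultrafilter ι) {m : ι → Measure E3} {N : ι → Set E3}
    (hc : ∀ᶠ i in U, IsClosed (N i) ∧ Col (m i) (N i) ∧ m i (N i)ᶜ = 0)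
    (up : ∀ x, x ∉ C → x ∉ axis v → ∃ r : ℝ, 0 < r ∧ ∀ᶠ i in U, ball x r ⊆ (N i)ᶜ)
    (low : ∀ p ∈ C, p ∉ axis v → ∀ r : ℝ, 0 < r → ∀ᶠ i in U, m i (ball p r) ≠ 0)
    (lip : ∀ p ∈ C, p ∉ axis v → ∃ r : ℝ, 0 < r ∧ ∀ᶠ i in U, ∀ x ∈ N i, x ∈ ball p r →
      ∃ e : E3, ‖e‖ = 1 ∧ ∀ y ∈ N i, y ∈ ball p r → |⟪e, y - x⟫| ≤ ‖y - x‖ / 4)
    {σ : ℝ} (hσ : 0 < σ) (h2 : GA ν 0 σ < 2 * om0) : GA ν 0 σ ≤ om0 := by
  obtain ⟨a, b, hT⟩ := exists_triple hv
  have o0 := om0_pos
  have hG : ENNReal.ofReal (GA ν 0 σ) =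
      ∫⁻ x in C ∩ (axis v)ᶜ, ENNReal.ofReal (gk0 σ x) ∂μH[2] := by
    rw [← hν, Measure.restrict_eq_self_of_ae_mem (s := (axis v)ᶜ)
      (measure_eq_zero_iff_ae_notMem.1 (ent_axis hE hv)), GA,
      ofReal_integral_eq_lintegral_ofReal (hE.int 0 σ hσ)
        (Eventually.of_forall fun x => (gk0_pos hσ _).le)]
    simp only [sub_zero]
  have sub : ∀ s, cir a b s ∈ C → hpl a b s ⊆ C ∩ (axis v)ᶜ := fun s hs x hx =>
    ⟨hpl_eq hT hx ▸ inv _ (cone _ hs _ hx.2) _, not_axis hT hx.2⟩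
  have sub' : ∀ s, ∀ x ∈ hpl a b s, x ∈ C → cir a b s ∈ C := fun s x hx hC => by
    have h1 := cone _ (inv x hC (-⟪v, x⟫)) _ (inv_pos.2 hx.2)
    rwa [show x + (-⟪v, x⟫) • v = ⟪cir a b s, x⟫ • cir a b s by
      rw [neg_smul, ← sub_eq_add_neg, sub_eq_iff_eq_add]; exact hpl_eq hT hx,
      inv_smul_smul₀ hx.2.ne'] at h1
  have bound : ∀ (s₀ : ℝ) (F : Finset ℝ), (∀ s ∈ F, s ∈ Ico s₀ (s₀ + 2 * π) ∧ cir a b s ∈ C) →
      F.card < 4 := fun s₀ F hF => by
    have h1 : ENNReal.ofReal (F.card * (om0 / 2)) ≤ ENNReal.ofReal (GA ν 0 σ) := by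
      rw [hG, ← lintegral_hpls hT F (fun s hs => (hF s hs).1) hσ]
      exact lintegral_mono_set (iUnion₂_subset fun s hs => sub s (hF s hs).2)
    rw [ENNReal.ofReal_le_ofReal_iff (GA_nonneg _ _ hσ.le)] at h1
    exact_mod_cast (by nlinarith : (F.card : ℝ) < 4)
  have fin : ∀ s₀ : ℝ, {s ∈ Ico s₀ (s₀ + 2 * π) | cir a b s ∈ C}.Finite := fun s₀ => by
    by_contra h
    obtain ⟨F, h1, h3⟩ := Set.Infinite.exists_subset_card_eq h 4
    exact absurd (bound s₀ F fun s hs => h1 hs) (by omega)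
  obtain ⟨s₀, -, h0⟩ : ∃ s₀ ∈ Ico 0 (0 + 2 * π), cir a b s₀ ∉ C := by
    by_contra h
    refine Ico_infinite (show (0 : ℝ) < 0 + 2 * π by linarith [two_pi_pos]) ((fin 0).subset
      fun s hs => ⟨hs, not_not.1 fun c => h ⟨s, hs, c⟩⟩)
  set Ω := (fin s₀).toFinset with hΩ
  have mem : ∀ s, s ∈ Ω ↔ s ∈ Ico s₀ (s₀ + 2 * π) ∧ cir a b s ∈ C := fun s => Finite.mem_toFinset _
  have cov : C ∩ (axis v)ᶜ ⊆ ⋃ s ∈ Ω, hpl a b s := fun x hx => by
    obtain ⟨s, h1, h3⟩ := exists_hpl hT hx.2 s₀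
    exact mem_iUnion₂.2 ⟨s, (mem s).2 ⟨h1, sub' s x h3 hx.1⟩, h3⟩
  have per : cir a b s₀ = cir a b (s₀ + 2 * π) := by simp [cir]
  have na : ∀ s, cir a b s ∉ axis v := fun s =>
    not_axis hT (s := s) (by rw [cir_cir hT, sub_self, cos_zero]; exact one_pos)
  have ev : Even Ω.card := by
    refine even_of U (hc.mono fun i hi => ⟨hi.1, hi.2.1⟩) (γ := cir a b) (by unfold cir; fun_prop)
      (by linarith [two_pi_pos]) per Ω (fun s hs => ⟨lt_of_le_of_ne ((mem s).1 hs).1.1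
        fun c => h0 (c ▸ ((mem s).1 hs).2), ((mem s).1 hs).1.2⟩)
      (fun s hs hn => up _ (fun c => ?_) (na s)) fun s hs => ?_
    · rcases hs.2.lt_or_eq with d | d
      · exact hn ((mem s).2 ⟨⟨hs.1, d⟩, c⟩)
      · exact h0 (per ▸ d ▸ c)
    have T := triple_cir hT s
    obtain ⟨hs1, hs2⟩ := (mem s).1 hs
    set p := cir a b s with hp
    set e := nrm a b s with he
    have ep : ⟪e, p⟫ = 0 := by rw [real_inner_comm]; exact T.ab
    have l1 : ∀ᶠ x in 𝓝 p, x ∉ axis v ∧ ∀ t ∈ Ω, t ≠ s → x ∉ hpl a b t := by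
      refine Eventually.and ((isClosed_axis v).isOpen_compl.mem_nhds (na s))
        ((eventually_all_finset Ω).2 fun t ht => ?_)
      by_cases c : t = s
      · exact Eventually.of_forall fun _ d => absurd c d
      by_cases c1 : sin (s - t) = 0
      · have c2 : ⟪cir a b t, p⟫ < 0 := by
          rw [hp, cir_cir hT]
          exact not_le.1 fun d => c (angle_eq hs1 ((mem t).1 ht).1 c1 d).symm
        filter_upwards [(by fun_prop : Continuous fun x => ⟪cir a b t, x⟫).continuousAt.eventually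
          (gt_mem_nhds c2)] with x hx _ d using lt_asymm hx d.2
      · filter_upwards [(by fun_prop : Continuous fun x => ⟪nrm a b t, x⟫).continuousAt.eventually_ne
          (x := p) (by rwa [hp, nrm_cir hT])] with x hx _ d using hx d.1
    obtain ⟨r₀, r0, l2⟩ := Metric.eventually_nhds_iff_ball.1 l1
    obtain ⟨r₁, r1, l3⟩ := lip p hs2 (na s)
    obtain ⟨r, hr, rr0, rr1⟩ : ∃ r : ℝ, 0 < r ∧ r < r₀ ∧ r ≤ r₁ :=
      ⟨min (r₀ / 2) r₁, by positivity, by linarith [min_le_left (r₀ / 2) r₁], min_le_right _ _⟩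
    have cb0 : cyl p e (r / 80) (r / 80) ⊆ ball p (r / 2 / 20) := fun x hx => by
      have h1 := norm_add_le (pt e (x - p)) (⟪e, x - p⟫ • e)
      rw [pt_apply, sub_add_cancel, ← pt_apply, norm_smul, T.nb, Real.norm_eq_abs] at h1
      rw [mem_ball_iff_norm]
      linarith [hx.1, hx.2]
    have cb : cyl p e (r / 80) (r / 80) ⊆ ball p r := cb0.trans (ball_subset_ball (by linarith))
    refine ⟨e, r / 80, r / 80, T.nb, by positivity, by positivity, ?_, fun δ hδ => ?_⟩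
    · filter_upwards [Ioo_mem_nhdsGT pi_pos] with k hk
      have := sin_pos_of_pos_of_lt_pi hk.1 hk.2
      rw [inner_sub_right, inner_sub_right, ep, he, nrm_cir hT, nrm_cir hT, add_sub_cancel_left,
        sub_sub_cancel_left, sin_neg]
      constructor <;> linarith
    have hK : IsCompact (closedBall p r ∩ {x | δ ≤ |⟪e, x - p⟫|}) :=
      (isCompact_closedBall p r).inter_right (isClosed_le continuous_const (by fun_prop))
    have f1 : ∀ᶠ i in U, closedBall p r ∩ {x | δ ≤ |⟪e, x - p⟫|} ⊆ (N i)ᶜ := by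
      refine hK.induction_on (p := fun S => ∀ᶠ i in U, S ⊆ (N i)ᶜ) (by simp)
        (fun S S' h1 h3 => h3.mono fun i hi => h1.trans hi)
        (fun S S' h1 h3 => (h1.and h3).mono fun i hi => union_subset hi.1 hi.2) fun x hx => ?_
      have h1 := l2 x (closedBall_subset_ball rr0 hx.1)
      have xC : x ∉ C := fun c => by
        obtain ⟨t, ht, h5⟩ := mem_iUnion₂.1 (cov ⟨c, h1.1⟩)
        have h6 : t = s := not_not.1 fun d => h1.2 t ht d h5
        have h7 : δ ≤ |⟪e, x - p⟫| := hx.2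
        rw [inner_sub_right, ep, he, ← h6, h5.1, sub_zero, abs_zero] at h7
        linarith
      obtain ⟨r', h3, h4⟩ := up x xC h1.1
      exact ⟨_, mem_nhdsWithin_of_mem_nhds (ball_mem_nhds x h3), h4⟩
    obtain ⟨r', r'0, l4⟩ := Metric.isOpen_iff.1 (isOpen_cyl p e (r / 80) (r / 80)) p
      (by simp [cyl, hr])
    have pp : ⟪p, p⟫ = 1 := by rw [real_inner_self_eq_norm_sq, T.na]; norm_num
    have q1 : p + (r / 2) • p ∈ C ∧ p + (r / 2) • p ∉ axis v := sub s hs2
      ⟨by rw [inner_add_right, real_inner_smul_right, ← he, ep]; ring,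
        by rw [inner_add_right, real_inner_smul_right, ← hp, pp]; linarith⟩
    have q2 : p + (r / 2) • v ∈ C ∧ p + (r / 2) • v ∉ axis v := sub s hs2
      ⟨by rw [inner_add_right, real_inner_smul_right, ← he, ep, T.bc]; ring,
        by rw [inner_add_right, real_inner_smul_right, ← hp, pp, T.ac]; linarith⟩
    have r2 : 0 < r / 2 / 20 := by positivity
    filter_upwards [f1, l3, hc, low p hs2 (na s) r' r'0, low _ q1.1 q1.2 _ r2,
      low _ q2.1 q2.2 _ r2] with i a1 a2 a3 a4 a6 a7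
    refine ⟨fun x h1 h3 => not_lt.1 fun c => a1 ⟨ball_subset_closedBall (cb h3), c.le⟩ h1,
      fun x h1 h3 z h4 h5 => ?_, fun c => a4 (measure_mono_null l4 c)⟩
    obtain ⟨e', e1, a2⟩ := a2 x h1 (ball_subset_ball rr1 (cb h3))
    have key : ∀ u : E3, ‖u‖ = 1 → m i (ball (p + (r / 2) • u) (r / 2 / 20)) ≠ 0 →
        ⟪e', u⟫ ^ 2 ≤ (3 / 8) ^ 2 := fun u hu h => by
      obtain ⟨x₁, x1, y1⟩ : ∃ x ∈ N i, x ∈ ball (p + (r / 2) • u) (r / 2 / 20) := by
        by_contra c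
        exact h (measure_mono_null (fun x hx d => c ⟨x, d, hx⟩) a3.2.2)
      refine three_pt e1 hu (half_pos hr) (cb0 h3) y1 (a2 _ x1 (ball_subset_ball' ?_ y1))
      rw [dist_eq_norm, add_sub_cancel_left, norm_smul, hu, Real.norm_of_nonneg (half_pos hr).le]
      linarith
    have b1 := a2 _ h4 (ball_subset_ball rr1 (cb h5))
    rw [add_sub_cancel_left, real_inner_smul_right, norm_smul, T.nb, Real.norm_eq_abs, abs_mul] at b1
    by_contra c
    have b2 : |⟪e', e⟫| ≤ 1 / 4 := le_of_mul_le_mul_left (by linarith) (abs_pos.2 c)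
    have b3 := T.norm_sq e'
    have b4 := key p T.na a6
    have b5 := key v hv a7
    have b6 := abs_le.1 b2
    rw [e1, real_inner_comm e' p, real_inner_comm e' e, real_inner_comm e' v] at b3
    nlinarith [b6.1, b6.2]
  have c4 := bound s₀ Ω fun s hs => (mem s).1 hs
  have c2 : (Ω.card : ℝ) ≤ 2 := by
    obtain ⟨j, hj⟩ := ev
    exact_mod_cast (by omega : Ω.card ≤ 2)
  have h1 : ENNReal.ofReal (GA ν 0 σ) ≤ ENNReal.ofReal (Ω.card * (om0 / 2)) := by
    rw [hG, ← lintegral_hpls hT Ω (fun s hs => ((mem s).1 hs).1) hσ]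
    exact lintegral_mono_set cov
  rw [ENNReal.ofReal_le_ofReal_iff (by positivity)] at h1
  nlinarith

end Vale.Agent.P218G.Par
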