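import Vale.Agent.P218G.L1
import Vale.Agent.P218G.GRs
import Vale.Agent.P218G.GCSpec

/-! Static cones in the class of limit flows. -/

open MeasureTheory Set Filter Topology Metric
open scoped ENNReal NNReal RealInnerProductSpace ContDiff

namespace Vale.Agent.P218G.GL

open Vale.Agent.P218 Vale.Agent.P218.H313 Vale.Agent.P218.H313.A1
open Vale.Agent.P218G.Lit Vale.Agent.P218G.Rg Vale.Agent.P218G.Par
open Vale.Agent.P218FT (E3 TwoPt IsEqn nu scaleSet)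

variable {ν μ : ℝ → Measure E3} {a D : ℝ}

lemma Stat.mem_spt (st : Stat ν) (hg : ∀ b, GS ν b D) {s : ℝ} (hs : s ≤ 0) {p : E3} :
    p ∈ Spt ν s ↔ ∀ σ : ℝ, 0 < σ → om0 ≤ GA (ν (-1)) p σ := by
  refine ⟨fun hp σ hσ => ?_, fun h => ?_⟩
  · have := (hg (s - σ)).low hp le_rfl (by linarith)
    rwa [st _ (by linarith), sub_sub_cancel] at this
  · filter_upwards [self_mem_nhdsWithin] with u (hu : u < s)
    rw [st u (by linarith)]
    exact h _ (sub_pos.2 hu)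

lemma Stat.spt_eq (st : Stat ν) (hg : ∀ b, GS ν b D) {s : ℝ} (hs : s ≤ 0) :
    Spt ν s = Spt ν (-1) :=
  Set.ext fun _ => (st.mem_spt hg hs).trans (st.mem_spt hg (by norm_num)).symm

lemma spt_cone (ss : SS ν) (st : Stat ν) (hg : ∀ b, GS ν b D) :
    ∀ p ∈ Spt ν (-1), ∀ c : ℝ, 0 < c → c • p ∈ Spt ν (-1) := fun p hp c hc => by
  rw [st.mem_spt hg (by norm_num)] at hp ⊢
  intro σ hσ
  rw [← ss.cone st hc, GA_dil hc, zero_add, inv_smul_smul₀ hc.ne']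
  exact hp _ (by positivity)

lemma spt_inv {v : E3} (iv : Inv ν v) (st : Stat ν) (hg : ∀ b, GS ν b D) :
    ∀ p ∈ Spt ν (-1), ∀ z : ℝ, p + z • v ∈ Spt ν (-1) := fun p hp z => by
  rw [st.mem_spt hg (by norm_num)] at hp ⊢
  intro σ hσ
  have := hp σ hσ
  rwa [← iv z (-1) (by norm_num), GA_dil one_pos, inv_one, one_smul, one_pow, div_one,
    add_comm] at this

/-- mass near a point of the limit, at moving times -/
lemma mass_ev {ι : Type*} {l : Filter ι} {μ : ι → ℝ → Measure E3}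
    (hμ : ∀ a, ∀ᶠ i in l, GS (μ i) a D) {t : ℝ} (hν : Ent (ν t) D)
    (hw : WL l (fun i => μ i t) (ν t)) {s : ι → ℝ} (hs : Tendsto s l (𝓝 t))
    (hs' : ∀ᶠ i in l, s i < t) {p : E3} (hp : ∀ σ : ℝ, 0 < σ → om0 ≤ GA (ν t) p σ) {r : ℝ}
    (hr : 0 < r) : ∀ᶠ i in l, μ i (s i) (ball p r) ≠ 0 := by
  have o0 := om0_pos
  obtain ⟨u, hu, h1⟩ := mem_nhdsGT_iff_exists_Ioo_subset.1
    ((tendsto_tail hr D).eventually (gt_mem_nhds (half_pos o0)))
  have u0 : 0 < u / 2 := half_pos hu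
  filter_upwards [hμ (t - u / 2), hs.eventually (lt_mem_nhds (sub_lt_self t u0)), hs',
    (hw.GA ((hμ t).mono fun i hi => hi.ent t le_rfl) hν p u0).eventually
      (lt_mem_nhds ((half_lt_self o0).trans_le (hp _ u0)))] with i a1 a2 a3 a4 a5
  have b1 := a1.mono1 p (t := t + u / 2) a2.le a3.le (by linarith)
  have b2 := (a1.ent _ a2.le).GA_le_ball p hr.le (σ := t + u / 2 - s i) (by linarith)
  have b3 : 2 * Real.exp (-r ^ 2 / (8 * (t + u / 2 - s i))) * D < om0 / 2 :=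
    h1 ⟨by linarith, by linarith⟩
  rw [setIntegral_measure_zero _ a5] at b2
  rw [add_sub_cancel_left] at b1
  linarith

lemma exists_times {P : ℝ → Prop} (hP : ∀ᵐ τ, P τ) (t : ℝ) {lam : ℝ} (hl : 0 < lam) :
    ∃ s ∈ Ioo (-1 - lam⁻¹) (-1), P (t + s / lam ^ 2) := by
  have l2 : 0 < lam ^ 2 := by positivity
  obtain ⟨τ, h1, h2⟩ := Measure.exists_mem_of_measure_ne_zero_of_ae
    (s := Ioo (t + (-1 - lam⁻¹) / lam ^ 2) (t + -1 / lam ^ 2)) (μ := volume) (by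
      rw [Real.volume_Ioo, ne_eq, ENNReal.ofReal_eq_zero, not_le, sub_pos]
      have := inv_pos.2 hl
      gcongr
      linarith) (ae_restrict_of_ae hP)
  refine ⟨(τ - t) * lam ^ 2, ⟨(div_lt_iff₀ l2).1 (by linarith [h1.1]),
    (lt_div_iff₀ l2).1 (by linarith [h1.2])⟩, ?_⟩
  rwa [mul_div_cancel_right₀ _ l2.ne', add_sub_cancel]

lemma dil_apply (lam : ℝ) (x₀ : E3) (m : Measure E3) {B : Set E3} (hB : MeasurableSet B) :
    dil 2 lam x₀ m B = ENNReal.ofReal (lam ^ 2) * m ((fun x => lam • (x - x₀)) ⁻¹' B) := by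
  rw [dil, Measure.smul_apply, Measure.map_apply (by fun_prop) hB, smul_eq_mul]

lemma restrict_sub {m n : Measure E3} {N W O : Set E3} (h : m.restrict W = n.restrict (N ∩ W))
    (hO : MeasurableSet O) (hs : O ⊆ W) : m.restrict O = n.restrict (N ∩ O) := by
  rw [← Measure.restrict_restrict_of_subset hs, h, Measure.restrict_restrict hO, inter_left_comm,
    inter_eq_left.2 hs]

/-- **static cones which are invariant along a line**, with the data of the limit -/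
theorem l0_core {ι : Type*} {U : Ultrafilter ι} {x : ι → E3} {t lam : ι → ℝ} {x₀ : E3} {t₀ : ℝ}
    (hb : LimD U x t lam μ x₀ t₀ ν) (h : GS μ a D) (ha : 0 ≤ a) (ht : a < t₀)
    (hc : Par.IsCyclic μ) {K : Set (ℝ × E3)} (hK : IsOpen K)
    (hm : ∀ s, (μ s).restrict (tsl K s) = (μH[2] : Measure E3).restrict (Spt μ s ∩ tsl K s))
    (ss : SS ν) (st : Stat ν) {v : E3} (hv : ‖v‖ = 1) (iv : Inv ν v)
    (hν : (ν (-1)).restrict (axis v)ᶜ = (μH[2] : Measure E3).restrict (Spt ν (-1) ∩ (axis v)ᶜ))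
    (good : ∀ p, p ∉ axis v → ∃ W ∈ 𝓝 ((-1 : ℝ), p), ∃ r C : ℝ, 0 < r ∧ ∀ᶠ i in U, ∀ q ∈ W,
      (t i + q.1 / lam i ^ 2, x i + (lam i)⁻¹ • q.2) ∈ K ∧
      (q.2 ∈ Spt (rescaled 2 μ (x i) (t i) (lam i)) q.1 →
        ‖nu (Spt (rescaled 2 μ (x i) (t i) (lam i)) q.1) q.2‖ = 1 ∧
        TwoPt (Spt (rescaled 2 μ (x i) (t i) (lam i)) q.1) q.2 r C))
    (h2 : GA (ν (-1)) 0 1 < 2 * om0) : GA (ν (-1)) 0 1 ≤ om0 := by
  have e1 := hb.ev h ht
  have e2 := hb.ent h ht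
  have hg : ∀ b, GS ν b D := gs_lim e1 e2 hb.lim
  have l0 := hb.top.eventually_gt_atTop 0
  choose! s s1 s2 using fun i => exists_times hc (t i) (lam := lam i)
  have s3 : Tendsto s U (𝓝 (-1)) := by
    refine tendsto_of_tendsto_of_tendsto_of_le_of_le' ?_ tendsto_const_nhds
      (l0.mono fun i hi => (s1 i hi).1.le) (l0.mono fun i hi => (s1 i hi).2.le)
    simpa using hb.top.inv_tendsto_atTop.const_sub (-1)
  have s4 : ∀ {p : E3} {W : Set (ℝ × E3)}, W ∈ 𝓝 ((-1 : ℝ), p) →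
      ∃ r : ℝ, 0 < r ∧ ∀ᶠ i in U, ∀ y ∈ ball p r, (s i, y) ∈ W := fun {p W} hW => by
    obtain ⟨r, hr, h1⟩ := Metric.mem_nhds_iff.1 hW
    refine ⟨r, hr, (s3.eventually (ball_mem_nhds _ hr)).mono fun i hi y hy => h1 ?_⟩
    rw [← ball_prod_same]; exact ⟨hi, hy⟩
  refine half_planes (e2 (-1)) hv (spt_cone ss st hg) (spt_inv iv st hg) hν U
    (m := fun i => dil 2 (lam i) (x i) ((μ (t i + s i / lam i ^ 2)).restrict
      (tsl K (t i + s i / lam i ^ 2))))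
    (N := fun i => Spt (rescaled 2 μ (x i) (t i) (lam i)) (s i)) ?_ (fun p hp _ => ?_)
    (fun p hp h1 r hr => ?_) (fun p hp h1 => ?_) one_pos h2
  · filter_upwards [l0, e1 (-2), s3.eventually (lt_mem_nhds (by norm_num : (-2 : ℝ) < -1)),
      (tendsto_time hb.top hb.ht (-2)).eventually (lt_mem_nhds ht)] with i a1 a2 a3 a4
    have a5 : a < t i + s i / lam i ^ 2 := a4.trans (by gcongr)
    obtain ⟨V, b1, b2⟩ := s2 i a1 (by linarith)
    have b3 := a2.isClosed_spt a3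
    refine ⟨b3, ?_, le_zero_iff.1 (le_of_le_of_eq ?_ (a2.supp _ a3))⟩
    · rw [spt_rescaled a1, ← b1]
      refine (col_restrict V b2 (h.isClosed_spt a5) (b1 ▸ h.supp _ a5) (Gl.isOpen_tsl hK _)
        ?_).scale a1 _ _
      rw [b1, hm]
      exact Measure.restrict_le_self
    · rw [rescaled_eq_dil]
      change _ ≤ dil 2 _ _ _ (Spt _ _)ᶜ
      rw [dil_apply _ _ _ b3.measurableSet.compl, dil_apply _ _ _ b3.measurableSet.compl]
      exact mul_le_mul_right (Measure.restrict_le_self _) _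
  · obtain ⟨r, hr, h1⟩ := not_spt_ball e1 e2 hb.lim hp
    exact ⟨r, hr, (h1.and (s3.eventually (ball_mem_nhds _ hr))).mono fun i hi y hy =>
      hi.1 _ y hi.2 hy⟩
  · obtain ⟨W, hW, r1, C, -, h3⟩ := good p h1
    obtain ⟨r', r0, h4⟩ := s4 hW
    filter_upwards [l0, h3, h4, mass_ev e1 (e2 _) (hb.lim _) s3 (l0.mono fun i hi => (s1 i hi).2)
      ((st.mem_spt hg (by norm_num)).1 hp) (lt_min hr r0)] with i a1 a2 a3 a4 a5
    refine a4 ?_
    have b1 := measure_mono_null (ball_subset_ball (min_le_left r r')) a5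
    rw [dil_apply _ _ _ measurableSet_ball] at b1
    rw [rescaled_eq_dil, dil_apply _ _ _ measurableSet_ball, ← b1, Measure.restrict_eq_self]
    intro y hy
    have := (a2 _ (a3 _ (ball_subset_ball (min_le_right r r') hy))).1
    simpa [tsl, inv_smul_smul₀ a1.ne'] using this
  · obtain ⟨W, hW, r, C, hr, h3⟩ := good p h1
    obtain ⟨r', r0, h4⟩ := s4 hW
    have c0 : 0 < |C| + 1 := by positivity
    refine ⟨min r' (min (r / 2) (1 / (8 * (|C| + 1)))), by positivity, ?_⟩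
    filter_upwards [h3, h4] with i a2 a3 y hy b1
    obtain ⟨b2, b3⟩ := (a2 _ (a3 y (ball_subset_ball (min_le_left _ _) b1))).2 hy
    refine ⟨_, b2, fun z hz b4 => ?_⟩
    have b5 := dist_triangle_right z y p
    have b6 := (lt_min_iff.1 (lt_min_iff.1 (mem_ball.1 b1)).2)
    have b7 := (lt_min_iff.1 (lt_min_iff.1 (mem_ball.1 b4)).2)
    rw [dist_eq_norm] at b5
    have b8 := b3 z hz (by linarith [b6.1, b7.1])
    have b9 : ‖z - y‖ * (|C| + 1) ≤ 1 / 4 := by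
      rw [← le_div_iff₀ c0]
      have : 1 / 4 / (|C| + 1) = 2 * (1 / (8 * (|C| + 1))) := by field_simp; norm_num
      linarith [b6.2, b7.2]
    rw [real_inner_comm]
    nlinarith [le_abs_self C, norm_nonneg (z - y), mul_nonneg (norm_nonneg (z - y))
      (sub_nonneg.2 b9), mul_nonneg (sq_nonneg ‖z - y‖) (sub_nonneg.2 (le_abs_self C))]

/-- **static cones which are smooth off the vertex** -/
theorem l1_core (hg : ∀ b, GS ν b D) (ss : SS ν) (st : Stat ν) {K : Set (ℝ × E3)}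
    (hM : IsMCFOn (Spt ν) K)
    (hm : (ν (-1)).restrict (tsl K (-1)) =
      (μH[2] : Measure E3).restrict (Spt ν (-1) ∩ tsl K (-1)))
    (hK : ∀ p : E3, p ≠ 0 → ((-1 : ℝ), p) ∈ K) (h2 : GA (ν (-1)) 0 1 < 2 * om0) :
    GA (ν (-1)) 0 1 ≤ om0 := by
  refine cone_plane ((hg (-1)).ent _ le_rfl) ((hg (-2)).isClosed_spt (by norm_num))
    (spt_cone ss st hg) (restrict_sub hm (measurableSet_singleton 0).compl hK)
    (fun p hp p0 => static_Hv hM (hK p p0) hp ?_) one_pos h2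
  filter_upwards [gt_mem_nhds (show (-1 : ℝ) < 0 by norm_num)] with s hs
  rwa [st.spt_eq hg hs.le]

/-- the regular structure of the rescalings and of their limit -/
lemma lim_rs {ι : Type} {U : Ultrafilter ι} {x : ι → E3} {t lam : ι → ℝ} {x₀ : E3} {t₀ : ℝ}
    (hb : LimD U x t lam μ x₀ t₀ ν) (hμ : IsIntegralBrakkeFlow 2 μ) (h0 : μ 0 univ < ⊤)
    (hU : IsUnitRegular μ) (h : GS μ a D) (ha : 0 ≤ a) (ht : a < t₀) :
    ∃ ε : ℝ, 0 < ε ∧ RS μ a D ε (RegS μ) ∧ ∀ b, RS ν b D ε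
      (Good U (fun i => rescaled 2 μ (x i) (t i) (lam i))
        fun i => WL.scaleReg (lam i) (x i) (t i) (RegS μ)) := by
  obtain ⟨ε, hε, h1⟩ := rs_ibf D
  obtain ⟨ε₁, hε₁, h2⟩ := rs_lim D
  have h3 := (h1 μ a hμ h0 hU ha h).mono (min_le_left ε ε₁)
  exact ⟨_, lt_min hε hε₁, h3, h2 _ (min_le_right _ _) U _ _ ν (ev_rs h3 hb.top x hb.ht ht)
    (hb.ent h ht) hb.lim⟩

lemma rs_mem {ε : ℝ} {K : Set (ℝ × E3)} (h : ∀ b, RS ν b D ε K) (hε : 0 < ε) {p : E3} {t : ℝ}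
    (hp : GC.DL ν p t) : (t, p) ∈ K := by
  obtain ⟨θ, hθ⟩ := exists_dens (h (t - 1)).gs p (sub_one_lt t)
  exact (h (t - 1)).gap p t θ (sub_one_lt t) hθ ((hp θ hθ).trans_lt (by nlinarith [om0_pos]))

variable {x₀ : E3} {t₀ : ℝ}

theorem l0_lim (hμ : IsIntegralBrakkeFlow 2 μ) (h0 : μ 0 univ < ⊤) (hU : IsUnitRegular μ)
    (hc : Par.IsCyclic μ) (h : GS μ a D) (ha : 0 ≤ a) (ht : a < t₀) (hb : Lim μ x₀ t₀ ν)
    (ss : SS ν) (st : Stat ν) {v : E3} (hv : ‖v‖ = 1) (iv : Inv ν v)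
    (h2 : GA (ν (-1)) 0 1 < 2 * om0) (hp : ∀ p, p ∉ axis v → GC.DL ν p (-1)) :
    GA (ν (-1)) 0 1 ≤ om0 := by
  obtain ⟨ι, U, x, t, lam, hb⟩ := hb
  obtain ⟨ε, hε, h3, h4⟩ := lim_rs hb hμ h0 hU h ha ht
  refine l0_core hb h ha ht hc h3.mcf.isOpen h3.meas ss st hv iv
    (restrict_sub ((h4 0).meas _) (isClosed_axis v).measurableSet.compl
      fun p c => rs_mem h4 hε (hp p c)) (fun p c => ?_) h2
  obtain ⟨W, hW, r, C, hr, h5⟩ := rs_mem h4 hε (hp p c)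
  refine ⟨W, hW, r, C, hr, ?_⟩
  filter_upwards [h5, ev_rs h3 hb.top x hb.ht ht 0] with i a1 a2 q hq
  refine ⟨a1.1 hq, fun a3 => ⟨?_, a1.2 q hq a3⟩⟩
  obtain ⟨w, b1, b2, b3, -⟩ := a2.mcf.loc q (a1.1 hq) a3
  exact P218FT.norm_nuw (IsEqn.isEqn_eqn (w := fun y => w (q.1, y))
    ⟨b1.comp (contDiff_prodMk_right q.1), b2,
      (Continuous.prodMk_right q.1).continuousAt.eventually b3⟩).2.1

theorem l1_lim (hμ : IsIntegralBrakkeFlow 2 μ) (h0 : μ 0 univ < ⊤) (hU : IsUnitRegular μ)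
    (h : GS μ a D) (ha : 0 ≤ a) (ht : a < t₀) (hb : Lim μ x₀ t₀ ν) (ss : SS ν) (st : Stat ν)
    (h2 : GA (ν (-1)) 0 1 < 2 * om0) (hp : ∀ p, p ≠ 0 → GC.DL ν p (-1)) :
    GA (ν (-1)) 0 1 ≤ om0 := by
  obtain ⟨ι, U, x, t, lam, hb⟩ := hb
  obtain ⟨ε, hε, -, h4⟩ := lim_rs hb hμ h0 hU h ha ht
  exact l1_core (fun b => (h4 b).gs) ss st (h4 0).mcf ((h4 0).meas _)
    (fun p c => rs_mem h4 hε (hp p c)) h2

end Vale.Agent.P218G.GL

namespace Vale.Agent.P218G.GC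

open Vale.Agent.P218G.Lit Vale.Agent.P218G.Rg Vale.Agent.P218G.GL

theorem l0L_proof : L0LStmt := fun _ _ _ _ _ _ h _ hb ss st _ hv iv hp =>
  l0_lim h.ibf h.fin h.ur h.cyc h.gs h.pos.le h.lt hb ss st hv iv
    ((((hb.gs h.gs h.lt h.dens (-1)).ent _ le_rfl).le 0 1 one_pos).trans_lt h.two) fun p c =>
    hp p (fun d => c (Submodule.mem_span_singleton.1 d)) _ (by norm_num)

theorem l1L_proof : L1LStmt := fun _ _ _ _ _ _ h _ hb ss st hp =>
  l1_lim h.ibf h.fin h.ur h.gs h.pos.le h.lt hb ss st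
    ((((hb.gs h.gs h.lt h.dens (-1)).ent _ le_rfl).le 0 1 one_pos).trans_lt h.two) fun p c =>
    hp p c _ (by norm_num)

theorem regL_proof : RegLStmt := fun _ _ _ _ _ _ h ν ⟨_, _, _, _, _, hb⟩ _ _ hp =>
  let ⟨_, hε, _, h4⟩ := lim_rs hb h.ibf h.fin h.ur h.gs h.pos.le h.lt
  ⟨_, Spt ν, rs_mem h4 hε hp, (h4 0).mcf, (h4 0).meas⟩

end Vale.Agent.P218G.GC
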