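import Vale.Agent.P218G.L0
import Vale.Agent.P218F.EndsCurve

/-! Minimal cones which are smooth away from the vertex are planes. -/

open MeasureTheory Set Filter Topology Metric Real
open scoped ENNReal NNReal RealInnerProductSpace ContDiff

namespace Vale.Agent.P218G.Par

open P218FT Rg Lit P218F.Ends.Crv

lemma second {w : E3 → ℝ} (hw : ContDiff ℝ ∞ w) {c c' : ℝ → E3} {k : E3} {s : ℝ}
    (h1 : ∀ᶠ u in 𝓝 s, HasDerivAt c (c' u) u) (h2 : HasDerivAt c' k s)
    (h0 : ∀ᶠ u in 𝓝 s, w (c u) = 0) :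
    ⟪gradient w (c s), k⟫ + ⟪fderiv ℝ (gradient w) (c s) (c' s), c' s⟫ = 0 := by
  refine deriv_zero (c := 0) ((((contDiff_grad hw).differentiable (by simp)
    (c s)).hasFDerivAt.comp_hasDerivAt s h1.self_of_nhds).inner ℝ h2) ?_
  filter_upwards [h1, h0.eventually_nhds] with u a1 a2
  rw [Function.comp_apply, inner_grad]
  exact deriv_zero (c := 0) ((hw.differentiable (by simp) (c u)).hasFDerivAt.comp_hasDerivAt u a1) a2

/-- solutions of `c'' = -c` -/
lemma harmonic {c c' : ℝ → E3} (h1 : ∀ s, HasDerivAt c (c' s) s)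
    (h2 : ∀ s, HasDerivAt c' (-c s) s) (s : ℝ) : c s = cir (c 0) (c' 0) s := by
  have a1 : ∀ u, HasDerivAt (fun u => c u - cir (c 0) (c' 0) u) (c' u - nrm (c 0) (c' 0) u) u :=
    fun u => (h1 u).sub (((hasDerivAt_cos u).smul_const _).add ((hasDerivAt_sin u).smul_const _))
  have a2 : ∀ u, HasDerivAt (fun u => c' u - nrm (c 0) (c' 0) u) (-(c u - cir (c 0) (c' 0) u)) u :=
    fun u => by
      refine ((h2 u).sub (((hasDerivAt_sin u).neg.smul_const (c 0)).add
        ((hasDerivAt_cos u).smul_const (c' 0)))).congr_deriv ?_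
      simp only [cir, neg_smul]; abel
  have a3 := is_const_of_deriv_eq_zero (𝕜 := ℝ)
    (f := fun u => ⟪c u - cir (c 0) (c' 0) u, c u - cir (c 0) (c' 0) u⟫ +
      ⟪c' u - nrm (c 0) (c' 0) u, c' u - nrm (c 0) (c' 0) u⟫)
    (fun u => (((a1 u).inner ℝ (a1 u)).add ((a2 u).inner ℝ (a2 u))).differentiableAt)
    (fun u => by
      refine (((a1 u).inner ℝ (a1 u)).add ((a2 u).inner ℝ (a2 u))).deriv.trans ?_
      simp only [inner_neg_right, real_inner_comm (c' u - nrm (c 0) (c' 0) u)]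
      ring) s 0
  have e1 : cir (c 0) (c' 0) 0 = c 0 := by simp [cir]
  have e2 : nrm (c 0) (c' 0) 0 = c' 0 := by simp [nrm]
  simp only [e1, e2, sub_self, inner_zero_left, add_zero, real_inner_self_eq_norm_sq] at a3
  exact sub_eq_zero.1 (norm_eq_zero.1 (pow_eq_zero_iff two_ne_zero |>.1
    (le_antisymm (by nlinarith [sq_nonneg ‖c' s - nrm (c 0) (c' 0) s‖]) (sq_nonneg _))))

/-- through every point of a smooth minimal cone there is a plane contained in the cone -/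
theorem plane_sub {C : Set E3} (hC : IsClosed C) (cn : ∀ x ∈ C, ∀ c : ℝ, 0 < c → c • x ∈ C)
    (sm : ∀ p ∈ C, p ≠ 0 → (∃ w, IsEqn C p w) ∧ Hv C p = 0) {x : E3} (hx : x ∈ C) (x0 : x ≠ 0) :
    ∃ n : E3, ‖n‖ = 1 ∧ ⟪n, x⟫ = 0 ∧ ∀ y, ⟪n, y⟫ = 0 → y ≠ 0 → y ∈ C := by
  set Γ := C ∩ sphere 0 1 with hΓ
  have hu : ∀ p ∈ Γ, ‖p‖ = 1 := fun p hp => mem_sphere_zero_iff_norm.1 hp.2
  have nz : ∀ p ∈ Γ, p ≠ 0 := fun p hp h => by simpa [h] using hu p hp
  have un : ∀ p ∈ C, p ≠ 0 → ‖p‖⁻¹ • p ∈ Γ := fun p hp p0 =>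
    ⟨cn p hp _ (inv_pos.2 (norm_pos_iff.2 p0)), mem_sphere_zero_iff_norm.2 (norm_smul_inv_norm p0)⟩
  have loc : ∀ p ∈ Γ, ∀ᶠ y in 𝓝 p, y ∈ cone Γ ↔ y ∈ C := fun p hp => by
    filter_upwards [eventually_ne_nhds (nz p hp)] with y y0
    refine ⟨fun ⟨s, s0, h⟩ => ?_, fun h => ⟨_, inv_pos.2 (norm_pos_iff.2 y0), un y h y0⟩⟩
    simpa [inv_smul_smul₀ s0.ne'] using cn _ h.1 _ (inv_pos.2 s0)
  have hE' : ∀ p ∈ Γ, ∃ w, IsEqn (cone Γ) p w ∧ tr (shw w p) = 0 := fun p hp => by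
    obtain ⟨⟨w, hw⟩, h0⟩ := sm p hp.1 (nz p hp)
    rw [hw.Hv_eq hp.1, smul_eq_zero] at h0
    refine ⟨w, ⟨hw.1, hw.2.1, ?_⟩, h0.resolve_right fun h => by simpa [h] using norm_nuw hw.2.1⟩
    filter_upwards [loc p hp, hw.2.2] with y a1 a2 using a1.trans a2
  have hE : ∀ p ∈ Γ, ∃ w, IsEqn (cone Γ) p w := fun p hp => (hE' p hp).imp fun _ h => h.1
  obtain ⟨c, c0, hc⟩ := exists_glob hu hE ((isCompact_sphere 0 1).inter_left hC) (un x hx x0)
  have d1 : ∀ s, HasDerivAt c (deriv c s) s := fun s => hc.hd (mem_univ s)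
  have m : ∀ s, c s ∈ Γ := fun s => (hc s (mem_univ s)).1
  have n1 : ∀ s, ⟪deriv c s, deriv c s⟫ = 1 := fun s => by
    rw [real_inner_self_eq_norm_sq, (hc s (mem_univ s)).2.2, one_pow]
  have o1 : ∀ s, ⟪c s, deriv c s⟫ = 0 := fun s => by
    have := deriv_zero (c := 1) ((d1 s).inner ℝ (d1 s)) (Eventually.of_forall fun u => by
      rw [real_inner_self_eq_norm_sq, hu _ (m u), one_pow])
    rw [real_inner_comm (c s)] at this
    linarith
  have tri : ∀ s w, IsEqn (cone Γ) (c s) w → Triple (c s) (deriv c s) (nuw w (c s)) := fun s w hw => by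
    have T := triple_fld hu (m s) hw
    refine ⟨T.na, (hc s (mem_univ s)).2.2, T.nc, o1 s, T.ac, ?_⟩
    rcases hc.tan hu isOpen_univ (mem_univ s) hw with h | h
    · rw [h, T.bc]
    · rw [h, inner_neg_left, T.bc, neg_zero]
  have d2 : ∀ s, HasDerivAt (deriv c) (-c s) s := fun s => by
    obtain ⟨w, hw, h0⟩ := hE' _ (m s)
    have T := tri s w hw
    have d := ((hc.contDiffAt_deriv (mem_univ s)).differentiableAt (by simp)).hasDerivAt
    set k := deriv (deriv c) s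
    have k1 := deriv_zero (c := 0) ((d1 s).inner ℝ d) (Eventually.of_forall o1)
    have k2 := deriv_zero (c := 1) (d.inner ℝ d) (Eventually.of_forall n1)
    have k3 := second hw.1 (Eventually.of_forall d1) d
      (((d1 s).continuousAt.eventually hw.2.2).mono fun u h => h.1 (subset_cone (m u)))
    have l1 : ∀ u : ℝ, HasDerivAt (fun u : ℝ => u • c s) (c s) u := fun u => by
      simpa using (hasDerivAt_id u).smul_const (c s)
    have k4 := second hw.1 (s := 1) (Eventually.of_forall l1) (hasDerivAt_const _ (c s)) (by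
      have t : Tendsto (fun u : ℝ => u • c s) (𝓝 1) (𝓝 (c s)) := by
        simpa using (l1 1).continuousAt.tendsto
      filter_upwards [t.eventually hw.2.2, lt_mem_nhds one_pos] with u a1 a2
      exact a1.1 ⟨u⁻¹, inv_pos.2 a2, by rw [inv_smul_smul₀ a2.ne']; exact m s⟩)
    have g0 := norm_ne_zero_iff.2 hw.2.1
    rw [one_smul, inner_zero_right, zero_add] at k4
    rw [T.tr_eq, shw_nuw hw.2.1, inner_shw, inner_shw, pt_of_orth ((real_inner_comm _ _).trans T.ac),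
      pt_of_orth ((real_inner_comm _ _).trans T.bc), k4, inner_zero_left, mul_zero, zero_add, add_zero,
      mul_eq_zero] at h0
    rw [h0.resolve_left (by simpa using hw.2.1), add_zero, grad_eq_smul_nuw hw.2.1,
      real_inner_smul_left, mul_eq_zero] at k3
    rw [real_inner_comm (deriv c s)] at k2
    rw [n1] at k1
    refine d.congr_deriv ?_
    rw [T.expand k, k3.resolve_left g0, show ⟪deriv c s, k⟫ = 0 by linarith,
      show ⟪c s, k⟫ = -1 by linarith]
    simp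
  obtain ⟨w, hw⟩ := hE _ (m 0)
  have T := tri 0 w hw
  refine ⟨_, T.nc, ?_, fun y h1 h2 => ?_⟩
  · have := T.ac
    rw [real_inner_comm] at this
    nth_rewrite 2 [c0] at this
    rw [real_inner_smul_right, mul_eq_zero] at this
    exact this.resolve_left (inv_ne_zero (norm_ne_zero_iff.2 x0))
  · obtain ⟨s, -, h3⟩ := exists_hpl T (x := y) (by
      rintro ⟨z, rfl⟩
      rw [real_inner_smul_right, real_inner_self_eq_norm_sq, T.nc, one_pow, mul_one] at h1
      simp [h1] at h2) 0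
    rw [hpl_eq T h3, h1, zero_smul, add_zero]
    exact cn _ (harmonic d1 d2 s ▸ (m s).1) _ h3.2

lemma hausdorff_sub (K : Submodule ℝ E3) (h : Module.finrank ℝ K < 2) :
    (μH[2] : Measure E3) K = 0 := by
  have h1 := (isometry_subtype_coe (s := (K : Set E3))).hausdorffMeasure_image (d := 2)
    (Or.inl (by norm_num)) univ
  rw [image_univ, Subtype.range_coe] at h1
  rw [h1]
  exact congrFun (congrArg DFunLike.coe
    (Real.hausdorffMeasure_of_finrank_lt (E := K) (d := 2) (by exact_mod_cast h))) univ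

lemma finrank_perp {n : E3} (hn : ‖n‖ = 1) : Module.finrank ℝ (ℝ ∙ n)ᗮ = 2 := by
  have : Fact (Module.finrank ℝ E3 = 2 + 1) := ⟨by simp⟩
  exact Submodule.finrank_orthogonal_span_singleton fun h => by simp [h] at hn

/-- **A minimal cone of multiplicity one and density less than two which is smooth away from the
vertex has density at most one.** -/
theorem cone_plane {ν : Measure E3} {D : ℝ} (hE : Ent ν D) {C : Set E3} (hC : IsClosed C)
    (cn : ∀ x ∈ C, ∀ c : ℝ, 0 < c → c • x ∈ C)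
    (hν : ν.restrict {0}ᶜ = (μH[2] : Measure E3).restrict (C ∩ {0}ᶜ))
    (sm : ∀ p ∈ C, p ≠ 0 → (∃ w, IsEqn C p w) ∧ Hv C p = 0)
    {σ : ℝ} (hσ : 0 < σ) (h2 : GA ν 0 σ < 2 * om0) : GA ν 0 σ ≤ om0 := by
  have o0 := om0_pos
  obtain ⟨v, hv⟩ := exists_norm_eq E3 zero_le_one
  have z : ({0} : Set E3) ⊆ axis v := singleton_subset_iff.2 ⟨0, zero_smul _ _⟩
  have hG : ENNReal.ofReal (GA ν 0 σ) = ∫⁻ x in C ∩ {0}ᶜ, ENNReal.ofReal (gk0 σ x) ∂μH[2] := by
    rw [← hν, Measure.restrict_eq_self_of_ae_mem (s := ({0} : Set E3)ᶜ)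
      (measure_eq_zero_iff_ae_notMem.1 (measure_mono_null z (ent_axis hE hv))), GA,
      ofReal_integral_eq_lintegral_ofReal (hE.int 0 σ hσ)
        (Eventually.of_forall fun x => (gk0_pos hσ _).le)]
    simp only [sub_zero]
  rw [← ENNReal.ofReal_le_ofReal_iff o0.le, hG]
  rcases (C ∩ {0}ᶜ).eq_empty_or_nonempty with h | ⟨x, hx⟩
  · simp [h]
  obtain ⟨n, n1, -, hn⟩ := plane_sub hC cn sm hx.1 hx.2
  rw [← lintegral_gk0_plane (finrank_perp n1) hσ]
  refine lintegral_mono_set fun x' hx' => not_not.1 fun c => ?_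
  obtain ⟨n', n1', h1, hn'⟩ := plane_sub hC cn sm hx'.1 hx'.2
  have m' : x' ∈ (ℝ ∙ n')ᗮ := Submodule.mem_orthogonal_singleton_iff_inner_right.2 h1
  have dj : AEDisjoint (μH[2] : Measure E3) ((ℝ ∙ n)ᗮ : Submodule ℝ E3)
      ((ℝ ∙ n')ᗮ : Submodule ℝ E3) :=
    hausdorff_sub ((ℝ ∙ n)ᗮ ⊓ (ℝ ∙ n')ᗮ) (finrank_perp n1' ▸ Submodule.finrank_lt_finrank_of_lt
      (lt_of_le_of_ne inf_le_right fun e => c (e.ge m').1))
  have h3 : ∫⁻ x in (((ℝ ∙ n)ᗮ : Submodule ℝ E3) ∪ ((ℝ ∙ n')ᗮ : Submodule ℝ E3) : Set E3),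
      ENNReal.ofReal (gk0 σ x) ∂μH[2] ≤ ENNReal.ofReal (GA ν 0 σ) := by
    rw [hG]
    refine lintegral_mono_set' ?_
    filter_upwards [measure_eq_zero_iff_ae_notMem.1 (measure_mono_null z (hausdorff_axis v))]
      with y y0 hy
    exact ⟨hy.elim (fun h => hn y (Submodule.mem_orthogonal_singleton_iff_inner_right.1 h) y0)
      fun h => hn' y (Submodule.mem_orthogonal_singleton_iff_inner_right.1 h) y0, y0⟩
  rw [Measure.restrict_union₀ dj
      (Submodule.closed_of_finiteDimensional _).measurableSet.nullMeasurableSet,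
    lintegral_add_measure, lintegral_gk0_plane (finrank_perp n1) hσ,
    lintegral_gk0_plane (finrank_perp n1') hσ, ← ENNReal.ofReal_add o0.le o0.le,
    ENNReal.ofReal_le_ofReal_iff (GA_nonneg _ _ hσ.le)] at h3
  linarith

/-- a smooth flow which does not move is minimal -/
lemma static_Hv {M : ℝ → Set E3} {U : Set (ℝ × E3)} (h : IsMCFOn M U) {t : ℝ} {x : E3}
    (hU : (t, x) ∈ U) (hx : x ∈ M t) (hs : ∀ᶠ s in 𝓝 t, x ∈ M s) :
    (∃ w, IsEqn (M t) x w) ∧ Hv (M t) x = 0 := by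
  obtain ⟨w, h1, h2, h3, h4⟩ := h.loc _ hU hx
  have e : IsEqn (M t) x fun y => w (t, y) :=
    ⟨h1.comp (contDiff_prodMk_right t), h2,
      ((continuous_const.prodMk continuous_id).tendsto' x (t, x) rfl).eventually h3⟩
  refine ⟨⟨_, e⟩, ?_⟩
  have h5 : (fun s => w (s, x)) =ᶠ[𝓝 t] fun _ => 0 := by
    filter_upwards [hs, ((continuous_id.prodMk continuous_const).tendsto' t (t, x) rfl).eventually h3]
      with s a1 a2 using a2.1 a1
  simp only at h4
  rw [h5.deriv_eq, deriv_const, e.Hv_eq hx, real_inner_smul_right, inner_grad_nuw h2, eq_comm,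
    neg_eq_zero, mul_eq_zero] at h4
  rw [e.Hv_eq hx, h4.resolve_right (norm_ne_zero_iff.2 h2), zero_smul]

end Vale.Agent.P218G.Par
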