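import Vale.Agent.P218G.Lit

/-! Weak mean curvature flows of surfaces in `ℝ³`: genus, almost regular flows, cyclic flows,
self-shrinkers. -/

open MeasureTheory Set Filter Topology Metric
open scoped ENNReal NNReal RealInnerProductSpace ContDiff

namespace Vale.Agent.P218G.Lit

open Vale.Agent.P214 (IntegralVarifold)
open Vale.Agent.P218 (rescaled)
open Vale.Agent.P218FT (E3 IsSurf Hv a2 nu tr area)

/-- the total genus `∑ (1 - χ / 2)` of a closed surface, the sum being over the connected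
components, and the Euler characteristic being `χ = (2π)⁻¹ ∫ K`, `K = (|H|² - |A|²) / 2` -/
noncomputable def totalGenus (N : Set E3) : ℝ :=
  (Nat.card (ConnectedComponents N) : ℝ) -
    (4 * Real.pi)⁻¹ * ∫ x, (‖Hv N x‖ ^ 2 - a2 N x) / 2 ∂(area N)

/-- a properly embedded surface has finite genus: in every ball it coincides with a closed
surface, and the genus of these closed surfaces is bounded -/
def HasFiniteGenus (S : Set E3) : Prop :=
  ∃ g : ℝ, ∀ R : ℝ, ∃ N : Set E3, IsSurf N ∧ IsCompact N ∧ N ∩ ball 0 R = S ∩ ball 0 R ∧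
    totalGenus N ≤ g

/-- almost regular on `(a, b)`: almost every time is regular, and the genus of the regular time
slices is bounded -/
def IsAlmostRegularOn (μ : ℝ → Measure E3) (a b : ℝ) : Prop :=
  (∀ᵐ t : ℝ, t ∈ Ioo a b → IsRegularTime μ t) ∧
    ∃ g : ℝ, ∀ t ∈ Ioo a b, IsRegularTime μ t → ∀ N : Set E3, IsSurf N →
      μ t = (μH[2] : Measure E3).restrict N → totalGenus N ≤ g

/-- the flat chain modulo two of `V` is a cycle: the part of `V` of odd multiplicity is the boundary
of a measurable set `E`, in the sense of the Gauss-Green formula with a unit normal `n` -/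
def IsCycleModTwo (V : IntegralVarifold 2 (univ : Set E3)) : Prop :=
  ∃ (E : Set E3) (n : E3 → E3), MeasurableSet E ∧
    AEStronglyMeasurable n (area {x ∈ V.carrier | Odd (V.mult x)}) ∧
    (∀ᵐ x ∂(area {x ∈ V.carrier | Odd (V.mult x)}), ‖n x‖ = 1) ∧
    ∀ X : E3 → E3, ContDiff ℝ 1 X → HasCompactSupport X →
      ∫ x in E, tr (fderiv ℝ X x) = ∫ x, ⟪X x, n x⟫ ∂(area {x ∈ V.carrier | Odd (V.mult x)})

/-- cyclic: almost every time slice is a cycle modulo two -/
def IsCyclic (μ : ℝ → Measure E3) : Prop :=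
  ∀ᵐ t : ℝ, 0 ≤ t → ∃ V : IntegralVarifold 2 (univ : Set E3), V.weight = μ t ∧ IsCycleModTwo V

/-- a smooth properly embedded self-shrinker (possibly empty): `H + X^⊥ / 2 = 0` -/
def IsSelfShrinker (S : Set E3) : Prop :=
  IsSurf S ∧ ∀ x ∈ S, Hv S x + (2⁻¹ * ⟪x, nu S x⟫) • nu S x = 0

/-- the rescalings of `μ` about `(x₀, t₀)` converge weakly, as `λ → ∞`, to the multiplicity one flow
`s ↦ H² ⌞ √(-s) S` -/
def ConvergesTo (μ : ℝ → Measure E3) (x₀ : E3) (t₀ : ℝ) (S : Set E3) : Prop :=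
  ∀ s < 0, ∀ φ : E3 → ℝ, Continuous φ → HasCompactSupport φ →
    Tendsto (fun lam : ℝ => ∫ x, φ x ∂(rescaled 2 μ x₀ t₀ lam s)) atTop
      (𝓝 (∫ x in (fun y => √(-s) • y) '' S, φ x ∂μH[2]))

end Vale.Agent.P218G.Lit
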