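import Vale.Agent.P218FT.Local
import Mathlib.Analysis.Calculus.BumpFunction.Convolution
import Mathlib.Analysis.Calculus.ContDiff.Convolution
import Mathlib.Analysis.Distribution.AEEqOfIntegralContDiff
import Mathlib.Analysis.Calculus.LineDeriv.IntegrationByParts
import Mathlib.Order.Filter.Ultrafilter.Basic
import Mathlib.MeasureTheory.Function.L2Space

/-! Parity: a measure which is the boundary measure of a set colours the complement of its
support with two colours, and the colour changes across every sheet. -/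

open MeasureTheory Set Filter Topology Metric ContinuousLinearMap
open scoped ENNReal NNReal RealInnerProductSpace ContDiff Convolution Pointwise

namespace Vale.Agent.P218G.Par

open P218FT

/-- `m` is the boundary measure of a measurable set `E`: the Gauss-Green formula holds with a
measurable unit normal `n` -/
def Bounds (m : Measure E3) : Prop :=
  ∃ (E : Set E3) (n : E3 → E3), MeasurableSet E ∧ AEStronglyMeasurable n m ∧
    (∀ᵐ x ∂m, ‖n x‖ = 1) ∧ ∀ X : E3 → E3, ContDiff ℝ 1 X → HasCompactSupport X →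
      ∫ x in E, tr (fderiv ℝ X x) = ∫ x, ⟪X x, n x⟫ ∂m

/-- `A, B` is a colouring of the complement of `N` such that `m` vanishes on the open sets with
one colour only -/
structure IsCol (m : Measure E3) (N A B : Set E3) : Prop where
  openA : IsOpen A
  openB : IsOpen B
  disj : Disjoint A B
  cover : Nᶜ ⊆ A ∪ B
  null : ∀ Q : Set E3, IsOpen Q → volume (Q ∩ N) = 0 → (Q \ N ⊆ A ∨ Q \ N ⊆ B) → m Q = 0

/-- there is a colouring -/
def Col (m : Measure E3) (N : Set E3) : Prop := ∃ A B, IsCol m N A B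

lemma tr_smulRight (l : E3 →L[ℝ] ℝ) (v : E3) : tr (l.smulRight v) = l v := by
  have : (l.smulRight v).toLinearMap = l.toLinearMap.smulRight v := rfl
  rw [tr, this, LinearMap.trace_smulRight]
  rfl

lemma tr_fderiv_smul {g : E3 → ℝ} (hg : ContDiff ℝ 1 g) (v x : E3) :
    tr (fderiv ℝ (fun y => g y • v) x) = fderiv ℝ g x v := by
  rw [((hg.differentiable one_ne_zero x).hasFDerivAt.smul_const v).fderiv, tr_smulRight]

/-- a set whose characteristic function has no derivative in a ball is trivial in the ball -/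
lemma trivial_ball {E : Set E3} (hE : MeasurableSet E) {x : E3} {r : ℝ} (hr : 0 < r)
    (h : ∀ g : E3 → ℝ, ContDiff ℝ 1 g → HasCompactSupport g → (∀ y, y ∉ ball x (2 * r) → g y = 0) →
      ∀ v, ∫ y in E, fderiv ℝ g y v = 0) :
    (∀ᵐ y, y ∈ ball x r → y ∈ E) ∨ ∀ᵐ y, y ∈ ball x r → y ∉ E := by
  set f : E3 → ℝ := E.indicator 1 with hf
  have fl : LocallyIntegrable f volume := (locallyIntegrable_const (1 : ℝ)).indicator hE
  let φ : ℕ → ContDiffBump (0 : E3) := fun k =>
    ⟨r / (k + 1) / 2, r / (k + 1), by positivity, half_lt_self (by positivity)⟩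
  have h1 := ContDiffBump.ae_convolution_tendsto_right_of_locallyIntegrable (μ := volume) (φ := φ)
    (l := atTop) (K := 2) (tendsto_const_nhds.div_atTop
      (tendsto_atTop_add_const_right _ 1 tendsto_natCast_atTop_atTop))
    (Eventually.of_forall fun k => le_of_eq (by simp only [φ]; ring)) fl
  have h2 : ∀ k, ∀ y ∈ ball x r, ((φ k).normed volume ⋆[lsmul ℝ ℝ, volume] f) y =
      ((φ k).normed volume ⋆[lsmul ℝ ℝ, volume] f) x := by
    intro k y hy
    have c1 : ContDiff ℝ 1 ((φ k).normed volume) := (φ k).contDiff_normed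
    have c2 := (φ k).hasCompactSupport_normed (μ := volume)
    have d := fun z => c2.hasFDerivAt_convolution_right (lsmul ℝ ℝ).flip fl c1 z
    rw [← convolution_flip]
    refine isOpen_ball.is_const_of_fderiv_eq_zero (𝕜 := ℝ) (convex_ball x r).isPreconnected
      (fun z _ => (d z).differentiableAt.differentiableWithinAt) (fun z hz => ?_) hy
      (mem_ball_self hr)
    ext1 v
    rw [(d z).fderiv, convolution_precompR_apply _ fl (c2.fderiv ℝ)
      (c1.continuous_fderiv one_ne_zero), convolution_def]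
    have e1 : ∀ t, fderiv ℝ (fun t => (φ k).normed volume (z - t)) t v =
        -fderiv ℝ ((φ k).normed volume) (z - t) v := fun t => by
      have := ((c1.differentiable one_ne_zero (z - t)).hasFDerivAt.comp t
        ((hasFDerivAt_id t).const_sub z)).fderiv
      exact (DFunLike.congr_fun this v).trans (by simp)
    have s0 : ∀ t, t ∉ ball x (2 * r) → (φ k).normed volume (z - t) = 0 := fun t ht => by
      refine Function.notMem_support.1 ?_
      rw [(φ k).support_normed_eq, mem_ball_zero_iff, not_lt]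
      have a1 : r / (k + 1) ≤ r := div_le_self hr.le (by linarith [k.cast_nonneg (α := ℝ)])
      have a2 := dist_triangle t z x
      rw [mem_ball, not_lt] at ht
      rw [← dist_eq_norm, dist_comm]
      show r / (k + 1) ≤ _
      linarith [mem_ball.1 hz]
    have e2 := h (fun t => (φ k).normed volume (z - t)) (c1.comp (contDiff_const.sub contDiff_id))
      (HasCompactSupport.intro (isCompact_closedBall x (2 * r)) fun t ht =>
        s0 t fun a => ht (ball_subset_closedBall a)) s0 v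
    simp only [e1, integral_neg, neg_eq_zero] at e2
    rw [← integral_indicator hE] at e2
    refine Eq.trans (integral_congr_ae (Eventually.of_forall fun t => ?_)) e2
    by_cases ht : t ∈ E <;> simp [hf, ht]
  have h3 : ∀ᵐ y, y ∈ ball x r →
      Tendsto (fun k => ((φ k).normed volume ⋆[lsmul ℝ ℝ, volume] f) x) atTop (𝓝 (f y)) := by
    filter_upwards [h1] with y hy hb
    simpa only [h2 _ y hb] using hy
  obtain ⟨y₀, b0, t0⟩ : ∃ y₀ ∈ ball x r,
      Tendsto (fun k => ((φ k).normed volume ⋆[lsmul ℝ ℝ, volume] f) x) atTop (𝓝 (f y₀)) := by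
    by_contra hc
    refine (measure_ball_pos volume x hr).ne' (measure_eq_zero_iff_ae_notMem.2 ?_)
    filter_upwards [h3] with y hy hb using hc ⟨y, hb, hy hb⟩
  by_cases h0 : y₀ ∈ E
  · refine Or.inl ?_
    filter_upwards [h3] with y hy hb
    by_contra hn
    simpa [hf, h0, hn] using tendsto_nhds_unique (hy hb) t0
  · refine Or.inr ?_
    filter_upwards [h3] with y hy hb hn
    simpa [hf, h0, hn] using tendsto_nhds_unique (hy hb) t0

/-- the points near which almost every point lies in `E` -/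
def core (E : Set E3) : Set E3 := {x | ∃ r : ℝ, 0 < r ∧ ∀ᵐ y, y ∈ ball x r → y ∈ E}

lemma isOpen_core (E : Set E3) : IsOpen (core E) := by
  refine isOpen_iff_mem_nhds.2 fun x ⟨r, hr, h⟩ => ?_
  filter_upwards [ball_mem_nhds x hr] with z hz
  obtain ⟨r', hr', hs⟩ := Metric.isOpen_iff.1 isOpen_ball z hz
  exact ⟨r', hr', h.mono fun y hy hb => hy (hs hb)⟩

lemma ae_core {E S : Set E3} (h : S ⊆ core E) : ∀ᵐ y, y ∈ S → y ∈ E := by
  have : volume (S \ E) = 0 := measure_null_of_locally_null _ fun x hx => by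
    obtain ⟨r, hr, hb⟩ := h hx.1
    refine ⟨ball x r ∩ (S \ E), inter_mem_nhdsWithin _ (ball_mem_nhds x hr) |> fun a => by
      rwa [inter_comm] at a, measure_eq_zero_iff_ae_notMem.2 ?_⟩
    filter_upwards [hb] with y hy a using a.2.2 (hy a.1)
  filter_upwards [measure_eq_zero_iff_ae_notMem.1 this] with y hy hS
  by_contra a
  exact hy ⟨hS, a⟩

/-- **The colouring of the complement of a boundary.** -/
theorem col_of_bounds {m : Measure E3} [IsLocallyFiniteMeasure m] (h : Bounds m) {N : Set E3}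
    (hN : IsClosed N) (h0 : m Nᶜ = 0) : Col m N := by
  obtain ⟨E, n, hE, n1, n2, H⟩ := h
  have H' : ∀ g : E3 → ℝ, ContDiff ℝ 1 g → HasCompactSupport g → ∀ v,
      ∫ y in E, fderiv ℝ g y v = ∫ x, g x * ⟪v, n x⟫ ∂m := fun g hg hc v => by
    simpa only [tr_fderiv_smul hg, real_inner_smul_left] using
      H (fun y => g y • v) (hg.smul contDiff_const) hc.smul_right
  refine ⟨core E, core Eᶜ, isOpen_core _, isOpen_core _, ?_, fun x hx => ?_, fun Q hQ hv hq => ?_⟩
  · refine Set.disjoint_left.2 fun x ⟨r, hr, a⟩ ⟨r', hr', b⟩ => ?_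
    refine (measure_ball_pos volume x (lt_min hr hr')).ne' (measure_eq_zero_iff_ae_notMem.2 ?_)
    filter_upwards [a, b] with y a b c using b (ball_subset_ball (min_le_right _ _) c)
      (a (ball_subset_ball (min_le_left _ _) c))
  · obtain ⟨r, hr, hb⟩ := Metric.isOpen_iff.1 hN.isOpen_compl x hx
    refine (trivial_ball hE (half_pos hr) fun g hg hc hs v => ?_).imp
      (fun a => ⟨_, half_pos hr, a⟩) fun a => ⟨_, half_pos hr, a⟩
    rw [H' g hg hc]
    refine integral_eq_zero_of_ae ?_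
    filter_upwards [measure_eq_zero_iff_ae_notMem.1 h0] with y hy
    rw [hs y fun a => hy (hb (by rwa [mul_div_cancel₀ _ two_ne_zero] at a)), zero_mul]
    rfl
  have nl : LocallyIntegrable n m := fun x => by
    obtain ⟨s, hs, hm⟩ := m.finiteAt_nhds x
    exact ⟨s, hs, Measure.integrableOn_of_bounded hm.ne n1 (M := 1)
      (ae_restrict_of_ae (n2.mono fun y hy => hy.le))⟩
  have key : ∀ᵐ x ∂m, x ∈ Q → n x = 0 := by
    refine hQ.ae_eq_zero_of_integral_contDiff_smul_eq_zero (nl.locallyIntegrableOn Q)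
      fun g hg hc hs => ext_inner_left ℝ fun v => ?_
    have g1 : ContDiff ℝ 1 g := hg.of_le one_le_inf
    rw [inner_zero_right, ← integral_inner (nl.integrable_smul_left_of_hasCompactSupport
      hg.continuous hc)]
    simp only [real_inner_smul_right]
    rw [← H' g g1 hc, ← integral_indicator hE]
    have z : ∀ y, y ∉ Q → fderiv ℝ g y v = 0 := fun y hy => by
      rw [fderiv_of_notMem_tsupport ℝ fun a => hy (hs a)]; rfl
    have a0 := measure_eq_zero_iff_ae_notMem.1 hv
    rcases hq with hc' | hc'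
    · have cD : Continuous fun y => fderiv ℝ g y v :=
        (g1.continuous_fderiv one_ne_zero).clm_apply continuous_const
      have := integral_mul_fderiv_eq_neg_fderiv_mul_of_integrable (μ := volume)
        (f := fun _ : E3 => (1 : ℝ)) (g := g) (v := v) (by simp)
        (by simpa using cD.integrable_of_hasCompactSupport (hc.fderiv_apply ℝ v))
        (by simpa using hg.continuous.integrable_of_hasCompactSupport hc)
        (fun _ _ => differentiableAt_const _) fun y _ => g1.differentiable one_ne_zero y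
      simp only [one_mul, fderiv_fun_const, Pi.zero_apply, zero_apply, zero_mul, integral_zero,
        neg_zero] at this
      refine Eq.trans (integral_congr_ae ?_) this
      filter_upwards [ae_core hc', a0] with y a b
      by_cases hy : y ∈ Q
      · exact indicator_of_mem (a ⟨hy, fun c => b ⟨hy, c⟩⟩) _
      · by_cases c : y ∈ E <;> simp [c, z y hy]
    · refine integral_eq_zero_of_ae ?_
      filter_upwards [ae_core hc', a0] with y a b
      by_cases hy : y ∈ Q
      · exact indicator_of_notMem (a ⟨hy, fun c => b ⟨hy, c⟩⟩) _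
      · by_cases c : y ∈ E <;> simp [c, z y hy]
  refine measure_eq_zero_iff_ae_notMem.2 ?_
  filter_upwards [key, n2] with y a b c
  simp [a c] at b

/-- the cylinder with centre `p`, axis `e`, radius `ρ` and height `2h` -/
def cyl (p e : E3) (ρ h : ℝ) : Set E3 := {x | ‖pt e (x - p)‖ < ρ ∧ |⟪e, x - p⟫| < h}

lemma isOpen_cyl (p e : E3) (ρ h : ℝ) : IsOpen (cyl p e ρ h) :=
  (isOpen_lt (f := fun x => ‖pt e (x - p)‖) (by fun_prop) continuous_const).inter
    (isOpen_lt (f := fun x => |⟪e, x - p⟫|) (by fun_prop) continuous_const)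

/-- in the cylinder, `N` is one sheet of height at most `δ`, which carries mass -/
structure Sheet (m : Measure E3) (N : Set E3) (p e : E3) (ρ h δ : ℝ) : Prop where
  flat : ∀ x ∈ N, x ∈ cyl p e ρ h → |⟪e, x - p⟫| ≤ δ
  once : ∀ x ∈ N, x ∈ cyl p e ρ h → ∀ z : ℝ, x + z • e ∈ N → x + z • e ∈ cyl p e ρ h → z = 0
  mass : m (cyl p e ρ h) ≠ 0

namespace IsCol

variable {m : Measure E3} {N A B : Set E3} (h : IsCol m N A B)
include h

lemma symm : IsCol m N B A :=
  ⟨h.openB, h.openA, h.disj.symm, union_comm A B ▸ h.cover, fun Q a b c => h.null Q a b c.symm⟩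

lemma conn {S : Set E3} (hS : IsPreconnected S) (hN : S ⊆ Nᶜ) {x y : E3} (hx : x ∈ S) (hy : y ∈ S)
    (hA : x ∈ A) : y ∈ A :=
  hS.subset_left_of_subset_union h.openA h.openB h.disj (hN.trans h.cover) ⟨x, hx, hA⟩ hy

lemma not_both {p e x y : E3} {ρ k δ : ℝ} (he : ‖e‖ = 1) (hN : IsClosed N)
    (hs : Sheet m N p e ρ k δ) (hx : x ∈ cyl p e ρ k) (hy : y ∈ cyl p e ρ k)
    (hx' : δ < ⟪e, x - p⟫) (hy' : ⟪e, y - p⟫ < -δ) (a : x ∈ A) (b : y ∈ A) : False := by
  have ee : ⟪e, e⟫ = 1 := by rw [real_inner_self_eq_norm_sq, he]; norm_num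
  have e1 : ∀ (u : E3) (z : ℝ), pt e (u + z • e - p) = pt e (u - p) := fun u z => by
    rw [add_sub_right_comm, map_add, map_smul, pt_self he, smul_zero, add_zero]
  have e2 : ∀ (u : E3) (z : ℝ), ⟪e, u + z • e - p⟫ = ⟪e, u - p⟫ + z := fun u z => by
    rw [add_sub_right_comm, inner_add_right, real_inner_smul_right, ee, mul_one]
  refine hs.mass (h.null _ (isOpen_cyl p e ρ k) ?_ (Or.inl fun u hu => ?_))
  · refine Measure.addHaar_eq_zero_of_disjoint_translates volume
      (fun j : ℕ => (1 / ((j : ℝ) + 1)) • e) ?_ (fun i j hij => ?_)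
      ((isOpen_cyl p e ρ k).measurableSet.inter hN.measurableSet)
    · refine (isBounded_closedBall (x := (0 : E3)) (r := 1)).subset ?_
      rintro _ ⟨j, rfl⟩
      rw [mem_closedBall_zero_iff, norm_smul, he, mul_one, Real.norm_of_nonneg (by positivity),
        div_le_one (by positivity)]
      linarith [j.cast_nonneg (α := ℝ)]
    · refine Set.disjoint_left.2 ?_
      rintro _ ⟨_, rfl, u, hu, rfl⟩ ⟨_, rfl, v, hv, e3⟩
      have e4 : v = u + (1 / ((i : ℝ) + 1) - 1 / ((j : ℝ) + 1)) • e := by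
        rw [sub_smul, ← add_sub_assoc, add_comm u, eq_sub_iff_add_eq']
        exact e3
      have e5 := hs.once u hu.2 hu.1 _ (e4 ▸ hv.2) (e4 ▸ hv.1)
      rw [sub_eq_zero, div_eq_div_iff (by positivity) (by positivity)] at e5
      exact hij (by exact_mod_cast (by linarith : (i : ℝ) = j))
  -- slabs at the heights of `x` and `y`
  have slab : ∀ w ∈ cyl p e ρ k, δ < |⟪e, w - p⟫| → w ∈ A →
      u + (⟪e, w - p⟫ - ⟪e, u - p⟫) • e ∈ A := by
    intro w hw hw' hA
    have cv : Convex ℝ {v : E3 | ‖pt e (v - p)‖ < ρ ∧ ⟪e, v - p⟫ = ⟪e, w - p⟫} := by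
      intro v₁ a1 v₂ a2 s t s0 t0 st
      have e3 : s • v₁ + t • v₂ - p = s • (v₁ - p) + t • (v₂ - p) := by
        rw [smul_sub, smul_sub, sub_add_sub_comm, ← add_smul, st, one_smul]
      refine ⟨?_, ?_⟩
      · rw [e3, map_add, map_smul, map_smul, ← mem_ball_zero_iff]
        exact convex_ball 0 ρ (mem_ball_zero_iff.2 a1.1) (mem_ball_zero_iff.2 a2.1) s0 t0 st
      · rw [e3, inner_add_right, real_inner_smul_right, real_inner_smul_right, a1.2, a2.2,
          ← add_mul, st, one_mul]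
    refine h.conn cv.isPreconnected (fun v hv hvN => ?_) ⟨hw.1, rfl⟩
      ⟨by rw [e1]; exact hu.1.1, by rw [e2]; ring⟩ hA
    have := hs.flat v hvN ⟨hv.1, hv.2 ▸ hw.2⟩
    rw [hv.2] at this
    linarith
  have seg : ∀ w ∈ cyl p e ρ k, δ < |⟪e, w - p⟫| → w ∈ A → u ∉ A →
      ∃ z ∈ uIcc 0 (⟪e, w - p⟫ - ⟪e, u - p⟫), u + z • e ∈ N ∧ u + z • e ∈ cyl p e ρ k := by
    intro w hw hw' hA hn
    by_contra hc
    refine hn (h.conn (S := (fun z : ℝ => u + z • e) '' uIcc 0 (⟪e, w - p⟫ - ⟪e, u - p⟫))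
      (isPreconnected_uIcc.image _ (by fun_prop)) ?_ ⟨_, right_mem_uIcc, rfl⟩
      ⟨0, left_mem_uIcc, by simp⟩ (slab w hw hw' hA))
    rintro _ ⟨z, hz, rfl⟩ hzN
    refine hc ⟨z, hz, hzN, by rw [e1]; exact hu.1.1, ?_⟩
    have a1 := abs_lt.1 hu.1.2
    have a2 := abs_lt.1 hw.2
    rw [e2, abs_lt]
    rcases mem_uIcc.1 hz with a3 | a3 <;> constructor <;> linarith [a3.1, a3.2]
  have d0 : ∀ v ∈ N, v ∈ cyl p e ρ k → 0 ≤ δ := fun v a b => (abs_nonneg _).trans (hs.flat v a b)
  by_contra hn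
  obtain ⟨z₁, a1, a2, a3⟩ := seg x hx (hx'.trans_le (le_abs_self _)) a hn
  obtain ⟨z₂, b1, b2, b3⟩ := seg y hy (by linarith [neg_abs_le ⟪e, y - p⟫]) b hn
  have e3 : u + z₂ • e = u + z₁ • e + (z₂ - z₁) • e := by rw [sub_smul]; abel
  have e4 := hs.once _ a2 a3 (z₂ - z₁) (e3 ▸ b2) (e3 ▸ b3)
  have f1 := abs_le.1 (hs.flat _ a2 a3)
  rw [e2] at f1
  have z0 : z₁ = 0 := by
    rcases mem_uIcc.1 a1 with c | c <;> rcases mem_uIcc.1 b1 with c' | c' <;>
      linarith [c.1, c.2, c'.1, c'.2, f1.1, f1.2]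
  exact hu.2 (by simpa [z0] using a2)

/-- **The colour changes across a sheet.** -/
lemma jump {p e x y : E3} {ρ k δ : ℝ} (he : ‖e‖ = 1) (hN : IsClosed N)
    (hs : Sheet m N p e ρ k δ) (hx : x ∈ cyl p e ρ k) (hy : y ∈ cyl p e ρ k)
    (hx' : δ < ⟪e, x - p⟫) (hy' : ⟪e, y - p⟫ < -δ) : x ∈ A ↔ y ∉ A := by
  refine ⟨h.not_both he hN hs hx hy hx' hy', fun b => ?_⟩
  have a1 : x ∉ N := fun a => by linarith [(abs_le.1 (hs.flat x a hx)).2]
  have b1 : y ∉ N := fun a => by linarith [(abs_le.1 (hs.flat y a hy)).1]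
  exact (h.cover a1).resolve_right fun a =>
    h.symm.not_both he hN hs hx hy hx' hy' a ((h.cover b1).resolve_left b)

end IsCol

/-- counting the jumps of a locally constant proposition -/
lemma count_jumps (u : ℝ → Prop) (Ω : Finset ℝ) : ∀ a b : ℝ, a ≤ b → (∀ s ∈ Ω, s ∈ Ioo a b) →
    (∀ s ∈ Icc a b, s ∉ Ω → ∀ᶠ s' in 𝓝 s, u s' ↔ u s) →
    (∀ s ∈ Ω, ∀ᶠ k in 𝓝[>] (0 : ℝ), u (s + k) ↔ ¬ u (s - k)) → ((u a ↔ u b) ↔ Even Ω.card) := by
  have const : ∀ a b : ℝ, a ≤ b → (∀ s ∈ Icc a b, ∀ᶠ s' in 𝓝 s, u s' ↔ u s) → (u a ↔ u b) := by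
    intro a b hab h
    exact (isPreconnected_Icc (a := a) (b := b)).induction₂' (fun s t => u s ↔ u t)
      (fun s hs => nhdsWithin_le_nhds ((h s hs).mono fun t ht => ⟨ht.symm, ht⟩))
      (fun _ _ _ _ _ _ h1 h2 => h1.trans h2) (left_mem_Icc.2 hab) (right_mem_Icc.2 hab)
  induction Ω using Finset.induction_on_max with
  | empty => exact fun a b hab _ h _ => by simpa using const a b hab fun s hs => h s hs (by simp)
  | insert s Ω hmax ih =>
    intro a b hab h1 h2 h3
    have hs := h1 s (Finset.mem_insert_self _ _)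
    have hn : s ∉ Ω := fun a => lt_irrefl _ (hmax s a)
    have e1 : ∀ᶠ k in 𝓝[>] (0 : ℝ), ∀ x ∈ Ω, x < s - k := (eventually_all_finset Ω).2 fun x hx =>
      nhdsWithin_le_nhds ((by fun_prop : Continuous fun k : ℝ => s - k).continuousAt.eventually
        (lt_mem_nhds (by simpa using hmax x hx)))
    obtain ⟨k, ⟨k1, k2⟩, k3⟩ := (((h3 s (Finset.mem_insert_self _ _)).and e1).and
      (Ioo_mem_nhdsGT (lt_min (sub_pos.2 hs.1) (sub_pos.2 hs.2)))).exists
    have k4 := lt_min_iff.1 k3.2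
    have i1 := ih a (s - k) (by linarith [k4.1])
      (fun x hx => ⟨(h1 x (Finset.mem_insert_of_mem hx)).1, k2 x hx⟩)
      (fun x hx hx' => h2 x ⟨hx.1, by linarith [hx.2, k3.1, hs.2]⟩ fun c =>
        (Finset.mem_insert.1 c).elim (fun c => by linarith [hx.2, k3.1]) hx')
      fun x hx => h3 x (Finset.mem_insert_of_mem hx)
    have i2 := const (s + k) b (by linarith [k4.2]) fun x hx =>
      h2 x ⟨by linarith [hx.1, k3.1, hs.1], hx.2⟩ fun c => (Finset.mem_insert.1 c).elim
        (fun c => by linarith [hx.1, k3.1]) fun c => by linarith [hx.1, k3.1, hmax x c]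
    rw [Finset.card_insert_of_notMem hn, Nat.even_add_one, ← i1]
    tauto

/-- **Parity along a loop, in the limit.** -/
theorem even_of {ι : Type*} (U : Ultrafilter ι) {m : ι → Measure E3} {N : ι → Set E3}
    (hc : ∀ᶠ i in U, IsClosed (N i) ∧ Col (m i) (N i)) {γ : ℝ → E3} (hγ : Continuous γ) {a b : ℝ}
    (hab : a ≤ b) (hl : γ a = γ b) (Ω : Finset ℝ) (hΩ : ∀ s ∈ Ω, s ∈ Ioo a b)
    (free : ∀ s ∈ Icc a b, s ∉ Ω → ∃ r : ℝ, 0 < r ∧ ∀ᶠ i in U, ball (γ s) r ⊆ (N i)ᶜ)
    (cross : ∀ s ∈ Ω, ∃ (e : E3) (ρ h : ℝ), ‖e‖ = 1 ∧ 0 < ρ ∧ 0 < h ∧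
      (∀ᶠ k in 𝓝[>] (0 : ℝ), 0 < ⟪e, γ (s + k) - γ s⟫ ∧ ⟪e, γ (s - k) - γ s⟫ < 0) ∧
      ∀ δ : ℝ, 0 < δ → ∀ᶠ i in U, Sheet (m i) (N i) (γ s) e ρ h δ) : Even Ω.card := by
  obtain ⟨A, hA⟩ : ∃ A : ι → Set E3, ∀ᶠ i in U, ∃ B, IsCol (m i) (N i) (A i) B :=
    Filter.skolem.1 (hc.mono fun i hi => hi.2)
  refine (count_jumps (fun s => ∀ᶠ i in U, γ s ∈ A i) Ω a b hab hΩ (fun s hs hn => ?_)
    fun s hs => ?_).1 (by rw [hl])
  · obtain ⟨r, hr, h⟩ := free s hs hn
    filter_upwards [hγ.continuousAt.eventually (ball_mem_nhds _ hr)] with s' hs'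
    refine eventually_congr ?_
    filter_upwards [h, hA] with i h1 ⟨B, h2⟩
    exact ⟨h2.conn (convex_ball _ _).isPreconnected h1 hs' (mem_ball_self hr),
      h2.conn (convex_ball _ _).isPreconnected h1 (mem_ball_self hr) hs'⟩
  · obtain ⟨e, ρ, h, he, hρ, hh, h1, h2⟩ := cross s hs
    have c0 : cyl (γ s) e ρ h ∈ 𝓝 (γ s) := (isOpen_cyl _ _ _ _).mem_nhds (by simp [cyl, hρ, hh])
    have t1 : Tendsto (fun k => γ (s + k)) (𝓝[>] 0) (𝓝 (γ s)) :=
      (Continuous.tendsto' (by fun_prop) _ _ (by simp)).mono_left nhdsWithin_le_nhds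
    have t2 : Tendsto (fun k => γ (s - k)) (𝓝[>] 0) (𝓝 (γ s)) :=
      (Continuous.tendsto' (by fun_prop) _ _ (by simp)).mono_left nhdsWithin_le_nhds
    filter_upwards [h1, t1.eventually c0, t2.eventually c0] with k k1 k2 k3
    rw [← Ultrafilter.eventually_not]
    refine eventually_congr ?_
    have d0 : 0 < min ⟪e, γ (s + k) - γ s⟫ (-⟪e, γ (s - k) - γ s⟫) := lt_min k1.1 (by linarith [k1.2])
    filter_upwards [h2 _ (half_pos d0), hA, hc] with i a1 ⟨B, a2⟩ a3
    exact a2.jump he a3.1 a1 k2 k3 (by linarith [min_le_left ⟪e, γ (s + k) - γ s⟫ (-⟪e, γ (s - k) - γ s⟫)])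
      (by linarith [min_le_right ⟪e, γ (s + k) - γ s⟫ (-⟪e, γ (s - k) - γ s⟫)])

end Vale.Agent.P218G.Par
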