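import Vale.Agent.P218FT.NC1
import Vale.Agent.P218FT.EVMain
import Vale.Agent.P218FT.Chart
import Mathlib.Analysis.Calculus.BumpFunction.Convolution
import Mathlib.Analysis.Calculus.ContDiff.Convolution
import Mathlib.Analysis.Calculus.Rademacher
import Mathlib.Geometry.Manifold.PartitionOfUnity

/-! The static inequality for the separation, part 1: semiconcave functions, mollification, and
the inequality for a smooth positive function with a Hessian bound from above. -/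

open MeasureTheory Set Filter Topology Metric Asymptotics
open scoped ENNReal NNReal RealInnerProductSpace ContDiff Convolution Manifold

namespace Vale.Agent.P218G.SI

open Vale.Agent.P218FT

/-- semiconcavity with constant `K` on `S` -/
def SC (f : E3 → ℝ) (K : ℝ) (S : Set E3) : Prop :=
  ∀ a ∈ S, ∀ b ∈ S, ∀ t ∈ Icc (0 : ℝ) 1,
    (1 - t) * f a + t * f b - K / 2 * t * (1 - t) * ‖b - a‖ ^ 2 ≤ f (a + t • (b - a))

/-- the Lipschitz bound with constant one on `S` -/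
def L1 (f : E3 → ℝ) (S : Set E3) : Prop := ∀ a ∈ S, ∀ b ∈ S, f a - ‖a - b‖ ≤ f b

lemma SC.mono {f : E3 → ℝ} {K : ℝ} {S S' : Set E3} (h : SC f K S) (hS : S' ⊆ S) : SC f K S' :=
  fun a ha b hb => h a (hS ha) b (hS hb)

lemma L1.mono {f : E3 → ℝ} {S S' : Set E3} (h : L1 f S) (hS : S' ⊆ S) : L1 f S' :=
  fun a ha b hb => h a (hS ha) b (hS hb)

lemma L1.lip {f : E3 → ℝ} {S : Set E3} (h : L1 f S) : LipschitzOnWith 1 f S :=
  LipschitzOnWith.of_le_add fun a ha b hb => by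
    have := h a ha b hb
    rw [dist_eq_norm]; linarith

lemma SC.congr {f g : E3 → ℝ} {K : ℝ} {S : Set E3} (h : SC f K S) (hS : Convex ℝ S)
    (e : EqOn f g S) : SC g K S := fun a ha b hb t ht => by
  rw [← e ha, ← e hb, ← e (hS.add_smul_sub_mem ha hb ht)]
  exact h a ha b hb t ht

lemma L1.congr {f g : E3 → ℝ} {S : Set E3} (h : L1 f S) (e : EqOn f g S) : L1 g S :=
  fun a ha b hb => by rw [← e ha, ← e hb]; exact h a ha b hb

lemma schwarz {g : ℝ → ℝ} (hg : ContinuousOn g (Icc 0 1))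
    (h : ∀ t ∈ Ioo (0 : ℝ) 1, ∀ᶠ s in 𝓝[>] (0 : ℝ), g (t + s) + g (t - s) - 2 * g t < 0) :
    ∀ t ∈ Icc (0 : ℝ) 1, (1 - t) * g 0 + t * g 1 ≤ g t := by
  obtain ⟨t₀, ht₀, hmin⟩ := isCompact_Icc.exists_isMinOn (nonempty_Icc.2 zero_le_one)
    (f := fun t => g t - ((1 - t) * g 0 + t * g 1)) (hg.sub (by fun_prop))
  intro t ht
  by_contra hlt
  have h1 : g t₀ - ((1 - t₀) * g 0 + t₀ * g 1) ≤ g t - ((1 - t) * g 0 + t * g 1) := hmin ht
  have h2 : t₀ ∈ Ioo (0 : ℝ) 1 := by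
    refine ⟨ht₀.1.lt_of_ne ?_, ht₀.2.lt_of_ne ?_⟩
    · rintro rfl
      simp at h1; linarith
    · rintro rfl
      simp at h1; linarith
  have h3 : ∀ᶠ s in 𝓝[>] (0 : ℝ), s < min t₀ (1 - t₀) :=
    nhdsWithin_le_nhds (gt_mem_nhds (lt_min h2.1 (by linarith [h2.2])))
  obtain ⟨s, ⟨a1, a2⟩, a3⟩ := (((h t₀ h2).and h3).and self_mem_nhdsWithin).exists
  have a4 : 0 < s := a3
  rw [lt_min_iff] at a2
  have b1 : g t₀ - ((1 - t₀) * g 0 + t₀ * g 1)
      ≤ g (t₀ + s) - ((1 - (t₀ + s)) * g 0 + (t₀ + s) * g 1) :=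
    hmin (show t₀ + s ∈ Icc (0 : ℝ) 1 from ⟨by linarith [h2.1], by linarith [a2.2]⟩)
  have b2 : g t₀ - ((1 - t₀) * g 0 + t₀ * g 1)
      ≤ g (t₀ - s) - ((1 - (t₀ - s)) * g 0 + (t₀ - s) * g 1) :=
    hmin (show t₀ - s ∈ Icc (0 : ℝ) 1 from ⟨by linarith [a2.1], by linarith [h2.2]⟩)
  linarith

lemma sc_of_diff {f : E3 → ℝ} {K : ℝ} {S : Set E3} (hS : Convex ℝ S) (hf : ContinuousOn f S)
    (h : ∀ z ∈ S, ∀ v : E3, v ≠ 0 → ∀ᶠ s in 𝓝[>] (0 : ℝ),
      f (z + s • v) + f (z - s • v) - 2 * f z < K * s ^ 2 * ‖v‖ ^ 2) : SC f K S := by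
  intro a ha b hb t ht
  rcases eq_or_ne (b - a) 0 with h0 | h0
  · rw [sub_eq_zero.1 h0]
    simp only [sub_self, norm_zero, smul_zero, add_zero]
    linarith
  have h1 := schwarz (g := fun t => f (a + t • (b - a)) - K / 2 * t ^ 2 * ‖b - a‖ ^ 2)
    ((hf.comp (by fun_prop) fun t ht => hS.add_smul_sub_mem ha hb ht).sub (by fun_prop))
    (fun t ht => by
      filter_upwards [h _ (hS.add_smul_sub_mem ha hb (Ioo_subset_Icc_self ht)) _ h0] with s hs
      rw [add_smul, sub_smul, ← add_assoc, ← add_sub_assoc a]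
      linarith) t ht
  simp only [zero_smul, add_zero, one_smul, add_sub_cancel] at h1
  linarith

/-- the first order inequality -/
lemma SC.grad {F : E3 → ℝ} {K : ℝ} {S : Set E3} (h : SC F K S) {a b : E3} (ha : a ∈ S)
    (hb : b ∈ S) (hF : DifferentiableAt ℝ F a) :
    F b - F a - K / 2 * ‖b - a‖ ^ 2 ≤ ⟪gradient F a, b - a⟫ := by
  have h1 : HasDerivAt (fun t : ℝ => a + t • (b - a)) (b - a) 0 := by
    simpa using ((hasDerivAt_id (0 : ℝ)).smul_const (b - a)).const_add a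
  have h2 : HasDerivAt (fun t : ℝ => F (a + t • (b - a))) (fderiv ℝ F a (b - a)) 0 :=
    HasFDerivAt.comp_hasDerivAt_of_eq (0 : ℝ) hF.hasFDerivAt h1 (by simp)
  have h3 : Tendsto (fun t : ℝ => F b - F a - K / 2 * (1 - t) * ‖b - a‖ ^ 2) (𝓝[>] 0)
      (𝓝 (F b - F a - K / 2 * (1 - 0) * ‖b - a‖ ^ 2)) :=
    (Continuous.tendsto (by fun_prop) 0).mono_left nhdsWithin_le_nhds
  rw [sub_zero, mul_one] at h3
  rw [inner_grad]
  refine le_of_tendsto_of_tendsto h3 h2.tendsto_slope_zero_right ?_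
  filter_upwards [Ioo_mem_nhdsGT (zero_lt_one' ℝ)] with t ht
  have h4 := h a ha b hb t (Ioo_subset_Icc_self ht)
  simp only [zero_add, zero_smul, add_zero, smul_eq_mul]
  rw [← div_eq_inv_mul, le_div_iff₀ ht.1]
  linarith

/-- the second order inequality -/
lemma SC.hess {F : E3 → ℝ} {K : ℝ} {S : Set E3} (h : SC F K S) {x : E3} (hx : S ∈ 𝓝 x)
    (hF : ContDiff ℝ 2 F) (v : E3) : ⟪fderiv ℝ (gradient F) x v, v⟫ ≤ K * ‖v‖ ^ 2 := by
  refine le_of_forall_pos_le_add fun η hη => ?_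
  have l1 : Tendsto (fun s : ℝ => s • v) (𝓝[>] 0) (𝓝 0) :=
    (Continuous.tendsto' (by fun_prop) 0 _ (by simp)).mono_left nhdsWithin_le_nhds
  have l2 : Tendsto (fun s : ℝ => x + s • v) (𝓝[>] 0) (𝓝 x) := by
    simpa using l1.const_add x
  have h1 := (taylor2 hF x).bound (show 0 < η / (2 * (‖v‖ ^ 2 + 1)) by positivity)
  obtain ⟨s, ⟨a1, a2⟩, a3⟩ :=
    (((l1.eventually h1).and (l2.eventually hx)).and self_mem_nhdsWithin).exists
  have a4 : 0 < s := a3
  have b1 := h.grad (mem_of_mem_nhds hx) a2 (hF.differentiable (by norm_num) x)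
  rw [add_sub_cancel_left] at b1
  have b2 := (abs_le.1 a1).1
  rw [map_smul, real_inner_smul_left, real_inner_smul_right (fderiv ℝ (gradient F) x v),
    norm_pow, norm_norm] at b2
  rw [norm_smul, Real.norm_of_nonneg a4.le] at b1 b2
  have b3 : η / (2 * (‖v‖ ^ 2 + 1)) * (s * ‖v‖) ^ 2 ≤ s ^ 2 * (η / 2) := by
    rw [div_mul_eq_mul_div, div_le_iff₀ (by positivity)]
    nlinarith [mul_pos hη (pow_pos a4 2)]
  have b4 : s ^ 2 * ⟪fderiv ℝ (gradient F) x v, v⟫ ≤ s ^ 2 * (K * ‖v‖ ^ 2 + η) := by nlinarith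
  exact le_of_mul_le_mul_left b4 (pow_pos a4 2)

lemma L1.grad {F : E3 → ℝ} {S : Set E3} (h : L1 F S) {x : E3} (hx : S ∈ 𝓝 x) :
    ‖gradient F x‖ ≤ 1 := by
  rw [norm_grad]
  exact norm_fderiv_le_of_lipschitzOn ℝ hx h.lip

/-- the bump of radius `ε` -/
noncomputable def bmp {ε : ℝ} (hε : 0 < ε) : ContDiffBump (0 : E3) :=
  ⟨ε / 2, ε, half_pos hε, half_lt_self hε⟩

/-- mollification at scale `ε` -/
noncomputable def moll {ε : ℝ} (hε : 0 < ε) (f : E3 → ℝ) : E3 → ℝ :=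
  (bmp hε).normed volume ⋆[ContinuousLinearMap.lsmul ℝ ℝ, volume] f

variable {ε : ℝ} {hε : 0 < ε} {f : E3 → ℝ}

lemma contDiff_moll (hf : LocallyIntegrable f volume) : ContDiff ℝ ∞ (moll hε f) :=
  (bmp hε).hasCompactSupport_normed.contDiff_convolution_left _ (bmp hε).contDiff_normed hf

lemma moll_le (hf : LocallyIntegrable f volume) {α β γ : ℝ} {a b c : E3}
    (h : ∀ u : E3, ‖u‖ < ε → α * f (a - u) + β * f (b - u) + γ ≤ f (c - u)) :
    α * moll hε f a + β * moll hε f b + γ ≤ moll hε f c := by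
  have hi : ∀ x, Integrable (fun u => (bmp hε).normed volume u * f (x - u)) volume := fun x =>
    (bmp hε).hasCompactSupport_normed.convolutionExists_left (ContinuousLinearMap.lsmul ℝ ℝ)
      (bmp hε).continuous_normed hf x
  have e : ∀ x, moll hε f x = ∫ u, (bmp hε).normed volume u * f (x - u) := fun x => rfl
  have i1 := (hi a).const_mul α
  have i2 := (hi b).const_mul β
  have i3 : Integrable (fun u => γ * (bmp hε).normed volume u) volume :=
    (bmp hε).integrable_normed.const_mul γ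
  have i12 : Integrable (fun u => α * ((bmp hε).normed volume u * f (a - u))
      + β * ((bmp hε).normed volume u * f (b - u))) volume := i1.add i2
  have e3 : γ = ∫ u, γ * (bmp hε).normed volume u := by
    rw [integral_const_mul, (bmp hε).integral_normed, mul_one]
  rw [e, e, e, e3, ← integral_const_mul, ← integral_const_mul, ← integral_add i1 i2,
    ← integral_add i12 i3]
  refine integral_mono (i12.add i3) (hi c) fun u => ?_
  by_cases hu : ‖u‖ < ε
  · have h1 := mul_le_mul_of_nonneg_left (h u hu) ((bmp hε).nonneg_normed (μ := volume) u)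
    simp only
    linarith
  · have h1 : (bmp hε).normed volume u = 0 := by
      by_contra h2
      have h3 : u ∈ Function.support ((bmp hε).normed volume) := h2
      rw [(bmp hε).support_normed_eq, mem_ball_zero_iff] at h3
      exact hu h3
    simp [h1]

lemma sub_mem_ball {x a u : E3} {r : ℝ} (ha : a ∈ ball x r) (hu : ‖u‖ < ε) (h : ε ≤ r) :
    a - u ∈ ball x (2 * r) := by
  rw [mem_ball_iff_norm] at ha ⊢
  have := norm_sub_le (a - x) u
  rw [sub_right_comm] at this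
  linarith

lemma SC.moll (hf : LocallyIntegrable f volume) {K r : ℝ} {x : E3} (h : SC f K (ball x (2 * r)))
    (hr : ε ≤ r) : SC (moll hε f) K (ball x r) := by
  intro a ha b hb t ht
  rw [sub_eq_add_neg]
  refine moll_le hf fun u hu => ?_
  have := h _ (sub_mem_ball ha hu hr) _ (sub_mem_ball hb hu hr) t ht
  rw [sub_sub_sub_cancel_right, sub_add_eq_add_sub] at this
  linarith

lemma L1.moll (hf : LocallyIntegrable f volume) {r : ℝ} {x : E3} (h : L1 f (ball x (2 * r)))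
    (hr : ε ≤ r) : L1 (moll hε f) (ball x r) := by
  intro a ha b hb
  have := moll_le (hε := hε) hf (α := 1) (β := 0) (γ := -‖a - b‖) (a := a) (b := a) (c := b)
    fun u hu => by
      have := h _ (sub_mem_ball ha hu hr) _ (sub_mem_ball hb hu hr)
      rw [sub_sub_sub_cancel_right] at this
      linarith
  linarith

lemma L1.moll_close (hf : LocallyIntegrable f volume) {r : ℝ} {x : E3}
    (h : L1 f (ball x (2 * r))) (hr : ε ≤ r) {a : E3} (ha : a ∈ ball x r) :
    |SI.moll hε f a - f a| ≤ ε := by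
  have ha' : a ∈ ball x (2 * r) := ball_subset_ball (by linarith) ha
  have h1 := moll_le (hε := hε) hf (α := 0) (β := 0) (γ := f a - ε) (a := a) (b := a) (c := a)
    fun u hu => by
      have := h _ ha' _ (sub_mem_ball ha hu hr)
      rw [sub_sub_cancel] at this
      linarith
  have h2 := moll_le (hε := hε) hf (α := 2) (β := 0) (γ := -(f a + ε)) (a := a) (b := a) (c := a)
    fun u hu => by
      have := h _ (sub_mem_ball ha hu hr) _ ha'
      rw [sub_sub_cancel_left, norm_neg] at this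
      linarith
  rw [abs_le]
  constructor <;> linarith

/-- a function which is `C¹` near a compact set has a global representative -/
lemma exists_glob {F : Type*} [NormedAddCommGroup F] [NormedSpace ℝ F] {K : Set E3}
    (hK : IsClosed K) {Y : E3 → F} (hY : ∀ x ∈ K, ∀ᶠ y in 𝓝 x, ContDiffAt ℝ 1 Y y) :
    ∃ Z : E3 → F, ContDiff ℝ 1 Z ∧ ∀ x ∈ K, Z =ᶠ[𝓝 x] Y := by
  set V := interior {y | ContDiffAt ℝ 1 Y y} with hV
  obtain ⟨t, hto, hKt, htV⟩ := normal_exists_closure_subset hK isOpen_interior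
    (show K ⊆ V from fun x hx => mem_interior_iff_mem_nhds.2 (hY x hx))
  obtain ⟨χ, h1, h0, -⟩ := exists_contMDiffMap_one_nhds_of_subset_interior (n := 1) 𝓘(ℝ, E3) hK
    (t := t) (by rwa [hto.interior_eq])
  have hχ : ContDiff ℝ 1 χ := χ.contMDiff.contDiff
  refine ⟨fun y => χ y • Y y, contDiff_iff_contDiffAt.2 fun y => ?_, fun x hx => ?_⟩
  · by_cases hy : y ∈ closure t
    · exact hχ.contDiffAt.smul (interior_subset (htV hy))
    · refine (contDiffAt_const (c := (0 : F))).congr_of_eventuallyEq ?_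
      filter_upwards [isClosed_closure.isOpen_compl.mem_nhds hy] with z hz
      rw [h0 z fun h => hz (subset_closure h), zero_smul]
  · filter_upwards [h1.filter_mono (nhds_le_nhdsSet hx)] with y hy
    rw [hy, one_smul]

lemma divT_smul {N : Set E3} {s : E3 → ℝ} {G : E3 → E3} {x : E3} (hs : DifferentiableAt ℝ s x)
    (hG : DifferentiableAt ℝ G x) :
    divT N (fun y => s y • G y) x = s x * divT N G x + fderiv ℝ s x (pt (nu N x) (G x)) := by
  have h : fderiv ℝ (fun y => s y • G y) x = s x • fderiv ℝ G x + (fderiv ℝ s x).smulRight (G x) :=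
    (hs.hasFDerivAt.smul hG.hasFDerivAt).fderiv
  simp only [divT, h, tr_add, tr_smul, NC.tr_smulRight, pt_apply, map_sub, map_smul, smul_eq_mul,
    add_apply, smul_apply,
    ContinuousLinearMap.smulRight_apply, inner_add_left, real_inner_smul_left,
    real_inner_comm (G x)]
  ring

/-- the square of the tangential gradient, extended off the surface -/
noncomputable def lam (w F : E3 → ℝ) (y : E3) : ℝ :=
  ⟪gradient F y, gradient F y⟫ - ⟪nuw w y, gradient F y⟫ ^ 2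

lemma lam_eq {w F : E3 → ℝ} {x : E3} (hg : gradient w x ≠ 0) :
    lam w F x = ‖pt (nuw w x) (gradient F x)‖ ^ 2 := by
  rw [norm_pt_sq (norm_nuw hg), lam, real_inner_self_eq_norm_sq]

lemma contDiffAt_lam {w F : E3 → ℝ} (hw : ContDiff ℝ ∞ w) (hF : ContDiff ℝ ∞ F) {x : E3}
    (hg : gradient w x ≠ 0) : ContDiffAt ℝ ∞ (lam w F) x :=
  ((contDiff_grad hF).contDiffAt.inner ℝ (contDiff_grad hF).contDiffAt).sub
    (((NC.contDiffAt_nuw hw hg).inner ℝ (contDiff_grad hF).contDiffAt).pow 2)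

lemma fderiv_lam {w F : E3 → ℝ} (hw : ContDiff ℝ ∞ w) (hF : ContDiff ℝ ∞ F) {x : E3}
    (hg : gradient w x ≠ 0) {κ : ℝ} (h1 : ‖gradient F x‖ ≤ 1)
    (h2 : ∀ v, ⟪fderiv ℝ (gradient F) x v, v⟫ ≤ κ * ‖v‖ ^ 2) :
    fderiv ℝ (lam w F) x (pt (nuw w x) (gradient F x))
      ≤ (2 * κ + 2 * ‖shw w x‖) * lam w F x := by
  have hn := norm_nuw hg
  have d1 : HasFDerivAt (gradient F) (fderiv ℝ (gradient F) x) x :=
    ((contDiff_grad hF).differentiable (by simp) x).hasFDerivAt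
  have d2 : HasFDerivAt (nuw w) (fderiv ℝ (nuw w) x) x :=
    ((NC.contDiffAt_nuw hw hg).differentiableAt (by simp)).hasFDerivAt
  have d3 : HasFDerivAt (lam w F) _ x := (d1.inner ℝ d1).sub ((d2.inner ℝ d1).pow 2)
  rw [d3.fderiv, lam_eq hg]
  set v := pt (nuw w x) (gradient F x) with hv
  have e0 : ⟪nuw w x, v⟫ = 0 := inner_pt_nrm hn _
  have e1 := NC.fderiv_nuw hw hg e0
  have e2 : gradient F x = v + ⟪nuw w x, gradient F x⟫ • nuw w x := by rw [hv, pt_apply]; abel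
  have e3 : ⟪gradient F x, fderiv ℝ (gradient F) x v⟫ = ⟪fderiv ℝ (gradient F) x v, v⟫
      + ⟪nuw w x, gradient F x⟫ * ⟪nuw w x, fderiv ℝ (gradient F) x v⟫ := by
    conv_lhs => rw [e2]
    rw [inner_add_left, real_inner_smul_left, real_inner_comm]
  have e4 : ⟪shw w x v, gradient F x⟫ = ⟪shw w x v, v⟫ := by
    conv_lhs => rw [e2]
    rw [inner_add_right, real_inner_smul_right, real_inner_comm (nuw w x), inner_nuw_shw hg]
    ring
  have e5 : |⟪shw w x v, v⟫| ≤ ‖shw w x‖ * ‖v‖ ^ 2 := by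
    refine (abs_real_inner_le_norm _ _).trans ?_
    rw [sq, ← mul_assoc]
    exact mul_le_mul_of_nonneg_right ((shw w x).le_opNorm v) (norm_nonneg _)
  have e6 : |⟪nuw w x, gradient F x⟫| ≤ 1 := by
    have := abs_real_inner_le_norm (nuw w x) (gradient F x)
    rw [hn, one_mul] at this
    linarith
  have e7 : ⟪nuw w x, gradient F x⟫ * ⟪shw w x v, v⟫ ≤ ‖shw w x‖ * ‖v‖ ^ 2 := by
    refine (le_abs_self _).trans ?_
    rw [abs_mul]
    exact (mul_le_of_le_one_left (abs_nonneg _) e6).trans e5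
  have e8 := h2 v
  simp only [sub_apply, ContinuousLinearMap.comp_apply,
    ContinuousLinearMap.prod_apply, fderivInnerCLM_apply, smul_apply, e1,
    inner_neg_left, e4, real_inner_comm (gradient F x) (fderiv ℝ (gradient F) x v), e3,
    smul_eq_mul, nsmul_eq_mul, Nat.add_one_sub_one, pow_one, Nat.cast_ofNat]
  linarith

lemma bern_arith {z f l d κ a h t e q : ℝ} (hz : |z| ≤ 1) (hf : 0 < f) (hl1 : l ≤ 1)
    (hκ : 0 ≤ κ) (ha : 0 ≤ a) (hd : d ≤ (2 * κ + 2 * a) * l ^ 2) (ht : t ≤ 2 * κ)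
    (hh : h ≤ 2 * a) (hq : 0 ≤ q) (he : |e| ≤ q * l) :
    z ^ 4 * (l ^ 2) ^ 2 / f ^ 2 + 2 * (z ^ 4 * (l ^ 2 / f) * t
      + (4 * z ^ 3 * e * (l ^ 2 / f) + z ^ 4 * (d / f - l ^ 2 * l ^ 2 / f ^ 2))
      + z ^ 4 * (l ^ 2 / f) * h) ≤ 48 * (κ ^ 2 + a ^ 2 + q ^ 2) := by
  set y := z ^ 2 * (l ^ 2 / f) with hy
  have hy0 : 0 ≤ y := by positivity
  have hz2 : z ^ 2 ≤ 1 := by rw [← sq_abs]; exact pow_le_one₀ (abs_nonneg _) hz
  have e1 : z ^ 4 * (l ^ 2) ^ 2 / f ^ 2 = y ^ 2 := by rw [hy]; field_simp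
  have e2 : z ^ 4 * (l ^ 2 / f) * t ≤ y * (2 * κ) := by
    calc _ = z ^ 2 * y * t := by rw [hy]; ring
      _ ≤ z ^ 2 * y * (2 * κ) := by gcongr
      _ ≤ 1 * y * (2 * κ) := by gcongr
      _ = _ := by ring
  have e3 : z ^ 4 * (l ^ 2 / f) * h ≤ y * (2 * a) := by
    calc _ = z ^ 2 * y * h := by rw [hy]; ring
      _ ≤ z ^ 2 * y * (2 * a) := by gcongr
      _ ≤ 1 * y * (2 * a) := by gcongr
      _ = _ := by ring
  have e4 : 4 * z ^ 3 * e * (l ^ 2 / f) ≤ y * (4 * q) := by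
    have h1 : z * e ≤ q := by
      refine (le_abs_self _).trans ?_
      rw [abs_mul]
      exact (mul_le_of_le_one_left (abs_nonneg _) hz).trans
        (he.trans (mul_le_of_le_one_right hq hl1))
    calc _ = y * (4 * (z * e)) := by rw [hy]; ring
      _ ≤ _ := by gcongr
  have e5 : z ^ 4 * (d / f - l ^ 2 * l ^ 2 / f ^ 2) ≤ y * (2 * κ + 2 * a) - y ^ 2 := by
    have h1 : z ^ 4 * (d / f) ≤ z ^ 4 * ((2 * κ + 2 * a) * l ^ 2 / f) := by
      have : 0 ≤ z ^ 4 := by positivity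
      gcongr
    have h2 : z ^ 4 * ((2 * κ + 2 * a) * l ^ 2 / f) = z ^ 2 * (y * (2 * κ + 2 * a)) := by
      rw [hy]; ring
    have h3 : z ^ 2 * (y * (2 * κ + 2 * a)) ≤ 1 * (y * (2 * κ + 2 * a)) := by gcongr
    have h4 : z ^ 4 * (l ^ 2 * l ^ 2 / f ^ 2) = y ^ 2 := by rw [hy]; field_simp
    rw [mul_sub, h4]
    linarith
  rw [e1]
  nlinarith [sq_nonneg (y - 4 * (κ + a + q)), sq_nonneg (κ - a), sq_nonneg (κ - q),
    sq_nonneg (a - q)]

variable {N : Set E3} {w F ζ : E3 → ℝ}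

/-- the pointwise inequality -/
lemma bern_pt (hN : IsSurf N) {x : E3} (hx : x ∈ N) (hw : IsEqn N x w) (hF : ContDiff ℝ ∞ F)
    (hζ : ContDiff ℝ 1 ζ) (hz : |ζ x| ≤ 1) (h0 : 0 < F x) {κ : ℝ} (hκ : 0 ≤ κ)
    (h1 : ‖gradient F x‖ ≤ 1) (h2 : ∀ v, ⟪fderiv ℝ (gradient F) x v, v⟫ ≤ κ * ‖v‖ ^ 2) :
    ζ x ^ 4 * (‖pt (nu N x) (gradient F x)‖ ^ 2) ^ 2 / F x ^ 2
      + 2 * (divT N (fun y => (ζ y ^ 4 * (lam w F y / F y)) • gradient F y) x
        + ⟪(ζ x ^ 4 * (lam w F x / F x)) • gradient F x, Hv N x⟫)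
      ≤ 48 * (κ ^ 2 + a2 N x + ‖pt (nu N x) (gradient ζ x)‖ ^ 2) := by
  have hg := hw.2.1
  have hn := norm_nuw hg
  have d1 := (hζ.differentiable one_ne_zero x).hasFDerivAt
  have d2 := ((contDiffAt_lam hw.1 hF hg).differentiableAt (by simp)).hasFDerivAt
  have d3 := (hF.differentiable (by simp) x).hasFDerivAt
  have d4 := (hasDerivAt_inv h0.ne').comp_hasFDerivAt x d3
  have d5 : HasFDerivAt (fun y => ζ y ^ 4 * (lam w F y / F y)) _ x :=
    ((d1.pow 4).mul (d2.mul d4)).congr_of_eventuallyEq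
      (Eventually.of_forall fun y => by simp [div_eq_mul_inv])
  rw [divT_smul d5.differentiableAt ((contDiff_grad hF).differentiable (by simp) x), d5.fderiv]
  have e0 := fderiv_lam hw.1 hF hg h1 h2
  rw [lam_eq hg, ← hw.pt_eq hx] at e0
  have e1 : ‖shw w x‖ ≤ √(a2 N x) := by
    obtain ⟨ε, hε, -, h3⟩ := hw.nu_sh hx
    have h4 := hN.norm_sh_le hx
    rw [h3, norm_smul] at h4
    rcases hε with rfl | rfl <;> simpa using h4
  set v := pt (nu N x) (gradient F x) with hv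
  have hν := hN.norm_nu hx
  have e2 : fderiv ℝ F x v = ‖v‖ ^ 2 := by
    rw [← inner_grad, hv, ← pt_pt hν, ← inner_pt_left, pt_pt hν, real_inner_self_eq_norm_sq]
  have e3 : |fderiv ℝ ζ x v| ≤ ‖pt (nu N x) (gradient ζ x)‖ * ‖v‖ := by
    rw [← inner_grad, hv, ← pt_pt hν, ← inner_pt_left, pt_pt hν]
    exact abs_real_inner_le_norm _ _
  have e4 : divT N (gradient F) x ≤ 2 * κ := by
    obtain ⟨a, b, ht⟩ := exists_triple hν
    have h3 := h2 a
    have h4 := h2 b
    rw [ht.1] at h3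
    rw [ht.2] at h4
    rw [divT, ht.tr_eq]
    linarith
  have e5 : ⟪gradient F x, Hv N x⟫ ≤ 2 * √(a2 N x) :=
    (real_inner_le_norm _ _).trans
      ((mul_le_of_le_one_left (norm_nonneg _) h1).trans (hN.norm_Hv_le hx))
  have e6 := bern_arith (d := fderiv ℝ (lam w F) x v) hz h0
    ((norm_pt_le hν _).trans h1) hκ (Real.sqrt_nonneg (a2 N x))
    (e0.trans (by gcongr)) e4 e5 (norm_nonneg _) e3
  rw [Real.sq_sqrt (hN.a2_nonneg hx)] at e6
  refine le_trans (le_of_eq ?_) e6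
  rw [real_inner_smul_left, lam_eq hg, ← hw.pt_eq hx, ← hv]
  simp only [add_apply, smul_apply, smul_eq_mul, e2,
    Function.comp, nsmul_eq_mul, Pi.mul_apply, lam_eq hg, ← hw.pt_eq hx, ← hv]
  norm_num
  field_simp
  ring

lemma ofReal_integral_le {μ : Measure E3} {u : E3 → ℝ} (hu : Integrable u μ) :
    ENNReal.ofReal (∫ x, u x ∂μ) ≤ ∫⁻ x, ENNReal.ofReal (u x) ∂μ := by
  rw [integral_eq_lintegral_pos_part_sub_lintegral_neg_part hu]
  refine (ENNReal.ofReal_le_ofReal (sub_le_self _ ENNReal.toReal_nonneg)).trans ?_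
  exact ENNReal.ofReal_toReal_le

/-- **The inequality for a smooth function.** -/
theorem bernis (hN : IsSurf N) (hw : ∀ x ∈ N, IsEqn N x w) (hF : ContDiff ℝ ∞ F)
    (hζ : ContDiff ℝ 1 ζ) (hc : HasCompactSupport ζ) (hz : ∀ x, |ζ x| ≤ 1) {k : E3 → ℝ≥0∞}
    (h : ∀ x ∈ N, x ∈ tsupport ζ → 0 < F x ∧ ‖gradient F x‖ ≤ 1 ∧ ∃ κ : ℝ, 0 ≤ κ ∧
      ENNReal.ofReal (κ ^ 2) ≤ k x ∧ ∀ v, ⟪fderiv ℝ (gradient F) x v, v⟫ ≤ κ * ‖v‖ ^ 2) :
    ∫⁻ x, ENNReal.ofReal (ζ x ^ 4 * (‖pt (nu N x) (gradient F x)‖ ^ 2) ^ 2 / F x ^ 2) ∂(area N)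
      ≤ 48 * (∫⁻ x in tsupport ζ, k x ∂(area N)
        + ∫⁻ x in tsupport ζ, ENNReal.ofReal (a2 N x) ∂(area N)
        + ∫⁻ x, ENNReal.ofReal (‖pt (nu N x) (gradient ζ x)‖ ^ 2) ∂(area N)) := by
  have := Chart.locFin_proof N hN
  have hK : IsCompact (N ∩ tsupport ζ) := hc.isCompact.inter_left hN.1
  obtain ⟨Z, hZ, hZe⟩ := exists_glob (Y := fun y => (lam w F y / F y) • gradient F y) hK.isClosed
    fun x hx => by
      have e := hw x hx.1
      filter_upwards [(contDiff_grad e.1).continuous.continuousAt.eventually_ne e.2.1,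
        hF.continuous.continuousAt.eventually_ne (h x hx.1 hx.2).1.ne'] with y h1 h2
      exact (((contDiffAt_lam e.1 hF h1).div hF.contDiffAt h2).smul
        (contDiff_grad hF).contDiffAt).of_le one_le_inf
  have hX : ContDiff ℝ 1 fun y => ζ y ^ 4 • Z y := (hζ.pow 4).smul hZ
  have hXc : HasCompactSupport fun y => ζ y ^ 4 • Z y :=
    HasCompactSupport.intro hc.isCompact fun y hy => by
      rw [image_eq_zero_of_notMem_tsupport hy]; simp
  obtain ⟨i1, i2, i3⟩ := EV.fv_full hN hX hXc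
  set Y : E3 → ℝ := fun x => ζ x ^ 4 * (‖pt (nu N x) (gradient F x)‖ ^ 2) ^ 2 / F x ^ 2 with hY
  have i0 : Integrable Y (area N) := by
    have c1 : ContinuousOn Y (N ∩ tsupport ζ) :=
      ((hζ.continuous.continuousOn.pow 4).mul (((((NC.contOn_pt hN).mono
        inter_subset_left).clm_apply (contDiff_grad hF).continuous.continuousOn).norm.pow 2).pow
        2)).div (hF.continuous.continuousOn.pow 2) fun x hx => pow_ne_zero 2 (h x hx.1 hx.2).1.ne'
    refine (c1.integrableOn_compact hK).integrable_of_ae_notMem_eq_zero ?_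
    filter_upwards [NC.ae_mem hN] with x hx hx'
    rw [hY]
    simp [image_eq_zero_of_notMem_tsupport fun h => hx' ⟨hx, h⟩]
  have i12 : Integrable (fun x => 2 * (divT N (fun y => ζ y ^ 4 • Z y) x
      + ⟪ζ x ^ 4 • Z x, Hv N x⟫)) (area N) := (i1.add i2).const_mul 2
  have e1 : ∫ x, Y x ∂(area N) = ∫ x, Y x + 2 * (divT N (fun y => ζ y ^ 4 • Z y) x
      + ⟪ζ x ^ 4 • Z x, Hv N x⟫) ∂(area N) := by
    rw [integral_add i0 i12, integral_const_mul, integral_add i1 i2, i3]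
    ring
  have m1 : AEMeasurable (fun x => ENNReal.ofReal (‖pt (nu N x) (gradient ζ x)‖ ^ 2)) (area N) := by
    have c1 : Continuous (gradient ζ) := rz.continuous.comp (hζ.continuous_fderiv one_ne_zero)
    exact (NC.aesm hN (((NC.contOn_pt hN).clm_apply c1.continuousOn).norm.pow 2)).aemeasurable
      |>.ennreal_ofReal
  have m2 : AEMeasurable ((tsupport ζ).indicator fun x => ENNReal.ofReal (a2 N x)) (area N) :=
    (NC.aesm hN (NC.contOn_a2 hN)).aemeasurable.ennreal_ofReal.indicator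
      (isClosed_tsupport ζ).measurableSet
  rw [← ofReal_integral_eq_lintegral_ofReal i0 (Eventually.of_forall fun x => by
    rw [hY]; positivity), e1, ← lintegral_indicator (isClosed_tsupport ζ).measurableSet,
    ← lintegral_indicator (isClosed_tsupport ζ).measurableSet, ← lintegral_add_right' _ m2,
    ← lintegral_add_right' _ m1, ← lintegral_const_mul' _ _ (by norm_num)]
  refine (ofReal_integral_le (i0.add i12)).trans (lintegral_mono_ae ?_)
  filter_upwards [NC.ae_mem hN] with x hx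
  by_cases hx' : x ∈ tsupport ζ
  · obtain ⟨a1, a2', κ, a3, a4, a5⟩ := h x hx hx'
    have b1 := bern_pt hN hx (hw x hx) hF hζ (hz x) a1 a3 a2' a5
    have b2 : (fun y => ζ y ^ 4 • Z y)
        =ᶠ[𝓝 x] fun y => (ζ y ^ 4 * (lam w F y / F y)) • gradient F y := by
      filter_upwards [hZe x ⟨hx, hx'⟩] with y hy
      rw [hy, smul_smul]
    have b3 : divT N (fun y => ζ y ^ 4 • Z y) x
        = divT N (fun y => (ζ y ^ 4 * (lam w F y / F y)) • gradient F y) x := by
      rw [divT, divT, b2.fderiv_eq]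
    have b4 : ζ x ^ 4 • Z x = (ζ x ^ 4 * (lam w F x / F x)) • gradient F x := b2.self_of_nhds
    rw [← b3, ← b4] at b1
    refine (ENNReal.ofReal_le_ofReal b1).trans ?_
    rw [indicator_of_mem hx', indicator_of_mem hx', ENNReal.ofReal_mul (by norm_num),
      ENNReal.ofReal_ofNat]
    gcongr
    refine ENNReal.ofReal_add_le.trans ?_
    gcongr
    refine ENNReal.ofReal_add_le.trans ?_
    gcongr
  · have b2 : (fun y => ζ y ^ 4 • Z y) =ᶠ[𝓝 x] fun _ => 0 := by
      filter_upwards [(isClosed_tsupport ζ).isOpen_compl.mem_nhds hx'] with y hy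
      rw [image_eq_zero_of_notMem_tsupport hy]; simp
    have b3 : divT N (fun y => ζ y ^ 4 • Z y) x = 0 := by
      rw [divT, b2.fderiv_eq]; simp [tr]
    simp [hY, b3, image_eq_zero_of_notMem_tsupport hx']

end Vale.Agent.P218G.SI
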