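import Vale.Agent.P218G.SI1
import Vale.Agent.P218FT.Spec2

/-! The static inequality for the separation, part 2: the ambient separation function is
semiconcave near the points without bad minimisers. -/

open MeasureTheory Set Filter Topology Metric Asymptotics
open scoped ENNReal NNReal RealInnerProductSpace ContDiff

namespace Vale.Agent.P218G.SI

open Vale.Agent.P218FT

/-- `y` is a point of `N` in the cone at `z`, at distance at least `δ` -/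
def Cn (N : Set E3) (w : E3 → ℝ) (δ : ℝ) (z y : E3) : Prop :=
  y ∈ N ∧ δ ≤ ‖y - z‖ ∧ ‖y - z‖ / 2 ≤ |⟪y - z, nuw w z⟫|

/-- the truncated separation, extended off the surface -/
noncomputable def rho (N : Set E3) (w : E3 → ℝ) (δ m : ℝ) (z : E3) : ℝ :=
  sInf (insert m ((fun y => ‖y - z‖) '' {y | Cn N w δ z y}))

/-- `y` is a minimiser for `z` -/
def Mn (N : Set E3) (w : E3 → ℝ) (δ m : ℝ) (z y : E3) : Prop :=
  Cn N w δ z y ∧ ‖y - z‖ ≤ rho N w δ m z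

/-- the curvature bound of a pair -/
noncomputable def kf (w : E3 → ℝ) (z y : E3) : ℝ := min ‖shw w y‖ ‖y - z‖⁻¹

/-- the standing assumptions -/
structure Ctx (N : Set E3) (w : E3 → ℝ) (K : Set E3) (δ m : ℝ) : Prop where
  surf : IsSurf N
  eqn : ∀ x ∈ N, IsEqn N x w
  sub : K ⊆ N
  cpt : IsCompact K
  δpos : 0 < δ
  δm : δ ≤ m
  sep : ∀ x ∈ K, SepGE N x (2 * δ)
  nb : ∀ x ∈ K, ∀ s ≤ m, ¬ Bad N x s

variable {N K : Set E3} {w : E3 → ℝ} {δ m : ℝ} {x y z : E3}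

lemma kf_nonneg : 0 ≤ kf w z y := le_min (norm_nonneg _) (by positivity)

lemma bdd_rho : BddBelow (insert m ((fun y => ‖y - z‖) '' {y | Cn N w δ z y})) :=
  BddBelow.insert m ⟨0, by rintro _ ⟨y, -, rfl⟩; exact norm_nonneg _⟩

lemma rho_le_m : rho N w δ m z ≤ m := csInf_le bdd_rho (mem_insert _ _)

lemma Cn.rho_le (h : Cn N w δ z y) : rho N w δ m z ≤ ‖y - z‖ :=
  csInf_le bdd_rho (mem_insert_of_mem _ ⟨y, h, rfl⟩)

lemma le_rho {a : ℝ} (h1 : a ≤ m) (h2 : ∀ y, Cn N w δ z y → a ≤ ‖y - z‖) : a ≤ rho N w δ m z :=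
  le_csInf (insert_nonempty _ _) (by
    rintro _ (rfl | ⟨y, hy, rfl⟩)
    · exact h1
    · exact h2 y hy)

lemma isClosed_cn (hN : IsClosed N) : IsClosed {y | Cn N w δ z y} :=
  hN.inter ((isClosed_le (f := fun _ => δ) (g := fun y => ‖y - z‖) (by fun_prop)
    (by fun_prop)).inter (isClosed_le (f := fun y => ‖y - z‖ / 2)
      (g := fun y => |⟪y - z, nuw w z⟫|) (by fun_prop) (by fun_prop)))

lemma exists_mn (hN : IsClosed N) (h : rho N w δ m z < m) : ∃ y, Mn N w δ m z y := by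
  obtain ⟨_, rfl | ⟨y₀, hy₀, rfl⟩, h1⟩ := exists_lt_of_csInf_lt (insert_nonempty _ _) h
  · exact absurd h1 (lt_irrefl _)
  obtain ⟨y, hy, e⟩ := (isClosed_cn hN).exists_infDist_eq_dist ⟨y₀, hy₀⟩ z
  have h2 : ∀ y', Cn N w δ z y' → ‖y - z‖ ≤ ‖y' - z‖ := fun y' hy' => by
    rw [← dist_eq_norm, ← dist_eq_norm, dist_comm, dist_comm y', ← e]
    exact infDist_le_dist_of_mem hy'
  exact ⟨y, hy, le_rho ((h2 y₀ hy₀).trans h1.le) h2⟩

lemma hasDerivAt_of_jet {a k : E3} {p : ℝ → E3}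
    (hj : (fun σ => p σ - (x + σ • a + (σ ^ 2 / 2) • k)) =o[𝓝 0] fun σ : ℝ => σ ^ 2) :
    p 0 = x ∧ HasDerivAt p a 0 := by
  have hp0 : p 0 = x := by
    obtain ⟨c, hc⟩ := hj.isBigO.bound
    simpa [sub_eq_zero] using hc.self_of_nhds
  have hσ2 : (fun σ : ℝ => σ ^ 2) =o[𝓝 0] fun σ : ℝ => σ := isLittleO_pow_id (by norm_num)
  refine ⟨hp0, ?_⟩
  rw [hasDerivAt_iff_isLittleO]
  have h1 : (fun σ : ℝ => (σ ^ 2 / 2) • k) =o[𝓝 0] fun σ : ℝ => σ := by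
    refine IsBigO.trans_isLittleO (IsBigO.of_bound (‖k‖ / 2) (Eventually.of_forall fun σ => ?_)) hσ2
    rw [norm_smul, Real.norm_eq_abs, Real.norm_eq_abs, abs_div, abs_two]
    apply le_of_eq; ring
  refine (((hj.trans hσ2).add h1).congr_left fun σ => ?_).congr_right fun σ => by simp
  rw [hp0, sub_zero]; abel

/-- a local minimiser of the distance is a normal foot point -/
lemma normal_of_min (hw : IsEqn N y w) (hy : y ∈ N)
    (h : ∀ᶠ y' in 𝓝 y, y' ∈ N → ‖y - z‖ ≤ ‖y' - z‖) : z - y = ⟪nuw w y, z - y⟫ • nuw w y := by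
  have hn := norm_nuw hw.2.1
  set a := pt (nuw w y) (z - y) with ha
  obtain ⟨p, hp, hj⟩ := hw.jet hy (a := a) (inner_pt_nrm hn _)
  obtain ⟨h0, hd⟩ := hasDerivAt_of_jet hj
  have h1 : IsLocalMin (fun σ => ⟪p σ - z, p σ - z⟫) 0 := by
    filter_upwards [hp, (tendsto_of_jet hj).eventually h] with σ a1 a2
    rw [h0, real_inner_self_eq_norm_sq, real_inner_self_eq_norm_sq]
    have := a2 a1
    gcongr
  have h2 := h1.hasDerivAt_eq_zero ((hd.sub_const z).inner ℝ (hd.sub_const z))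
  rw [h0, real_inner_comm, ← two_mul, mul_eq_zero, or_iff_right two_ne_zero, ← neg_sub,
    inner_neg_right, neg_eq_zero, ha, ← pt_pt hn, inner_pt_left, inner_self_eq_zero,
    pt_apply] at h2
  exact sub_eq_zero.1 h2

lemma diff_far {d s : ℝ} {u v : E3} (hu : ‖u‖ = d) (hd : 0 < d) :
    ‖u - s • v‖ + ‖u + s • v‖ - 2 * d ≤ d⁻¹ * s ^ 2 * ‖v‖ ^ 2 := by
  have h1 := parallelogram_law_with_norm ℝ u (s • v)
  have h2 : ‖s • v‖ ^ 2 = s ^ 2 * ‖v‖ ^ 2 := by rw [norm_smul, mul_pow, Real.norm_eq_abs, sq_abs]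
  rw [hu, h2] at h1
  rw [mul_assoc, ← div_eq_inv_mul, le_div_iff₀ hd]
  nlinarith [sq_nonneg (‖u - s • v‖ - d), sq_nonneg (‖u + s • v‖ - d)]

lemma diff_near (hw : IsEqn N y w) (hy : y ∈ N) {c : ℝ} (hc : c ≠ 0) (hz : z - y = c • nuw w y)
    (v : E3) {η : ℝ} (hη : 0 < η) {O : Set E3} (hO : O ∈ 𝓝 y) :
    ∀ᶠ s in 𝓝 (0 : ℝ), ∃ y₁ ∈ N ∩ O, ∃ y₂ ∈ N ∩ O,
      ‖y₁ - (z + s • v)‖ + ‖y₂ - (z - s • v)‖ - 2 * |c| ≤ (‖shw w y‖ * ‖v‖ ^ 2 + η) * s ^ 2 := by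
  have hn := norm_nuw hw.2.1
  set a := pt (nuw w y) v with ha
  obtain ⟨p, hp, hj⟩ := hw.jet hy (a := a) (inner_pt_nrm hn _)
  set b := ⟪shw w y a, a⟫ with hb
  set β := ⟪nuw w y, v⟫ with hβ
  have hb' : |b| ≤ ‖shw w y‖ * ‖v‖ ^ 2 := by
    have h1 := norm_pt_le hn v
    calc |b| ≤ ‖shw w y a‖ * ‖a‖ := abs_real_inner_le_norm _ _
      _ ≤ ‖shw w y‖ * ‖a‖ * ‖a‖ := by gcongr; exact (shw w y).le_opNorm a
      _ ≤ ‖shw w y‖ * ‖v‖ * ‖v‖ := by gcongr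
      _ = _ := by ring
  have l1 : Tendsto (fun s : ℝ => c + s * β - s ^ 2 / 2 * b) (𝓝 0) (𝓝 c) :=
    Continuous.tendsto' (by fun_prop) 0 _ (by simp)
  have l2 : ∀ᶠ s in 𝓝 (0 : ℝ), 0 < c * (c + s * β - s ^ 2 / 2 * b) :=
    (l1.const_mul c).eventually (lt_mem_nhds (mul_self_pos.2 hc))
  have key : ∀ᶠ s in 𝓝 (0 : ℝ), (p s ∈ N ∩ O ∧ 0 < c * (c + s * β - s ^ 2 / 2 * b)) ∧
      ‖p s - (z + s • v)‖ ≤ |c + s * β - s ^ 2 / 2 * b| + η / 2 * s ^ 2 := by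
    filter_upwards [hp, (tendsto_of_jet hj).eventually hO, l2, hj.bound (half_pos hη)]
      with s a1 a2 a3 a4
    refine ⟨⟨⟨a1, a2⟩, a3⟩, ?_⟩
    have e : p s - (z + s • v) = (p s - (y + s • a + (s ^ 2 / 2) • (b • nuw w y)))
        - (c + s * β - s ^ 2 / 2 * b) • nuw w y := by
      rw [eq_add_of_sub_eq hz, ha, pt_apply, ← hβ]
      module
    rw [e]
    refine (norm_sub_le _ _).trans ?_
    rw [norm_smul, hn, mul_one, Real.norm_eq_abs, add_comm]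
    rw [Real.norm_of_nonneg (sq_nonneg s)] at a4
    linarith
  have l3 : Tendsto (fun s : ℝ => -s) (𝓝 0) (𝓝 0) := by simpa using continuous_neg.tendsto (0 : ℝ)
  filter_upwards [key, l3.eventually key] with s ⟨⟨a1, a2⟩, a3⟩ ⟨⟨b1, b2⟩, b3⟩
  refine ⟨_, a1, _, b1, ?_⟩
  rw [neg_smul, ← sub_eq_add_neg] at b3
  rw [neg_sq] at b2 b3
  have f1 := mul_le_mul_of_nonneg_left (abs_le.1 hb').1 (sq_nonneg s)
  have f2 := mul_le_mul_of_nonneg_left (abs_le.1 hb').2 (sq_nonneg s)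
  rcases hc.lt_or_gt with h | h
  · rw [abs_of_neg (neg_of_mul_pos_right a2 h.le)] at a3
    rw [abs_of_neg (neg_of_mul_pos_right b2 h.le)] at b3
    rw [abs_of_neg h]
    linarith
  · rw [abs_of_pos (pos_of_mul_pos_right a2 h.le)] at a3
    rw [abs_of_pos (pos_of_mul_pos_right b2 h.le)] at b3
    rw [abs_of_pos h]
    linarith

namespace Ctx

variable (C : Ctx N w K δ m)
include C

lemma le_rho' : δ ≤ rho N w δ m z := le_rho C.δm fun _ h => h.2.1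

lemma cn_iff (hx : x ∈ K) : Cn N w δ x y ↔ InCone N x y := by
  have e := (C.eqn x (C.sub hx)).abs_inner_eq (C.sub hx) (y - x)
  have hδ := C.δpos
  refine ⟨fun h => ⟨h.1, fun h0 => ?_, e ▸ h.2.2⟩, fun h => ⟨h.1, ?_, e ▸ h.2.2⟩⟩
  · have := h.2.1
    rw [h0, sub_self, norm_zero] at this
    linarith
  · linarith [C.sep x hx y h]

lemma mn_iff (hx : x ∈ K) :
    Mn N w δ m x y ↔ InCone N x y ∧ SepGE N x ‖y - x‖ ∧ ‖y - x‖ ≤ m :=
  ⟨fun h => ⟨(C.cn_iff hx).1 h.1, fun _ h' => h.2.trans ((C.cn_iff hx).2 h').rho_le,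
    h.2.trans rho_le_m⟩, fun h => ⟨(C.cn_iff hx).2 h.1,
      le_rho h.2.2 fun y' h' => h.2.1 y' ((C.cn_iff hx).1 h')⟩⟩

lemma cont_n (hx : x ∈ N) : ContinuousAt (nuw w) x :=
  NC.continuousAt_nuw (C.eqn x hx).1 (C.eqn x hx).2.1

lemma cont_cone (hx : x ∈ K) (y : E3) :
    ContinuousAt (fun q : E3 × E3 => |⟪q.2 - q.1, nuw w q.1⟫|) (x, y) :=
  ((continuousAt_snd.sub continuousAt_fst).inner
    ((C.cont_n (C.sub hx)).comp_of_eq continuousAt_fst rfl)).abs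

/-- minimisers are in the open cone -/
lemma strict (hx : x ∈ K) (h : Mn N w δ m x y) :
    ∀ᶠ q : E3 × E3 in 𝓝 (x, y), q.2 ∈ N → Cn N w δ q.1 q.2 := by
  obtain ⟨h1, h2, h3⟩ := (C.mn_iff hx).1 h
  have e := (C.eqn x (C.sub hx)).abs_inner_eq (C.sub hx) (y - x)
  have h4 : δ < ‖y - x‖ := by linarith [C.sep x hx y h1, C.δpos]
  have h5 : ‖y - x‖ / 2 < |⟪y - x, nuw w x⟫| := h.1.2.2.lt_of_ne fun h6 =>
    C.nb x hx _ h3 ⟨h2, y, h1.1, h1.2.1, rfl, by rw [e, h6]⟩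
  have c1 : ContinuousAt (fun q : E3 × E3 => ‖q.2 - q.1‖) (x, y) := by fun_prop
  filter_upwards [continuousAt_const.eventually_lt c1 h4,
    (c1.div_const 2).eventually_lt (C.cont_cone hx y) h5] with q a1 a2 a3
  exact ⟨a3, a1.le, a2.le⟩

lemma usc (hx : x ∈ K) {a : ℝ} (ha : rho N w δ m x < a) : ∀ᶠ z in 𝓝 x, rho N w δ m z < a := by
  rcases (rho_le_m (N := N) (w := w) (δ := δ) (m := m) (z := x)).lt_or_eq with h | h
  · obtain ⟨y, hy⟩ := exists_mn C.surf.1 h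
    have l1 : Tendsto (fun z : E3 => (z, y)) (𝓝 x) (𝓝 (x, y)) :=
      tendsto_id.prodMk_nhds tendsto_const_nhds
    have c1 : ContinuousAt (fun z : E3 => ‖y - z‖) x := by fun_prop
    filter_upwards [l1.eventually (C.strict hx hy),
      c1.eventually_lt continuousAt_const (hy.2.trans_lt ha)] with z a1 a2
    exact (a1 hy.1.1).rho_le.trans_lt a2
  · exact Eventually.of_forall fun z => rho_le_m.trans_lt (h ▸ ha)

lemma not_mn (hx : x ∈ K) (h : ¬ Mn N w δ m x y) :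
    ∀ᶠ q : E3 × E3 in 𝓝 (x, y), ¬ Mn N w δ m q.1 q.2 := by
  have c1 : ContinuousAt (fun q : E3 × E3 => ‖q.2 - q.1‖) (x, y) := by fun_prop
  by_cases h1 : y ∈ N
  · by_cases h2 : δ ≤ ‖y - x‖
    · by_cases h3 : ‖y - x‖ / 2 ≤ |⟪y - x, nuw w x⟫|
      · have h4 : rho N w δ m x < ‖y - x‖ := not_le.1 fun h4 => h ⟨⟨h1, h2, h3⟩, h4⟩
        obtain ⟨a, a1, a2⟩ := exists_between h4
        filter_upwards [continuousAt_fst.tendsto.eventually (C.usc hx a1),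
          continuousAt_const.eventually_lt c1 a2] with q b1 b2 b3
        linarith [b3.2]
      · filter_upwards [(C.cont_cone hx y).eventually_lt (c1.div_const 2) (not_le.1 h3)]
          with q b1 b2
        linarith [b2.1.2.2]
    · filter_upwards [c1.eventually_lt continuousAt_const (not_le.1 h2)] with q b1 b2
      linarith [b2.1.2.1]
  · filter_upwards [continuousAt_snd.tendsto.eventually (C.surf.1.isOpen_compl.mem_nhds h1)]
      with q b1 b2 using b1 b2.1.1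

/-- the local structure of the minimisers -/
lemma loc (hx : x ∈ K) {Q : E3 × E3 → Prop}
    (hQ : ∀ y, Mn N w δ m x y → ∀ᶠ q in 𝓝 (x, y), Q q) : ∃ O : Set E3, IsOpen O ∧
      ∀ᶠ z in 𝓝 x, (∀ y, Mn N w δ m z y → y ∈ O) ∧
        ∀ y ∈ O, (y ∈ N → Cn N w δ z y) ∧ Q (z, y) := by
  have hY : IsCompact {y | Mn N w δ m x y} := by
    refine (isCompact_closedBall x m).of_isClosed_subset ((isClosed_cn C.surf.1).inter
      (isClosed_le (f := fun y => ‖y - x‖) (by fun_prop) continuous_const)) fun y hy => ?_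
    exact mem_closedBall_iff_norm.2 (hy.2.trans rho_le_m)
  have h1 := hY.mem_prod_nhdsSet_of_forall (l := 𝓝 x)
    (s := {q : E3 × E3 | (q.2 ∈ N → Cn N w δ q.1 q.2) ∧ Q q}) fun y hy => by
      rw [← nhds_prod_eq]
      exact (C.strict hx hy).and (hQ y hy)
  obtain ⟨t₁, ht₁, t₂, ht₂, ht⟩ := mem_prod_iff.1 h1
  obtain ⟨O, hO, hYO, hOt⟩ := mem_nhdsSet_iff_exists.1 ht₂
  have h2 := (isCompact_closedBall x (m + 1)).eventually_forall_of_forall_eventually (x₀ := x)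
    (P := fun z y => Mn N w δ m z y → y ∈ O) fun y _ => by
      by_cases hy : Mn N w δ m x y
      · filter_upwards [continuousAt_snd.tendsto.eventually (hO.mem_nhds (hYO hy))] with q b1 _
        exact b1
      · filter_upwards [C.not_mn hx hy] with q b1 b2 using absurd b2 b1
  refine ⟨O, hO, ?_⟩
  filter_upwards [ht₁, h2, ball_mem_nhds x one_pos] with z a1 a2 a3
  refine ⟨fun y hy => a2 y ?_ hy, fun y hy => ht (mk_mem_prod a1 (hOt hy))⟩
  have b1 := hy.2.trans rho_le_m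
  have b2 := norm_add_le (y - z) (z - x)
  rw [sub_add_sub_cancel] at b2
  rw [mem_ball_iff_norm] at a3
  rw [mem_closedBall_iff_norm]
  linarith

lemma cont_kf (h : Mn N w δ m x y) :
    ContinuousAt (fun q : E3 × E3 => kf w q.1 q.2) (x, y) := by
  have e := C.eqn y h.1.1
  have h1 : ‖y - x‖ ≠ 0 := (C.δpos.trans_le h.1.2.1).ne'
  have c1 : ContinuousAt (fun q : E3 × E3 => ‖q.2 - q.1‖) (x, y) := by fun_prop
  exact ((NC.continuousAt_shw e.1 e.2.1).comp_of_eq continuousAt_snd rfl).norm.min (c1.inv₀ h1)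

/-- **Semiconcavity near a point.** -/
theorem sc (hx : x ∈ K) {κ : ℝ} (hκ : 0 < κ) (h : ∀ y, Mn N w δ m x y → kf w x y < κ) :
    ∃ r > 0, SC (rho N w δ m) κ (ball x r) ∧ L1 (rho N w δ m) (ball x r) ∧
      ∀ z ∈ ball x r, ∀ y, Mn N w δ m z y → kf w z y < κ ∧
        (∀ z' ∈ ball x r, rho N w δ m z' ≤ ‖y - z'‖) ∧ z - y = ⟪nuw w y, z - y⟫ • nuw w y := by
  obtain ⟨O, hO, h1⟩ := C.loc hx (Q := fun q => kf w q.1 q.2 < κ) fun y hy =>
    (C.cont_kf hy).eventually_lt continuousAt_const (h y hy)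
  obtain ⟨r, hr, h2⟩ := Metric.eventually_nhds_iff_ball.1 h1
  have h3 : ∀ z ∈ ball x r, ∀ y ∈ N ∩ O, rho N w δ m z ≤ ‖y - z‖ := fun z hz y hy =>
    (((h2 z hz).2 y hy.2).1 hy.1).rho_le
  have h4 : L1 (rho N w δ m) (ball x r) := by
    intro a ha b hb
    rcases (rho_le_m (N := N) (w := w) (δ := δ) (m := m) (z := b)).lt_or_eq with h5 | h5
    · obtain ⟨y, hy⟩ := exists_mn C.surf.1 h5
      have a1 := h3 a ha y ⟨hy.1.1, (h2 b hb).1 y hy⟩
      have a2 := norm_sub_le (y - b) (a - b)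
      rw [sub_sub_sub_cancel_right] at a2
      linarith [hy.2]
    · rw [h5]
      linarith [rho_le_m (N := N) (w := w) (δ := δ) (m := m) (z := a), norm_nonneg (a - b)]
  have h5 : ∀ z ∈ ball x r, ∀ y, Mn N w δ m z y → z - y = ⟪nuw w y, z - y⟫ • nuw w y :=
    fun z hz y hy => normal_of_min (C.eqn y hy.1.1) hy.1.1 (by
      filter_upwards [hO.mem_nhds ((h2 z hz).1 y hy)] with y' a1 a2
      exact hy.2.trans (h3 z hz y' ⟨a2, a1⟩))
  refine ⟨r, hr, sc_of_diff (convex_ball x r) h4.lip.continuousOn fun z hz v hv => ?_, h4,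
    fun z hz y hy => ⟨((h2 z hz).2 y ((h2 z hz).1 y hy)).2,
      fun z' hz' => h3 z' hz' y ⟨hy.1.1, (h2 z hz).1 y hy⟩, h5 z hz y hy⟩⟩
  have hv2 : 0 < ‖v‖ ^ 2 := pow_pos (norm_pos_iff.2 hv) 2
  have l1 : ∀ᶠ s in 𝓝[>] (0 : ℝ), z + s • v ∈ ball x r ∧ z - s • v ∈ ball x r := by
    refine nhdsWithin_le_nhds (Eventually.and ?_ ?_) <;>
    exact (Continuous.tendsto' (by fun_prop) 0 z (by simp)).eventually (isOpen_ball.mem_nhds hz)
  rcases (rho_le_m (N := N) (w := w) (δ := δ) (m := m) (z := z)).lt_or_eq with h6 | h6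
  · obtain ⟨y, hy⟩ := exists_mn C.surf.1 h6
    have a0 := (h2 z hz).1 y hy
    have a1 : kf w z y < κ := ((h2 z hz).2 y a0).2
    have a2 : 0 < ‖y - z‖ := C.δpos.trans_le hy.1.2.1
    have a3 := hy.2
    rcases min_lt_iff.1 a1 with a4 | a4
    · have b1 := h5 z hz y hy
      have b2 : |⟪nuw w y, z - y⟫| = ‖y - z‖ := by
        rw [norm_sub_rev, b1, norm_smul, norm_nuw (C.eqn y hy.1.1).2.1, mul_one, ← b1,
          Real.norm_eq_abs]
      have b3 := diff_near (C.eqn y hy.1.1) hy.1.1 (abs_pos.1 (b2 ▸ a2)) b1 v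
        (η := (κ - ‖shw w y‖) * ‖v‖ ^ 2 / 2) (by have := sub_pos.2 a4; positivity) (hO.mem_nhds a0)
      filter_upwards [l1, nhdsWithin_le_nhds b3, self_mem_nhdsWithin]
        with s ⟨c1, c2⟩ ⟨y₁, c3, y₂, c4, c5⟩ c6
      have c7 := h3 _ c1 _ c3
      have c8 := h3 _ c2 _ c4
      have c9 : 0 < (κ - ‖shw w y‖) * ‖v‖ ^ 2 * s ^ 2 :=
        mul_pos (mul_pos (sub_pos.2 a4) hv2) (pow_pos c6 2)
      rw [b2] at c5
      linarith
    · filter_upwards [l1, self_mem_nhdsWithin] with s ⟨c1, c2⟩ c6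
      have c7 := h3 _ c1 y ⟨hy.1.1, a0⟩
      have c8 := h3 _ c2 y ⟨hy.1.1, a0⟩
      have c5 := diff_far (s := s) (v := v) rfl a2
      rw [← sub_sub] at c7
      rw [← sub_add] at c8
      have c9 : 0 < (κ - ‖y - z‖⁻¹) * (s ^ 2 * ‖v‖ ^ 2) :=
        mul_pos (sub_pos.2 a4) (mul_pos (pow_pos c6 2) hv2)
      linarith
  · filter_upwards [self_mem_nhdsWithin] with s c6
    have c1 := rho_le_m (N := N) (w := w) (δ := δ) (m := m) (z := z + s • v)
    have c2 := rho_le_m (N := N) (w := w) (δ := δ) (m := m) (z := z - s • v)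
    have c9 : 0 < κ * s ^ 2 * ‖v‖ ^ 2 := mul_pos (mul_pos hκ (pow_pos c6 2)) hv2
    linarith

end Ctx

end Vale.Agent.P218G.SI
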