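import Vale.Agent.P218G.SI2

/-! The static inequality for the separation, part 3: the semiconcavity constant is bounded in
`L²` by the second fundamental form. -/

open MeasureTheory Set Filter Topology Metric Asymptotics
open scoped ENNReal NNReal RealInnerProductSpace ContDiff

namespace Vale.Agent.P218G.SI

open Vale.Agent.P218FT

variable {N K : Set E3} {w : E3 → ℝ} {δ m : ℝ} {x y z : E3}

/-- short chords are almost tangent -/
lemma chord (hw : IsEqn N x w) {η : ℝ} (hη : 0 < η) : ∀ᶠ p : E3 × E3 in 𝓝 (x, x),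
    p.1 ∈ N → p.2 ∈ N → |⟪nuw w x, p.1 - p.2⟫| ≤ η * ‖p.1 - p.2‖ := by
  have hg : 0 < ‖gradient w x‖ := norm_pos_iff.2 hw.2.1
  have h1 : HasStrictFDerivAt w (fderiv ℝ w x) x :=
    hw.1.contDiffAt.hasStrictFDerivAt (by simp)
  filter_upwards [h1.isLittleO.bound (mul_pos hη hg),
    continuousAt_fst.tendsto.eventually hw.2.2, continuousAt_snd.tendsto.eventually hw.2.2]
    with p a1 a2 a3 b1 b2
  rw [a2.1 b1, a3.1 b2, sub_zero, zero_sub, norm_neg, ← inner_grad, grad_eq_smul_nuw hw.2.1,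
    real_inner_smul_left, norm_smul, norm_norm, norm_nuw hw.2.1, mul_one, norm_mul, norm_norm,
    Real.norm_eq_abs] at a1
  refine le_of_mul_le_mul_left ?_ hg
  linarith

/-- the normal is Lipschitz along the surface -/
lemma lip_n (hw : IsEqn N y w) {η : ℝ} (hη : 0 < η) : ∀ᶠ p : E3 × E3 in 𝓝 (y, y),
    p.1 ∈ N → p.2 ∈ N → ‖nuw w p.1 - nuw w p.2‖ ≤ (‖shw w y‖ + η) * ‖p.1 - p.2‖ := by
  have hn := norm_nuw hw.2.1
  set L := fderiv ℝ (nuw w) y with hL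
  have h1 : HasStrictFDerivAt (nuw w) L y :=
    (NC.contDiffAt_nuw hw.1 hw.2.1).hasStrictFDerivAt (by simp)
  have h2 : 0 < η / (2 * (‖L‖ + 1)) := by positivity
  filter_upwards [h1.isLittleO.bound (half_pos hη), chord hw h2] with p a1 a2 b1 b2
  set v := p.1 - p.2 with hv
  have a3 := a2 b1 b2
  have e : L v = -shw w y v + ⟪nuw w y, v⟫ • L (nuw w y) := by
    have e1 : v = pt (nuw w y) v + ⟪nuw w y, v⟫ • nuw w y := by rw [pt_apply]; abel
    conv_lhs => rw [e1, map_add, map_smul, hL,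
      NC.fderiv_nuw hw.1 hw.2.1 (inner_pt_nrm hn v), shw_pt hw.2.1]
  have a4 : ‖L v‖ ≤ ‖shw w y‖ * ‖v‖ + η / 2 * ‖v‖ := by
    rw [e]
    refine (norm_add_le _ _).trans (add_le_add ?_ ?_)
    · rw [norm_neg]; exact (shw w y).le_opNorm v
    · have c1 := L.le_opNorm (nuw w y)
      rw [hn, mul_one] at c1
      rw [norm_smul, Real.norm_eq_abs]
      calc _ ≤ η / (2 * (‖L‖ + 1)) * ‖v‖ * (‖L‖ + 1) := by gcongr; linarith
        _ = _ := by field_simp
  have a5 := norm_add_le (nuw w p.1 - nuw w p.2 - L v) (L v)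
  rw [sub_add_cancel] at a5
  linarith

/-- a uniform lower bound for the separation on a compact set -/
lemma exists_sep (hw : ∀ x ∈ N, IsEqn N x w) (hK : IsCompact K) (hKN : K ⊆ N) :
    ∃ δ > 0, ∀ x ∈ K, SepGE N x δ := by
  have h1 : ∀ x : K, ∃ r > 0, ∀ a ∈ ball (x : E3) r, ∀ b ∈ ball (x : E3) r, a ∈ N → b ∈ N →
      |⟪b - a, nuw w a⟫| ≤ 1 / 4 * ‖b - a‖ := by
    intro ⟨x, hx⟩
    have e := hw x (hKN hx)
    have c1 : ContinuousAt (fun p : E3 × E3 => ‖nuw w p.2 - nuw w x‖) (x, x) :=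
      (((NC.continuousAt_nuw e.1 e.2.1).comp_of_eq continuousAt_snd rfl).sub
        continuousAt_const).norm
    have h2 := (chord e (η := 1 / 8) (by norm_num)).and
      (c1.eventually_lt (continuousAt_const (y := (1 / 8 : ℝ))) (by simp))
    obtain ⟨r, hr, h3⟩ := Metric.eventually_nhds_iff_ball.1 h2
    refine ⟨r, hr, fun a ha b hb ha' hb' => ?_⟩
    obtain ⟨a1, a2⟩ := h3 (b, a) (by rw [← ball_prod_same]; exact ⟨hb, ha⟩)
    have a3 := a1 hb' ha'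
    have a4 := abs_real_inner_le_norm (b - a) (nuw w a - nuw w x)
    have a5 := abs_add_le ⟪b - a, nuw w a - nuw w x⟫ ⟪b - a, nuw w x⟫
    rw [← inner_add_right, sub_add_cancel, real_inner_comm (nuw w x)] at a5
    simp only at a2 a3
    nlinarith [norm_nonneg (b - a)]
  choose r hr h2 using h1
  obtain ⟨δ, hδ, h3⟩ := lebesgue_number_lemma_of_metric hK (c := fun x : K => ball (x : E3) (r x))
    (fun _ => isOpen_ball) fun x hx => mem_iUnion.2 ⟨⟨x, hx⟩, mem_ball_self (hr _)⟩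
  refine ⟨δ, hδ, fun x hx y hy => not_lt.1 fun h4 => ?_⟩
  obtain ⟨i, hi⟩ := h3 x hx
  have a1 := h2 i x (hi (mem_ball_self hδ)) y (hi (mem_ball_iff_norm.2 h4)) (hKN hx) hy.1
  have a2 := hy.2.2
  rw [(hw x (hKN hx)).abs_inner_eq (hKN hx)] at a2
  have a3 : 0 < ‖y - x‖ := norm_sub_pos_iff.2 hy.2.1
  linarith

lemma img_le {P : Set (E3 × E3)} {L : ℝ≥0}
    (h : ∀ q ∈ P, ∀ q' ∈ P, dist q.1 q'.1 ≤ L * dist q.2 q'.2) :
    (μHE[2] : Measure E3) (Prod.fst '' P) ≤ (L : ℝ≥0∞) ^ 2 * μHE[2] (Prod.snd '' P) := by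
  have h1 := P218GA.img_le h (d := ((2 : ℕ) : ℝ)) (by positivity)
  rw [ENNReal.rpow_natCast] at h1
  rw [Measure.euclideanHausdorffMeasure_def, Measure.smul_apply, Measure.smul_apply,
    ENNReal.smul_def, ENNReal.smul_def, smul_eq_mul, smul_eq_mul, mul_left_comm]
  gcongr

/-- transport of an integral along a relation which is locally a Lipschitz graph -/
lemma pair_le {P : Set (E3 × E3)} (hP : MeasurableSet P)
    (hPN : ∀ q ∈ P, q.2 ∈ N) (hi : InjOn Prod.snd P) {f : E3 × E3 → ℝ≥0∞} {G : E3 → ℝ≥0∞}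
    (h : ∀ q₀ ∈ P, ∃ t ∈ 𝓝 q₀, ∃ (a : ℝ≥0∞) (L : ℝ≥0),
      (∀ q ∈ P ∩ t, f q ≤ a ∧ a * L ^ 2 ≤ G q.2) ∧
        ∀ q ∈ P ∩ t, ∀ q' ∈ P ∩ t, dist q.1 q'.1 ≤ L * dist q.2 q'.2) :
    ∃ k : E3 → ℝ≥0∞, Measurable k ∧ (∀ q ∈ P, f q ≤ k q.1) ∧
      ∫⁻ x, k x ∂(area N) ≤ ∫⁻ y in Prod.snd '' P, G y ∂(area N) := by
  choose! t ht h1 using h
  obtain ⟨A, hA, hd, hc, hs⟩ := P218GA.exists_partition ht
  have h2 : ∀ n, ∃ (a : ℝ≥0∞) (L : ℝ≥0), (∀ q ∈ P ∩ A n, f q ≤ a ∧ a * L ^ 2 ≤ G q.2) ∧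
      ∀ q ∈ P ∩ A n, ∀ q' ∈ P ∩ A n, dist q.1 q'.1 ≤ L * dist q.2 q'.2 := fun n => by
    rcases hs n with h3 | ⟨q₀, h3, h4⟩
    · exact ⟨0, 0, by simp [h3], by simp [h3]⟩
    · obtain ⟨a, L, a1, a2⟩ := h1 q₀ h3
      exact ⟨a, L, fun q hq => a1 q ⟨hq.1, h4 hq.2⟩,
        fun q hq q' hq' => a2 q ⟨hq.1, h4 hq.2⟩ q' ⟨hq'.1, h4 hq'.2⟩⟩
  choose a L h3 h4 using h2
  have hm : ∀ n, MeasurableSet (Prod.snd '' (P ∩ A n)) := fun n =>
    (hP.inter (hA n)).image_of_continuousOn_injOn continuous_snd.continuousOn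
      (hi.mono inter_subset_left)
  have hk : ∀ n, Measurable
      ((toMeasurable (area N) (Prod.fst '' (P ∩ A n))).indicator fun _ : E3 => a n) := fun n =>
    measurable_const.indicator (measurableSet_toMeasurable _ _)
  refine ⟨fun x => ∑' n, (toMeasurable (area N) (Prod.fst '' (P ∩ A n))).indicator
    (fun _ => a n) x, Measurable.tsum hk, fun q hq => ?_, ?_⟩
  · obtain ⟨n, hn⟩ := mem_iUnion.1 (hc hq)
    refine le_trans ?_ (ENNReal.le_tsum n)
    rw [indicator_of_mem (subset_toMeasurable _ _ (mem_image_of_mem _ (mem_inter hq hn)))]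
    exact (h3 n q ⟨hq, hn⟩).1
  · have e : Prod.snd '' P = ⋃ n, Prod.snd '' (P ∩ A n) := by
      rw [← image_iUnion, ← inter_iUnion, inter_eq_left.2 hc]
    rw [lintegral_tsum fun n => (hk n).aemeasurable, e, lintegral_iUnion hm fun i j hij =>
      (((hd hij).mono inter_subset_right inter_subset_right).image hi inter_subset_left
        inter_subset_left)]
    refine ENNReal.tsum_le_tsum fun n => ?_
    rw [lintegral_indicator_const (measurableSet_toMeasurable _ _), measure_toMeasurable]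
    have e2 : area N (Prod.snd '' (P ∩ A n)) = μHE[2] (Prod.snd '' (P ∩ A n)) := by
      rw [area, Measure.restrict_apply (hm n), inter_eq_left.2]
      rintro _ ⟨q, hq, rfl⟩
      exact hPN q hq.1
    calc a n * area N (Prod.fst '' (P ∩ A n))
        ≤ a n * ((L n : ℝ≥0∞) ^ 2 * μHE[2] (Prod.snd '' (P ∩ A n))) := by
          gcongr
          exact (Measure.restrict_apply_le _ _).trans (img_le (h4 n))
      _ = ∫⁻ _ in Prod.snd '' (P ∩ A n), a n * L n ^ 2 ∂(area N) := by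
          rw [setLIntegral_const, e2, mul_assoc]
      _ ≤ _ := setLIntegral_mono' (hm n) (by
          rintro _ ⟨q, hq, rfl⟩
          exact (h3 n q hq).2)

namespace Ctx

variable (C : Ctx N w K δ m)
include C

lemma normal (hx : x ∈ K) (h : Mn N w δ m x y) : x - y = ⟪nuw w y, x - y⟫ • nuw w y := by
  have l1 : Tendsto (fun y' : E3 => (x, y')) (𝓝 y) (𝓝 (x, y)) :=
    tendsto_const_nhds.prodMk_nhds tendsto_id
  refine normal_of_min (C.eqn y h.1.1) h.1.1 ?_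
  filter_upwards [l1.eventually (C.strict hx h)] with y' a1 a2
  exact h.2.trans (a1 a2).rho_le

lemma abs_normal (hx : x ∈ K) (h : Mn N w δ m x y) : |⟪nuw w y, x - y⟫| = ‖y - x‖ := by
  rw [norm_sub_rev, C.normal hx h, norm_smul, norm_nuw (C.eqn y h.1.1).2.1, mul_one,
    ← C.normal hx h, Real.norm_eq_abs]

lemma inj {x' n : E3} {c c' : ℝ} (hx : x ∈ K) (hx' : x' ∈ K) (h : Mn N w δ m x y)
    (h' : Mn N w δ m x' y) (hn : ‖n‖ = 1) (e : x - y = c • n) (e' : x' - y = c' • n) (hc : 0 ≤ c)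
    (hc' : c ≤ c') : x = x' := by
  by_contra hne
  obtain ⟨a1, a2, -⟩ := (C.mn_iff hx').1 h'
  have b0 : ‖y - x‖ = c := by
    rw [norm_sub_rev, e, norm_smul, hn, mul_one, Real.norm_of_nonneg hc]
  have b1 : ‖y - x'‖ = c' := by
    rw [norm_sub_rev, e', norm_smul, hn, mul_one, Real.norm_of_nonneg (hc.trans hc')]
  have b2 : x - x' = -((c' - c) • n) := by
    rw [← sub_sub_sub_cancel_right x x' y, e, e', sub_smul, neg_sub]
  have b3 : ‖x - x'‖ = c' - c := by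
    rw [b2, norm_neg, norm_smul, hn, mul_one, Real.norm_of_nonneg (sub_nonneg.2 hc')]
  have b4 : 0 < c := by linarith [h.1.2.1, C.δpos]
  have b5 := a1.2.2
  rw [b1, ← neg_sub, e', inner_neg_left, abs_neg, real_inner_smul_left, abs_mul,
    abs_of_nonneg (hc.trans hc')] at b5
  have b6 : 1 / 2 ≤ |⟪n, nu N x'⟫| := le_of_mul_le_mul_left (by linarith) (b4.trans_le hc')
  have b7 := a2 x ⟨C.sub hx, hne, by
    rw [b3, b2, inner_neg_left, abs_neg, real_inner_smul_left, abs_mul,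
      abs_of_nonneg (sub_nonneg.2 hc')]
    nlinarith⟩
  linarith

lemma isClosed_pairs : IsClosed {q : E3 × E3 | q.1 ∈ K ∧ Mn N w δ m q.1 q.2} := by
  refine isOpen_compl_iff.1 (isOpen_iff_mem_nhds.2 fun q hq => ?_)
  by_cases h1 : q.1 ∈ K
  · filter_upwards [C.not_mn h1 fun h => hq ⟨h1, h⟩] with p a1 a2 using a1 a2.2
  · filter_upwards [continuousAt_fst.tendsto.eventually
      (C.cpt.isClosed.isOpen_compl.mem_nhds h1)] with p a1 a2 using a1 a2.1

/-- the set of pairs is locally a Lipschitz graph over the second factor -/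
lemma lip (hx : x ∈ K) (h : Mn N w δ m x y) : ∃ t ∈ 𝓝 (x, y), ∀ q ∈ t, ∀ q' ∈ t,
    q.1 ∈ K → Mn N w δ m q.1 q.2 → q'.1 ∈ K → Mn N w δ m q'.1 q'.2 →
      ‖q.1 - q'.1‖ ≤ 8 * (1 + ‖y - x‖ * ‖shw w y‖) * ‖q.2 - q'.2‖ := by
  have hr : 0 < ‖y - x‖ := C.δpos.trans_le h.1.2.1
  have e1 := C.eqn x (C.sub hx)
  have e2 := C.eqn y h.1.1
  have h1 : 1 / 2 ≤ |⟪nuw w y, nuw w x⟫| := by
    have b5 := h.1.2.2
    rw [← neg_sub x y, inner_neg_left, abs_neg, C.normal hx h, real_inner_smul_left, abs_mul,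
      C.abs_normal hx h, ← C.normal hx h, neg_sub] at b5
    exact le_of_mul_le_mul_left (by linarith) hr
  obtain ⟨r₁, hr₁, h2⟩ := Metric.eventually_nhds_iff_ball.1 (chord e1 (η := 1 / 20) (by norm_num))
  obtain ⟨r₂, hr₂, h3⟩ := Metric.eventually_nhds_iff_ball.1
    (lip_n e2 (η := (2 * ‖y - x‖)⁻¹) (by positivity))
  have c1 : ContinuousAt (fun q : E3 × E3 => |⟪nuw w q.2, nuw w x⟫|) (x, y) :=
    (((C.cont_n h.1.1).comp_of_eq continuousAt_snd rfl).inner continuousAt_const).abs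
  have c2 : ContinuousAt (fun q : E3 × E3 => ‖q.2 - q.1‖) (x, y) := by fun_prop
  have h4 : ∀ᶠ q : E3 × E3 in 𝓝 (x, y), (q.1 ∈ ball x r₁ ∧ q.2 ∈ ball y r₂) ∧
      2 / 5 < |⟪nuw w q.2, nuw w x⟫| ∧ ‖q.2 - q.1‖ < 2 * ‖y - x‖ :=
    ((continuousAt_fst.tendsto.eventually_mem (ball_mem_nhds x hr₁)).and
      (continuousAt_snd.tendsto.eventually_mem (ball_mem_nhds y hr₂))).and
      ((continuousAt_const.eventually_lt c1 (by simp only; linarith)).and
        (c2.eventually_lt continuousAt_const (by simp only; linarith)))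
  refine ⟨_, h4, fun ⟨a, b⟩ ⟨⟨q1, q2⟩, _, q4⟩ ⟨a', b'⟩ ⟨⟨p1, p2⟩, p3, _⟩ ha hb ha' hb' => ?_⟩
  simp only at q1 q2 q4 p1 p2 p3 ha hb ha' hb' ⊢
  have d1 := h2 (a, a') (by rw [← ball_prod_same]; exact ⟨q1, p1⟩) (C.sub ha) (C.sub ha')
  have d2 := h3 (b, b') (by rw [← ball_prod_same]; exact ⟨q2, p2⟩) hb.1.1 hb'.1.1
  simp only at d1 d2
  have d3 := C.abs_normal ha hb
  have n1 := C.normal ha hb
  have n2 := C.normal ha' hb'
  set c := ⟪nuw w b, a - b⟫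
  set c' := ⟪nuw w b', a' - b'⟫
  set E := b - b' + c • (nuw w b - nuw w b') with hE
  have f1 : a - a' = E + (c - c') • nuw w b' := by
    rw [eq_add_of_sub_eq n1, eq_add_of_sub_eq n2, hE]; module
  have f2 : ‖E‖ ≤ 2 * (1 + ‖y - x‖ * ‖shw w y‖) * ‖b - b'‖ := by
    refine (norm_add_le _ _).trans ?_
    rw [norm_smul, Real.norm_eq_abs, d3]
    calc _ ≤ ‖b - b'‖ + 2 * ‖y - x‖ * ((‖shw w y‖ + (2 * ‖y - x‖)⁻¹) * ‖b - b'‖) := by gcongr
      _ = _ := by field_simp; ring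
  have f3 : ‖a - a'‖ ≤ ‖E‖ + |c - c'| := by
    rw [f1]
    refine (norm_add_le _ _).trans ?_
    rw [norm_smul, norm_nuw (C.eqn _ hb'.1.1).2.1, mul_one, Real.norm_eq_abs]
  have f4 : |c - c'| * |⟪nuw w b', nuw w x⟫| ≤ 1 / 20 * ‖a - a'‖ + ‖E‖ := by
    have g1 : (c - c') * ⟪nuw w b', nuw w x⟫ = ⟪nuw w x, a - a'⟫ - ⟪nuw w x, E⟫ := by
      rw [f1, inner_add_right, real_inner_smul_right, real_inner_comm]; ring
    have g2 := abs_real_inner_le_norm (nuw w x) E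
    rw [norm_nuw e1.2.1, one_mul] at g2
    rw [← abs_mul, g1]
    exact (abs_sub _ _).trans (add_le_add d1 g2)
  nlinarith [abs_nonneg (c - c'), norm_nonneg E]

lemma norm_shw_sq (hy : y ∈ N) : ‖shw w y‖ ^ 2 ≤ a2 N y := by
  obtain ⟨ε, hε, -, h2⟩ := (C.eqn y hy).nu_sh hy
  have h1 := C.surf.norm_sh_le hy
  have h3 : ‖sh N y‖ = ‖shw w y‖ := by
    rw [h2, norm_smul]
    rcases hε with rfl | rfl <;> simp
  rw [← h3, ← Real.sq_sqrt (C.surf.a2_nonneg hy)]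
  gcongr

lemma l2_sign {σ : ℝ} (hσ : σ = 1 ∨ σ = -1) {S : Set E3}
    (hS : ∀ x ∈ K, closedBall x m ⊆ S) {ε : ℝ} (hε : 0 < ε) :
    ∃ k : E3 → ℝ≥0∞, Measurable k ∧ (∀ x ∈ K, ∀ y, Mn N w δ m x y → 0 ≤ σ * ⟪nuw w y, x - y⟫ →
      ENNReal.ofReal (kf w x y ^ 2) ≤ k x) ∧
      ∫⁻ x, k x ∂(area N) ≤ ∫⁻ y in S, ENNReal.ofReal (256 * a2 N y + ε) ∂(area N) := by
  set P := {q : E3 × E3 | q.1 ∈ K ∧ Mn N w δ m q.1 q.2} ∩
    (fun q : E3 × E3 => σ * ⟪nuw w q.2, q.1 - q.2⟫) ⁻¹' Ici 0 with hP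
  have hc : IsClosed P := ContinuousOn.preimage_isClosed_of_isClosed (fun q hq =>
    (continuousAt_const.mul (((C.cont_n hq.2.1.1).comp_of_eq continuousAt_snd rfl).inner
      (continuousAt_fst.sub continuousAt_snd))).continuousWithinAt) C.isClosed_pairs isClosed_Ici
  have hs := sign_mul_self hσ
  have hi : InjOn Prod.snd P := by
    rintro ⟨a, b⟩ ⟨⟨a1, a2⟩, a3⟩ ⟨a', b'⟩ ⟨⟨b1, b2⟩, b3⟩ (rfl : b = b')
    have n0 : ‖σ • nuw w b‖ = 1 := by
      rcases hσ with rfl | rfl <;> simp [norm_nuw (C.eqn b a2.1.1).2.1]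
    have n1 : a - b = (σ * ⟪nuw w b, a - b⟫) • σ • nuw w b := by
      rw [smul_smul, mul_right_comm, hs, one_mul]; exact C.normal a1 a2
    have n2 : a' - b = (σ * ⟪nuw w b, a' - b⟫) • σ • nuw w b := by
      rw [smul_smul, mul_right_comm, hs, one_mul]; exact C.normal b1 b2
    rcases le_total (σ * ⟪nuw w b, a - b⟫) (σ * ⟪nuw w b, a' - b⟫) with h | h
    · exact Prod.ext (C.inj a1 b1 a2 b2 n0 n1 n2 a3 h) rfl
    · exact Prod.ext (C.inj b1 a1 b2 a2 n0 n2 n1 b3 h).symm rfl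
  obtain ⟨k, k1, k2, k3⟩ := pair_le hc.measurableSet
    (fun q hq => hq.1.2.1.1) hi (f := fun q => ENNReal.ofReal (kf w q.1 q.2 ^ 2))
    (G := fun y => ENNReal.ofReal (256 * a2 N y + ε)) (by
      rintro ⟨x, y⟩ ⟨⟨hx, h⟩, -⟩
      obtain ⟨t, ht, h1⟩ := C.lip hx h
      have hr : 0 < ‖y - x‖ := C.δpos.trans_le h.1.2.1
      set L := 8 * (1 + ‖y - x‖ * ‖shw w y‖) with hL
      have hL0 : 0 < L := by positivity
      have h2 : kf w x y * L ≤ 16 * ‖shw w y‖ := by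
        have a1 : kf w x y ≤ ‖shw w y‖ := min_le_left _ _
        have a2 : kf w x y * ‖y - x‖ ≤ 1 := by
          rw [← le_div_iff₀ hr, one_div]; exact min_le_right _ _
        nlinarith [norm_nonneg (shw w y)]
      have h3 : (kf w x y ^ 2 + ε / (2 * L ^ 2)) * L ^ 2 < 256 * ‖shw w y‖ ^ 2 + ε := by
        have a1 := pow_le_pow_left₀ (mul_nonneg kf_nonneg hL0.le) h2 2
        have a2 : ε / (2 * L ^ 2) * L ^ 2 = ε / 2 := by field_simp
        nlinarith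
      have c1 : ContinuousAt (fun q : E3 × E3 => 256 * ‖shw w q.2‖ ^ 2 + ε) (x, y) :=
        (continuousAt_const.mul (((NC.continuousAt_shw (C.eqn y h.1.1).1
          (C.eqn y h.1.1).2.1).comp_of_eq continuousAt_snd rfl).norm.pow 2)).add continuousAt_const
      have h4 := (continuousAt_const.eventually_lt c1 h3).and
        (((C.cont_kf h).pow 2).eventually_lt continuousAt_const
          (show kf w x y ^ 2 < kf w x y ^ 2 + ε / (2 * L ^ 2) from
            lt_add_of_pos_right _ (by positivity)))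
      refine ⟨_, inter_mem ht h4, ENNReal.ofReal (kf w x y ^ 2 + ε / (2 * L ^ 2)), L.toNNReal,
        fun q hq => ⟨ENNReal.ofReal_le_ofReal hq.2.2.2.le, ?_⟩, fun q hq q' hq' => ?_⟩
      · change _ * ENNReal.ofReal L ^ 2 ≤ _
        rw [← ENNReal.ofReal_pow hL0.le, ← ENNReal.ofReal_mul (by positivity)]
        refine ENNReal.ofReal_le_ofReal (hq.2.2.1.le.trans ?_)
        have := C.norm_shw_sq hq.1.1.2.1.1
        linarith
      · rw [dist_eq_norm, dist_eq_norm, Real.coe_toNNReal _ hL0.le]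
        exact h1 q hq.2.1 q' hq'.2.1 hq.1.1.1 hq.1.1.2 hq'.1.1.1 hq'.1.1.2)
  refine ⟨k, k1, fun x hx y hy h => k2 (x, y) ⟨⟨hx, hy⟩, h⟩, k3.trans (lintegral_mono_set ?_)⟩
  rintro _ ⟨q, hq, rfl⟩
  exact hS _ hq.1.1 (mem_closedBall_iff_norm.2 (hq.1.2.2.trans rho_le_m))

/-- **The `L²` bound.** -/
theorem l2 {S : Set E3} (hS : ∀ x ∈ K, closedBall x m ⊆ S) (hf : area N S ≠ ⊤) {ε : ℝ≥0∞}
    (hε : ε ≠ 0) : ∃ k : E3 → ℝ≥0∞, Measurable k ∧
      (∀ x ∈ K, ∀ y, Mn N w δ m x y → ENNReal.ofReal (kf w x y ^ 2) ≤ k x) ∧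
      ∫⁻ x, k x ∂(area N) ≤ 512 * ∫⁻ y in S, ENNReal.ofReal (a2 N y) ∂(area N) + ε := by
  obtain ⟨e, he, h1⟩ := ENNReal.exists_nnreal_pos_mul_lt hf (ENNReal.half_pos hε).ne'
  obtain ⟨k₁, a1, a2', a3⟩ := C.l2_sign (Or.inl rfl) hS (ε := e) he
  obtain ⟨k₂, b1, b2, b3⟩ := C.l2_sign (Or.inr rfl) hS (ε := e) he
  have h2 : ∫⁻ y in S, ENNReal.ofReal (256 * a2 N y + e) ∂(area N)
      ≤ 256 * ∫⁻ y in S, ENNReal.ofReal (a2 N y) ∂(area N) + ε / 2 := by
    calc _ ≤ ∫⁻ y in S, 256 * ENNReal.ofReal (a2 N y) + e ∂(area N) := lintegral_mono fun y => by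
          refine ENNReal.ofReal_add_le.trans ?_
          rw [ENNReal.ofReal_mul (by norm_num), ENNReal.ofReal_coe_nnreal, ENNReal.ofReal_ofNat]
      _ ≤ _ := by
          rw [lintegral_add_right _ measurable_const, lintegral_const_mul' _ _ (by simp),
            setLIntegral_const]
          exact add_le_add le_rfl h1.le
  refine ⟨fun x => k₁ x + k₂ x, a1.add b1, fun x hx y hy => ?_, ?_⟩
  · rcases le_total 0 ⟪nuw w y, x - y⟫ with h | h
    · exact (a2' x hx y hy (by linarith)).trans le_self_add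
    · exact (b2 x hx y hy (by linarith)).trans le_add_self
  · rw [lintegral_add_left a1]
    refine (add_le_add (a3.trans h2) (b3.trans h2)).trans_eq ?_
    rw [add_add_add_comm, ENNReal.add_halves, ← add_mul]
    norm_num

end Ctx

end Vale.Agent.P218G.SI
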