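import Vale.Agent.P218G.Spec
import Vale.Agent.P218G.HuB
import Vale.Agent.P218FT.Local2
import Mathlib.MeasureTheory.Measure.Haar.NormedSpace

/-! Parabolic rescaling and restriction of weak flows. -/

open MeasureTheory Set Filter Topology Metric
open scoped ENNReal NNReal RealInnerProductSpace ContDiff

namespace Vale.Agent.P218G

open P218FT P218FT.Sc

variable {lam ρ D G ε r C : ℝ} {x₀ : E3} {t₀ : ℝ} {μ : ℝ → Measure E3} {M : ℝ → Set E3}
  {J I : Set ℝ}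

/-- the inverse of the parabolic dilation -/
noncomputable def up (lam : ℝ) (x₀ : E3) (t₀ : ℝ) (p : ℝ × E3) : ℝ × E3 :=
  (t₀ + p.1 / lam ^ 2, x₀ + lam⁻¹ • p.2)

/-- the parabolic dilation -/
noncomputable def dn (lam : ℝ) (x₀ : E3) (t₀ : ℝ) (p : ℝ × E3) : ℝ × E3 :=
  ((p.1 - t₀) * lam ^ 2, lam • (p.2 - x₀))

/-- the inverse of the parabolic dilation as a homeomorphism -/
noncomputable def upH (lam : ℝ) (hl : lam ≠ 0) (x₀ : E3) (t₀ : ℝ) : ℝ × E3 ≃ₜ ℝ × E3 :=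
  ((tdnH lam hl t₀).prodCongr (dnH lam hl x₀)).symm

theorem coe_upH (hl : lam ≠ 0) : ⇑(upH lam hl x₀ t₀) = up lam x₀ t₀ := rfl

theorem coe_upH_symm (hl : lam ≠ 0) : ⇑(upH lam hl x₀ t₀).symm = dn lam x₀ t₀ := rfl

theorem up_dn' (hl : lam ≠ 0) (p : ℝ × E3) : up lam x₀ t₀ (dn lam x₀ t₀ p) = p :=
  (upH lam hl x₀ t₀).apply_symm_apply p

theorem dn_up' (hl : lam ≠ 0) (p : ℝ × E3) : dn lam x₀ t₀ (up lam x₀ t₀ p) = p :=
  (upH lam hl x₀ t₀).symm_apply_apply p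

theorem contDiff_up {n : WithTop ℕ∞} : ContDiff ℝ n (up lam x₀ t₀) := by
  unfold up; fun_prop

theorem contDiff_dn {n : WithTop ℕ∞} : ContDiff ℝ n (dn lam x₀ t₀) := by
  unfold dn; fun_prop

theorem continuous_up : Continuous (up lam x₀ t₀) := (contDiff_up (n := 0)).continuous

theorem volume_eq_map (hl : 0 < lam) (t₀ : ℝ) : (volume : Measure ℝ) =
    ENNReal.ofReal (lam ^ 2) • (volume : Measure ℝ).map fun t : ℝ => (t - t₀) * lam ^ 2 := by
  have e : (fun t : ℝ => (t - t₀) * lam ^ 2) = (fun t => t * lam ^ 2) ∘ fun t => t - t₀ := rfl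
  rw [e, ← Measure.map_map (by fun_prop) (by fun_prop), map_sub_right_eq_self,
    Real.map_volume_mul_right (by positivity), smul_smul, abs_of_pos (by positivity),
    Sc.ofReal_cancel hl, one_smul]

theorem ae_scale (hl : 0 < lam) (t₀ : ℝ) {P : ℝ → Prop} (h : ∀ᵐ t : ℝ, P t) :
    ∀ᵐ s : ℝ, P (t₀ + s / lam ^ 2) := by
  rw [volume_eq_map hl t₀]
  refine Measure.ae_smul_measure ((embTdn hl.ne' t₀).ae_map_iff.2 ?_) _
  simpa only [tup_tdn hl.ne'] using h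

/-! ### Measures -/

theorem scaleM_apply (hl : 0 < lam) (s : ℝ) (S : Set E3) : scaleM lam x₀ t₀ μ s S =
    ENNReal.ofReal (lam ^ 2) * μ (t₀ + s / lam ^ 2) ((fun x : E3 => lam • (x - x₀)) ⁻¹' S) := by
  rw [scaleM, Measure.smul_apply, (embDn hl.ne' x₀).map_apply, smul_eq_mul]

theorem integral_scaleM {F : Type*} [NormedAddCommGroup F] [NormedSpace ℝ F] (hl : 0 < lam)
    (s : ℝ) (f : E3 → F) : ∫ y, f y ∂(scaleM lam x₀ t₀ μ s) =
      lam ^ 2 • ∫ x, f (lam • (x - x₀)) ∂(μ (t₀ + s / lam ^ 2)) := by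
  rw [scaleM, integral_smul_measure, (embDn hl.ne' x₀).integral_map,
    ENNReal.toReal_ofReal (by positivity)]

theorem lintegral_scaleM (hl : 0 < lam) (s : ℝ) (f : E3 → ℝ≥0∞) :
    ∫⁻ y, f y ∂(scaleM lam x₀ t₀ μ s) =
      ENNReal.ofReal (lam ^ 2) * ∫⁻ x, f (lam • (x - x₀)) ∂(μ (t₀ + s / lam ^ 2)) := by
  rw [scaleM, lintegral_smul_measure, (embDn hl.ne' x₀).lintegral_map, smul_eq_mul]

theorem scaleM_area (hl : 0 < lam) {s : ℝ} (h : μ (t₀ + s / lam ^ 2) = area (M (t₀ + s / lam ^ 2))) :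
    scaleM lam x₀ t₀ μ s = area (scaleFlow lam x₀ t₀ M s) := by
  rw [scaleM, h, scaleFlow_apply, area_scale hl]

theorem mRatio_scaleM (hl : 0 < lam) {s : ℝ} (h : MRatio D (μ (t₀ + s / lam ^ 2))) :
    MRatio D (scaleM lam x₀ t₀ μ s) := by
  intro p r hr
  rw [scaleM_apply hl, preimage_ball hl]
  refine (mul_le_mul_right (h _ _ (div_pos hr hl)) _).trans_eq ?_
  rw [← ENNReal.ofReal_mul (by positivity)]
  congr 1
  field_simp

theorem gM_scaleM (hl : 0 < lam) (s : ℝ) (y : E3) (r : ℝ) :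
    gM (scaleM lam x₀ t₀ μ s) y r = gM (μ (t₀ + s / lam ^ 2)) (x₀ + lam⁻¹ • y) (r / lam) := by
  rw [gM, gM, integral_scaleM hl, smul_eq_mul, ← integral_const_mul]
  congr 1
  funext x
  rw [dn_sub hl.ne', gk_smul hl.ne', div_pow, ← mul_assoc, mul_inv_cancel₀ (by positivity),
    one_mul]

theorem densM_scale (hl : 0 < lam) (y : E3) (s r : ℝ) :
    densM (scaleM lam x₀ t₀ μ) y s r =
      densM μ (x₀ + lam⁻¹ • y) (t₀ + s / lam ^ 2) (r / lam) := by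
  rw [densM, densM, gM_scaleM hl, div_pow, sub_div, add_sub_assoc]

theorem densM_zoom (hρ : 0 < ρ) (y : E3) (s r : ℝ) :
    densM (scaleM ρ⁻¹ x₀ t₀ μ) y s r = densM μ (x₀ + ρ • y) (t₀ + s * ρ ^ 2) (r * ρ) := by
  rw [densM_scale (inv_pos.2 hρ), inv_inv, Sc.tzoom, div_inv_eq_mul]

theorem integral_zoomM {F : Type*} [NormedAddCommGroup F] [NormedSpace ℝ F] (hρ : 0 < ρ) (s : ℝ)
    (f : E3 → F) : ∫ y, f y ∂(scaleM ρ⁻¹ x₀ t₀ μ s) =
      (ρ ^ 2)⁻¹ • ∫ x, f (ρ⁻¹ • (x - x₀)) ∂(μ (t₀ + s * ρ ^ 2)) := by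
  rw [integral_scaleM (inv_pos.2 hρ), Sc.tzoom, inv_pow]

/-! ### Regular points -/

theorem Loc.scale (hl : 0 < lam) {s : ℝ} {y : E3} (hy : y ∈ scaleFlow lam x₀ t₀ M s)
    (h : Loc M (t₀ + s / lam ^ 2) (x₀ + lam⁻¹ • y)) : Loc (scaleFlow lam x₀ t₀ M) s y := by
  have hc : Continuous fun p : ℝ × E3 => (t₀ + p.1 / lam ^ 2, x₀ + lam⁻¹ • p.2) := by fun_prop
  obtain ⟨w, hw, hg, he, hd⟩ := h
  refine ⟨fun p => w (t₀ + p.1 / lam ^ 2, x₀ + lam⁻¹ • p.2), hw.comp (by fun_prop), ?_,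
    (hc.tendsto (s, y)).eventually he, ?_⟩
  · rw [gradient_comp_up hl.ne' (fun z => w (t₀ + s / lam ^ 2, z))]
    exact smul_ne_zero (inv_ne_zero hl.ne') hg
  · rw [gradient_comp_up hl.ne' (fun z => w (t₀ + s / lam ^ 2, z)), scaleFlow_apply,
      Hv_scale hl hy, inner_smul_left, inner_smul_right]
    have h1 : DifferentiableAt ℝ (fun t => w (t, x₀ + lam⁻¹ • y)) (t₀ + s / lam ^ 2) :=
      ((hw.comp (f := fun t : ℝ => (t, x₀ + lam⁻¹ • y)) (by fun_prop)).differentiable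
        (by simp)).differentiableAt
    have h2 : HasDerivAt (fun s : ℝ => t₀ + s / lam ^ 2) (1 / lam ^ 2) s :=
      ((hasDerivAt_id s).div_const _).const_add t₀
    have h3 := (h1.hasDerivAt.comp s h2).deriv
    rw [hd] at h3
    refine h3.trans ?_
    simp only [conj_trivial]
    field_simp

theorem Reg.scale (hl : 0 < lam) {p : ℝ × E3} (h : Reg M (up lam x₀ t₀ p)) :
    Reg (scaleFlow lam x₀ t₀ M) p :=
  ((continuous_up.tendsto p).eventually h).mono fun _ hq hm => Loc.scale hl hm (hq hm)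

theorem scaleFlow_inv (hl : lam ≠ 0) (x₀ : E3) (t₀ : ℝ) (M : ℝ → Set E3) :
    scaleFlow lam⁻¹ (-(lam • x₀)) (-(t₀ * lam ^ 2)) (scaleFlow lam x₀ t₀ M) = M := by
  funext s
  rw [scaleFlow_apply, scaleFlow_apply, scaleSet_inv hl]
  congr 1
  field_simp
  ring

theorem reg_scale (hl : 0 < lam) {p : ℝ × E3} :
    Reg (scaleFlow lam x₀ t₀ M) p ↔ Reg M (up lam x₀ t₀ p) := by
  refine ⟨fun h => ?_, Reg.scale hl⟩
  rw [← scaleFlow_inv hl.ne' x₀ t₀ M]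
  refine Reg.scale (inv_pos.2 hl) ?_
  convert h
  have := hl.ne'
  refine Prod.ext ?_ ?_
  · simp only [up]
    field_simp
    ring
  · simp only [up, inv_inv, smul_add, smul_inv_smul₀ this, neg_add_cancel_left]

theorem reg_zoom (hρ : 0 < ρ) {s : ℝ} {y : E3} :
    Reg (scaleFlow ρ⁻¹ x₀ t₀ M) (s, y) ↔ Reg M (t₀ + s * ρ ^ 2, x₀ + ρ • y) := by
  rw [reg_scale (inv_pos.2 hρ), up, inv_inv, Sc.tzoom]

/-! ### The rate and the drop -/

theorem rate_scale (hl : 0 < lam) {s : ℝ} (hM : MeasurableSet (M (t₀ + s / lam ^ 2)))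
    {f : ℝ × E3 → ℝ} (hf : ContDiff ℝ 1 f) :
    rate (scaleFlow lam x₀ t₀ M) (fun p => f (up lam x₀ t₀ p)) s = rate M f (t₀ + s / lam ^ 2) := by
  rw [rate, rate, scaleFlow_apply, integral_scale_congr hl hM (k := (lam ^ 2)⁻¹),
    mul_inv_cancel₀ (by positivity), one_mul]
  intro y hy
  have h1 : HasFDerivAt (up lam x₀ t₀) (((lam ^ 2)⁻¹ • ContinuousLinearMap.fst ℝ ℝ E3).prod
      (lam⁻¹ • ContinuousLinearMap.snd ℝ ℝ E3)) (s, y) := by
    refine HasFDerivAt.prodMk ?_ ((hasFDerivAt_snd.const_smul lam⁻¹).const_add x₀)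
    simpa only [div_eq_inv_mul] using (hasFDerivAt_fst.const_mul (lam ^ 2)⁻¹).const_add t₀
  have h2 := ((hf.differentiable one_ne_zero _).hasFDerivAt.comp (s, y) h1).fderiv
  rw [show (fun p => f (up lam x₀ t₀ p)) = f ∘ up lam x₀ t₀ from rfl, h2, norm_Hv_scale hl hy,
    Hv_scale hl hy, ContinuousLinearMap.comp_apply, mul_sub, ← smul_eq_mul (lam ^ 2)⁻¹,
    ← map_smul]
  congr 1
  · congr 1
    simp [smul_smul, sq]
  · simp only [up]
    field_simp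

theorem Adm.comp_homeo {f : ℝ × E3 → ℝ} {U : Set (ℝ × E3)} (h : Adm f U) (e : ℝ × E3 ≃ₜ ℝ × E3)
    (he : ContDiff ℝ 1 e) : Adm (fun p => f (e p)) (e ⁻¹' U) :=
  ⟨h.smooth.comp he, h.cpt.comp_homeomorph e,
    (tsupport_comp_subset_preimage f e.continuous).trans (preimage_mono h.sub),
    fun _ => h.nonneg _, fun _ => h.le_one _⟩

theorem drop_scale (hl : 0 < lam) {U : Set (ℝ × E3)} (hM : ∀ p ∈ U, MeasurableSet (M p.1)) :
    drop (scaleFlow lam x₀ t₀ M) (up lam x₀ t₀ ⁻¹' U) = ENNReal.ofReal (lam ^ 2) * drop M U := by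
  have key : ∀ f, Adm f U → ENNReal.ofReal
      (∫ s, rate (scaleFlow lam x₀ t₀ M) (fun p => f (up lam x₀ t₀ p)) s) =
      ENNReal.ofReal (lam ^ 2) * ENNReal.ofReal (∫ t, rate M f t) := by
    intro f hf
    have h1 : ∀ s, rate (scaleFlow lam x₀ t₀ M) (fun p => f (up lam x₀ t₀ p)) s =
        rate M f (t₀ + s / lam ^ 2) := fun s => by
      by_cases h : ∃ x, (t₀ + s / lam ^ 2, x) ∈ tsupport f
      · obtain ⟨x, hx⟩ := h
        exact rate_scale hl (hM _ (hf.sub hx)) hf.smooth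
      · push Not at h
        exact (rate_eq_zero (f := fun p => f (up lam x₀ t₀ p)) fun x hx =>
          h _ (tsupport_comp_subset_preimage f continuous_up hx)).trans (rate_eq_zero h).symm
    simp only [h1]
    rw [Measure.integral_comp_div (fun s => rate M f (t₀ + s)), integral_add_left_eq_self,
      abs_of_pos (by positivity), smul_eq_mul, ENNReal.ofReal_mul (by positivity)]
  simp only [drop, ENNReal.mul_iSup]
  refine le_antisymm (iSup₂_le fun g hg => ?_) (iSup₂_le fun f hf => ?_)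
  · have h1 := hg.comp_homeo (upH lam hl.ne' x₀ t₀).symm contDiff_dn
    rw [← coe_upH hl.ne', ← preimage_comp, Homeomorph.self_comp_symm, preimage_id] at h1
    refine le_iSup₂_of_le _ h1 (le_of_eq ?_)
    rw [← key _ h1]
    simp only [coe_upH_symm, dn_up' hl.ne']
  · exact le_iSup₂_of_le _ (hf.comp_homeo (upH lam hl.ne' x₀ t₀) contDiff_up) (key f hf).ge

theorem preimage_up_cyl (hl : 0 < lam) (a b : ℝ) (c : E3) (r : ℝ) :
    up lam x₀ t₀ ⁻¹' (Ioo (t₀ + a / lam ^ 2) (t₀ + b / lam ^ 2) ×ˢ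
      ball (x₀ + lam⁻¹ • c) (r / lam)) = Ioo a b ×ˢ ball c r := by
  ext p
  simp only [mem_preimage, up, mem_prod, mem_Ioo, tup_lt_tup hl, up_mem_ball hl]

/-! ### The class -/

namespace WF

theorem measurableSet_slice (h : WF D μ M J I) {t : ℝ} (ht : t ∈ I) : MeasurableSet (M t) :=
  (h.isClosed ht).measurableSet

theorem mono (h : WF D μ M J I) {I' : Set ℝ} (hI : IsOpen I') (hs : I' ⊆ I) :
    WF D μ M (J ∩ I') I' where
  isOpen := hI
  sub := inter_subset_right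
  ae := h.ae.mono fun _ ht ht' => ⟨ht (hs ht'), ht'⟩
  mcf := h.mcf.mono (h.mcf.isOpen.inter hI) inter_subset_left
  eq t ht := h.eq t ht.1
  closed t ht := h.closed t (hs ht)
  supp t ht := h.supp t (hs ht)
  dense _ hp := closure_mono (s := Prod.fst ⁻¹' I' ∩ track M J) (t := track M (J ∩ I'))
    (fun _ hq => And.intro (And.intro hq.2.1 hq.1) hq.2.2)
    ((hI.preimage continuous_fst).inter_closure ⟨hp.1, h.dense ⟨hs hp.1, hp.2⟩⟩)
  ratio t ht := h.ratio t (hs ht)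
  h2 a b hab := h.h2 a b (hab.trans hs)
  brakke f h1 h2 h3 a b hab hs' := h.brakke f h1 h2 h3 a b hab (hs'.trans hs)

theorem diss_scale (hl : 0 < lam) (h : WF D μ M J I) {a b : ℝ}
    (hI : Icc (t₀ + a / lam ^ 2) (t₀ + b / lam ^ 2) ⊆ I) (Λ : ℝ) (c : E3) (r : ℝ) :
    diss (scaleFlow lam x₀ t₀ M) Λ c r a b = ENNReal.ofReal (lam ^ 2) *
      diss M (Λ * lam ^ 2) (x₀ + lam⁻¹ • c) (r / lam) (t₀ + a / lam ^ 2) (t₀ + b / lam ^ 2) :=
  P218FT.diss_scale hl (fun _ ht => h.measurableSet_slice (hI ht)) Λ c r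

theorem potA_scale (hl : 0 < lam) (h : WF D μ M J I) {a b : ℝ}
    (hI : Icc (t₀ + a / lam ^ 2) (t₀ + b / lam ^ 2) ⊆ I) (y : E3) (s r : ℝ) :
    potA (scaleFlow lam x₀ t₀ M) y s r a b =
      potA M (x₀ + lam⁻¹ • y) (t₀ + s / lam ^ 2) (r / lam) (t₀ + a / lam ^ 2)
        (t₀ + b / lam ^ 2) :=
  P218FT.potA_scale hl (fun _ ht => h.measurableSet_slice (hI ht)) y s r

theorem dis2_scale (hl : 0 < lam) (h : WF D μ M J I) {a b : ℝ}
    (hI : Icc (t₀ + a / lam ^ 2) (t₀ + b / lam ^ 2) ⊆ I) (Λ : ℝ) (c : E3) (r : ℝ) :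
    dis2 (scaleFlow lam x₀ t₀ M) Λ c r a b = ENNReal.ofReal (lam ^ 2) *
      dis2 M (Λ * lam ^ 2) (x₀ + lam⁻¹ • c) (r / lam) (t₀ + a / lam ^ 2) (t₀ + b / lam ^ 2) := by
  rw [dis2, dis2, h.diss_scale hl hI, mul_add, ← preimage_up_cyl (x₀ := x₀) (t₀ := t₀) hl,
    drop_scale hl fun p hp => h.measurableSet_slice (hI (Ioo_subset_Icc_self hp.1))]

theorem diss_zoom (hρ : 0 < ρ) (h : WF D μ M J I) {a b : ℝ}
    (hI : Icc (t₀ + a * ρ ^ 2) (t₀ + b * ρ ^ 2) ⊆ I) (Λ : ℝ) (c : E3) (r : ℝ) :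
    diss (scaleFlow ρ⁻¹ x₀ t₀ M) Λ c r a b = ENNReal.ofReal ((ρ ^ 2)⁻¹) *
      diss M (Λ / ρ ^ 2) (x₀ + ρ • c) (r * ρ) (t₀ + a * ρ ^ 2) (t₀ + b * ρ ^ 2) := by
  rw [h.diss_scale (inv_pos.2 hρ) (by rwa [Sc.tzoom, Sc.tzoom]), inv_inv, Sc.tzoom, Sc.tzoom,
    div_inv_eq_mul, inv_pow, div_eq_mul_inv]

theorem dis2_zoom (hρ : 0 < ρ) (h : WF D μ M J I) {a b : ℝ}
    (hI : Icc (t₀ + a * ρ ^ 2) (t₀ + b * ρ ^ 2) ⊆ I) (Λ : ℝ) (c : E3) (r : ℝ) :
    dis2 (scaleFlow ρ⁻¹ x₀ t₀ M) Λ c r a b = ENNReal.ofReal ((ρ ^ 2)⁻¹) *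
      dis2 M (Λ / ρ ^ 2) (x₀ + ρ • c) (r * ρ) (t₀ + a * ρ ^ 2) (t₀ + b * ρ ^ 2) := by
  rw [h.dis2_scale (inv_pos.2 hρ) (by rwa [Sc.tzoom, Sc.tzoom]), inv_inv, Sc.tzoom, Sc.tzoom,
    div_inv_eq_mul, inv_pow, div_eq_mul_inv]

theorem potA_zoom (hρ : 0 < ρ) (h : WF D μ M J I) {a b : ℝ}
    (hI : Icc (t₀ + a * ρ ^ 2) (t₀ + b * ρ ^ 2) ⊆ I) (y : E3) (s r : ℝ) :
    potA (scaleFlow ρ⁻¹ x₀ t₀ M) y s r a b =
      potA M (x₀ + ρ • y) (t₀ + s * ρ ^ 2) (r * ρ) (t₀ + a * ρ ^ 2) (t₀ + b * ρ ^ 2) := by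
  rw [h.potA_scale (inv_pos.2 hρ) (by rwa [Sc.tzoom, Sc.tzoom]), inv_inv, Sc.tzoom, Sc.tzoom,
    Sc.tzoom, div_inv_eq_mul]

theorem scale (hl : 0 < lam) (h : WF D μ M J I) (x₀ : E3) (t₀ : ℝ) :
    WF D (scaleM lam x₀ t₀ μ) (scaleFlow lam x₀ t₀ M) (scaleInt lam t₀ J) (scaleInt lam t₀ I) where
  isOpen := h.isOpen.preimage (f := fun s : ℝ => t₀ + s / lam ^ 2) (by fun_prop)
  sub _ hs := h.sub hs
  ae := ae_scale hl t₀ h.ae
  mcf := h.mcf.scale hl x₀ t₀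
  eq s hs := scaleM_area hl (h.eq _ hs)
  closed s hs y hy := (continuous_up.tendsto (s, y)).eventually (h.closed _ hs _ hy)
  supp s hs := by
    rw [scaleM_apply hl, preimage_compl, scaleFlow_apply,
      show (fun x : E3 => lam • (x - x₀)) ⁻¹' scaleSet lam x₀ (M (t₀ + s / lam ^ 2)) =
        M (t₀ + s / lam ^ 2) from Set.ext fun x => dn_mem_scaleSet hl.ne', h.supp _ hs, mul_zero]
  dense p hp := by
    have : up lam x₀ t₀ p ∈ closure (track M J) := h.dense hp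
    rwa [← mem_preimage, ← coe_upH hl.ne', Homeomorph.preimage_closure] at this
  ratio s hs := mRatio_scaleM hl (h.ratio _ hs)
  h2 a b hab c r := by
    have hI := (Icc_subset_scaleInt hl).1 hab
    rw [h.diss_scale hl hI, zero_mul]
    exact ENNReal.mul_lt_top ENNReal.ofReal_lt_top (h.h2 _ _ hI _ _)
  brakke g h1 h2 h3 a b hab hs := by
    have hI := (Icc_subset_scaleInt hl).1 hs
    have hf : ContDiff ℝ 1 fun p => g (dn lam x₀ t₀ p) := h1.comp contDiff_dn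
    obtain ⟨a1, a2⟩ := h.brakke _ hf (h2.comp_homeomorph (upH lam hl.ne' x₀ t₀).symm)
      (fun _ => h3 _) _ _ ((tup_le_tup hl).2 hab) hI
    have e : EqOn (fun s => rate M (fun p => g (dn lam x₀ t₀ p)) (t₀ + s / lam ^ 2))
        (rate (scaleFlow lam x₀ t₀ M) g) (uIcc a b) := fun s hs' => by
      rw [uIcc_of_le hab] at hs'
      have := rate_scale (x₀ := x₀) hl (h.measurableSet_slice (hs hs')) hf
      simp only [dn_up' hl.ne'] at this
      exact this.symm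
    have h4 : 0 < lam ^ 2 := by positivity
    refine ⟨?_, ?_⟩
    · have := ((a1.comp_add_left t₀).comp_mul_right (c := (lam ^ 2)⁻¹))
      rw [add_sub_cancel_left, add_sub_cancel_left, div_inv_eq_mul, div_inv_eq_mul,
        div_mul_cancel₀ _ h4.ne', div_mul_cancel₀ _ h4.ne'] at this
      exact this.congr fun s hs' => e (uIoc_subset_uIcc hs')
    · rw [← intervalIntegral.integral_congr e, intervalIntegral.integral_comp_add_div _ h4.ne',
        integral_scaleM hl, integral_scaleM hl, ← smul_sub, smul_eq_mul, smul_eq_mul]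
      simp only [dn, tdn_tup hl.ne'] at a2
      exact mul_le_mul_of_nonneg_left a2 h4.le

end WF

theorem White.mono (h : White ε r C μ M I) {I' : Set ℝ} (hs : I' ⊆ I) : White ε r C μ M I' :=
  fun x₀ t₀ l hl hI => h x₀ t₀ l hl (hI.trans hs)

theorem White.mono_eps (h : White ε r C μ M I) {ε' : ℝ} (hε : ε' ≤ ε) : White ε' r C μ M I :=
  fun x₀ t₀ l hl hI hd => h x₀ t₀ l hl hI fun y hy t ht => (hd y hy t ht).trans (by linarith)

theorem White.scale (hl : 0 < lam) (h : White ε r C μ M I) (x₀ : E3) (t₀ : ℝ) :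
    White ε r C (scaleM lam x₀ t₀ μ) (scaleFlow lam x₀ t₀ M) (scaleInt lam t₀ I) := by
  intro y₀ s₀ l h0 hI hd s hs y hy hb
  have e : ∀ k : ℝ, t₀ + s₀ / lam ^ 2 - k * (l / lam) ^ 2 = t₀ + (s₀ - k * l ^ 2) / lam ^ 2 :=
    fun k => by field_simp; ring
  have e1 := e 1
  rw [one_mul, one_mul] at e1
  have := h (x₀ + lam⁻¹ • y₀) (t₀ + s₀ / lam ^ 2) (l / lam) (div_pos h0 hl)
    (by rw [e]; exact (Icc_subset_scaleInt hl).1 hI) (fun z hz t ht => by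
      rw [e, ← preimage_Icc hl] at ht
      rw [← mul_div_assoc, ← preimage_ball hl] at hz
      have := hd _ hz _ ht
      rwa [densM_scale hl, up_dn hl.ne', tup_tdn hl.ne'] at this) (t₀ + s / lam ^ 2)
    (by rw [e1]; exact (tup_mem_Icc hl).2 hs) _ hy ((up_mem_ball hl).2 hb)
  refine ⟨Reg.scale hl this.1, (twoPt_scale hl hy _ _).2 ?_⟩
  rw [mul_div_assoc, div_mul_eq_mul_div, mul_div_assoc, ← inv_div l, ← div_eq_mul_inv]
  exact this.2

theorem InW.mono (h : InW D G ε r C μ M J I) {I' : Set ℝ} (hI : IsOpen I') (hs : I' ⊆ I) :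
    InW D G ε r C μ M (J ∩ I') I' :=
  ⟨h.wf.mono hI hs, h.white.mono hs, fun t ht => h.lgb t ht.1⟩

theorem InW.scale (hl : 0 < lam) (h : InW D G ε r C μ M J I) (x₀ : E3) (t₀ : ℝ) :
    InW D G ε r C (scaleM lam x₀ t₀ μ) (scaleFlow lam x₀ t₀ M) (scaleInt lam t₀ J)
      (scaleInt lam t₀ I) :=
  ⟨h.wf.scale hl x₀ t₀, h.white.scale hl x₀ t₀, fun _ hs =>
    (h.lgb _ hs).scale hl (h.wf.mcf.measurableSet_slice hs) x₀⟩

/-- **Block G-SCALE** -/
theorem scale_proof : ScaleW :=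
  ⟨fun _ _ _ _ _ _ h hI hs => h.mono hI hs, fun _ x₀ t₀ hl _ _ =>
    ⟨fun y s r _ => densM_scale hl y s r, fun y s h => Reg.scale hl (p := (s, y)) h,
      fun _ _ _ h => ⟨h.scale hl x₀ t₀, fun _ _ _ hw => hw.scale hl x₀ t₀,
        fun _ hG _ hs => (hG _ hs).scale hl (h.mcf.measurableSet_slice hs) x₀,
        fun y s r _ _ hI => ⟨h.potA_scale hl hI y s r, fun Λ =>
          ⟨h.diss_scale hl hI Λ y r, h.dis2_scale hl hI Λ y r⟩⟩⟩⟩⟩

end Vale.Agent.P218G
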