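import Vale.Agent.P218G.Spec
import Vale.Agent.P218FT.Gauss
import Vale.Agent.P218FT.Local
import Mathlib.Analysis.SpecialFunctions.ExpDeriv
import Mathlib.Analysis.Calculus.Deriv.Inv

/-! Heat kernels with a smooth activation are supersolutions with a source; calculus of `Super`. -/

open MeasureTheory Set Filter Topology Metric
open scoped ENNReal NNReal RealInnerProductSpace ContDiff

namespace Vale.Agent.P218G.Sr

open P218FT

lemma super_mono {Q : ℝ × E3 → ℝ} {p : ℝ × E3} {e e' : ℝ} (h : Super Q p e) (he : e' ≤ e) :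
    Super Q p e' := fun n hn => by linarith [h n hn]

lemma dt_of {Q : ℝ × E3 → ℝ} {p : ℝ × E3} (hQ : DifferentiableAt ℝ Q p) {d : ℝ}
    (h : HasDerivAt (fun s => Q (s, p.2)) d p.1) : dt Q p = d := by
  have h1 : HasDerivAt (fun s : ℝ => ((s, p.2) : ℝ × E3)) (1, 0) p.1 :=
    (hasDerivAt_id p.1).prodMk (hasDerivAt_const p.1 p.2)
  exact (HasFDerivAt.comp_hasDerivAt (l := Q) p.1 hQ.hasFDerivAt h1).unique h

lemma slice_contDiff {Q : ℝ × E3 → ℝ} (hQ : ContDiff ℝ 2 Q) (t : ℝ) :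
    ContDiff ℝ 2 fun y => Q (t, y) := hQ.comp (contDiff_const.prodMk contDiff_id)

lemma hs_add {Q Q' : ℝ × E3 → ℝ} (hQ : ContDiff ℝ 2 Q) (hQ' : ContDiff ℝ 2 Q') (p : ℝ × E3) :
    hs (fun q => Q q + Q' q) p = hs Q p + hs Q' p := by
  have h1 := slice_contDiff hQ p.1
  have h2 := slice_contDiff hQ' p.1
  have e : (gradient fun y => Q (p.1, y) + Q' (p.1, y)) =
      fun x => gradient (fun y => Q (p.1, y)) x + gradient (fun y => Q' (p.1, y)) x := by
    ext1 x
    refine ext_inner_right ℝ fun v => ?_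
    rw [inner_add_left, inner_grad, inner_grad, inner_grad,
      fderiv_fun_add (h1.differentiable (by norm_num) x) (h2.differentiable (by norm_num) x)]
    rfl
  unfold hs
  rw [e]
  exact fderiv_fun_add ((contDiff_grad_one h1).differentiable one_ne_zero _)
    ((contDiff_grad_one h2).differentiable one_ne_zero _)

lemma dt_add {Q Q' : ℝ × E3 → ℝ} (hQ : ContDiff ℝ 2 Q) (hQ' : ContDiff ℝ 2 Q') (p : ℝ × E3) :
    dt (fun q => Q q + Q' q) p = dt Q p + dt Q' p := by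
  unfold dt
  rw [fderiv_fun_add (hQ.differentiable (by norm_num) p) (hQ'.differentiable (by norm_num) p)]
  rfl

lemma super_add {Q Q' : ℝ × E3 → ℝ} {p : ℝ × E3} {e e' : ℝ} (hQ : ContDiff ℝ 2 Q)
    (hQ' : ContDiff ℝ 2 Q') (h : Super Q p e) (h' : Super Q' p e') :
    Super (fun q => Q q + Q' q) p (e + e') := by
  intro n hn
  rw [hs_add hQ hQ', dt_add hQ hQ', tr_add, add_apply, inner_add_left]
  linarith [h n hn, h' n hn]

lemma super_of_eventually_zero {Q : ℝ × E3 → ℝ} {p : ℝ × E3} (h : Q =ᶠ[𝓝 p] fun _ => 0) :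
    Super Q p 0 := by
  intro n _
  have h1 : dt Q p = 0 := by unfold dt; rw [h.fderiv_eq]; simp
  have h2 : (fun y => Q (p.1, y)) =ᶠ[𝓝 p.2] fun _ => 0 :=
    ((continuous_const.prodMk continuous_id).tendsto' p.2 p rfl).eventually h
  have h3 : (gradient fun y => Q (p.1, y)) =ᶠ[𝓝 p.2] fun _ => 0 := by
    filter_upwards [h2.eventually_nhds] with y hy
    rw [Filter.EventuallyEq.gradient_eq hy]
    simp
  have h4 : hs Q p = 0 := by unfold hs; rw [h3.fderiv_eq]; simp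
  simp [h1, h4, tr]

lemma super_sum {ι : Type*} (u : Finset ι) {Q : ι → ℝ × E3 → ℝ} {e : ι → ℝ} {p : ℝ × E3}
    (hQ : ∀ i ∈ u, ContDiff ℝ 2 (Q i)) (h : ∀ i ∈ u, Super (Q i) p (e i)) :
    Super (fun q => ∑ i ∈ u, Q i q) p (∑ i ∈ u, e i) := by
  classical
  induction u using Finset.induction_on with
  | empty => simpa using super_of_eventually_zero (Q := fun _ => 0) (p := p) EventuallyEq.rfl
  | insert i u hi ih =>
    simp only [Finset.sum_insert hi]
    exact super_add (hQ i (Finset.mem_insert_self _ _))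
      (ContDiff.sum fun j hj => hQ j (Finset.mem_insert_of_mem hj))
      (h i (Finset.mem_insert_self _ _))
      (ih (fun j hj => hQ j (Finset.mem_insert_of_mem hj))
        fun j hj => h j (Finset.mem_insert_of_mem hj))

/-- the gradient of a Gaussian -/
lemma gradient_gauss (k b : ℝ) (c : E3) :
    (gradient fun y : E3 => k * Real.exp (b * ‖y - c‖ ^ 2)) =
      fun y => (2 * b * (k * Real.exp (b * ‖y - c‖ ^ 2))) • (y - c) := by
  ext1 y
  refine ext_inner_right ℝ fun v => ?_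
  have h := ((((hasFDerivAt_id y).sub_const c).norm_sq.const_mul b).exp).const_mul k
  rw [inner_grad]
  simp only [id] at h
  rw [h.fderiv]
  simp [real_inner_smul_left, inner_sub_left]
  ring

/-- the Hessian of a Gaussian -/
lemma hess_gauss (k b : ℝ) (c x u : E3) :
    ⟪fderiv ℝ (gradient fun y : E3 => k * Real.exp (b * ‖y - c‖ ^ 2)) x u, u⟫ =
      k * Real.exp (b * ‖x - c‖ ^ 2) * (2 * b * ‖u‖ ^ 2 + 4 * b ^ 2 * ⟪u, x - c⟫ ^ 2) := by
  rw [gradient_gauss]
  have h1 := (hasFDerivAt_id (𝕜 := ℝ) x).sub_const c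
  have h := (((h1.norm_sq.const_mul b).exp.const_mul k).const_mul (2 * b)).fun_smul h1
  simp only [id] at h
  rw [h.fderiv]
  generalize x - c = z
  simp only [add_apply, smul_apply, ContinuousLinearMap.smulRight_apply,
    ContinuousLinearMap.id_apply, ContinuousLinearMap.comp_apply, innerSL_apply_apply,
    inner_add_left, real_inner_smul_left, real_inner_self_eq_norm_sq, smul_eq_mul, nsmul_eq_mul,
    real_inner_comm u z]
  push_cast
  ring

/-- a heat kernel with the activation `χ` -/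
noncomputable def rv (a : ℝ) (χ : ℝ → ℝ) (τ : ℝ) (c : E3) (p : ℝ × E3) : ℝ :=
  a * χ p.1 * gk (p.1 - τ) (p.2 - c)

variable {a τ τ' : ℝ} {χ : ℝ → ℝ} {c : E3}

lemma rv_zero (h0 : ∀ t ≤ τ', χ t = 0) {p : ℝ × E3} (hp : p.1 < τ') :
    rv a χ τ c =ᶠ[𝓝 p] fun _ => 0 := by
  filter_upwards [continuous_fst.continuousAt.eventually (gt_mem_nhds hp)] with q hq
  simp [rv, h0 _ hq.le]

lemma contDiff_rv {n : WithTop ℕ∞} (hχ : ContDiff ℝ n χ) (hτ : τ < τ') (h0 : ∀ t ≤ τ', χ t = 0) :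
    ContDiff ℝ n (rv a χ τ c) := by
  refine contDiff_iff_contDiffAt.2 fun p => ?_
  by_cases hp : p.1 < τ'
  · exact contDiffAt_const.congr_of_eventuallyEq (rv_zero h0 hp)
  · have hσ : 0 < p.1 - τ := by linarith [not_lt.1 hp]
    have hπ := Real.pi_pos
    have h1 : ContDiffAt ℝ n (fun q : ℝ × E3 => q.1 - τ) p := contDiffAt_fst.sub contDiffAt_const
    have h2 : ContDiffAt ℝ n (fun q : ℝ × E3 => ‖q.2 - c‖ ^ 2) p :=
      (contDiffAt_snd.sub contDiffAt_const).norm_sq ℝ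
    exact (contDiffAt_const.mul (hχ.comp contDiff_fst).contDiffAt).mul
      (((contDiffAt_const.mul h1).inv (by positivity)).mul
        ((h2.neg.div (contDiffAt_const.mul h1) (by positivity)).exp))

lemma super_rv (ha : 0 ≤ a) (hχ : ContDiff ℝ 2 χ) (hτ : τ < τ') (h0 : ∀ t ≤ τ', χ t = 0)
    (h1 : ∀ t, 0 ≤ χ t) (p : ℝ × E3) :
    Super (rv a χ τ c) p (a * deriv χ p.1 * gk (p.1 - τ) (p.2 - c)) := by
  by_cases hp : p.1 < τ'
  · have h2 : deriv χ p.1 = 0 := by
      have : χ =ᶠ[𝓝 p.1] fun _ => 0 := by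
        filter_upwards [gt_mem_nhds hp] with t ht using h0 t ht.le
      rw [this.deriv_eq]; simp
    simpa [h2] using super_of_eventually_zero (rv_zero (a := a) (τ := τ) (c := c) h0 hp)
  obtain ⟨t, x⟩ := p
  simp only at hp ⊢
  set σ := t - τ with hσd
  have hσ : 0 < σ := by linarith [not_lt.1 hp]
  have hπ := Real.pi_pos
  set z := x - c with hz
  set P := gk σ z with hP
  have hP0 : 0 < P := gk_pos hσ z
  have hd : dt (rv a χ τ c) (t, x) =
      a * deriv χ t * P + a * χ t * (P * (-1 / σ + ‖z‖ ^ 2 / (4 * σ ^ 2))) := by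
    refine dt_of ((contDiff_rv hχ hτ h0).differentiable (by norm_num) _) ?_
    have e1 : HasDerivAt (fun s : ℝ => s - τ) 1 t := (hasDerivAt_id t).sub_const τ
    have e2 := ((e1.const_mul (4 * Real.pi)).fun_inv (by positivity)).fun_mul
      (((hasDerivAt_const t (-‖z‖ ^ 2)).fun_div (e1.const_mul 4) (by positivity)).exp)
    have e3 := ((hχ.differentiable (by norm_num) t).hasDerivAt.const_mul a).fun_mul e2
    refine e3.congr_deriv ?_
    simp only [hP, gk, ← hσd]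
    field_simp
    ring
  have hk : (fun y => rv a χ τ c (t, y)) = fun y : E3 =>
      (a * χ t * (4 * Real.pi * σ)⁻¹) * Real.exp (-1 / (4 * σ) * ‖y - c‖ ^ 2) := by
    ext1 y
    simp only [rv, gk, ← hσd]
    rw [show -‖y - c‖ ^ 2 / (4 * σ) = -1 / (4 * σ) * ‖y - c‖ ^ 2 by ring]
    ring
  have hh : ∀ u : E3, ⟪hs (rv a χ τ c) (t, x) u, u⟫ =
      a * χ t * P * (-1 / (2 * σ) * ‖u‖ ^ 2 + ⟪u, z⟫ ^ 2 / (4 * σ ^ 2)) := by
    intro u
    unfold hs
    simp only
    rw [hk, hess_gauss]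
    simp only [hP, gk, ← hz]
    rw [show -‖z‖ ^ 2 / (4 * σ) = -1 / (4 * σ) * ‖z‖ ^ 2 by ring]
    field_simp
    ring
  intro n hn
  obtain ⟨e₁, e₂, hT⟩ := exists_triple hn
  rw [hT.tr_eq, hh, hh, hd, hT.na, hT.nb, hT.norm_sq z]
  have h2 : 0 ≤ a * χ t * P * (⟪n, z⟫ ^ 2 / (4 * σ ^ 2)) := by
    have := h1 t
    positivity
  have h3 : a * χ t * (P * (-1 / σ + (⟪e₁, z⟫ ^ 2 + ⟪e₂, z⟫ ^ 2 + ⟪n, z⟫ ^ 2) / (4 * σ ^ 2))) =
      a * χ t * P * (-1 / (2 * σ) * 1 ^ 2 + ⟪e₁, z⟫ ^ 2 / (4 * σ ^ 2)) +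
      a * χ t * P * (-1 / (2 * σ) * 1 ^ 2 + ⟪e₂, z⟫ ^ 2 / (4 * σ ^ 2)) +
      a * χ t * P * (⟪n, z⟫ ^ 2 / (4 * σ ^ 2)) := by
    field_simp
    ring
  linarith

/-- the source is dominated by the kernel which is switched on at the time `τ'` -/
lemma rv_le (ha : 0 ≤ a) (hτ : τ < τ') (h0 : ∀ t ≤ τ', χ t = 0) (h1 : ∀ t, 0 ≤ χ t)
    (h2 : ∀ t, χ t ≤ 1) (p : ℝ × E3) :
    0 ≤ rv a χ τ c p ∧ rv a χ τ c p ≤ (⟨a, c, τ, τ'⟩ : Src).val p.1 p.2 := by
  unfold rv Src.val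
  by_cases hp : τ' < p.1
  · have h3 := (gk_pos (σ := p.1 - τ) (by linarith) (p.2 - c)).le
    have h4 := h1 p.1
    simp only [if_pos hp]
    exact ⟨by positivity, mul_le_mul_of_nonneg_right (mul_le_of_le_one_right ha (h2 _)) h3⟩
  · simp [if_neg hp, h0 _ (not_lt.1 hp)]

end Vale.Agent.P218G.Sr
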