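import Vale.Agent.P218.Defs

/-! Weak mean curvature flows of surfaces: the definitions used in the statement. They are written
for a Euclidean space `E` and used for `E = ℝ³`. The measure `μH[2]` is Mathlib's (unnormalised)
Hausdorff measure, as in the definition of integral Brakke flows, `μHE[2]` the normalised one. -/

open MeasureTheory Set Filter Topology Metric
open scoped RealInnerProductSpace ContDiff

namespace Vale.Agent.P218G.St

open Vale.Agent.P214 (IntegralVarifold)
open Vale.Agent.P218 (densityRatio rescaled)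

variable {E : Type} [NormedAddCommGroup E] [InnerProductSpace ℝ E] [FiniteDimensional ℝ E]

/-- the trace -/
noncomputable def tr (L : E →L[ℝ] E) : ℝ := LinearMap.trace ℝ E L.toLinearMap

/-- the projection `v - ⟨n, v⟩ n` -/
noncomputable def pt (n : E) : E →L[ℝ] E := ContinuousLinearMap.id ℝ E - (innerSL ℝ n).smulRight n

/-- the unit normal `∇w / |∇w|` of the level sets of `w` -/
noncomputable def nuw (w : E → ℝ) (x : E) : E := ‖gradient w x‖⁻¹ • gradient w x

/-- the shape operator `- P D²w P / |∇w|` of the level sets of `w` -/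
noncomputable def shw (w : E → ℝ) (x : E) : E →L[ℝ] E :=
  (-‖gradient w x‖⁻¹) • ((pt (nuw w x)).comp ((fderiv ℝ (gradient w) x).comp (pt (nuw w x))))

/-- `w` is a smooth local equation of `N` at `x` -/
def IsEqn (N : Set E) (x : E) (w : E → ℝ) : Prop :=
  ContDiff ℝ ∞ w ∧ gradient w x ≠ 0 ∧ ∀ᶠ y in 𝓝 x, y ∈ N ↔ w y = 0

/-- a smooth properly embedded surface -/
def IsSurf (N : Set E) : Prop := IsClosed N ∧ ∀ x ∈ N, ∃ w, IsEqn N x w

open Classical in
/-- a chosen local equation -/
noncomputable def eqn (N : Set E) (x : E) : E → ℝ :=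
  if h : ∃ w, IsEqn N x w then h.choose else 0

/-- a unit normal of `N` at `x` -/
noncomputable def nu (N : Set E) (x : E) : E := nuw (eqn N x) x

/-- the shape operator of `N` at `x` for the normal `nu N x` -/
noncomputable def sh (N : Set E) (x : E) : E →L[ℝ] E := shw (eqn N x) x

/-- the mean curvature vector -/
noncomputable def Hv (N : Set E) (x : E) : E := tr (sh N x) • nu N x

/-- the square of the norm of the second fundamental form -/
noncomputable def a2 (N : Set E) (x : E) : ℝ := tr ((sh N x).comp (sh N x))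

/-- bounded geometry: bounded curvature, and no two sheets come close -/
def BddGeom (S : Set E) : Prop :=
  ∃ r C : ℝ, 0 < r ∧ ∀ x ∈ S, ∀ y ∈ S, ‖y - x‖ ≤ r → |⟪y - x, nu S x⟫| ≤ C * ‖y - x‖ ^ 2

/-- a smooth properly embedded self-shrinker (possibly empty): `H + X^⊥ / 2 = 0` -/
def IsSelfShrinker (S : Set E) : Prop :=
  IsSurf S ∧ ∀ x ∈ S, Hv S x + (2⁻¹ * ⟪x, nu S x⟫) • nu S x = 0

/-- `(M_t)` is a smooth embedded mean curvature flow in the open set `U` of space-time: its track
is closed in `U`, it is locally the zero set of a smooth function `w` with nonzero spatial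
gradient, and the normal velocity is the mean curvature vector. -/
def IsMCFOn (M : ℝ → Set E) (U : Set (ℝ × E)) : Prop :=
  IsOpen U ∧ (∀ p ∈ U, p.2 ∉ M p.1 → ∀ᶠ q : ℝ × E in 𝓝 p, q.2 ∉ M q.1) ∧
    ∀ p ∈ U, p.2 ∈ M p.1 → ∃ w : ℝ × E → ℝ, ContDiff ℝ ∞ w ∧
      gradient (fun y => w (p.1, y)) p.2 ≠ 0 ∧ (∀ᶠ q : ℝ × E in 𝓝 p, q.2 ∈ M q.1 ↔ w q = 0) ∧
      deriv (fun s => w (s, p.2)) p.1 = -⟪gradient (fun y => w (p.1, y)) p.2, Hv (M p.1) p.2⟫

variable [MeasurableSpace E] [BorelSpace E]

/-- the area measure of `N` (normalised: Lebesgue measure on planes) -/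
noncomputable def area (N : Set E) : Measure E := (μHE[2] : Measure E).restrict N

/-- the area measure of `N` in the normalisation of the Brakke flows -/
noncomputable def hm (N : Set E) : Measure E := (μH[2] : Measure E).restrict N

/-- the Gaussian density ratio of a static plane of multiplicity one -/
noncomputable def planeDensity : ℝ :=
  (∫ p : EuclideanSpace ℝ (Fin 2), Real.exp (-‖p‖ ^ 2 / 4) ∂(μH[2] : Measure _)) / (4 * Real.pi)

/-- `(x, t)` is a regular point: in a space-time neighbourhood of it, `μ` is the area measure, with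
multiplicity one, of a smooth embedded mean curvature flow (possibly empty) -/
def IsRegularPt (μ : ℝ → Measure E) (x : E) (t : ℝ) : Prop :=
  ∃ (U : Set (ℝ × E)) (M : ℝ → Set E), (t, x) ∈ U ∧ IsMCFOn M U ∧
    ∀ s, (μ s).restrict {y | (s, y) ∈ U} = hm (M s ∩ {y | (s, y) ∈ U})

/-- unit-regular: the points of Gaussian density one are regular -/
def IsUnitRegular (μ : ℝ → Measure E) : Prop :=
  ∀ (x : E) (t : ℝ), 0 < t →
    Tendsto (fun r => densityRatio 2 μ x t r) (𝓝[>] 0) (𝓝 planeDensity) → IsRegularPt μ x t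

/-- `t` is a regular time -/
def IsRegularTime (μ : ℝ → Measure E) (t : ℝ) : Prop := ∀ x : E, IsRegularPt μ x t

/-- the total genus `∑ (1 - χ / 2)` of a closed surface, the sum being over the connected
components, and the Euler characteristic being `χ = (2π)⁻¹ ∫ K`, `K = (|H|² - |A|²) / 2` -/
noncomputable def totalGenus (N : Set E) : ℝ :=
  (Nat.card (ConnectedComponents N) : ℝ) -
    (4 * Real.pi)⁻¹ * ∫ x, (‖Hv N x‖ ^ 2 - a2 N x) / 2 ∂(area N)

/-- a properly embedded surface has finite genus: in every ball it coincides with a closed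
surface, and the genus of these closed surfaces is bounded -/
def HasFiniteGenus (S : Set E) : Prop :=
  ∃ g : ℝ, ∀ R : ℝ, ∃ N : Set E, IsSurf N ∧ IsCompact N ∧ N ∩ ball 0 R = S ∩ ball 0 R ∧
    totalGenus N ≤ g

/-- almost regular on `(a, b)`: almost every time is regular, and the genus of the regular time
slices is bounded -/
def IsAlmostRegularOn (μ : ℝ → Measure E) (a b : ℝ) : Prop :=
  (∀ᵐ t : ℝ, t ∈ Ioo a b → IsRegularTime μ t) ∧
    ∃ g : ℝ, ∀ t ∈ Ioo a b, IsRegularTime μ t → ∀ N : Set E, IsSurf N → μ t = hm N →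
      totalGenus N ≤ g

/-- `m` is the boundary measure of a measurable set `A`, in the sense of the Gauss-Green formula
with a unit normal `n` -/
def IsBoundary (m : Measure E) : Prop :=
  ∃ (A : Set E) (n : E → E), MeasurableSet A ∧ AEStronglyMeasurable n m ∧
    (∀ᵐ x ∂m, ‖n x‖ = 1) ∧ ∀ X : E → E, ContDiff ℝ 1 X → HasCompactSupport X →
      ∫ x in A, tr (fderiv ℝ X x) = ∫ x, ⟪X x, n x⟫ ∂m

/-- cyclic: for almost every time the flat chain modulo two of the varifold is a cycle, that is,
its part of odd multiplicity is a boundary -/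
def IsCyclic (μ : ℝ → Measure E) : Prop :=
  ∀ᵐ t : ℝ, 0 ≤ t → ∃ V : IntegralVarifold 2 (univ : Set E), V.weight = μ t ∧
    IsBoundary (area {x ∈ V.carrier | Odd (V.mult x)})

/-- the rescalings of `μ` about `(x₀, t₀)` converge weakly, as `λ → ∞`, to the multiplicity one flow
`s ↦ H² ⌞ √(-s) S` -/
def ConvergesTo (μ : ℝ → Measure E) (x₀ : E) (t₀ : ℝ) (S : Set E) : Prop :=
  ∀ s < 0, ∀ φ : E → ℝ, Continuous φ → HasCompactSupport φ →
    Tendsto (fun lam : ℝ => ∫ x, φ x ∂(rescaled 2 μ x₀ t₀ lam s)) atTop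
      (𝓝 (∫ x, φ x ∂(hm ((fun y => √(-s) • y) '' S))))

end Vale.Agent.P218G.St
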