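import Vale.Agent.P218G.St
import Vale.Agent.P218G.Lit2

/-! The definitions of the statement agree with those used in the proof. -/

open MeasureTheory Set Filter Topology Metric

namespace Vale.Agent.P218G.St

open Vale.Agent.P218FT (E3)

lemma isMCFOn_iff (M : ℝ → Set E3) (U : Set (ℝ × E3)) : IsMCFOn M U ↔ Lit.IsMCFOn M U :=
  ⟨fun h => ⟨h.1, h.2.1, h.2.2⟩, fun h => ⟨h.1, h.2, h.3⟩⟩

lemma isRegularPt_iff (μ : ℝ → Measure E3) (x : E3) (t : ℝ) :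
    IsRegularPt μ x t ↔ Lit.IsRegularPt μ x t :=
  ⟨fun ⟨U, M, a, b, c⟩ => ⟨U, M, a, (isMCFOn_iff M U).1 b, c⟩,
    fun ⟨U, M, a, b, c⟩ => ⟨U, M, a, (isMCFOn_iff M U).2 b, c⟩⟩

lemma isRegularTime_iff (μ : ℝ → Measure E3) (t : ℝ) :
    IsRegularTime μ t ↔ Lit.IsRegularTime μ t := forall_congr' fun x => isRegularPt_iff μ x t

lemma IsUnitRegular.lit {μ : ℝ → Measure E3} (h : IsUnitRegular μ) : Lit.IsUnitRegular μ :=
  fun x t ht hd => (isRegularPt_iff μ x t).1 (h x t ht (by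
    rw [Lit.HasDensity, one_mul] at hd
    exact hd))

lemma IsAlmostRegularOn.lit {μ : ℝ → Measure E3} {a b : ℝ} (h : IsAlmostRegularOn μ a b) :
    Lit.IsAlmostRegularOn μ a b := by
  obtain ⟨h1, g, h2⟩ := h
  exact ⟨h1.mono fun t h3 h4 => (isRegularTime_iff μ t).1 (h3 h4), g,
    fun t h3 h4 => h2 t h3 ((isRegularTime_iff μ t).2 h4)⟩

lemma shr_iff (S : Set E3) : IsSelfShrinker S ↔ Lit.IsSelfShrinker S := Iff.rfl
lemma genus_iff (S : Set E3) : HasFiniteGenus S ↔ Lit.HasFiniteGenus S := Iff.rfl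
lemma bdd_iff (S : Set E3) : BddGeom S ↔ Lit.BddGeom S := Iff.rfl
lemma cyclic_iff (μ : ℝ → Measure E3) : IsCyclic μ ↔ Lit.IsCyclic μ := Iff.rfl
lemma conv_iff (μ : ℝ → Measure E3) (x : E3) (t : ℝ) (S : Set E3) :
    ConvergesTo μ x t S ↔ Lit.ConvergesTo μ x t S := Iff.rfl

end Vale.Agent.P218G.St
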