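import Vale.Agent.P218G.StEq
import Vale.Agent.P218G.FinAll

/-! Uniqueness of tangent flows for weak flows, with the definitions of the statement. -/

open MeasureTheory Set Metric

namespace Vale.Agent.P218G.St

open Vale.Agent.P218
open Vale.Agent.P218FT (E3)

theorem final (μ : ℝ → Measure E3) (hμ : IsIntegralBrakkeFlow 2 μ) (hU : IsUnitRegular μ)
    (hR : ∃ R : ℝ, μ 0 (closedBall 0 R)ᶜ = 0) (x₀ : E3) (t₀ : ℝ) (ht : 0 < t₀)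
    (h : (∃ a < t₀, ∀ t ∈ Ioo a t₀, IsRegularTime μ t) ∨
      (∃ a < t₀, IsAlmostRegularOn μ a t₀) ∨
      (∃ S, IsSelfShrinker S ∧ (HasFiniteGenus S ∨ BddGeom S) ∧ hm S ∈ tangentSlices 2 μ x₀ t₀) ∨
      (IsCyclic μ ∧ ∃ r : ℝ, 0 < r ∧ r ^ 2 ≤ t₀ ∧ densityRatio 2 μ x₀ t₀ r < 2 * planeDensity)) :
    TangentFlowUnique 2 μ x₀ t₀ ∧ ∃ S, IsSelfShrinker S ∧ ConvergesTo μ x₀ t₀ S :=
  Rg.final μ hμ hU.lit hR x₀ t₀ ht (h.imp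
    (fun ⟨a, h1, h2⟩ => ⟨a, h1, fun t h3 => (isRegularTime_iff μ t).1 (h2 t h3)⟩)
    (Or.imp (fun ⟨a, h1, h2⟩ => ⟨a, h1, h2.lit⟩) id))

end Vale.Agent.P218G.St
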