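import Vale.Agent.P218G.Visc
import Vale.Agent.P218FT.Barrier

/-! Parabolic Taylor expansions along filters. -/

open MeasureTheory Set Filter Topology Metric Asymptotics
open scoped ENNReal NNReal RealInnerProductSpace ContDiff

namespace Vale.Agent.P218G.Tw

open P218FT

/-- parabolic Taylor expansion -/
lemma ptaylor {β : ℝ × E3 → ℝ} (hβ : ContDiff ℝ 2 β) (t : ℝ) (x : E3) :
    (fun q : ℝ × E3 => β (t + q.1, x + q.2) - (β (t, x) + dt β (t, x) * q.1 + ⟪gr β (t, x), q.2⟫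
      + ⟪hs β (t, x) q.2, q.2⟫ / 2)) =o[𝓝 0] fun q => ‖q.2‖ ^ 2 + |q.1| := by
  have h1 := (hβ.contDiffAt (x := (t, x))).hasStrictFDerivAt (by norm_num)
  have T : Tendsto (fun q : ℝ × E3 => (((t + q.1, x + q.2), (t, x + q.2)) : (ℝ × E3) × ℝ × E3))
      (𝓝 0) (𝓝 ((t, x), (t, x))) := Continuous.tendsto' (by fun_prop) _ _ (by simp)
  have h2 : (fun q : ℝ × E3 => β (t + q.1, x + q.2) - β (t, x + q.2) - dt β (t, x) * q.1) =o[𝓝 0]
      fun q => ‖q.2‖ ^ 2 + |q.1| := by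
    refine ((h1.isLittleO.comp_tendsto T).congr_left fun q => ?_).trans_isBigO
      (IsBigO.of_bound 1 (Eventually.of_forall fun q => ?_))
    · have : ((t + q.1, x + q.2) : ℝ × E3) - (t, x + q.2) = q.1 • ((1 : ℝ), (0 : E3)) := by simp
      simp only [Function.comp, this, map_smul, smul_eq_mul, dt, mul_comm]
    · have : ((t + q.1, x + q.2) : ℝ × E3) - (t, x + q.2) = (q.1, 0) := by simp
      simp only [Function.comp, this, Prod.norm_mk, norm_zero, Real.norm_eq_abs, one_mul]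
      rw [max_eq_left (abs_nonneg _), abs_of_nonneg (a := ‖q.2‖ ^ 2 + |q.1|) (by positivity)]
      linarith [sq_nonneg ‖q.2‖]
  have h3 := ((taylor2 (contDiff_sl hβ t) x).comp_tendsto
    (continuous_snd.tendsto' (0 : ℝ × E3) 0 rfl)).trans_isBigO
    (k := fun q : ℝ × E3 => ‖q.2‖ ^ 2 + |q.1|) (IsBigO.of_bound 1 (Eventually.of_forall fun q => by
      simp only [Function.comp, Real.norm_eq_abs, one_mul]
      rw [abs_of_nonneg (by positivity), abs_of_nonneg (a := ‖q.2‖ ^ 2 + |q.1|) (by positivity)]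
      linarith [abs_nonneg q.1]))
  refine (h2.add h3).congr_left fun q => ?_
  simp only [Function.comp, sl, gr, hs]
  change _ + (_ - _ - ⟪gradient (fun y => β (t, y)) x, _⟫ -
    ⟪fderiv ℝ (gradient fun y => β (t, y)) x _, _⟫ / 2) = _
  ring

variable {ι : Type*} {l : Filter ι} {ρ τ : ι → ℝ} {u k : ι → E3}

lemma inn {a b : ι → E3} (ha : Tendsto a l (𝓝 0)) (hb : b =O[l] ρ) :
    (fun i => ⟪a i, b i⟫) =o[l] ρ := by
  have h1 : (fun i => ‖a i‖) =o[l] fun _ => (1 : ℝ) := (isLittleO_one_iff ℝ).2 (by simpa using ha.norm)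
  refine IsBigO.trans_isLittleO (g := fun i => ‖a i‖ * ‖b i‖)
    (IsBigO.of_bound 1 (Eventually.of_forall fun i => ?_))
    (by simpa using h1.mul_isBigO hb.norm_left)
  simpa using abs_real_inner_le_norm _ _

lemma inn' {a b : ι → E3} (ha : a =O[l] ρ) (hb : Tendsto b l (𝓝 0)) :
    (fun i => ⟪a i, b i⟫) =o[l] ρ := (inn hb ha).congr_left fun _ => real_inner_comm _ _

lemma tend_of_sq (hρ : Tendsto ρ l (𝓝 0)) (hu : (fun i => ‖u i‖ ^ 2) =O[l] ρ) :
    Tendsto u l (𝓝 0) := by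
  have := (hu.trans_tendsto hρ).sqrt
  simp only [Real.sqrt_sq (norm_nonneg _), Real.sqrt_zero] at this
  exact tendsto_zero_iff_norm_tendsto_zero.2 this

lemma sq_add_O {a b : ι → E3} (ha : (fun i => ‖a i‖ ^ 2) =O[l] ρ)
    (hb : (fun i => ‖b i‖ ^ 2) =O[l] ρ) : (fun i => ‖a i + b i‖ ^ 2) =O[l] ρ := by
  refine IsBigO.trans (IsBigO.of_bound 2 (Eventually.of_forall fun i => ?_)) (ha.add hb)
  rw [Real.norm_eq_abs, Real.norm_eq_abs, abs_of_nonneg (by positivity),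
    abs_of_nonneg (by positivity)]
  have h1 := norm_add_le (a i) (b i)
  nlinarith [norm_nonneg (a i + b i), norm_nonneg (a i), norm_nonneg (b i),
    sq_nonneg (‖a i‖ - ‖b i‖)]

lemma sq_of_O (hρ : Tendsto ρ l (𝓝 0)) (hk : k =O[l] ρ) : (fun i => ‖k i‖ ^ 2) =o[l] ρ :=
  (inn (hk.trans_tendsto hρ) hk).congr_left fun _ => real_inner_self_eq_norm_sq _

lemma sq_clm (L : E3 →L[ℝ] E3) (hu : (fun i => ‖u i‖ ^ 2) =O[l] ρ) :
    (fun i => ‖L (u i)‖ ^ 2) =O[l] ρ :=
  (((L.isBigO_comp u l).norm_norm).pow 2).trans hu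

lemma quad_O (L : E3 →L[ℝ] E3) (hu : (fun i => ‖u i‖ ^ 2) =O[l] ρ) :
    (fun i => ⟪L (u i), u i⟫) =O[l] ρ := by
  refine IsBigO.trans (IsBigO.of_bound ‖L‖ (Eventually.of_forall fun i => ?_)) hu
  rw [Real.norm_eq_abs, Real.norm_eq_abs, abs_of_nonneg (a := ‖u i‖ ^ 2) (by positivity)]
  refine (abs_real_inner_le_norm _ _).trans ?_
  rw [sq, ← mul_assoc]
  gcongr
  exact L.le_opNorm _

lemma lin_sq_O (m : E3) (hu : (fun i => ‖u i‖ ^ 2) =O[l] ρ) :
    (fun i => ⟪m, u i⟫ ^ 2) =O[l] ρ :=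
  ((((innerSL ℝ m).isBigO_comp u l).norm_right).pow 2).trans hu

/-- parabolic Taylor expansion along a filter -/
lemma pjet {β : ℝ × E3 → ℝ} (hβ : ContDiff ℝ 2 β) (t : ℝ) (x : E3) (hρ : Tendsto ρ l (𝓝 0))
    (hτ : τ =O[l] ρ) (hu : (fun i => ‖u i‖ ^ 2) =O[l] ρ) (hk : k =O[l] ρ) :
    (fun i => β (t + τ i, x + (u i + k i)) - (β (t, x) + dt β (t, x) * τ i + ⟪gr β (t, x), u i⟫
      + ⟪gr β (t, x), k i⟫ + ⟪hs β (t, x) (u i), u i⟫ / 2)) =o[l] ρ := by
  have u0 := tend_of_sq hρ hu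
  have k0 := hk.trans_tendsto hρ
  have s0 : Tendsto (fun i => u i + k i) l (𝓝 0) := by simpa using u0.add k0
  have T : Tendsto (fun i => (τ i, u i + k i)) l (𝓝 0) := (hτ.trans_tendsto hρ).prodMk_nhds s0
  have h1 := ((ptaylor hβ t x).comp_tendsto T).trans_isBigO
    ((sq_add_O hu (sq_of_O hρ hk).isBigO).add hτ.abs_left)
  have h2 := inn (a := fun i => hs β (t, x) (u i))
    (((hs β (t, x)).continuous.tendsto' 0 0 (map_zero _)).comp u0) hk
  have h3 := inn' (((hs β (t, x)).isBigO_comp k l).trans hk) s0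
  refine ((h1.add (h2.const_mul_left (1 / 2))).add (h3.const_mul_left (1 / 2))).congr_left
    fun i => ?_
  simp only [Function.comp, map_add, inner_add_left, inner_add_right]
  ring

/-- scalar Taylor expansion along a filter -/
lemma sjet {φ φ' : ℝ → ℝ} {c φ'' : ℝ} (h1 : ∀ᶠ v in 𝓝 c, HasDerivAt φ (φ' v) v)
    (h2 : HasDerivAt φ' φ'' c) {α κ : ι → ℝ} (hρ : Tendsto ρ l (𝓝 0))
    (hα : (fun i => α i ^ 2) =O[l] ρ) (hκ : κ =O[l] ρ) :
    (fun i => φ (c + (α i + κ i)) - (φ c + φ' c * α i + φ' c * κ i + φ'' / 2 * α i ^ 2)) =o[l] ρ := by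
  have a0 : Tendsto α l (𝓝 0) := by
    have := (hα.trans_tendsto hρ).sqrt
    simp only [Real.sqrt_sq_eq_abs, Real.sqrt_zero] at this
    exact tendsto_zero_iff_abs_tendsto_zero _ |>.2 this
  have k0 := hκ.trans_tendsto hρ
  have T : Tendsto (fun i => c + (α i + κ i)) l (𝓝 c) := by
    simpa using (a0.add k0).const_add c
  have e1 : (fun i => (2 * α i + κ i) * κ i) =o[l] ρ := by
    have : (fun i => 2 * α i + κ i) =o[l] fun _ => (1 : ℝ) :=
      (isLittleO_one_iff ℝ).2 (by simpa using (a0.const_mul 2).add k0)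
    simpa using this.mul_isBigO hκ
  have e2 := ((Bar.taylor_scalar h1 h2).comp_tendsto T).trans_isBigO
    ((hα.add e1.isBigO).congr_left fun i => by simp only [Function.comp]; ring)
  refine (e2.add (e1.const_mul_left (φ'' / 2))).congr_left fun i => ?_
  simp only [Function.comp]
  ring

/-- near a regular zero there is a zero at a distance comparable to the value -/
lemma exists_zero {P : Type*} [NormedAddCommGroup P] [NormedSpace ℝ P] {F : P → ℝ}
    (hF : ContDiff ℝ 1 F) {p₀ v : P} (h0 : F p₀ = 0) (hv : 0 < fderiv ℝ F p₀ v) :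
    ∃ C : ℝ, ∀ᶠ p in 𝓝 p₀, ∃ h : ℝ, F (p + h • v) = 0 ∧ |h| ≤ C * |F p| := by
  set c := fderiv ℝ F p₀ v with hc
  have v0 : 0 < ‖v‖ := norm_pos_iff.2 fun h => by simp [hc, h] at hv
  have h1 := ((hF.contDiffAt (x := p₀)).hasStrictFDerivAt one_ne_zero).isLittleO.def
    (c := c / (2 * ‖v‖)) (by positivity)
  have cF := hF.continuous
  have key : ∀ s : ℝ, ∀ᶠ p in 𝓝 p₀, |F (p + (s * |F p|) • v) - F p - s * |F p| * c| ≤
      c / 2 * (|s| * |F p|) := by
    intro s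
    have T : Tendsto (fun p => (p + (s * |F p|) • v, p)) (𝓝 p₀) (𝓝 (p₀, p₀)) :=
      Continuous.tendsto' (by fun_prop) _ _ (by simp [h0])
    filter_upwards [T.eventually h1] with p hp
    simp only [add_sub_cancel_left, map_smul, smul_eq_mul, ← hc, norm_smul, Real.norm_eq_abs,
      abs_mul, abs_abs] at hp
    refine hp.trans_eq ?_
    field_simp
  refine ⟨4 / c, ?_⟩
  filter_upwards [key (4 / c), key (-(4 / c))] with p k1 k2
  by_cases h2 : F p = 0
  · exact ⟨0, by simpa using h2, by simp [h2]⟩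
  have hpos : 0 < |F p| := abs_pos.2 h2
  have e1 : c / 2 * (|4 / c| * |F p|) = 2 * |F p| := by
    rw [abs_of_pos (by positivity)]; field_simp; ring
  have e2 : 4 / c * |F p| * c = 4 * |F p| := by field_simp
  rw [abs_neg, neg_mul, neg_mul] at k2
  rw [e1, e2] at k1 k2
  refine Exists.imp (fun _ => And.symm) ?_
  exact exists_zero_of_close (φ := fun h : ℝ => F (p + h • v)) (η := 4 / c * |F p|) (by fun_prop)
    (by positivity)
    (by linarith [(abs_le.1 k2).2, le_abs_self (F p)])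
    (by linarith [(abs_le.1 k1).1, neg_abs_le (F p)])

/-- **Space-time jets** of points of a smooth flow -/
lemma exists_near {M : ℝ → Set E3} {t : ℝ} {x : E3} {w : ℝ × E3 → ℝ} (hw : IsEqnT M (t, x) w)
    (hx : x ∈ M t) {H : E3} (he : deriv (fun s => w (s, x)) t = -⟪gradient (sl w t) x, H⟫)
    (hρ : Tendsto ρ l (𝓝 0)) (hτ : τ =O[l] ρ) (hu : (fun i => ‖u i‖ ^ 2) =O[l] ρ)
    (hn : ∀ i, ⟪nuw (sl w t) x, u i⟫ = 0) : ∃ k : ι → E3, k =O[l] ρ ∧
      (fun i => k i - ((⟪shw (sl w t) x (u i), u i⟫ / 2) • nuw (sl w t) x + τ i • H)) =o[l] ρ ∧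
      ∀ᶠ i in l, x + (u i + k i) ∈ M (t + τ i) := by
  set ν := nuw (sl w t) x with hν
  set A := shw (sl w t) x with hA
  have hg : gradient (sl w t) x ≠ 0 := hw.2.1
  have w2 : ContDiff ℝ 2 w := hw.1.of_le two_le_inf
  have w0 : w (t, x) = 0 := hw.2.2.self_of_nhds.1 hx
  set k₀ : ι → E3 := fun i => (⟪A (u i), u i⟫ / 2) • ν + τ i • H with hk₀
  have sm : ∀ {a : ι → ℝ} (v : E3), (fun i => a i • v) =O[l] a := fun {a} v =>
    IsBigO.of_bound ‖v‖ (Eventually.of_forall fun i => by rw [norm_smul, mul_comm])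
  have k0 : k₀ =O[l] ρ := ((sm ν).trans (((quad_O A hu).const_mul_left (1 / 2)).congr_left
    fun i => by ring)).add ((sm H).trans hτ)
  have e1 : (fun i => w (t + τ i, x + (u i + k₀ i))) =o[l] ρ := by
    refine (pjet w2 t x hρ hτ hu k0).congr_left fun i => ?_
    have a1 : dt w (t, x) = -⟪gradient (sl w t) x, H⟫ := by rw [← he, deriv_time hw.1]; rfl
    have a2 : gr w (t, x) = gradient (sl w t) x := rfl
    have a3 : hs w (t, x) = fderiv ℝ (gradient (sl w t)) x := rfl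
    have a4 : ‖gradient (sl w t) x‖ ≠ 0 := norm_ne_zero_iff.2 hg
    have a5 : ⟪gradient (sl w t) x, k₀ i⟫ = -⟪fderiv ℝ (gradient (sl w t)) x (u i), u i⟫ / 2 +
        τ i * ⟪gradient (sl w t) x, H⟫ := by
      simp only [hk₀, inner_add_right, real_inner_smul_right]
      rw [hA, inner_shw, pt_of_orth (hn i), hν, inner_grad_nuw hg]
      field_simp
    rw [w0, a1, a2, a3, inner_grad_of_orth hg (hn i), a5]
    ring
  obtain ⟨C, hC⟩ := exists_zero (hw.1.of_le one_le_inf) (v := ((0 : ℝ), ν)) w0 (by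
    rw [fderiv_apply_prod hw.1, zero_mul, zero_add, hν, inner_grad_nuw hg]
    exact norm_pos_iff.2 hg)
  have T0 : ∀ {k : ι → E3}, k =O[l] ρ →
      Tendsto (fun i => (t + τ i, x + (u i + k i))) l (𝓝 (t, x)) := fun hk => by
    simpa using ((hτ.trans_tendsto hρ).const_add t).prodMk_nhds
      (((tend_of_sq hρ hu).add (hk.trans_tendsto hρ)).const_add x)
  obtain ⟨h, hh⟩ : ∃ h : ι → ℝ, ∀ᶠ i in l,
      w ((t + τ i, x + (u i + k₀ i)) + h i • ((0 : ℝ), ν)) = 0 ∧
        |h i| ≤ C * |w (t + τ i, x + (u i + k₀ i))| :=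
    ⟨fun i => Classical.epsilon _, ((T0 k0).eventually hC).mono fun i hi =>
      Classical.epsilon_spec hi⟩
  have ho : h =o[l] ρ := IsBigO.trans_isLittleO (IsBigO.of_bound C (hh.mono fun i hi => hi.2)) e1
  have k1 : (fun i => k₀ i + h i • ν) =O[l] ρ := k0.add ((sm ν).trans ho.isBigO)
  refine ⟨fun i => k₀ i + h i • ν, k1, ((sm ν).trans_isLittleO ho).congr_left fun i => by
    simp only [hk₀]; abel, ?_⟩
  filter_upwards [hh, (T0 k1).eventually hw.2.2] with i h1 h2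
  refine h2.2 ?_
  rw [← h1.1]
  simp only [Prod.smul_mk, smul_zero, Prod.mk_add_mk, add_zero, add_assoc]

end Vale.Agent.P218G.Tw
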