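import Vale.Agent.P218G.WLoc
import Vale.Agent.P218FT.White
import Vale.Agent.P218FT.Int3

/-! The point-picking argument for the two-point curvature bound, for flows which are smooth in a
region of space-time. -/

open MeasureTheory Set Filter Topology Metric
open scoped ENNReal NNReal RealInnerProductSpace ContDiff

namespace Vale.Agent.P218G.WL

open Vale.Agent.P218FT Vale.Agent.P218FT.W

variable {M : ℝ → Set E3} {U : Set (ℝ × E3)}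

/-- small height gives small tilt -/
theorem tilt_le (hM : MCFOn M U) {t : ℝ} {x : E3} (ht : ∀ y, ‖y - x‖ ≤ 1 → (t, y) ∈ U)
    (hx : x ∈ M t) (hTP : ∀ y ∈ M t, ‖y - x‖ ≤ 1 → TP (M t) y 2) {e : E3}
    (he : ‖e‖ = 1) {τ : ℝ} (hh : ∀ y ∈ M t, ‖y - x‖ ≤ 1 → |⟪y, e⟫| ≤ τ) :
    1 - ⟪nu (M t) x, e⟫ ^ 2 ≤ 300 * τ := by
  have hn : ‖nu (M t) x‖ = 1 := hM.norm_nu (ht x (by simp)) hx
  set n := nu (M t) x with hndef
  have h1 : ‖pt n e‖ ^ 2 = 1 - ⟪n, e⟫ ^ 2 := by rw [norm_pt_sq hn, he]; ring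
  have h2 : ‖pt n e‖ ≤ 1 := by rw [← he]; exact norm_pt_le hn e
  have h3 : ‖(1 / 100 : ℝ) • pt n e‖ = 1 / 100 * ‖pt n e‖ := by
    rw [norm_smul, Real.norm_eq_abs, abs_of_pos (by norm_num)]
  obtain ⟨z, hz, hm⟩ := WL.exists_over hM ht hx hTP (v := (1 / 100 : ℝ) • pt n e)
    (by rw [real_inner_smul_right, inner_pt_nrm hn, mul_zero]) (by rw [h3]; linarith)
  rw [h3, mul_pow, h1] at hz
  have h0 : 0 ≤ ⟪n, e⟫ ^ 2 := sq_nonneg _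
  have h4 := hh _ hm (by
    rw [add_assoc, add_sub_cancel_left]
    refine (norm_add_le _ _).trans ?_
    rw [h3, norm_smul, hn, Real.norm_eq_abs]
    linarith)
  have h5 := hh x hx (by simp)
  have h6 : ⟪pt n e, e⟫ = 1 - ⟪n, e⟫ ^ 2 := by
    rw [pt_apply, inner_sub_left, real_inner_smul_left, real_inner_self_eq_norm_sq, he]; ring
  rw [inner_add_left, inner_add_left, real_inner_smul_left, real_inner_smul_left, h6] at h4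
  have h7 : |⟪n, e⟫| ≤ 1 := by simpa [he, hn] using abs_real_inner_le_norm n e
  have h8 : |z * ⟪n, e⟫| ≤ |z| := by
    rw [abs_mul]; exact mul_le_of_le_one_right (abs_nonneg _) h7
  have := (abs_le.1 h4).2
  have := (abs_le.1 h5).1
  have := (abs_le.1 (h8.trans hz)).1
  have : 0 ≤ τ := (abs_nonneg _).trans h5
  linarith

/-- a flow which lies in a thin slab is a graph with bounded first and second derivatives -/
theorem flat_graph (hM : MCFOn M U) (hI : ∀ t ∈ Icc (-1 : ℝ) 0, ∀ x, ‖x‖ ≤ 5 → (t, x) ∈ U)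
    (hTP : ∀ t ∈ Icc (-1 : ℝ) 0, ∀ x ∈ M t, ‖x‖ ≤ 5 → TP (M t) x 2)
    (h0 : (0 : E3) ∈ M 0) {J : P2 →ₗᵢ[ℝ] E3} {e : E3} (he : ‖e‖ = 1) (hJ : ∀ a, ⟪J a, e⟫ = 0) {τ : ℝ}
    (hτ : τ ≤ 1 / 600)
    (hh : ∀ t ∈ Icc (-1 : ℝ) 0, ∀ y ∈ M t, y ∈ ball (0 : E3) 4 → |⟪y, e⟫| ≤ τ) :
    ∃ (h : P2 × ℝ → ℝ) (O : Set (P2 × ℝ)), IsOpen O ∧ ContDiffOn ℝ ∞ h O ∧
      closedBall (0 : P2) 1 ×ˢ Icc (-1 : ℝ) 0 ⊆ O ∧
      (∀ p ∈ closedBall (0 : P2) 1 ×ˢ Icc (-1 : ℝ) 0,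
        GEq h p ∧ ‖gx h p‖ ≤ 48 ∧ ‖hx h p‖ ≤ 48) ∧
      (∀ ξ ∈ closedBall (0 : P2) 1, |h (ξ, 0)| ≤ τ ∧
        ∀ z : ℝ, |z| ≤ 1 / 8 → J ξ + z • e ∈ M 0 → z = h (ξ, 0)) ∧
      ∀ a, ⟪J a + ⟪gx h (0, 0), a⟫ • e, nu (M 0) 0⟫ = 0 := by
  have hnorm : ∀ ξ ∈ closedBall (0 : P2) 1, ∀ z : ℝ, |z| ≤ 1 / 8 → ‖J ξ + z • e‖ ≤ 2 := by
    intro ξ hξ z hz
    refine (norm_add_le _ _).trans ?_
    rw [J.norm_map, norm_smul, he, Real.norm_eq_abs]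
    have : ‖ξ‖ ≤ 1 := by simpa using hξ
    linarith
  have htilt : ∀ t ∈ Icc (-1 : ℝ) 0, ∀ x ∈ M t, ‖x‖ ≤ 2 → 1 / 2 ≤ ⟪nu (M t) x, e⟫ ^ 2 := by
    intro t ht x hx hx2
    have hb : ∀ y : E3, ‖y - x‖ ≤ 1 → ‖y‖ ≤ 3 := fun y hy => by
      linarith [norm_sub_norm_le y x]
    have := WL.tilt_le hM (fun y hy => hI t ht y (by linarith [hb y hy])) hx (fun y hy hy' => hTP t ht y hy (by linarith [hb y hy'])) he
      (τ := τ) fun y hy hy' => hh t ht y hy (by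
        rw [mem_ball_zero_iff]; linarith [hb y hy'])
    linarith
  have hht : ∀ p ∈ closedBall (0 : P2) 1 ×ˢ Icc (-1 : ℝ) 0, ∀ z : ℝ, |z| ≤ 1 / 8 →
      J p.1 + z • e ∈ M p.2 → |z| ≤ τ := by
    intro p hp z hz hm
    have := hh p.2 hp.2 _ hm (by rw [mem_ball_zero_iff]; linarith [hnorm _ hp.1 z hz])
    rwa [inner_add_e he hJ] at this
  have hU : ∀ p ∈ closedBall (0 : P2) 1 ×ˢ Icc (-1 : ℝ) 0, ∀ z : ℝ, |z| ≤ 1 / 8 →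
      (p.2, 0 + J p.1 + z • e) ∈ U := fun p hp z hz =>
    hI _ hp.2 _ (by rw [zero_add]; linarith [hnorm _ hp.1 z hz])
  have key : ∀ p ∈ closedBall (0 : P2) 1 ×ˢ Icc (-1 : ℝ) 0, ∀ z : ℝ, |z| ≤ 1 / 8 →
      0 + J p.1 + z • e ∈ M p.2 → GoodOn M U 0 J e (1 / 8) p := by
    intro p hp z hz hm
    have hm' := hm
    rw [zero_add] at hm'
    have h1 := hht p hp z hz hm'
    have h2 := htilt p.2 hp.2 _ hm' (hnorm _ hp.1 z hz)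
    refine ⟨hU p hp, z, by linarith, hm, fun h => ?_, fun z' hz' hm'' => ?_⟩
    · rw [zero_add] at h; rw [h] at h2; norm_num at h2
    · rw [zero_add] at hm''
      have h3 := hht p hp z' hz' hm''
      have := vertical_eq (z := z' - z) he
        (hTP p.2 hp.2 _ hm' (by linarith [hnorm _ hp.1 z hz]))
        (by rw [sub_smul, add_add_sub_cancel]; exact hm'') (by linarith)
        (by linarith [abs_sub z' z])
      linarith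
  have h00 : ((0, 0) : P2 × ℝ) ∈ closedBall (0 : P2) 1 ×ˢ Icc (-1 : ℝ) 0 := ⟨by simp, by simp⟩
  have good := WL.good_of_conn hM 0 he hJ (ρ := 1 / 8)
    ((convex_closedBall (0 : P2) 1).isPreconnected.prod isPreconnected_Icc)
    hU key ⟨(0, 0), h00, key _ h00 0 (by norm_num) (by simpa using h0)⟩
  obtain ⟨hO, h, hs, hp⟩ := graph_on hM 0 J e (1 / 8) he hJ
  simp only [zero_add] at hp
  have huniq : ∀ p, GoodOn M U 0 J e (1 / 8) p → ∀ z : ℝ, |z| ≤ 1 / 8 → J p.1 + z • e ∈ M p.2 →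
      z = h p := by
    intro p hg z hz hm
    obtain ⟨-, z₀, -, -, -, hu⟩ := id hg
    simp only [zero_add] at hu
    rw [hu z hz hm, hu (h p) (hp p hg).1.le (hp p hg).2.1]
  refine ⟨h, _, hO, hs, good, fun p hpQ => ?_, fun ξ hξ => ?_, ?_⟩
  · obtain ⟨h1, h2, h3, -, h5⟩ := hp p (good p hpQ)
    have hn : ‖nu (M p.2) (J p.1 + h p • e)‖ = 1 := 
      hM.norm_nu (hI _ hpQ.2 _ (by linarith [hnorm _ hpQ.1 _ h1.le])) h2
    have ht := htilt p.2 hpQ.2 _ h2 (hnorm _ hpQ.1 _ h1.le)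
    have hg1 := grad_le he hn hJ h3 ht
    refine ⟨h5, by linarith, ?_⟩
    have hcd : ContDiffAt ℝ ∞ (fun ξ => h (ξ, p.2)) p.1 :=
      (hs.contDiffAt (hO.mem_nhds (good p hpQ))).comp p.1
        (contDiffAt_id.prodMk contDiffAt_const)
    have hev : ∀ᶠ η in 𝓝 p.1, GoodOn M U 0 J e (1 / 8) (η, p.2) :=
      ((continuous_id.prodMk continuous_const).tendsto p.1).eventually (hO.mem_nhds (good p hpQ))
    have hcr : ContinuousAt (fun η => |h (η, p.2) - h p - ⟪gx h p, η - p.1⟫|) p.1 :=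
      ((hcd.continuousAt.sub continuousAt_const).sub (by fun_prop)).abs
    have hsm : ∀ᶠ η in 𝓝 p.1, |h (η, p.2) - h p - ⟪gx h p, η - p.1⟫| < 1 / 16 :=
      hcr.eventually (gt_mem_nhds (by simp))
    have := norm_hess_le (K := 24) (by norm_num) (hcd.of_le two_le_inf) (by
      filter_upwards [hev, hsm] with η hη hη'
      have h6 := hTP p.2 hpQ.2 _ h2 (by linarith [hnorm _ hpQ.1 _ h1.le]) _ (hp _ hη).2.1
      have e1 : J η + h (η, p.2) • e - (J p.1 + h p • e) =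
          J (η - p.1) + (h (η, p.2) - h p) • e := by
        rw [map_sub, sub_smul]; abel
      simp only at h6
      rw [e1, chord_inner h3, norm_sq_add he hJ] at h6
      change |h (η, p.2) - h p - ⟪gx h p, η - p.1⟫| ≤ 24 * ‖η - p.1‖ ^ 2
      refine rem_arith (c := ⟪e, nu (M p.2) (J p.1 + h p • e)⟫) (g := ⟪gx h p, η - p.1⟫) ?_ ?_
        hη'.le ?_
      · rw [real_inner_comm, ← sq_abs] at ht
        nlinarith [abs_nonneg ⟪e, nu (M p.2) (J p.1 + h p • e)⟫]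
      · exact (abs_real_inner_le_norm _ _).trans (mul_le_of_le_one_left (norm_nonneg _) hg1)
      · rw [add_sub_cancel]; exact h6)
    exact this.trans (by norm_num)
  · have hq : (ξ, (0 : ℝ)) ∈ closedBall (0 : P2) 1 ×ˢ Icc (-1 : ℝ) 0 := ⟨hξ, by simp⟩
    obtain ⟨h1, h2, -⟩ := hp _ (good _ hq)
    exact ⟨hht _ hq _ h1.le h2, huniq _ (good _ hq)⟩
  · obtain ⟨-, -, h3, -⟩ := hp _ (good _ h00)
    have : h (0, 0) = 0 := (huniq _ (good _ h00) 0 (by norm_num) (by simpa using h0)).symm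
    simpa [this] using h3

theorem exists_e (hM : MCFOn M U) (hI : ∀ y : E3, ‖y - 0‖ ≤ 1 → ((0 : ℝ), y) ∈ U)
    (h0 : (0 : E3) ∈ M 0) (hTP : ∀ y ∈ M 0, ‖y - 0‖ ≤ 1 → TP (M 0) y 2) :
    ∃ y₁ y₂ e : E3, y₁ ∈ M 0 ∧ y₂ ∈ M 0 ∧ ‖y₁‖ ≤ 1 ∧ ‖y₂‖ ≤ 1 ∧ ‖e‖ = 1 ∧ ∀ n : E3, ‖n‖ = 1 →
      (1 / 100 / 2 : ℝ) ^ 2 * (1 - ⟪n, e⟫ ^ 2) ≤ ⟪y₁, n⟫ ^ 2 + ⟪y₂, n⟫ ^ 2 := by
  have hn : ‖nu (M 0) 0‖ = 1 := hM.norm_nu (hI 0 (by simp)) h0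
  obtain ⟨a, b, T⟩ := exists_triple hn
  have over : ∀ u : E3, ‖u‖ = 1 → ⟪u, nu (M 0) 0⟫ = 0 → ∃ z : ℝ,
      (1 / 100 : ℝ) • u + z • nu (M 0) 0 ∈ M 0 ∧ ‖(1 / 100 : ℝ) • u + z • nu (M 0) 0‖ ≤ 1 := by
    intro u hu hu'
    have h3 : ‖(1 / 100 : ℝ) • u‖ = 1 / 100 := by
      rw [norm_smul, Real.norm_eq_abs, abs_of_pos (by norm_num), hu, mul_one]
    obtain ⟨z, hz, hm⟩ := WL.exists_over hM hI h0 hTP (v := (1 / 100 : ℝ) • u)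
      (by rw [real_inner_smul_right, real_inner_comm, hu', mul_zero]) h3.le
    rw [zero_add] at hm
    refine ⟨z, hm, (norm_add_le _ _).trans ?_⟩
    rw [h3] at hz
    rw [h3, norm_smul, hn, Real.norm_eq_abs]
    linarith
  obtain ⟨z₁, hm₁, hn₁⟩ := over a T.na T.ac
  obtain ⟨z₂, hm₂, hn₂⟩ := over b T.nb T.bc
  obtain ⟨e, he, hE⟩ := exists_normal T (c := 1 / 100) (by norm_num) z₁ z₂
  exact ⟨_, _, e, hm₁, hm₂, hn₁, hn₂, he, hE⟩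

/-- the flow is close to the plane through three of its points -/
def HeightOK (M : ℝ → Set E3) (c τ : ℝ) : Prop :=
  ∀ y₁ y₂ e : E3, y₁ ∈ M 0 → y₂ ∈ M 0 → ‖y₁‖ ≤ 1 → ‖y₂‖ ≤ 1 → ‖e‖ = 1 →
    (∀ n : E3, ‖n‖ = 1 → c ^ 2 * (1 - ⟪n, e⟫ ^ 2) ≤ ⟪y₁, n⟫ ^ 2 + ⟪y₂, n⟫ ^ 2) →
    ∀ t ∈ Icc (-1 : ℝ) 0, ∀ y ∈ M t, y ∈ ball (0 : E3) 4 → |⟪y, e⟫| ≤ τ

/-- the estimate after rescaling -/
theorem core : ∃ τ : ℝ, 0 < τ ∧
    ∀ (M : ℝ → Set E3) (U : Set (ℝ × E3)), MCFOn M U →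
      (∀ t ∈ Icc (-1 : ℝ) 0, ∀ x, ‖x‖ ≤ 5 → (t, x) ∈ U) → HeightOK M (1 / 100 / 2) τ →
      (∀ t ∈ Icc (-1 : ℝ) 0, ∀ x ∈ M t, ‖x‖ ≤ 5 → TP (M t) x 2) → (0 : E3) ∈ M 0 →
      ∀ y ∈ M 0, ‖y‖ ≤ 2 → |⟪y, nu (M 0) 0⟫| ≤ ‖y‖ ^ 2 / 4 := by
  obtain ⟨C₃, hC₃⟩ := Int.int3_proof 48
  obtain ⟨C, ρ, δ, τ, hC, hρ, hρ1, hδ0, hτ0, hτ1, hτ2, hτ3, hτ4⟩ := exists_const C₃
  refine ⟨τ, hτ0, fun M U hM hI' hHe hTP h0 y hy hy2 => ?_⟩
  have h0I : (0 : ℝ) ∈ Icc (-1 : ℝ) 0 := ⟨by norm_num, le_rfl⟩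
  have hU0 : ∀ y : E3, ‖y - 0‖ ≤ 1 → ((0 : ℝ), y) ∈ U := fun y hy =>
    hI' 0 h0I y (by rw [sub_zero] at hy; linarith only [hy])
  have hn : ‖nu (M 0) 0‖ = 1 := hM.norm_nu (hU0 0 (by simp)) h0
  have hTP0 : ∀ y ∈ M 0, ‖y - 0‖ ≤ 1 → TP (M 0) y 2 := fun y hy hy' =>
    hTP 0 h0I y hy (by rw [sub_zero] at hy'; linarith only [hy'])
  obtain ⟨y₁, y₂, e, hm₁, hm₂, hn₁, hn₂, he, hE⟩ := WL.exists_e hM hU0 h0 hTP0
  have hh := hHe _ _ e hm₁ hm₂ hn₁ hn₂ he hE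
  obtain ⟨J, hJ, hJ'⟩ := exists_plane he
  obtain ⟨h, O, hO, hs, hQ, hb, hgr, htan⟩ := WL.flat_graph hM hI' hTP h0 he hJ hτ1 hh
  have h3 := hC₃ h O hO hs hQ hb
  obtain ⟨ξ, hξ⟩ := hJ' y
  have hyξ : J ξ + ⟪y, e⟫ • e = y := by rw [hξ, pt_apply, real_inner_comm, sub_add_cancel]
  have hyh := hh 0 h0I y hy (by rw [mem_ball_zero_iff]; linarith only [hy2])
  have hyn : ‖ξ‖ ≤ ‖y‖ := by rw [← J.norm_map, hξ]; exact norm_pt_le he y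
  have hyn2 : ‖ξ‖ ^ 2 ≤ ‖y‖ ^ 2 := pow_le_pow_left₀ (norm_nonneg _) hyn 2
  by_cases hc : ‖ξ‖ ≤ ρ
  · have hen : |⟪e, nu (M 0) 0⟫| ≤ 1 := by
      simpa only [he, hn, mul_one] using abs_real_inner_le_norm e (nu (M 0) 0)
    have hsub : ∀ η ∈ closedBall (0 : P2) ρ, η ∈ closedBall (0 : P2) 1 := fun η hη =>
      closedBall_subset_closedBall (by linarith only [hρ1]) hη
    have h4 := taylor_small' (F := fun η => h (η, 0)) (τ := τ) (C := C) hρ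
      (fun η hη => (hs.contDiffAt (hO.mem_nhds (hQ (mk_mem_prod (hsub η hη) h0I)))).comp η
        (contDiffAt_id.prodMk contDiffAt_const))
      (fun η hη => (hgr η (hsub η hη)).1)
      (fun η hη => (h3 η (closedBall_subset_closedBall (by linarith only [hρ1]) hη)).trans hC) hc
    have h5 : h (0, 0) = 0 := ((hgr 0 (mem_closedBall_self zero_le_one)).2 0 (by norm_num)
      (by rw [map_zero, zero_smul, add_zero]; exact h0)).symm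
    have h6 : ⟪y, e⟫ = h (ξ, 0) := (hgr ξ (hsub ξ (mem_closedBall_zero_iff.2 hc))).2 _
      (by linarith only [hyh, hτ1]) (by rw [hyξ]; exact hy)
    have h7 : ⟪gx h (0, 0), ξ⟫ = fderiv ℝ (fun η => h (η, 0)) 0 ξ := inner_gradient _ _ _
    simp only [h5, sub_zero] at h4
    have h11 := chord_inner htan ξ ⟪y, e⟫
    rw [hyξ, h6, h7] at h11
    have h9 := mul_le_mul_of_nonneg_right hτ3 (sq_nonneg ‖ξ‖)
    have h10 := mul_le_of_le_one_right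
      (abs_nonneg (h (ξ, 0) - fderiv ℝ (fun η => h (η, 0)) 0 ξ)) hen
    rw [h11, abs_mul]
    linarith only [h10, h4, h9, hyn2]
  · push Not at hc
    have h4 := WL.tilt_le hM hU0 h0 hTP0 he (τ := τ) fun z hz hz' =>
      hh 0 h0I z hz (by rw [mem_ball_zero_iff]; rw [sub_zero] at hz'; linarith only [hz'])
    have h9 : ρ ^ 2 ≤ ‖ξ‖ ^ 2 := pow_le_pow_left₀ hρ.le hc.le 2
    linarith only [far_le he hn hδ0 hy2 (h4.trans hτ2) hyh, h9, hyn2, hτ4]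

/-- **Point picking**: the height estimate at all small scales gives the two-point bound. -/
theorem pick : ∃ τ : ℝ, 0 < τ ∧ ∀ (M : ℝ → Set E3) (U : Set (ℝ × E3)) (x₀ : E3) (t₀ : ℝ),
    MCFOn M U → (∀ t ∈ Icc (t₀ - 2) t₀, ∀ x, ‖x - x₀‖ ≤ 2 → (t, x) ∈ U) →
    (∀ lam : ℝ, 10 < lam → ∀ t₁ ∈ Icc (t₀ - 2 + 20 / lam) t₀, ∀ x₁ ∈ M t₁,
      ‖x₁ - x₀‖ ≤ 2 - 20 / lam → HeightOK (scaleFlow lam x₁ t₁ M) (1 / 100 / 2) τ) →
    ∀ t ∈ Icc (t₀ - 1) t₀, ∀ x ∈ M t, x ∈ ball x₀ 1 → TP (M t) x 20 := by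
  obtain ⟨τ, hτ, hc⟩ := WL.core
  refine ⟨τ, hτ, fun M U x₀ t₀ hM hI hd t ht x hx hxb y hy => ?_⟩
  by_contra hcon
  push Not at hcon
  obtain ⟨C, hC0, hC'⟩ := hM.tp_compact (K := Icc (t₀ - 2) t₀ ×ˢ closedBall x₀ 2)
    (isCompact_Icc.prod (isCompact_closedBall _ _))
    fun p hp => hI p.1 hp.1 p.2 (by simpa [dist_eq_norm] using hp.2)
  have hC : ∀ t ∈ Icc (t₀ - 2) t₀, ∀ x ∈ M t, ‖x - x₀‖ ≤ 2 → TP (M t) x C := fun t ht x hx hx2 =>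
    hC' (t, x) ⟨ht, by simpa [dist_eq_norm] using hx2⟩ hx
  set d : ℝ → E3 → ℝ := fun t x => min (2 - ‖x - x₀‖) (t - (t₀ - 2)) with hddef
  set S : Set ℝ := {s | ∃ t ∈ Icc (t₀ - 2) t₀, ∃ x ∈ M t, ‖x - x₀‖ ≤ 2 ∧ ∃ y ∈ M t, y ≠ x ∧
    s = |⟪y - x, nu (M t) x⟫| / ‖y - x‖ ^ 2 * d t x} with hS
  have hd2 : ∀ t x, d t x ≤ 2 := fun t x =>
    (min_le_left _ _).trans (by linarith [norm_nonneg (x - x₀)])
  have hbdd : BddAbove S := by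
    refine ⟨C * 2, ?_⟩
    rintro s ⟨t, ht, x, hx, hx2, y, hy, hyx, rfl⟩
    have hp : 0 < ‖y - x‖ ^ 2 := pow_pos (norm_pos_iff.2 (sub_ne_zero.2 hyx)) 2
    refine mul_le_mul ((div_le_iff₀ hp).2 (hC t ht x hx hx2 y hy)) (hd2 t x) ?_ hC0
    exact le_min (by linarith) (by linarith [ht.1])
  have hx1 : ‖x - x₀‖ < 1 := by simpa [dist_eq_norm] using hxb
  have hyx : y ≠ x := by
    rintro rfl
    simp at hcon
  have h20 : 20 < sSup S := by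
    have hp : 0 < ‖y - x‖ ^ 2 := pow_pos (norm_pos_iff.2 (sub_ne_zero.2 hyx)) 2
    refine lt_of_lt_of_le ?_ (le_csSup hbdd ⟨t, ⟨by linarith [ht.1], ht.2⟩, x, hx, by linarith,
      y, hy, hyx, rfl⟩)
    have h1 : 1 ≤ d t x := le_min (by linarith) (by linarith [ht.1])
    have h2 : 20 < |⟪y - x, nu (M t) x⟫| / ‖y - x‖ ^ 2 := (lt_div_iff₀ hp).2 hcon
    nlinarith
  have hne : S.Nonempty := ⟨_, t, ⟨by linarith [ht.1], ht.2⟩, x, hx, by linarith, y, hy, hyx, rfl⟩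
  obtain ⟨s, ⟨t₁, ht₁, x₁, hx₁, hx₁2, y₁, hy₁, hyx₁, rfl⟩, hs⟩ :=
    exists_lt_of_lt_csSup hne (by linarith : sSup S / 2 < sSup S)
  have hp₁ : 0 < ‖y₁ - x₁‖ := norm_pos_iff.2 (sub_ne_zero.2 hyx₁)
  obtain ⟨lam, hlam⟩ : ∃ lam : ℝ, lam = 2 * (|⟪y₁ - x₁, nu (M t₁) x₁⟫| / ‖y₁ - x₁‖ ^ 2) := ⟨_, rfl⟩
  have hlam0 : 0 ≤ lam := by rw [hlam]; positivity
  have hld : sSup S < lam * d t₁ x₁ := by rw [hlam]; linarith
  have hl10 : 10 < lam := by nlinarith [hd2 t₁ x₁]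
  have hl : 0 < lam := by linarith
  have hinv : lam⁻¹ * 20 < d t₁ x₁ := by
    rw [inv_mul_lt_iff₀ hl]; linarith
  have hi0 : 0 < lam⁻¹ := inv_pos.2 hl
  have hi1 : lam⁻¹ < 1 / 10 := by rw [one_div]; exact inv_strictAnti₀ (by norm_num) hl10
  have hsq : ∀ s : ℝ, s / lam ^ 2 = s * (lam⁻¹ * lam⁻¹) := fun s => by field_simp
  have hii : lam⁻¹ * lam⁻¹ ≤ lam⁻¹ := by nlinarith
  have hii0 : 0 < lam⁻¹ * lam⁻¹ := by positivity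
  have hda : d t₁ x₁ ≤ 2 - ‖x₁ - x₀‖ := min_le_left _ _
  have hdb : d t₁ x₁ ≤ t₁ - (t₀ - 2) := min_le_right _ _
  have hup : ∀ z : E3, ‖x₁ + lam⁻¹ • z - x₀‖ ≤ ‖x₁ - x₀‖ + lam⁻¹ * ‖z‖ := by
    intro z
    rw [add_sub_right_comm]
    refine (norm_add_le _ _).trans ?_
    rw [norm_smul, Real.norm_eq_abs, abs_of_pos hi0]
  have htm : ∀ s ∈ Icc (-1 : ℝ) 0, t₁ - lam⁻¹ ≤ t₁ + s / lam ^ 2 ∧ t₁ + s / lam ^ 2 ≤ t₁ := by
    intro s hs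
    rw [hsq]
    constructor <;> nlinarith [hs.1, hs.2]
  have h0 : (0 : E3) ∈ scaleFlow lam x₁ t₁ M 0 := by simpa [mem_scaleFlow] using hx₁
  have hy0 : lam • (y₁ - x₁) ∈ scaleFlow lam x₁ t₁ M 0 := by
    rw [scaleFlow_apply, dn_mem_scaleSet hl.ne']; simpa using hy₁
  have hn₁ : ‖nu (M t₁) x₁‖ = 1 := hM.norm_nu (hI _ ht₁ _ hx₁2) hx₁
  have hq : |⟪y₁ - x₁, nu (M t₁) x₁⟫| = lam / 2 * ‖y₁ - x₁‖ ^ 2 := by rw [hlam]; field_simp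
  have hle := abs_real_inner_le_norm (y₁ - x₁) (nu (M t₁) x₁)
  rw [hn₁, mul_one, hq] at hle
  have hfin := hc (scaleFlow lam x₁ t₁ M) (scaleReg lam x₁ t₁ U) (hM.scale hl x₁ t₁)
    ?_ ?_ ?_ h0 _ hy0 ?_
  · have h1 := abs_inner_nu_scale (N := M (t₁ + 0 / lam ^ 2)) (x₀ := x₁) hl h0 (lam • (y₁ - x₁))
    rw [scaleFlow_apply, h1, real_inner_smul_left, abs_mul, abs_of_pos hl, norm_smul,
      Real.norm_eq_abs, abs_of_pos hl] at hfin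
    simp only [zero_div, add_zero, smul_zero] at hfin
    rw [hq] at hfin
    have : 0 < (lam * ‖y₁ - x₁‖) ^ 2 := by positivity
    nlinarith
  · intro s hs z hz5
    obtain ⟨h1, h2⟩ := htm s hs
    have h3 := hup z
    have h4 : lam⁻¹ * ‖z‖ ≤ lam⁻¹ * 5 := mul_le_mul_of_nonneg_left hz5 hi0.le
    exact hI _ ⟨by linarith, by linarith [ht₁.2]⟩ _ (by linarith)
  · have e20 : 20 / lam = lam⁻¹ * 20 := by field_simp
    exact hd lam hl10 t₁ ⟨by linarith, ht₁.2⟩ x₁ hx₁ (by linarith)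
  · intro s hs z hz hz5
    refine tp_scale hl hz fun w hw => ?_
    obtain ⟨h1, h2⟩ := htm s hs
    have h3 := hup z
    have h4 : lam⁻¹ * ‖z‖ ≤ lam⁻¹ * 5 := mul_le_mul_of_nonneg_left hz5 hi0.le
    rcases eq_or_ne w (x₁ + lam⁻¹ • z) with rfl | hw'
    · simp
    have hp : 0 < ‖w - (x₁ + lam⁻¹ • z)‖ ^ 2 := pow_pos (norm_pos_iff.2 (sub_ne_zero.2 hw')) 2
    have h5 := le_csSup hbdd ⟨t₁ + s / lam ^ 2, ⟨by linarith, by linarith [ht₁.2]⟩, _, hz,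
      by linarith, w, hw, hw', rfl⟩
    have h6 : d t₁ x₁ / 2 ≤ d (t₁ + s / lam ^ 2) (x₁ + lam⁻¹ • z) :=
      le_min (by linarith) (by linarith)
    rw [← div_le_iff₀ hp]
    have h7 : 0 ≤ |⟪w - (x₁ + lam⁻¹ • z), nu (M (t₁ + s / lam ^ 2)) (x₁ + lam⁻¹ • z)⟫| /
      ‖w - (x₁ + lam⁻¹ • z)‖ ^ 2 := by positivity
    have h8 := mul_le_mul_of_nonneg_left h6 h7
    have h9 : 0 < d t₁ x₁ := by linarith
    by_contra h10
    push Not at h10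
    nlinarith
  · rw [norm_smul, Real.norm_eq_abs, abs_of_pos hl]
    nlinarith

end Vale.Agent.P218G.WL
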