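import Vale.Agent.P218G.WCore
import Vale.Agent.P218G.HuG
import Vale.Agent.P218FT.WHeight
import Vale.Agent.P218FT.EVMain
import Mathlib.MeasureTheory.Integral.Average

/-! The height estimate and the two-point curvature bound for weak flows. -/

open MeasureTheory Set Filter Topology Metric
open scoped ENNReal NNReal RealInnerProductSpace ContDiff

namespace Vale.Agent.P218G.WL

open Vale.Agent.P218FT Vale.Agent.P218FT.WH

/-- Huisken's inequality for the flow -/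
def HuF (μ : ℝ → Measure E3) (M : ℝ → Set E3) (I : Set ℝ) : Prop :=
  ∀ (y : E3) (t₀ a b : ℝ), a ≤ b → b < t₀ → Icc a b ⊆ I →
    ENNReal.ofReal (gM (μ b) y √(t₀ - b)) +
      ∫⁻ t in Icc a b, ∫⁻ x, ENNReal.ofReal (‖relV (M t) y (t₀ - t) x‖ ^ 2 * gk (t₀ - t) (x - y))
        ∂(area (M t)) ≤ ENNReal.ofReal (gM (μ a) y √(t₀ - a))

/-- the density ratios at points of the track are at least one -/
def OneF (μ : ℝ → Measure E3) (M : ℝ → Set E3) (I : Set ℝ) : Prop :=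
  ∀ t ∈ I, ∀ x ∈ M t, ∀ r : ℝ, 0 < r → Icc (t - r ^ 2) t ⊆ I → 1 ≤ densM μ x t r

variable {D : ℝ} {μ : ℝ → Measure E3} {M : ℝ → Set E3} {J I : Set ℝ}

theorem ratio_J (h : WF D μ M J I) {s : ℝ} (hs : s ∈ J) : AreaRatio D (M s) := by
  have := h.ratio s (h.sub hs)
  rw [h.eq s hs] at this
  exact this

theorem HuF.mono (hH : HuF μ M I) (y : E3) {t r r' : ℝ} (hr : 0 < r) (hrr : r ≤ r')
    (hI : Icc (t - r' ^ 2) (t - r ^ 2) ⊆ I) : densM μ y t r ≤ densM μ y t r' := by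
  have h2 : r ^ 2 ≤ r' ^ 2 := pow_le_pow_left₀ hr.le hrr 2
  have h := hH y t (t - r' ^ 2) (t - r ^ 2) (by linarith) (by nlinarith) hI
  rw [sub_sub_cancel, sub_sub_cancel, Real.sqrt_sq hr.le, Real.sqrt_sq (hr.le.trans hrr)] at h
  exact (ENNReal.ofReal_le_ofReal_iff (gM_nonneg _ _ _)).1 (le_self_add.trans h)

theorem centre {B : ℝ} (hB : 0 < B) :
    ∃ C₁ : ℝ, 0 < C₁ ∧ ∀ (D : ℝ) (μ : ℝ → Measure E3) (M : ℝ → Set E3) (J I : Set ℝ),
      WF D μ M J I → HuF μ M I → OneF μ M I → Icc (-10 : ℝ) 0 ⊆ I → ∀ (y : E3) (t ε : ℝ), 0 < ε →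
      ‖y‖ ≤ 4 → t ∈ Icc (-1 : ℝ) 0 → y ∈ M t → densM μ y t 3 ≤ 1 + ε →
      ContinuousOn (FF M B y t) (J ∩ Icc (-4) (-3)) ∧
      (∀ s ∈ J ∩ Icc (-4 : ℝ) (-3),
        Integrable (fun x => psi B x * ‖relV (M s) y (t - s) x‖ ^ 2) (area (M s))) ∧
      ∫⁻ s in J ∩ Icc (-4 : ℝ) (-3), ENNReal.ofReal (FF M B y t s) ≤ ENNReal.ofReal (C₁ * ε) := by
  obtain ⟨C, hC0, hCk⟩ := psi_le_gk hB
  refine ⟨C, hC0, fun D μ M J I hW hH hO hI y t ε hε hy ht hyt hd => ?_⟩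
  have hM := hW.mcf
  set J' := J ∩ Ioo (-5 : ℝ) (-2) with hJ'
  have hKJ : J ∩ Icc (-4 : ℝ) (-3) ⊆ J' :=
    fun s hs => ⟨hs.1, by linarith [hs.2.1], by linarith [hs.2.2]⟩
  have hMJ : IsMCF M J' := mono hM (hM.isOpen.inter isOpen_Ioo) inter_subset_left
  obtain ⟨c1, c2⟩ := contOn_both hMJ
  have hg : ContinuousOn (fun p : ℝ × E3 => psi B p.2 * ‖relV (M p.1) y (t - p.1) p.2‖ ^ 2)
      (track M J') := by
    simp only [relV_eq]
    have c3 : ContinuousOn (fun p : ℝ × E3 => (2 * (t - p.1))⁻¹) (track M J') := by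
      refine ContinuousOn.inv₀ (by fun_prop) fun p hp => ?_
      have := hp.1.2.2
      have := ht.1
      apply ne_of_gt
      linarith
    have c4 : ContinuousOn (fun p : ℝ × E3 => p.2 - y) (track M J') := by fun_prop
    exact ((continuous_psi B).comp continuous_snd).continuousOn.mul
      ((c2.add (c3.smul (c4.sub (c1.clm_apply c4)))).norm.pow 2)
  have hF : ContinuousOn (FF M B y t) (J ∩ Icc (-4) (-3)) :=
    (cont_proof M _ hMJ _ B hg fun p hp => by rw [psi_zero hp, zero_mul]).mono hKJ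
  have hi : ∀ s ∈ J ∩ Icc (-4 : ℝ) (-3),
      Integrable (fun x => psi B x * ‖relV (M s) y (t - s) x‖ ^ 2) (area (M s)) := by
    intro s hs
    refine integrable_of_contOn (isSurf hMJ (hKJ hs)).1 (ratio_J hW hs.1) (R := B) ?_
      fun x hx => by rw [psi_zero hx.le, zero_mul]
    exact hg.comp (f := fun x : E3 => (s, x)) (by fun_prop) fun x hx => ⟨hKJ hs, hx⟩
  refine ⟨hF, hi, ?_⟩
  have hb3 := hO t (hI ⟨by linarith [ht.1], ht.2⟩) y hyt 1 one_pos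
    fun s hs => hI ⟨by linarith [hs.1, ht.1], by linarith [hs.2, ht.2]⟩
  have hab : Icc (t - 9) (t - 1) ⊆ I := fun s hs =>
    hI ⟨by linarith [hs.1, ht.1], by linarith [hs.2, ht.2]⟩
  have H := hH y t (t - 9) (t - 1) (by linarith) (by linarith) hab
  have e3 : √(t - (t - 9)) = 3 := by
    rw [show t - (t - 9) = 3 ^ 2 by ring, Real.sqrt_sq (by norm_num)]
  have e1 : √(t - (t - 1)) = 1 := by rw [sub_sub_cancel, Real.sqrt_one]
  have e4 : gM (μ (t - 9)) y 3 ≤ 1 + ε := by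
    have : densM μ y t 3 = gM (μ (t - 9)) y 3 := by
      rw [densM, show (3 : ℝ) ^ 2 = 9 by norm_num]
    rwa [← this]
  have e5 : 1 ≤ gM (μ (t - 1)) y 1 := by
    have : densM μ y t 1 = gM (μ (t - 1)) y 1 := by rw [densM, one_pow]
    rwa [← this]
  rw [e3, e1] at H
  set Q := ∫⁻ s in Icc (t - 9) (t - 1), ∫⁻ x,
    ENNReal.ofReal (‖relV (M s) y (t - s) x‖ ^ 2 * gk (t - s) (x - y)) ∂(area (M s)) with hQ
  have hQ2 : Q ≤ ENNReal.ofReal ε := by
    have h1 : ENNReal.ofReal 1 + Q ≤ ENNReal.ofReal 1 + ENNReal.ofReal ε := by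
      rw [← ENNReal.ofReal_add (by linarith) (by linarith)]
      calc ENNReal.ofReal 1 + Q ≤ ENNReal.ofReal (gM (μ (t - 1)) y 1) + Q := by gcongr
        _ ≤ _ := H
        _ ≤ _ := ENNReal.ofReal_le_ofReal e4
    exact (ENNReal.add_le_add_iff_left ENNReal.ofReal_ne_top).1 h1
  have hs : ∀ s ∈ J ∩ Icc (-4 : ℝ) (-3), ENNReal.ofReal (FF M B y t s) ≤ ENNReal.ofReal C * ∫⁻ x,
      ENNReal.ofReal (‖relV (M s) y (t - s) x‖ ^ 2 * gk (t - s) (x - y)) ∂(area (M s)) := by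
    intro s hs
    rw [FF, ofReal_integral_eq_lintegral_ofReal (hi s hs)
      (Eventually.of_forall fun x => mul_nonneg (psi_nonneg _ _) (sq_nonneg _)),
      ← lintegral_const_mul' _ _ ENNReal.ofReal_ne_top]
    refine lintegral_mono fun x => ?_
    rw [← ENNReal.ofReal_mul hC0.le]
    apply ENNReal.ofReal_le_ofReal
    have := hCk (t - s) x y (by linarith [hs.2.2, ht.1]) (by linarith [hs.2.1, ht.2]) hy
    nlinarith [sq_nonneg ‖relV (M s) y (t - s) x‖]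
  calc ∫⁻ s in J ∩ Icc (-4 : ℝ) (-3), ENNReal.ofReal (FF M B y t s)
      ≤ ∫⁻ s in J ∩ Icc (-4 : ℝ) (-3), ENNReal.ofReal C * ∫⁻ x,
          ENNReal.ofReal (‖relV (M s) y (t - s) x‖ ^ 2 * gk (t - s) (x - y)) ∂(area (M s)) :=
        setLIntegral_mono' (hM.isOpen.measurableSet.inter measurableSet_Icc) hs
    _ ≤ ENNReal.ofReal C * Q := by
        rw [lintegral_const_mul' _ _ ENNReal.ofReal_ne_top]
        gcongr
        exact lintegral_mono_set fun s hs =>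
          ⟨by linarith [hs.2.1, ht.2], by linarith [hs.2.2, ht.1]⟩
    _ ≤ ENNReal.ofReal C * ENNReal.ofReal ε := by gcongr
    _ = _ := by rw [← ENNReal.ofReal_mul hC0.le]

theorem mass_lower (D : ℝ) :
    ∃ R : ℝ, 0 < R ∧ ∀ (μ : ℝ → Measure E3) (M : ℝ → Set E3) (J I : Set ℝ), WF D μ M J I →
      OneF μ M I → Icc (-10 : ℝ) 0 ⊆ I → (0 : E3) ∈ M 0 → ∀ s ∈ J ∩ Icc (-4 : ℝ) (-3),
      ∀ ζ : E3 → ℝ, Integrable ζ (area (M s)) → (∀ x, 0 ≤ ζ x) → (∀ x, ‖x‖ ≤ R → ζ x = 1) →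
      1 ≤ ∫ x, ζ x ∂(area (M s)) := by
  obtain ⟨C₀, -, hG⟩ := gauss_proof
  obtain ⟨g1, g2⟩ := hG (max D 0) (le_max_right _ _)
  obtain ⟨ρ, hρ, g2⟩ := g2 (1 / 4) (by norm_num)
  refine ⟨2 * ρ, by positivity, fun μ M J I hW hO hI h0 s hs' ζ hζ z0 z1 => ?_⟩
  have hs := hs'.2
  have hA' := (ratio_J hW hs'.1).mono (le_max_left D 0)
  set r := √(0 - s) with hr
  have hr2 : r ^ 2 = 0 - s := Real.sq_sqrt (by linarith [hs.2])
  have hr0 : 0 < r := Real.sqrt_pos.2 (by linarith [hs.2])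
  have hr1 : r ≤ 2 := by nlinarith [hs.1]
  have h1 : 3 / 4 ≤ gA (M s) 0 r := by
    have h2 := hO 0 (hI ⟨by norm_num, le_rfl⟩) 0 h0 r hr0
      fun u hu => hI ⟨by linarith [hu.1, hs.1], hu.2⟩
    rw [densM, hr2, sub_sub_cancel, hW.eq s hs'.1, gM_area] at h2
    linarith
  have i1 := (g1 (M s) hA' 0 (r ^ 2) (by positivity)).1
  have h3 := integral_add_compl (s := ball (0 : E3) (ρ * r)) measurableSet_ball i1
  have h4 := g2 (M s) hA' 0 r hr0
  have h5 : ∫ x in ball (0 : E3) (ρ * r), gk (r ^ 2) (x - 0) ∂(area (M s)) ≤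
      ∫ x in ball (0 : E3) (ρ * r), ζ x / 2 ∂(area (M s)) := by
    refine setIntegral_mono_on i1.integrableOn (hζ.div_const 2).integrableOn measurableSet_ball
      fun x hx => ?_
    rw [z1 x (by have := mem_ball_zero_iff.1 hx; nlinarith)]
    refine (gk_le (by positivity) _).trans ?_
    rw [one_div]
    refine inv_anti₀ (by norm_num) ?_
    nlinarith [Real.two_le_pi, hs.2]
  have h6 : ∫ x in ball (0 : E3) (ρ * r), ζ x / 2 ∂(area (M s)) ≤ ∫ x, ζ x / 2 ∂(area (M s)) :=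
    setIntegral_le_integral (hζ.div_const 2)
      (Eventually.of_forall fun x => div_nonneg (z0 x) (by norm_num))
  have h7 : ∫ x, ζ x / 2 ∂(area (M s)) = (∫ x, ζ x ∂(area (M s))) / 2 := integral_div _ _
  rw [gA] at h1
  linarith

/-- a good time -/
theorem exists_time (h : WF D μ M J I) (hI : Icc (-10 : ℝ) 0 ⊆ I) {F : ℝ → ℝ} {c : ℝ} (hc : 0 ≤ c)
    (hF : ContinuousOn F (J ∩ Icc (-4) (-3)))
    (hb : ∫⁻ s in J ∩ Icc (-4 : ℝ) (-3), ENNReal.ofReal (F s) ≤ ENNReal.ofReal c) :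
    ∃ s ∈ J ∩ Icc (-4 : ℝ) (-3), F s ≤ c := by
  have hm : MeasurableSet (J ∩ Icc (-4 : ℝ) (-3)) :=
    h.mcf.isOpen.measurableSet.inter measurableSet_Icc
  have h1 : (J ∩ Icc (-4 : ℝ) (-3) : Set ℝ) =ᵐ[volume] Icc (-4 : ℝ) (-3) := by
    filter_upwards [h.ae] with s hs
    refine propext ⟨fun h => h.2, fun h => ⟨hs (hI ⟨by linarith [h.1], by linarith [h.2]⟩), h⟩⟩
  have : IsProbabilityMeasure (volume.restrict (J ∩ Icc (-4 : ℝ) (-3))) :=
    ⟨by rw [Measure.restrict_apply_univ, measure_congr h1, Real.volume_Icc]; norm_num⟩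
  obtain ⟨s, hs, hle⟩ := exists_notMem_null_le_lintegral
    (μ := volume.restrict (J ∩ Icc (-4 : ℝ) (-3))) (f := fun s => ENNReal.ofReal (F s))
    (N := (J ∩ Icc (-4 : ℝ) (-3))ᶜ) (hF.aemeasurable hm).ennreal_ofReal
    (by rw [Measure.restrict_apply hm.compl]; simp)
  exact ⟨s, not_not.1 hs, (ENNReal.ofReal_le_ofReal_iff hc).1 (hle.trans hb)⟩

theorem lintegral_add_le {S : Set ℝ} (hS : MeasurableSet S) {F G : ℝ → ℝ} {a b : ℝ} (ha : 0 ≤ a)
    (hb : 0 ≤ b) (hF : ContinuousOn F S)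
    (h1 : ∫⁻ s in S, ENNReal.ofReal (F s) ≤ ENNReal.ofReal a)
    (h2 : ∫⁻ s in S, ENNReal.ofReal (G s) ≤ ENNReal.ofReal b) :
    ∫⁻ s in S, ENNReal.ofReal ((F + G) s) ≤ ENNReal.ofReal (a + b) := by
  calc ∫⁻ s in S, ENNReal.ofReal ((F + G) s)
      ≤ ∫⁻ s in S, (ENNReal.ofReal (F s) + ENNReal.ofReal (G s)) :=
        lintegral_mono fun s => ENNReal.ofReal_add_le
    _ = _ := lintegral_add_left' (hF.aemeasurable hS).ennreal_ofReal _
    _ ≤ _ := by rw [ENNReal.ofReal_add ha hb]; gcongr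

/-- **The height estimate** for weak flows -/
theorem height (D c τ : ℝ) (hc : 0 < c) (hτ : 0 < τ) : ∃ ε : ℝ, 0 < ε ∧
    ∀ (μ : ℝ → Measure E3) (M : ℝ → Set E3) (J I : Set ℝ), WF D μ M J I → HuF μ M I → OneF μ M I →
      Icc (-10 : ℝ) 0 ⊆ I →
      (∀ y ∈ ball (0 : E3) 4, ∀ t ∈ Icc (-1 : ℝ) 0, densM μ y t 3 ≤ 1 + ε) → (0 : E3) ∈ M 0 →
      HeightOK M c τ := by
  obtain ⟨R, hR, hmass⟩ := WL.mass_lower D
  obtain ⟨ζ, K, hK, hζ, z0, z1, z2, z3, z4⟩ := exists_cut hR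
  obtain ⟨C₁, hC₁, hcen⟩ := WL.centre (B := 2 * R + 1) (by positivity)
  set L := 4 * ((2 * R) ^ 2 + 8 * (K * (2 * R) + 1)) + 32 * (2 * R) with hL
  have hL0 : 0 < L := by positivity
  set P := (2 * R + 1) * (max D 0 * (2 * R + 1) ^ 2) with hP
  have hP0 : 0 ≤ P := by positivity
  set α := τ ^ 2 / 2 / (L * (P + 1)) with hα
  have hα0 : 0 < α := by positivity
  set C₃ := 512 + 32 * (256 / c ^ 2) + L * (256 / c ^ 2 + 1) / α with hC₃
  have hC₃0 : 0 < C₃ := by positivity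
  refine ⟨τ ^ 2 / 2 / (C₃ * (4 * C₁)), by positivity, ?_⟩
  set ε := τ ^ 2 / 2 / (C₃ * (4 * C₁)) with hε
  have hε0 : 0 < ε := by positivity
  have hε2 : C₃ * (4 * C₁ * ε) ≤ τ ^ 2 / 2 := by
    rw [hε]; apply le_of_eq; field_simp
  have hα2 : L * α * P ≤ τ ^ 2 / 2 := by
    have : L * α * (P + 1) = τ ^ 2 / 2 := by rw [hα]; field_simp
    nlinarith [mul_pos hL0 hα0]
  intro μ M J I hW hH hO hI hd h0 y₁ y₂ e h1 h2 n1 n2 he hn t ht y hy hy4
  have hM := hW.mcf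
  have t0 : (0 : ℝ) ∈ Icc (-1 : ℝ) 0 := ⟨by norm_num, le_rfl⟩
  have hy4' : ‖y‖ ≤ 4 := (mem_ball_zero_iff.1 hy4).le
  obtain ⟨a0, b0, c0⟩ := hcen D μ M J I hW hH hO hI 0 0 ε hε0 (by simp) t0 h0
    (hd 0 (mem_ball_self (by norm_num)) 0 t0)
  obtain ⟨a1, b1, c1⟩ := hcen D μ M J I hW hH hO hI y₁ 0 ε hε0 (by linarith) t0 h1
    (hd y₁ (mem_ball_zero_iff.2 (by linarith)) 0 t0)
  obtain ⟨a2, b2, c2⟩ := hcen D μ M J I hW hH hO hI y₂ 0 ε hε0 (by linarith) t0 h2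
    (hd y₂ (mem_ball_zero_iff.2 (by linarith)) 0 t0)
  obtain ⟨a3, b3, c3⟩ := hcen D μ M J I hW hH hO hI y t ε hε0 hy4' ht hy (hd y hy4 t ht)
  have hm : MeasurableSet (J ∩ Icc (-4 : ℝ) (-3)) := hM.isOpen.measurableSet.inter measurableSet_Icc
  have hp : 0 ≤ C₁ * ε := by positivity
  obtain ⟨s, hs, hmin⟩ := exists_time hW hI (by positivity) (((a0.add a1).add a2).add a3)
    (lintegral_add_le hm (by positivity) hp ((a0.add a1).add a2)
      (lintegral_add_le hm (by positivity) hp (a0.add a1) (lintegral_add_le hm hp hp a0 c0 c1) c2) c3)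
  simp only [Pi.add_apply] at hmin
  have hsI : s ∈ J := hs.1
  have hA := ratio_J hW hsI
  have hN := isSurf hM hsI
  obtain ⟨k1, k2⟩ := contOn_both hM
  have k1' : ContinuousOn (fun x => pt (nu (M s) x)) (M s) :=
    k1.comp (f := fun x : E3 => (s, x)) (by fun_prop) fun x hx => ⟨hsI, hx⟩
  have k2' : ContinuousOn (Hv (M s)) (M s) :=
    k2.comp (f := fun x : E3 => (s, x)) (by fun_prop) fun x hx => ⟨hsI, hx⟩
  obtain ⟨w1, w2⟩ := fv_zero fv_proof hN hA k1' k2' (g := fun x => ζ x * ⟪x, e⟫)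
    (hζ.mul (contDiff_id.inner ℝ contDiff_const)) (R := 2 * R)
    (fun x hx => by rw [z3 x hx, zero_mul]) e
  obtain ⟨p1, p2⟩ := integral_psi_le hA (B := 2 * R + 1) (by positivity)
  have iζ : Integrable ζ (area (M s)) :=
    integrable_of_contOn hN.1 hA hζ.continuous.continuousOn fun x hx => z3 x hx.le
  have m1 := hmass μ M J I hW hO hI h0 s hs ζ iζ z0 z2
  have i4 := (((b0 s hs).add (b1 s hs)).add (b2 s hs)).add (b3 s hs)
  have key := integral_mono_ae (iζ.const_mul (⟪y, e⟫ ^ 2))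
    (((w1.const_mul (-8 * (0 - s))).add (p1.const_mul (L * α))).add (i4.const_mul C₃))
    ((ae_restrict_mem hN.1.measurableSet).mono fun x hx =>
      pointwise hN hR hK hc hα0 hζ z0 z1 z3 z4 (σ₀ := 0 - s) (σ := t - s) (by linarith [hs.2.2])
        (by linarith [hs.2.1]) (by linarith [hs.2.2, ht.1]) (by linarith [ht.2]) he hy4' hn hx)
  simp only [Pi.add_apply] at key
  have i5 := i4.const_mul C₃
  simp only [Pi.add_apply] at i5
  rw [integral_add3 (w1.const_mul _) (p1.const_mul _) i5, integral_const_mul, integral_const_mul,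
    integral_const_mul, integral_const_mul, w2,
    integral_add4 (b0 s hs) (b1 s hs) (b2 s hs) (b3 s hs)] at key
  have q1 : L * α * ∫ x, psi (2 * R + 1) x ∂(area (M s)) ≤ L * α * P := by gcongr
  have q2 : C₃ * (FF M (2 * R + 1) 0 0 s + FF M (2 * R + 1) y₁ 0 s + FF M (2 * R + 1) y₂ 0 s +
      FF M (2 * R + 1) y t s) ≤ C₃ * (4 * C₁ * ε) :=
    mul_le_mul_of_nonneg_left (by linarith) hC₃0.le
  have q3 : ⟪y, e⟫ ^ 2 * 1 ≤ ⟪y, e⟫ ^ 2 * ∫ x, ζ x ∂(area (M s)) := by gcongr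
  simp only [FF] at q2
  exact abs_le_of_sq_le_sq (by linarith) hτ.le

end Vale.Agent.P218G.WL
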